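import Vale.Agent.P026.Eis1

noncomputable section
namespace QRH
open Complex MeasureTheory
open scoped ComplexConjugate Classical

theorem e2_fin {p x : E} (hp : Prime p) (hx : x ≠ 0) : FiniteMultiplicity p x :=
  FiniteMultiplicity.of_prime_left hp hx
theorem e2_box (n : ℕ) : {x : E | nm x ≤ n}.Finite := by
  refine (((Set.finite_Icc (-(2 * n : ℤ)) (2 * n)).prod
    (Set.finite_Icc (-(2 * n : ℤ)) (2 * n))).preimage
    (QuadraticAlgebra.equivProd (-1 : ℤ) (-1)).injective.injOn).subset fun x hx => ?_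
  have h1 := nm_int x
  have h2 : (nm x : ℤ) ≤ n := by exact_mod_cast hx
  have key : ∀ a : ℤ, 3 * a ^ 2 ≤ 4 * n → a ∈ Set.Icc (-(2 * n : ℤ)) (2 * n) := fun a ha => by
    constructor <;> nlinarith [sq_nonneg (a - 1), sq_nonneg (a + 1)]
  exact ⟨key x.re (by nlinarith [sq_nonneg (x.re - 2 * x.im)]),
    key x.im (by nlinarith [sq_nonneg (x.im - 2 * x.re)])⟩
theorem pow_vp_mul_up (p x : E) : p ^ vp p x * up p x = x := mul_dv (pow_multiplicity_dvd p x)
theorem not_dvd_up {p x : E} (hp : Prime p) (hx : x ≠ 0) : ¬ p ∣ up p x := fun h =>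
  (e2_fin hp hx).not_pow_dvd_of_multiplicity_lt (Nat.lt_succ_self _) (by
    have := mul_dvd_mul_left (p ^ vp p x) h
    rwa [pow_vp_mul_up, ← pow_succ] at this)
theorem up_ne_zero {p x : E} (hx : x ≠ 0) : up p x ≠ 0 := fun h =>
  hx (by rw [← pow_vp_mul_up p x, h, mul_zero])
theorem vp_up_eq {p u : E} (hp : Prime p) (hu : ¬ p ∣ u) (k : ℕ) :
    vp p (p ^ k * u) = k ∧ up p (p ^ k * u) = u := by
  have h : vp p (p ^ k * u) = k := multiplicity_eq_of_dvd_of_not_dvd (dvd_mul_right _ _) fun h =>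
    hu ((mul_dvd_mul_iff_left (pow_ne_zero k hp.ne_zero)).1 (by rwa [pow_succ] at h))
  exact ⟨h, by rw [up, h, dv_mul (pow_ne_zero k hp.ne_zero)]⟩
theorem vp_of_not_dvd {p x : E} (h : ¬ p ∣ x) : vp p x = 0 := multiplicity_eq_zero.2 h
theorem up_of_not_dvd {p x : E} (h : ¬ p ∣ x) : up p x = x := by
  have := pow_vp_mul_up p x
  rwa [vp_of_not_dvd h, pow_zero, one_mul] at this
theorem pow_dvd_iff {p x : E} (hp : Prime p) (hx : x ≠ 0) (k : ℕ) : p ^ k ∣ x ↔ k ≤ vp p x := (e2_fin hp hx).pow_dvd_iff_le_multiplicity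
theorem dvd_iff_vp {p x : E} (hp : Prime p) (hx : x ≠ 0) : p ∣ x ↔ vp p x ≠ 0 := multiplicity_ne_zero.symm
theorem e2_mul {p x y : E} (hp : Prime p) (hx : x ≠ 0) (hy : y ≠ 0) :
    vp p (x * y) = vp p x + vp p y ∧ up p (x * y) = up p x * up p y := by
  have h := vp_up_eq hp (hp.not_dvd_mul (not_dvd_up hp hx) (not_dvd_up hp hy)) (vp p x + vp p y)
  rwa [pow_add, mul_mul_mul_comm, pow_vp_mul_up, pow_vp_mul_up] at h
theorem e2_pow {p x : E} (hp : Prime p) (hx : x ≠ 0) (k : ℕ) :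
    vp p (x ^ k) = k * vp p x ∧ up p (x ^ k) = up p x ^ k := by
  have h := vp_up_eq (u := up p x ^ k) hp (fun h => not_dvd_up hp hx (hp.dvd_of_dvd_pow h))
    (k * vp p x)
  rwa [pow_mul', ← mul_pow, pow_vp_mul_up] at h
theorem e2_neg {p x : E} (hp : Prime p) (hx : x ≠ 0) :
    vp p (-x) = vp p x ∧ up p (-x) = -up p x := by
  have h := vp_up_eq (u := -up p x) hp (fun h => not_dvd_up hp hx (dvd_neg.1 h)) (vp p x)
  rwa [mul_neg, pow_vp_mul_up] at h
theorem vp_mul {p x y : E} (hp : Prime p) (hx : x ≠ 0) (hy : y ≠ 0) :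
    vp p (x * y) = vp p x + vp p y := (e2_mul hp hx hy).1
theorem up_mul {p x y : E} (hp : Prime p) (hx : x ≠ 0) (hy : y ≠ 0) :
    up p (x * y) = up p x * up p y := (e2_mul hp hx hy).2
theorem vp_pow {p x : E} (hp : Prime p) (hx : x ≠ 0) (k : ℕ) : vp p (x ^ k) = k * vp p x := (e2_pow hp hx k).1
theorem up_pow {p x : E} (hp : Prime p) (hx : x ≠ 0) (k : ℕ) : up p (x ^ k) = up p x ^ k := (e2_pow hp hx k).2
theorem vp_neg {p x : E} (hp : Prime p) (hx : x ≠ 0) : vp p (-x) = vp p x := (e2_neg hp hx).1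
theorem up_neg {p x : E} (hp : Prime p) (hx : x ≠ 0) : up p (-x) = -up p x := (e2_neg hp hx).2
/-- Close elements have the same valuation and congruent unit parts. -/
theorem vp_up_congr {p x y : E} (hp : Prime p) (hx : x ≠ 0) (k : ℕ)
    (h : p ^ (vp p x + (k + 1)) ∣ y - x) :
    y ≠ 0 ∧ vp p y = vp p x ∧ p ^ (k + 1) ∣ up p y - up p x := by
  obtain ⟨t, ht⟩ := h
  have h1 : ¬ p ∣ up p x + p ^ (k + 1) * t := fun h =>
    not_dvd_up hp hx ((dvd_add_left ((dvd_pow_self p (by omega)).mul_right t)).1 h)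
  have h2 : y = p ^ vp p x * (up p x + p ^ (k + 1) * t) := by
    rw [mul_add, pow_vp_mul_up, ← mul_assoc, ← pow_add, ← ht]; ring
  have h3 := vp_up_eq hp h1 (vp p x)
  rw [← h2] at h3
  refine ⟨?_, h3.1, ⟨t, by rw [h3.2]; ring⟩⟩
  rw [h2]
  exact mul_ne_zero (pow_ne_zero _ hp.ne_zero) fun h => h1 (h ▸ dvd_zero _)
theorem pow_vp_le_nm {p x : E} (hx : x ≠ 0) : nm p ^ vp p x ≤ nm x := by
  rw [← nm_pow]; exact nm_le_of_dvd (pow_multiplicity_dvd p x) hx

theorem mem_fac {c : E} (hc : c ≠ 0) {p : P} : p ∈ fac c ↔ p.1 ∣ c := by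
  have h : {p : P | p.1 ∣ c}.Finite :=
    ((e2_box (nm c)).preimage Subtype.val_injective.injOn).subset fun p hp => nm_le_of_dvd hp hc
  rw [fac, dif_pos h]; simp
theorem fac_mul {a b : E} (ha : a ≠ 0) (hb : b ≠ 0) : fac (a * b) = fac a ∪ fac b := by
  ext p
  rw [Finset.mem_union, mem_fac ha, mem_fac hb, mem_fac (mul_ne_zero ha hb), p.2.1.dvd_mul]
theorem fac_pow {a : E} (ha : a ≠ 0) {k : ℕ} (hk : k ≠ 0) : fac (a ^ k) = fac a := by
  ext p
  rw [mem_fac ha, mem_fac (pow_ne_zero _ ha), p.2.1.dvd_pow_iff_dvd hk]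
theorem fac_unit {u : E} (hu : IsUnit u) : fac u = ∅ := by
  ext p
  simp [mem_fac hu.ne_zero, p.not_dvd_unit hu]
theorem fac_lam : fac lam = ∅ := by
  ext p
  simp [mem_fac lam_prime.ne_zero, p.not_dvd_lam]
theorem fac_mono {a b : E} (hb : b ≠ 0) (h : a ∣ b) : fac a ⊆ fac b := fun p hp =>
  (mem_fac hb).2 (((mem_fac (ne_zero_of_dvd_ne_zero hb h)).1 hp).trans h)
theorem e2_vp_up_lam {c : E} (hc : c ≠ 0) (p : P) : vp p.1 (up lam c) = vp p.1 c := by
  conv_rhs => rw [← pow_vp_mul_up lam c]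
  rw [vp_mul p.2.1 (pow_ne_zero _ lam_prime.ne_zero) (up_ne_zero hc),
    vp_of_not_dvd fun h => p.not_dvd_lam (p.2.1.dvd_of_dvd_pow h), zero_add]
theorem e2_prim (s : Finset P) (k : P → ℕ) : (3 : E) ∣ ∏ p ∈ s, p.1 ^ k p - 1 := by
  induction s using Finset.induction_on with
  | empty => simp
  | insert a s ha ih => rw [Finset.prod_insert ha]; exact primary_mul (primary_pow a.2.2 _) ih
theorem e2_vp_prod (s : Finset P) (k : P → ℕ) (q : P) :
    vp q.1 (∏ p ∈ s, p.1 ^ k p) = if q ∈ s then k q else 0 := by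
  have key : ∀ t : Finset P, q ∉ t → ¬ q.1 ∣ ∏ p ∈ t, p.1 ^ k p := fun t ht h => by
    obtain ⟨p, hp, h1⟩ := (q.2.1.dvd_finsetProd_iff _).1 h
    exact ht ((P.dvd_iff q p).1 (q.2.1.dvd_of_dvd_pow h1) ▸ hp)
  split_ifs with h
  · rw [← Finset.mul_prod_erase _ _ h]
    exact (vp_up_eq q.2.1 (key _ (Finset.notMem_erase q s)) _).1
  · exact vp_of_not_dvd (key s h)
theorem e2_prod_dvd {s : Finset P} {k : P → ℕ} {x : E} (h : ∀ p ∈ s, p.1 ^ k p ∣ x) :
    ∏ p ∈ s, p.1 ^ k p ∣ x :=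
  Finset.prod_dvd_of_coprime (fun _ _ _ _ hpq => (P.coprime hpq).pow) h
theorem e2_lam_prod_dvd {s : Finset P} {k : P → ℕ} {j : ℕ} {x : E} (h0 : lam ^ j ∣ x)
    (h : ∀ p ∈ s, p.1 ^ k p ∣ x) : lam ^ j * ∏ p ∈ s, p.1 ^ k p ∣ x :=
  IsCoprime.mul_dvd ((isCoprime_prime lam_prime).2
    (not_lam_dvd_of_primary (e2_prim s k))).symm.pow_left h0 (e2_prod_dvd h)
theorem fac_up_lam {c : E} (hc : c ≠ 0) : fac (up lam c) = fac c := by
  ext p
  rw [mem_fac hc, mem_fac (up_ne_zero hc), dvd_iff_vp p.2.1 hc, dvd_iff_vp p.2.1 (up_ne_zero hc),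
    e2_vp_up_lam hc]
theorem vp_up_lam {c : E} (hc : c ≠ 0) (p : P) : vp p.1 (up lam c) = vp p.1 c := e2_vp_up_lam hc p
theorem exists_factor {x : E} (hx : x ≠ 0) :
    ∃ u, IsUnit u ∧ x = u * lam ^ vp lam x * ∏ p ∈ fac x, p.1 ^ vp p.1 x := by
  obtain ⟨u, hu⟩ := e2_lam_prod_dvd (s := fac x) (k := fun p => vp p.1 x) (j := vp lam x) (x := x)
    (pow_multiplicity_dvd _ _) fun p _ => pow_multiplicity_dvd _ _
  have hu0 : u ≠ 0 := fun h => hx (by rw [hu, h, mul_zero])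
  have h1 := primary_ne_zero (e2_prim (fac x) fun p => vp p.1 x)
  have h2 := pow_ne_zero (vp lam x) lam_prime.ne_zero
  refine ⟨u, ?_, by linear_combination hu⟩
  by_contra hn
  obtain ⟨q, hq, h3⟩ := WfDvdMonoid.exists_irreducible_factor hn hu0
  rcases prime_cases hq.prime with h4 | ⟨p, h4⟩
  · have h5 := (dvd_iff_vp lam_prime hu0).1 (h4.dvd_iff_dvd_left.1 h3)
    have h6 := congrArg (vp lam) hu
    rw [vp_mul lam_prime (mul_ne_zero h2 h1) hu0,
      (vp_up_eq lam_prime (not_lam_dvd_of_primary (e2_prim _ _)) _).1] at h6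
    omega
  · have h5 := h4.dvd_iff_dvd_left.1 h3
    have h7 : p ∈ fac x := (mem_fac hx).2 (h5.trans (Dvd.intro_left _ hu.symm))
    have h6 := congrArg (vp p.1) hu
    rw [vp_mul p.2.1 (mul_ne_zero h2 h1) hu0, vp_mul p.2.1 h2 h1, e2_vp_prod, if_pos h7] at h6
    have := (dvd_iff_vp p.2.1 hu0).1 h5
    omega
theorem primary_factor {x : E} (hx : (3 : E) ∣ x - 1) : x = ∏ p ∈ fac x, p.1 ^ vp p.1 x := by
  obtain ⟨u, hu, h⟩ := exists_factor (primary_ne_zero hx)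
  rw [vp_of_not_dvd (not_lam_dvd_of_primary hx), pow_zero, mul_one] at h
  refine primary_unique hx (e2_prim _ _) ?_
  conv_lhs => rw [h]
  exact associated_unit_mul_left _ _ hu
theorem nm_up_lam {c : E} (hc : c ≠ 0) : nm (up lam c) = ∏ p ∈ fac c, nm p.1 ^ vp p.1 c := by
  obtain ⟨u, hu, h⟩ := exists_factor (up_ne_zero (p := lam) hc)
  rw [vp_of_not_dvd (not_dvd_up lam_prime hc), pow_zero, mul_one, fac_up_lam hc] at h
  rw [h, nm_mul, isUnit_iff.1 hu, one_mul, nm_prod]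
  exact Finset.prod_congr rfl fun p _ => by rw [nm_pow, vp_up_lam hc]
theorem primary_prod_pow (s : Finset P) (k : P → ℕ) : (3 : E) ∣ ∏ p ∈ s, p.1 ^ k p - 1 := e2_prim s k
theorem vp_prod_pow (s : Finset P) (k : P → ℕ) (q : P) :
    vp q.1 (∏ p ∈ s, p.1 ^ k p) = if q ∈ s then k q else 0 := e2_vp_prod s k q
theorem dvd_iff_forall {a x : E} (ha : a ≠ 0) :
    a ∣ x ↔ lam ^ vp lam a ∣ x ∧ ∀ p ∈ fac a, p.1 ^ vp p.1 a ∣ x := by
  refine ⟨fun h => ⟨(pow_multiplicity_dvd _ _).trans h,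
    fun p _ => (pow_multiplicity_dvd _ _).trans h⟩, fun h => ?_⟩
  obtain ⟨u, hu, h1⟩ := exists_factor ha
  rw [h1, mul_assoc, hu.mul_left_dvd]
  exact e2_lam_prod_dvd h.1 h.2
theorem primary_ext {x y : E} (hx : (3 : E) ∣ x - 1) (hy : (3 : E) ∣ y - 1)
    (h : ∀ p : P, vp p.1 x = vp p.1 y) : x = y := by
  have h1 : fac x = fac y := by
    ext p
    rw [mem_fac (primary_ne_zero hx), mem_fac (primary_ne_zero hy),
      dvd_iff_vp p.2.1 (primary_ne_zero hx), dvd_iff_vp p.2.1 (primary_ne_zero hy), h]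
  calc x = ∏ p ∈ fac x, p.1 ^ vp p.1 x := primary_factor hx
    _ = ∏ p ∈ fac y, p.1 ^ vp p.1 y := by rw [h1]; simp only [h]
    _ = y := (primary_factor hy).symm
theorem e2_ind {M : E → Prop} {a : E} (ha : M a) (s : Finset P) (k : P → ℕ)
    (hp : ∀ (p : P) (j : ℕ) (t : Finset P), M (p.1 ^ j * (∏ p ∈ t, p.1 ^ k p) * a) →
      M (p.1 * (p.1 ^ j * (∏ p ∈ t, p.1 ^ k p) * a))) : M ((∏ p ∈ s, p.1 ^ k p) * a) := by
  induction s using Finset.induction_on with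
  | empty => simpa using ha
  | insert q s hq ih =>
    rw [Finset.prod_insert hq]
    induction k q with
    | zero => simpa using ih
    | succ j ih' =>
      have := hp q j s ih'
      rwa [← mul_assoc, ← mul_assoc, ← pow_succ'] at this
/-- Induction over nonzero elements. -/
theorem induction_nz {M : E → Prop} (hu : ∀ u, IsUnit u → M u)
    (hl : ∀ x, x ≠ 0 → M x → M (lam * x)) (hp : ∀ (p : P) x, x ≠ 0 → M x → M (p.1 * x))
    {x : E} (hx : x ≠ 0) : M x := by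
  obtain ⟨u, h1, h2⟩ := exists_factor hx
  have h3 : ∀ j, M (lam ^ j * u) := fun j => by
    induction j with
    | zero => simpa using hu u h1
    | succ j ih =>
      rw [pow_succ', mul_assoc]
      exact hl _ (mul_ne_zero (pow_ne_zero _ lam_prime.ne_zero) h1.ne_zero) ih
  have := e2_ind (h3 (vp lam x)) (fac x) (fun p => vp p.1 x) fun p j t h =>
    hp p _ (mul_ne_zero (mul_ne_zero (pow_ne_zero _ p.ne_zero) (primary_ne_zero (e2_prim _ _)))
      (mul_ne_zero (pow_ne_zero _ lam_prime.ne_zero) h1.ne_zero)) h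
  rwa [mul_comm, mul_comm _ u, ← h2] at this
/-- Induction over primary elements. -/
theorem induction_primary {M : E → Prop} (h1 : M 1)
    (hp : ∀ (p : P) x, (3 : E) ∣ x - 1 → M x → M (p.1 * x)) {x : E} (hx : (3 : E) ∣ x - 1) :
    M x := by
  have := e2_ind h1 (fac x) (fun p => vp p.1 x) fun p j t h =>
    hp p _ (by rw [mul_one]; exact primary_mul (primary_pow p.2.2 _) (e2_prim _ _)) h
  rwa [mul_one, ← primary_factor hx] at this

theorem e2_pr (s : Finset P) : pr s = ∏ p ∈ s, p.1 ^ 1 := by simp [pr]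
theorem pr_empty : pr ∅ = 1 := by simp [pr]
theorem pr_singleton (p : P) : pr {p} = p.1 := by simp [pr]
theorem pr_insert {p : P} {s : Finset P} (h : p ∉ s) : pr (insert p s) = p.1 * pr s := Finset.prod_insert h
theorem pr_union {s t : Finset P} (h : Disjoint s t) : pr (s ∪ t) = pr s * pr t := Finset.prod_union h
theorem pr_primary (s : Finset P) : (3 : E) ∣ pr s - 1 := e2_pr s ▸ e2_prim s fun _ => 1
theorem pr_ne_zero (s : Finset P) : pr s ≠ 0 := primary_ne_zero (pr_primary s)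
theorem dvd_pr_iff {p : P} {s : Finset P} : p.1 ∣ pr s ↔ p ∈ s := by
  rw [dvd_iff_vp p.2.1 (pr_ne_zero s), e2_pr, e2_vp_prod s fun _ => 1]
  simp
theorem fac_pr (s : Finset P) : fac (pr s) = s := by
  ext p; rw [mem_fac (pr_ne_zero s), dvd_pr_iff]
theorem pr_inj : Function.Injective pr := fun s t h => by rw [← fac_pr s, h, fac_pr]
theorem pr_dvd_iff {s : Finset P} {x : E} : pr s ∣ x ↔ ∀ p ∈ s, p.1 ∣ x := ⟨fun h _ hp => (dvd_pr_iff.2 hp).trans h, fun h => by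
  rw [e2_pr]; exact e2_prod_dvd (k := fun _ => 1) fun p hp => by simpa using h p hp⟩
theorem pr_dvd_pr {s t : Finset P} : pr s ∣ pr t ↔ s ⊆ t := by
  simp only [pr_dvd_iff, dvd_pr_iff]; rfl
theorem pr_fac_dvd {x : E} (hx : x ≠ 0) : pr (fac x) ∣ x := pr_dvd_iff.2 fun _ hp => (mem_fac hx).1 hp
theorem vp_pr (p : P) (s : Finset P) : vp p.1 (pr s) = if p ∈ s then 1 else 0 := by
  rw [e2_pr, e2_vp_prod s fun _ => 1]
theorem up_pr {p : P} {s : Finset P} (h : p ∈ s) : up p.1 (pr s) = pr (s.erase p) := by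
  have := (vp_up_eq p.2.1 (u := pr (s.erase p))
    (fun h => Finset.notMem_erase p s (dvd_pr_iff.1 h)) 1).2
  rwa [pow_one, ← pr_insert (Finset.notMem_erase p s), Finset.insert_erase h] at this
theorem coprime_pr_iff {s : Finset P} {x : E} : IsCoprime x (pr s) ↔ ∀ p ∈ s, ¬ p.1 ∣ x := by
  rw [pr, IsCoprime.prod_right_iff]
  exact forall₂_congr fun p _ => isCoprime_prime p.2.1
theorem coprime_pr {s t : Finset P} : IsCoprime (pr s) (pr t) ↔ Disjoint s t := by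
  simp only [coprime_pr_iff, dvd_pr_iff, Finset.disjoint_right]
theorem odd_iff {s : Finset P} : Odd' s ↔ pTwo ∉ s := ⟨fun h hs => h _ hs ((P.dvd_two_iff _).2 rfl),
  fun h p hp h1 => h ((P.dvd_two_iff p).1 h1 ▸ hp)⟩
theorem odd_iff_coprime {s : Finset P} : Odd' s ↔ IsCoprime (2 : E) (pr s) := coprime_pr_iff.symm
theorem eq_pr_of_vp_le {x : E} (hx : (3 : E) ∣ x - 1) (h : ∀ p : P, vp p.1 x ≤ 1) :
    x = pr (fac x) := by
  refine primary_ext hx (pr_primary _) fun p => ?_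
  have h1 := h p
  have h2 := dvd_iff_vp p.2.1 (primary_ne_zero hx)
  simp only [vp_pr, mem_fac (primary_ne_zero hx), h2]
  split_ifs <;> omega

theorem Ns_eq_prod (s : Finset P) : Ns s = ∏ p ∈ s, (nm p.1 : ℝ) := by
  simp [Ns, pr, nm_prod]
theorem Ns_eq (s : Finset P) : Ns s = ‖toC (pr s)‖ ^ 2 := nm_eq _
theorem Ns_empty : Ns ∅ = 1 := by simp [Ns_eq_prod]
theorem one_le_Ns (s : Finset P) : 1 ≤ Ns s := one_le_nmR (pr_ne_zero s)
theorem Ns_pos (s : Finset P) : 0 < Ns s := zero_lt_one.trans_le (one_le_Ns s)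
theorem Ns_union {s t : Finset P} (h : Disjoint s t) : Ns (s ∪ t) = Ns s * Ns t := by
  simp [Ns, pr_union h, nm_mul]
theorem e2_Ns_le {s : Finset P} {x : E} (hx : x ≠ 0) (h : pr s ∣ x) : Ns s ≤ nm x := by
  rw [Ns]; exact_mod_cast nm_le_of_dvd h hx
theorem Ns_union_le (s t : Finset P) : Ns (s ∪ t) ≤ Ns s * Ns t := by
  have := e2_Ns_le (s := s ∪ t) (mul_ne_zero (pr_ne_zero s) (pr_ne_zero t))
    (pr_dvd_iff.2 fun p hp => (Finset.mem_union.1 hp).elim
      (fun h => (dvd_pr_iff.2 h).mul_right _) fun h => (dvd_pr_iff.2 h).mul_left _)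
  rwa [nm_mul, Nat.cast_mul] at this
theorem Ns_mono {s t : Finset P} (h : s ⊆ t) : Ns s ≤ Ns t := e2_Ns_le (pr_ne_zero t) (pr_dvd_pr.2 h)
theorem Ns_fac_le {x : E} (hx : x ≠ 0) : Ns (fac x) ≤ nm x := e2_Ns_le hx (pr_fac_dvd hx)
theorem mem_ball {R : ℝ} {x : E} : x ∈ ball R ↔ x ≠ 0 ∧ (nm x : ℝ) ≤ R := by
  have h : {x : E | x ≠ 0 ∧ (nm x : ℝ) ≤ R}.Finite :=
    (e2_box ⌈R⌉₊).subset fun x hx => by
      have : (nm x : ℝ) ≤ ⌈R⌉₊ := hx.2.trans (Nat.le_ceil R)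
      exact_mod_cast this
  rw [ball, dif_pos h]; simp
theorem mem_sqf {R : ℝ} {s : Finset P} : s ∈ sqf R ↔ Ns s ≤ R := by
  have h : {s : Finset P | Ns s ≤ R}.Finite :=
    ((e2_box ⌈R⌉₊).preimage pr_inj.injOn).subset fun s hs => by
      have : (nm (pr s) : ℝ) ≤ ⌈R⌉₊ := le_trans hs (Nat.le_ceil R)
      exact_mod_cast this
  rw [sqf, dif_pos h]; simp
theorem ball_mono {R R' : ℝ} (h : R ≤ R') : ball R ⊆ ball R' := fun _ hx =>
  mem_ball.2 ⟨(mem_ball.1 hx).1, (mem_ball.1 hx).2.trans h⟩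
theorem sqf_mono {R R' : ℝ} (h : R ≤ R') : sqf R ⊆ sqf R' := fun _ hx => mem_sqf.2 ((mem_sqf.1 hx).trans h)
theorem ball_eq_empty {R : ℝ} (h : R < 1) : ball R = ∅ := Finset.eq_empty_of_forall_notMem fun _ hx =>
  absurd ((one_le_nmR (mem_ball.1 hx).1).trans (mem_ball.1 hx).2) h.not_ge
theorem sqf_eq_empty {R : ℝ} (h : R < 1) : sqf R = ∅ := Finset.eq_empty_of_forall_notMem fun s hx =>
  absurd ((one_le_Ns s).trans (mem_sqf.1 hx)) h.not_ge

theorem mu_empty : mu ∅ = 1 := by simp [mu]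
theorem mu_union {s t : Finset P} (h : Disjoint s t) : mu (s ∪ t) = mu s * mu t := by
  simp [mu, Finset.card_union_of_disjoint h, pow_add]
theorem norm_mu (s : Finset P) : ‖mu s‖ = 1 := by simp [mu]
theorem mu_sq (s : Finset P) : mu s * mu s = 1 := by simp [mu, ← mul_pow]
theorem conj_mu (s : Finset P) : conj (mu s) = mu s := by simp [mu]
theorem sum_mu (s : Finset P) : ∑ t ∈ s.powerset, mu t = if s = ∅ then 1 else 0 := by
  have := Finset.sum_powerset_neg_one_pow_card (x := s)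
  simp only [mu]
  exact_mod_cast this
theorem sum_mu_dvd (d : Finset P) (n : E) :
    ∑ f ∈ d.powerset, (if pr f ∣ n then mu f else 0) = if ∀ p ∈ d, ¬ p.1 ∣ n then 1 else 0 := by
  have h : d.powerset.filter (fun f => pr f ∣ n) = (d.filter fun p => p.1 ∣ n).powerset := by
    ext f
    simp only [Finset.mem_filter, Finset.mem_powerset, pr_dvd_iff, Finset.subset_iff]
    exact ⟨fun h p hp => ⟨h.1 hp, h.2 p hp⟩, fun h => ⟨fun p hp => (h hp).1, fun p hp => (h hp).2⟩⟩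
  rw [← Finset.sum_filter, h, sum_mu]
  simp only [Finset.filter_eq_empty_iff]

end QRH
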