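import Vale.Agent.P026.Rsum
import Vale.Agent.P026.Eis2

noncomputable section
namespace QRH
open Complex MeasureTheory
open scoped ComplexConjugate Classical

theorem pq_exists_inv {q u : E} (hq : Prime q) (hu : ¬ q ∣ u) (j : ℕ) :
    ∃ y, q ^ j ∣ u * y - 1 :=
  ⟨_, inv_spec ((isCoprime_prime hq).2 hu).pow_right⟩

theorem pq_pow_vp_dvd (q x : E) : q ^ vp q x ∣ x := ⟨up q x, (pow_vp_mul_up q x).symm⟩

theorem psq_eq {q B u y : E} (hq : Prime q) {j : ℕ} (hB : B = q ^ j * u) (hu : ¬ q ∣ u)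
    (hy : q ^ j ∣ u * y - 1) (A : E) : psq q A B = psf (A * y) (q ^ j) := by
  obtain ⟨h1, h2⟩ := vp_up_eq hq hu j
  have h3 : q ^ j ∣ u * inv (q ^ j) u - 1 := inv_spec ((isCoprime_prime hq).2 hu).pow_right
  rw [psq, hB, h1, h2]
  apply psf_congr
  have : A * inv (q ^ j) u - A * y
      = A * y * (u * inv (q ^ j) u - 1) - A * inv (q ^ j) u * (u * y - 1) := by ring
  rw [this]
  exact dvd_sub (h3.mul_left _) (hy.mul_left _)

theorem norm_psq (q A B : E) : ‖psq q A B‖ = 1 := norm_psf _ _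

theorem psq_add (q A A' B : E) : psq q (A + A') B = psq q A B * psq q A' B := by
  simp only [psq, add_mul, psf_add]

theorem psq_zero (q B : E) : psq q 0 B = 1 := by
  simp only [psq, zero_mul, psf_zero]

theorem psq_neg (q A B : E) : psq q (-A) B = conj (psq q A B) := by
  simp only [psq, neg_mul, psf_neg]

theorem psq_mul_conj (q A B : E) : psq q A B * conj (psq q A B) = 1 := by
  rw [← psq_neg, ← psq_add, add_neg_cancel, psq_zero]

theorem psq_of_dvd {q A B : E} (h : q ^ vp q B ∣ A) : psq q A B = 1 :=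
  psf_of_dvd (h.mul_right _)

theorem psq_of_not_dvd {q B : E} (h : ¬ q ∣ B) (A : E) : psq q A B = 1 := by
  apply psq_of_dvd
  rw [vp_of_not_dvd h, pow_zero]
  exact one_dvd _

theorem psq_congr {q A A' B : E} (h : q ^ vp q B ∣ A - A') : psq q A B = psq q A' B := by
  apply psf_congr
  rw [← sub_mul]
  exact h.mul_right _

theorem psq_scale {q t B : E} (hq : Prime q) (ht : t ≠ 0) (hB : B ≠ 0) (A : E) :
    psq q (t * A) (t * B) = psq q A B := by
  have h1 := not_dvd_up hq ht
  have h2 := not_dvd_up hq hB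
  have h3 : ¬ q ∣ up q t * up q B := fun h => (hq.dvd_or_dvd h).elim h1 h2
  obtain ⟨y, hy⟩ := pq_exists_inv hq h3 (vp q t + vp q B)
  have e1 : t * B = q ^ (vp q t + vp q B) * (up q t * up q B) := by
    conv_lhs => rw [← pow_vp_mul_up q t, ← pow_vp_mul_up q B]
    ring
  have hy' : q ^ vp q B ∣ up q B * (up q t * y) - 1 := by
    have : up q B * (up q t * y) - 1 = up q t * up q B * y - 1 := by ring
    rw [this]
    exact (pow_dvd_pow q (Nat.le_add_left _ _)).trans hy
  rw [psq_eq hq e1 h3 hy, psq_eq hq (pow_vp_mul_up q B).symm h2 hy', pow_add,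
    ← psf_scale (pow_ne_zero (vp q t) hq.ne_zero) (A * (up q t * y))]
  congr 1
  conv_lhs => rw [← pow_vp_mul_up q t]
  ring

theorem psq_neg_den {q B : E} (hq : Prime q) (hB : B ≠ 0) (A : E) :
    psq q A (-B) = conj (psq q A B) := by
  have := psq_scale hq (t := -1) (by norm_num) hB (-A)
  rw [← psq_neg, ← this]
  congr 1 <;> ring

theorem psq_frac {q B B' : E} (hq : Prime q) (hB : B ≠ 0) (hB' : B' ≠ 0) (A A' : E) :
    psq q (A * B' + A' * B) (B * B') = psq q A B * psq q A' B' := by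
  rw [psq_add, mul_comm A' B, psq_scale hq hB hB', mul_comm A B', mul_comm B B',
    psq_scale hq hB' hB]

/-- Two fractions whose difference is `q`-integral have the same `q`-component. -/
theorem psq_eq_of {q A A' B B' : E} (hq : Prime q) (hB : B ≠ 0) (hB' : B' ≠ 0)
    (h : q ^ (vp q B + vp q B') ∣ A * B' - A' * B) : psq q A B = psq q A' B' := by
  have h1 : psq q (A * B' + -A' * B) (B * B') = 1 := by
    apply psq_of_dvd
    rw [vp_mul hq hB hB', neg_mul, ← sub_eq_add_neg]
    exact h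
  rw [psq_frac hq hB hB', psq_neg] at h1
  calc psq q A B = psq q A B * (psq q A' B' * conj (psq q A' B')) := by
        rw [psq_mul_conj, mul_one]
    _ = psq q A B * conj (psq q A' B') * psq q A' B' := by ring
    _ = psq q A' B' := by rw [h1, one_mul]

theorem rsum_psq {q B : E} (hq : Prime q) (hB : B ≠ 0) (t : E) :
    rsum (q ^ vp q B) (fun x => psq q (x * t) B)
      = if q ^ vp q B ∣ t then (nm q : ℂ) ^ vp q B else 0 := by
  have h2 := not_dvd_up hq hB
  obtain ⟨y, hy⟩ := pq_exists_inv hq h2 (vp q B)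
  have e : (fun x => psq q (x * t) B) = fun x => psf (x * (t * y)) (q ^ vp q B) := by
    funext x
    rw [psq_eq hq (pow_vp_mul_up q B).symm h2 hy, mul_assoc]
  have hi : q ^ vp q B ∣ t * y ↔ q ^ vp q B ∣ t := by
    refine ⟨fun h => ?_, fun h => h.mul_right _⟩
    have : t = up q B * (t * y) - t * (up q B * y - 1) := by ring
    rw [this]
    exact dvd_sub (h.mul_left _) (hy.mul_left _)
  rw [e, rsum_psf (pow_ne_zero _ hq.ne_zero), nm_pow, Nat.cast_pow]
  simp only [hi]

theorem psf_eq_psq {q B : E} (hq : Prime q) {j : ℕ} (hB : Associated B (q ^ j)) (A : E) :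
    psf A B = psq q A B := by
  obtain ⟨w, hw⟩ := hB
  have e : B = q ^ j * (w⁻¹ : Eˣ) := by rw [← hw, mul_assoc, Units.mul_inv, mul_one]
  have hu : ¬ q ∣ ((w⁻¹ : Eˣ) : E) := fun h => hq.not_isUnit (isUnit_of_dvd_unit h (Units.isUnit _))
  have hy : q ^ j ∣ ((w⁻¹ : Eˣ) : E) * w - 1 := by
    rw [Units.inv_mul, sub_self]
    exact dvd_zero _
  rw [psq_eq hq e hu hy, ← hw, mul_comm A, mul_comm B, psf_scale w.ne_zero]

theorem psg_eq_prod {B : E} (hB : B ≠ 0) {S : Finset P} (hS : fac B ⊆ S) (A : E) :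
    psg A B = ∏ p ∈ S, psq p.1 A B :=
  Finset.prod_subset hS fun _ _ hp => psq_of_not_dvd (fun h => hp ((mem_fac hB).2 h)) A

theorem pq_crt {a b a' b' : E} (ha : a ≠ 0) (hb : b ≠ 0) (h : IsCoprime a b)
    (ha' : b ∣ a * a' - 1) (hb' : a ∣ b * b' - 1) (A : E) :
    psf A (a * b) = psf (A * b') a * psf (A * a') b := by
  rw [← psf_frac ha hb]
  apply psf_congr
  apply h.mul_dvd
  · have : A - (A * b' * b + A * a' * a) = -A * (b * b' - 1) - A * a' * a := by ring
    rw [this]
    exact dvd_sub (hb'.mul_left _) (dvd_mul_left _ _)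
  · have : A - (A * b' * b + A * a' * a) = -A * (a * a' - 1) - A * b' * b := by ring
    rw [this]
    exact dvd_sub (ha'.mul_left _) (dvd_mul_left _ _)

theorem pq_split {q a b b' : E} (hq : Prime q) (ha : a ≠ 0) (hb : ¬ q ∣ b)
    (hb' : a ∣ b * b' - 1) (A : E) : psq q (A * b') a = psq q A (a * b) := by
  have hb0 : b ≠ 0 := fun h => hb (h ▸ dvd_zero q)
  apply psq_eq_of hq ha (mul_ne_zero ha hb0)
  rw [vp_mul hq ha hb0, vp_of_not_dvd hb, add_zero, pow_add]
  have : A * b' * (a * b) - A * a = A * (a * (b * b' - 1)) := by ring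
  rw [this]
  exact (mul_dvd_mul (pq_pow_vp_dvd q a) ((pq_pow_vp_dvd q a).trans hb')).mul_left _

theorem pq_prod {u : E} (hu : IsUnit u) (m : ℕ) (k : P → ℕ) (s : Finset P) (A : E) :
    psf A (u * lam ^ m * ∏ p ∈ s, p.1 ^ k p)
      = psq lam A (u * lam ^ m * ∏ p ∈ s, p.1 ^ k p)
        * ∏ r ∈ s, psq r.1 A (u * lam ^ m * ∏ p ∈ s, p.1 ^ k p) := by
  induction s using Finset.induction_on generalizing A with
  | empty =>
    simp only [Finset.prod_empty, mul_one]
    exact psf_eq_psq lam_prime (j := m) (associated_unit_mul_left _ _ hu) A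
  | insert p s hp ih =>
    set a : E := u * lam ^ m * ∏ r ∈ s, r.1 ^ k r with ha
    have e : u * lam ^ m * ∏ r ∈ insert p s, r.1 ^ k r = a * p.1 ^ k p := by
      rw [Finset.prod_insert hp, ha]
      ring
    have hpa : ¬ p.1 ∣ a := by
      intro h
      rcases p.2.1.dvd_or_dvd h with h | h
      · rcases p.2.1.dvd_or_dvd h with h | h
        · exact p.not_dvd_unit hu h
        · exact p.not_dvd_lam (p.2.1.dvd_of_dvd_pow h)
      · obtain ⟨r, hr, h⟩ := (p.2.1.dvd_finsetProd_iff _).1 h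
        exact hp ((P.dvd_iff p r).1 (p.2.1.dvd_of_dvd_pow h) ▸ hr)
    have ha0 : a ≠ 0 := fun h => hpa (h ▸ dvd_zero _)
    have hb0 : p.1 ^ k p ≠ 0 := pow_ne_zero _ p.ne_zero
    have hc : IsCoprime a (p.1 ^ k p) := ((isCoprime_prime p.2.1).2 hpa).pow_right
    have ha' := inv_spec hc
    have hb' := inv_spec hc.symm
    rw [e, pq_crt ha0 hb0 hc ha' hb', ih, Finset.prod_insert hp,
      psf_eq_psq p.2.1 (Associated.refl (p.1 ^ k p)), pq_split p.2.1 hb0 hpa ha', mul_comm _ a,
      pq_split lam_prime ha0 (fun h => p.not_lam_dvd (lam_prime.dvd_of_dvd_pow h)) hb',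
      Finset.prod_congr rfl fun r hr => pq_split r.2.1 ha0
        (fun h => hp ((P.dvd_iff r p).1 (r.2.1.dvd_of_dvd_pow h) ▸ hr)) hb' A]
    ring

/-- The product formula. -/
theorem psf_eq_prod {B : E} (hB : B ≠ 0) (A : E) : psf A B = psq lam A B * psg A B := by
  obtain ⟨u, hu, e⟩ := exists_factor hB
  have := pq_prod hu (vp lam B) (fun p => vp p.1 B) (fac B) A
  rw [← e] at this
  exact this

theorem psg_eq {B : E} (hB : B ≠ 0) (A : E) : psg A B = psf A B * conj (psq lam A B) := by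
  rw [psf_eq_prod hB, mul_right_comm, psq_mul_conj, one_mul]

theorem norm_psg (A B : E) : ‖psg A B‖ = 1 := by
  simp only [psg, norm_prod, norm_psq, Finset.prod_const_one]

theorem psg_add (A A' B : E) : psg (A + A') B = psg A B * psg A' B := by
  simp only [psg, psq_add, Finset.prod_mul_distrib]

theorem psg_congr {A A' B : E} (hB : B ≠ 0) (h : up lam B ∣ A - A') : psg A B = psg A' B := by
  refine Finset.prod_congr rfl fun p _ => psq_congr ?_
  rw [← vp_up_lam hB p]
  exact (pq_pow_vp_dvd _ _).trans h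

theorem psg_scale {t B : E} (ht : t ≠ 0) (hB : B ≠ 0) (A : E) :
    psg (t * A) (t * B) = psg A B := by
  rw [psg_eq_prod hB (fac_mono (mul_ne_zero ht hB) (dvd_mul_left B t))]
  exact Finset.prod_congr rfl fun p _ => psq_scale p.2.1 ht hB A

/-- Chinese remainder theorem for additive characters. -/
theorem psf_crt {a b a' b' : E} (ha : a ≠ 0) (hb : b ≠ 0) (h : IsCoprime a b)
    (ha' : b ∣ a * a' - 1) (hb' : a ∣ b * b' - 1) (A : E) :
    psf A (a * b) = psf (A * b') a * psf (A * a') b := pq_crt ha hb h ha' hb' A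

end QRH
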