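import Vale.Agent.P026.Defs

/-! Statements of the arithmetic results. Each is proved in its own file; files that use one of
them take it as a hypothesis (this keeps the import graph shallow). -/

noncomputable section
namespace QRH
open Complex MeasureTheory
open scoped ComplexConjugate Classical

/-- Cubic reciprocity. -/
def CubRec : Prop := ∀ p q : P, c3 p q.1 = c3 q p.1
/-- Cube of the cubic Gauss sum. -/
def G3Cube : Prop := ∀ p : P, gs c3 {p} ^ 3 = -(toC p.1 ^ 2 * conj (toC p.1))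
/-- Product formula for the cubic Hilbert symbol, in the range used. -/
def HOne : Prop := ∀ u b : E, (9 : E) ∣ u - 1 → b ≠ 0 → H u b = 1
/-- `H a b` only depends on the `lam`-adic data. -/
def HCongr : Prop := ∀ a a' b : E, a ≠ 0 → b ≠ 0 → 9 * lam ^ vp lam a ∣ a' - a →
  H a' b = H a b ∧ H b a' = H b a
/-- Reciprocity for quadratic Gauss sums. -/
def QGauss : Prop := ∀ c t : E, c ≠ 0 → t ≠ 0 →
  rsum c (fun x => psf (t * x ^ 2) c) / (‖toC c‖ : ℝ)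
    = rsum (2 * t) (fun y => psf (-(c * y ^ 2)) (4 * t)) / (‖toC (2 * t)‖ : ℝ)
/-- The Jacobi symbol `(t / c)` is periodic in `c` modulo `4 t`. -/
def QPer : Prop := ∀ t c c' : E, t ≠ 0 → (3 : E) ∣ c - 1 → (3 : E) ∣ c' - 1 →
  IsCoprime c (2 * t) → 4 * t ∣ c - c' → xv c2 c t = xv c2 c' t
/-- Quadratic reciprocity: the sign only depends on the classes modulo 4. -/
def QRec : Prop := ∃ sg : E → E → ℂ, Per2 4 sg ∧ (∀ a b, sg a b = 1 ∨ sg a b = -1) ∧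
  ∀ c n : E, (3 : E) ∣ c - 1 → (3 : E) ∣ n - 1 → IsCoprime c 2 → IsCoprime n 2 →
    xv c2 c n = sg c n * xv c2 n c
/-- The normalised quadratic Gauss sum only depends on the class modulo 4. -/
def QGam : Prop := ∀ s t : Finset P, Odd' s → Odd' t → (4 : E) ∣ pr s - pr t → gam c2 s = gam c2 t
/-- Sextic reciprocity up to a sign. -/
def Rec6 : Prop := ∃ sg : E → E → ℂ, Per2 4 sg ∧ (∀ a b, sg a b = 1 ∨ sg a b = -1) ∧
  ∀ c n : E, (3 : E) ∣ c - 1 → (3 : E) ∣ n - 1 → IsCoprime c 2 → IsCoprime n 2 →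
    xv c6 c n = sg c n * xv c6 n c
/-- `(-1 / c)` only depends on the class modulo 4. -/
def Neg6 : Prop := ∀ s t : Finset P, Odd' s → Odd' t → (4 : E) ∣ pr s - pr t →
  xs c6 s (-1) = xs c6 t (-1)
/-- Moebius times sextic Gauss sum is a theta coefficient. -/
def MuGam : Prop := ∃ κ : E → ℂ, Per 4 κ ∧ (∀ a, ‖κ a‖ = 1) ∧ ∀ s : Finset P, Odd' s →
  mu s * gam c6 s = κ (pr s) * (Tg (pr s) * toC (pr s) / (Ns s : ℝ))
/-- On a residue class, `c -> (n / c)_6` is a product of local characters. -/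
def X6R : Prop := ∀ (Q : ℕ) (a n : E), Q ≠ 0 → 72 ∣ Q →
  IsCoprime a Q → (3 : E) ∣ a - 1 → n ≠ 0 → ∃ κ : ℂ, ‖κ‖ = 1 ∧ ∀ c : E, (Q : E) ∣ c - a →
    xv c6 c n = κ * ∏ p ∈ fac n \ fac Q, c6 p c ^ vp p.1 n

/-- The level one identity (Cardano). -/
def Card1 : Prop := ∀ (p : P) (u δ ξ : E) (a : ℕ), ¬ p.1 ∣ u → (a = 1 ∨ a = 2) →
  rsum2 p.1 (fun y x => c3 p y ^ a * psq p.1 (x ^ 3) (p.1 * u * y)
      * psq p.1 (y * δ + 3 * x * ξ) (p.1 * u))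
    + rsum p.1 (fun y => conj (c3 p y) ^ a * psq p.1 y (p.1 * u))
  = nm p.1 * (c3 p δ ^ a * psq p.1 (ξ ^ 3) (p.1 * u * δ))
    + if p.1 ∣ δ ∧ p.1 ∣ ξ then
        nm p.1 * rsum p.1 (fun y => conj (c3 p y) ^ a * psq p.1 y (p.1 * u)) else 0
/-- Stationary phase. -/
def SPh : Prop := ∀ (p : P) (u δ ξ : E) (a m : ℕ), ¬ p.1 ∣ u → 2 ≤ m →
  rsum2 (p.1 ^ m) (fun y x => if ¬ p.1 ∣ y ∧ ¬ p.1 ∣ x then
      c3 p y ^ a * psq p.1 (x ^ 3) (p.1 ^ m * u * y)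
        * psq p.1 (y * δ + 3 * x * ξ) (p.1 ^ m * u) else 0)
  = if ¬ p.1 ∣ δ ∧ ¬ p.1 ∣ ξ then
      (nm p.1 : ℂ) ^ m * (c3 p δ ^ a * psq p.1 (ξ ^ 3) (p.1 ^ m * u * δ)) else 0
/-- The local section is its own Fourier transform. -/
def LocS : Prop := ∀ (p : P) (c δ ξ : E), c ≠ 0 →
  rsum2 (p.1 ^ vp p.1 c) (fun y x => phip p c y x * psq p.1 (y * δ + 3 * x * ξ) c)
    = (nm p.1 : ℂ) ^ vp p.1 c * phip p c δ ξ
/-- The global section is its own Fourier transform. -/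
def GlS : Prop := ∀ c δ ξ : E, c ≠ 0 →
  rsum2 (up lam c) (fun y x => phig c y x * psg (y * δ + 3 * x * ξ) c)
    = nm (up lam c) * phig c δ ξ
/-- Equivariance. -/
def Eqv : Prop := ∀ α β κ η c d x : E, α * η - β * κ = 1 → κ ≠ 0 → c ≠ 0 → α * c + κ * d ≠ 0 →
  phig c d x = xv c3 κ α * H c (α * c + κ * d) * H κ c * H (α * c + κ * d) κ
    * psg (x ^ 3 * κ) (c * (α * c + κ * d)) * phig (α * c + κ * d) (β * c + η * d) x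
/-- The swap. -/
def Asw : Prop := ∀ c d x : E, c ≠ 0 → d ≠ 0 →
  phig c d x = H c d * psg (x ^ 3) (c * d) * phig d (-c) x

/-- Poisson summation with periodic coefficients. -/
def PS1 : Prop := ∀ (q : E) (ρ : E → ℂ) (f : ℂ → ℂ) (M : ℝ), q ≠ 0 → Per q ρ → Continuous f →
  (∀ z, ‖f z‖ ≤ M * (1 + ‖z‖) ^ (-3 : ℝ)) → (∀ z, ‖ft f z‖ ≤ M * (1 + ‖z‖) ^ (-3 : ℝ)) →
  ∑' x : E, ρ x * f (toC x)
    = ((nm q : ℂ))⁻¹ * ∑' ξ : E, rsum q (fun y => ρ y * psf (y * ξ) q) * ft f (toC ξ / toC q)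
/-- Poisson summation in two variables. -/
def PS2 : Prop := ∀ (q : E) (ρ : E → E → ℂ) (F : ℂ × ℂ → ℂ) (M : ℝ), q ≠ 0 → Per2 q ρ →
  Continuous F → (∀ z, ‖F z‖ ≤ M * (1 + ‖z.1‖) ^ (-3 : ℝ) * (1 + ‖z.2‖) ^ (-3 : ℝ)) →
  (∀ ξ η, ‖ft2 F ξ η‖ ≤ M * (1 + ‖ξ‖) ^ (-3 : ℝ) * (1 + ‖η‖) ^ (-3 : ℝ)) →
  ∑' x : E × E, ρ x.1 x.2 * F (toC x.1, toC x.2)
    = ((nm q : ℂ) ^ 2)⁻¹ * ∑' ξ : E × E, rsum2 q (fun y z => ρ y z * psf (y * ξ.1 + z * ξ.2) q)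
        * ft2 F (toC ξ.1 / toC q) (toC ξ.2 / toC q)
/-- Poisson summation for the Gaussian. -/
def PSG : Prop := ∀ (q : E) (ρ : E → ℂ) (t : ℝ), q ≠ 0 → Per q ρ → 0 < t →
  ∑' x : E, ρ x * (Vg (nm x / t) : ℝ)
    = ((t / nm q : ℝ) : ℂ) * ∑' ξ : E, rsum q (fun y => ρ y * psf (y * ξ) q)
        * (Vg (nm ξ * t / nm q) : ℝ)
/-- Riemann sums with periodic coefficients. -/
def RiemL : Prop := ∀ (m : E) (A : E → E → ℂ) (Φ : ℂ × ℂ → ℂ) (M : ℝ) (S1 S2 : ℝ → ℂ),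
  m ≠ 0 → Per2 m A → ContinuousOn Φ {z | z.1 ≠ 0} →
  (∀ z : ℂ × ℂ, z.1 ≠ 0 →
    ‖Φ z‖ ≤ M * (‖z.1‖⁻¹ * (1 + ‖z.1‖) ^ (-3 : ℝ)) * (1 + ‖z.2‖) ^ (-3 : ℝ)) →
  Filter.Tendsto (fun X => ‖S1 X‖) Filter.atTop Filter.atTop →
  Filter.Tendsto (fun X => ‖S2 X‖) Filter.atTop Filter.atTop →
  Filter.Tendsto (fun X => (((‖S1 X‖ ^ 2 * ‖S2 X‖ ^ 2)⁻¹ : ℝ) : ℂ) *
      ∑' x : E × E, if x.1 = 0 then 0 else A x.1 x.2 * Φ (toC x.1 / S1 X, toC x.2 / S2 X))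
    Filter.atTop
    (nhds (rsum2 m A / (nm m : ℂ) ^ 2 * (((4 / 3 : ℝ) : ℂ) * ∫ z, Φ z)))

end QRH
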