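import Vale.Agent.P026.Sym
import Vale.Agent.P026.Psq
import Vale.Agent.P026.Stm1

noncomputable section
namespace QRH
open Complex MeasureTheory
open scoped ComplexConjugate Classical

section
variable {F : Type*} [Field F] [Fintype F]

omit [Fintype F] in
theorem card_w {w : F} (hw : IsPrimitiveRoot w 3) : w ^ 2 + w + 1 = 0 := by
  have h1 : w - 1 ≠ 0 := sub_ne_zero.2 (hw.ne_one (by norm_num))
  have h3 := hw.pow_eq_one
  apply mul_left_cancel₀ h1
  linear_combination h3

/-- Number of cube roots. -/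
def card_c (T : F) : ℕ := (Finset.univ.filter fun r : F => r ^ 3 = T).card

theorem card_c_cube {w : F} (hw : IsPrimitiveRoot w 3) {r : F} (hr : r ≠ 0) :
    card_c (r ^ 3) = 3 := by
  have h := card_w hw
  have h1 : w ≠ 1 := hw.ne_one (by norm_num)
  have h0 : w ≠ 0 := hw.ne_zero (by norm_num)
  have h2 : w ^ 2 ≠ 1 := hw.pow_ne_one_of_pos_of_lt (by norm_num) (by norm_num)
  have e : (Finset.univ.filter fun x : F => x ^ 3 = r ^ 3) = {r, w * r, w ^ 2 * r} := by
    ext x
    simp only [Finset.mem_filter, Finset.mem_univ, true_and, Finset.mem_insert,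
      Finset.mem_singleton]
    have key : x ^ 3 - r ^ 3 = (x - r) * (x - w * r) * (x - w ^ 2 * r) := by
      linear_combination (x ^ 2 * r - x * r ^ 2 * w + r ^ 3 * (w - 1)) * h
    rw [← sub_eq_zero, key]
    simp only [mul_eq_zero, sub_eq_zero, or_assoc]
  unfold card_c
  rw [e, Finset.card_eq_three]
  refine ⟨_, _, _, ?_, ?_, ?_, rfl⟩
  · intro h'
    exact h1 (mul_right_cancel₀ hr (by rw [one_mul]; exact h'.symm))
  · intro h'
    exact h2 (mul_right_cancel₀ hr (by rw [one_mul]; exact h'.symm))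
  · intro h'
    have := mul_right_cancel₀ hr h'
    exact h1 (mul_left_cancel₀ h0 (by linear_combination -this))

theorem card_c_eq {w : F} (hw : IsPrimitiveRoot w 3) (χ : MulChar F ℂ)
    (hc : ∀ T, T ≠ 0 → χ T ^ 3 = 1) (hk : ∀ T, χ T = 1 → ∃ r, r ^ 3 = T) (T : F) :
    (card_c T : ℂ) = 1 + χ T + χ T ^ 2 := by
  by_cases hT : T = 0
  · subst hT
    have e : (Finset.univ.filter fun x : F => x ^ 3 = 0) = {0} := by
      ext x
      simp
    unfold card_c
    rw [e]
    simp [MulChar.map_zero]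
  by_cases hr : ∃ r, r ^ 3 = T
  · obtain ⟨r, rfl⟩ := hr
    have hr : r ≠ 0 := fun h => hT (by simp [h])
    rw [card_c_cube hw hr, map_pow, hc r hr]
    norm_num
  · have e : (Finset.univ.filter fun x : F => x ^ 3 = T) = ∅ := by
      ext x
      simp only [Finset.mem_filter, Finset.mem_univ, true_and, Finset.notMem_empty, iff_false]
      exact fun h => hr ⟨x, h⟩
    have h1 : χ T - 1 ≠ 0 := sub_ne_zero.2 fun h => hr (hk T h)
    have h2 : 1 + χ T + χ T ^ 2 = 0 := by
      apply mul_left_cancel₀ h1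
      linear_combination hc T hT
    simp [card_c, e, h2]

/-- Roots of the cubic. -/
def card_N (y s : F) : Finset F := Finset.univ.filter fun Z => Z ^ 3 - 3 * y * Z = s
/-- Roots of the resolvent. -/
def card_M (y s : F) : Finset F := (Finset.univ.erase 0).filter fun T => T + y ^ 3 / T = s

theorem card_mem_M {y s T : F} (hy : y ≠ 0) :
    T ∈ card_M y s ↔ T ^ 2 - s * T + y ^ 3 = 0 := by
  simp only [card_M, Finset.mem_filter, Finset.mem_erase, Finset.mem_univ, and_true]
  constructor
  · rintro ⟨h0, rfl⟩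
    field_simp
    ring
  · intro h
    have h0 : T ≠ 0 := by
      rintro rfl
      exact pow_ne_zero 3 hy (by linear_combination h)
    refine ⟨h0, ?_⟩
    field_simp
    linear_combination h

theorem card_mem_N {y s Z : F} : Z ∈ card_N y s ↔ Z ^ 3 - 3 * y * Z = s := by
  simp [card_N]

theorem card_ineq (h3 : (3 : F) ≠ 0) {w : F} (hw : IsPrimitiveRoot w 3) {y : F} (hy : y ≠ 0)
    (s : F) :
    2 * (card_N y s).card + (card_M y s).card ≤ 2 + ∑ T ∈ card_M y s, card_c T := by
  have h := card_w hw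
  rcases (card_M y s).eq_empty_or_nonempty with hM | ⟨T, hT⟩
  · have : (card_N y s).card ≤ 1 := by
      rw [Finset.card_le_one]
      intro a ha b hb
      by_contra hab
      rw [card_mem_N] at ha hb
      have h1 : a ^ 2 + a * b + b ^ 2 = 3 * y := by
        apply mul_left_cancel₀ (sub_ne_zero.2 hab)
        linear_combination ha - hb
      obtain ⟨A, hA⟩ : ∃ A, 3 * A = a + w * b - w ^ 2 * (a + b) :=
        ⟨(a + w * b - w ^ 2 * (a + b)) / 3, by field_simp⟩
      obtain ⟨B, hB⟩ : ∃ B, 3 * B = a + w ^ 2 * b - w * (a + b) :=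
        ⟨(a + w ^ 2 * b - w * (a + b)) / 3, by field_simp⟩
      have h2 : A + B = a := by
        apply mul_left_cancel₀ h3
        linear_combination hA + hB - a * h
      have h4 : A * B = y := by
        apply mul_left_cancel₀ h3
        apply mul_left_cancel₀ h3
        have : 3 * (3 * (A * B)) = (3 * A) * (3 * B) := by ring
        rw [this, hA, hB, ← h1]
        grind
      have h5 : A ^ 3 ∈ card_M y s := by
        rw [card_mem_M hy, ← ha, ← h4, ← h2]
        ring
      rw [hM] at h5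
      exact Finset.notMem_empty _ h5
    rw [hM]
    simp only [Finset.card_empty, Finset.sum_empty]
    omega
  have hT' := (card_mem_M hy).1 hT
  have hT0 : ∀ T ∈ card_M y s, T ≠ 0 := by
    intro T hT
    simp only [card_M, Finset.mem_filter, Finset.mem_erase] at hT
    exact hT.1.1
  have hs : s = T + y ^ 3 / T := by
    simp only [card_M, Finset.mem_filter] at hT
    exact hT.2.symm
  have hM2 : (card_M y s).card ≤ 2 := by
    refine le_trans (Finset.card_le_card (t := {T, y ^ 3 / T}) ?_) Finset.card_le_two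
    intro U hU
    rw [card_mem_M hy] at hU
    have : (U - T) * (U - y ^ 3 / T) = 0 := by
      rw [← hU, hs]
      have := hT0 T hT
      field_simp
      ring
    simpa [sub_eq_zero] using this
  rcases (card_N y s).eq_empty_or_nonempty with hN | ⟨Z, hZ⟩
  · rw [hN]
    simp only [Finset.card_empty]
    omega
  rw [card_mem_N] at hZ
  have hcube : ∀ U ∈ card_M y s, ∃ r, r ≠ 0 ∧ U = r ^ 3 := by
    intro U hU
    have hU0 := hT0 U hU
    rw [card_mem_M hy, ← hZ] at hU
    have : ∃ r, U = r ^ 3 := by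
      by_cases hz : Z ^ 2 - y = 0
      · refine ⟨-Z, ?_⟩
        have h1 : (U + Z ^ 3) ^ 2 = 0 := by
          have : y = Z ^ 2 := by linear_combination -hz
          rw [this] at hU
          linear_combination hU
        linear_combination pow_eq_zero_iff (two_ne_zero) |>.1 h1
      · refine ⟨(U + y * Z) / (Z ^ 2 - y), ?_⟩
        field_simp
        linear_combination (-(U + Z ^ 3)) * hU
    obtain ⟨r, hr⟩ := this
    refine ⟨r, ?_, hr⟩
    rintro rfl
    exact hU0 (by simp [hr])
  have hR : ∑ T ∈ card_M y s, card_c T = 3 * (card_M y s).card := by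
    rw [Finset.sum_congr rfl (g := fun _ => 3)]
    · simp [mul_comm]
    · intro U hU
      obtain ⟨r, hr, rfl⟩ := hcube U hU
      exact card_c_cube hw hr
  rw [hR]
  by_cases hd : T = y ^ 3 / T
  · have hN : (card_N y s).card ≤ 2 := by
      refine le_trans (Finset.card_le_card (t := {2 * (T / y), -(T / y)}) ?_) Finset.card_le_two
      intro U hU
      rw [card_mem_N, hs, ← hd] at hU
      have h0 := hT0 T hT
      have h1 : T ^ 2 = y ^ 3 := by
        field_simp at hd
        exact hd
      obtain ⟨r, hr⟩ : ∃ r, r = T / y := ⟨_, rfl⟩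
      have h2 : r * y = T := by rw [hr]; field_simp
      have h4 : r ^ 2 = y := by
        apply mul_left_cancel₀ (pow_ne_zero 2 hy)
        rw [← h2] at h1
        linear_combination h1
      have : (U - 2 * r) * (U + r) ^ 2 = 0 := by
        rw [← h2, ← h4] at hU
        linear_combination hU
      rw [← hr]
      rcases mul_eq_zero.1 this with h5 | h5
      · simp [sub_eq_zero.1 h5]
      · have := pow_eq_zero_iff two_ne_zero |>.1 h5
        simp [eq_neg_of_add_eq_zero_left this]
    have : 1 ≤ (card_M y s).card := Finset.card_pos.2 ⟨T, hT⟩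
    omega
  · have hM : 2 ≤ (card_M y s).card := by
      rw [← Finset.card_pair hd]
      apply Finset.card_le_card
      intro U hU
      simp only [Finset.mem_insert, Finset.mem_singleton] at hU
      rcases hU with rfl | rfl
      · exact hT
      · rw [card_mem_M hy, hs]
        have := hT0 T hT
        field_simp
        ring
    have hN : (card_N y s).card ≤ 3 := by
      obtain ⟨r, hr, rfl⟩ := hcube T hT
      obtain ⟨t, ht⟩ : ∃ t, y = r * t := ⟨y / r, by field_simp⟩
      have h1 : s = r ^ 3 + t ^ 3 := by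
        rw [hs, ht]
        field_simp
      refine le_trans (Finset.card_le_card
        (t := {r + t, w * r + w ^ 2 * t, w ^ 2 * r + w * t}) ?_) Finset.card_le_three
      intro U hU
      rw [card_mem_N, h1, ht] at hU
      have : (U - (r + t)) * (U - (w * r + w ^ 2 * t)) * (U - (w ^ 2 * r + w * t)) = 0 := by
        grind
      simpa [sub_eq_zero, or_assoc] using this
    omega

omit [Field F] in
theorem card_fib (A : Finset F) (g : F → F) (φ : F → ℂ) :
    ∑ x ∈ A, φ (g x) = ∑ s, ((A.filter fun x => g x = s).card : ℂ) * φ s := by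
  rw [← Finset.sum_fiberwise A g]
  refine Finset.sum_congr rfl fun s _ => ?_
  rw [Finset.sum_congr rfl (g := fun _ => φ s)]
  · simp
  · intro x hx
    rw [(Finset.mem_filter.1 hx).2]

theorem card_eq (h3 : (3 : F) ≠ 0) {w : F} (hw : IsPrimitiveRoot w 3) {y : F} (hy : y ≠ 0)
    (s : F) :
    2 * (card_N y s).card + (card_M y s).card = 2 + ∑ T ∈ card_M y s, card_c T := by
  have hN : ∑ s, (card_N y s).card = Fintype.card F := by
    have := Finset.card_eq_sum_card_fiberwise (s := (Finset.univ : Finset F))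
      (t := Finset.univ) (f := fun Z => Z ^ 3 - 3 * y * Z) (fun _ _ => Finset.mem_univ _)
    exact this.symm
  have hM : ∑ s, (card_M y s).card = (Finset.univ.erase (0 : F)).card := by
    have := Finset.card_eq_sum_card_fiberwise (s := (Finset.univ.erase (0 : F)))
      (t := Finset.univ) (f := fun T => T + y ^ 3 / T) (fun _ _ => Finset.mem_univ _)
    exact this.symm
  have hR : ∑ s, ∑ T ∈ card_M y s, card_c T = (Finset.univ.erase (0 : F)).card := by
    have h1 : ∑ s, ∑ T ∈ card_M y s, card_c T = ∑ T ∈ Finset.univ.erase (0 : F), card_c T :=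
      Finset.sum_fiberwise _ (fun T => T + y ^ 3 / T) _
    rw [h1, Finset.card_eq_sum_card_fiberwise (s := (Finset.univ.erase (0 : F)))
      (t := Finset.univ.erase (0 : F)) (f := fun r => r ^ 3)]
    · refine Finset.sum_congr rfl fun T hT => ?_
      unfold card_c
      congr 1
      ext r
      simp only [Finset.mem_filter, Finset.mem_univ, true_and, Finset.mem_erase, and_true]
      refine ⟨fun h => ⟨?_, h⟩, fun h => h.2⟩
      rintro rfl
      exact (Finset.mem_erase.1 hT).1 (by simp [← h])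
    · intro r hr
      simp only [Finset.coe_erase, Finset.coe_univ, Set.mem_sdiff, Set.mem_univ,
        Set.mem_singleton_iff, true_and] at hr ⊢
      exact pow_ne_zero 3 hr
  refine (Finset.sum_eq_sum_iff_of_le (s := Finset.univ)
    (fun s _ => card_ineq h3 hw hy s)).1 ?_ s (Finset.mem_univ _)
  rw [Finset.sum_add_distrib, Finset.sum_add_distrib, ← Finset.mul_sum, hN, hM, hR]
  simp [mul_comm]

/-- Cardano's identity for exponential sums. -/
theorem card_sum (h3 : (3 : F) ≠ 0) {w : F} (hw : IsPrimitiveRoot w 3) (χ : MulChar F ℂ)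
    (hc : ∀ T, T ≠ 0 → χ T ^ 3 = 1) (hk : ∀ T, χ T = 1 → ∃ r, r ^ 3 = T) {y : F} (hy : y ≠ 0)
    (φ : F → ℂ) (hφ : ∑ s, φ s = 0) :
    ∑ Z, φ (Z ^ 3 - 3 * y * Z) = ∑ T, χ T ^ 2 * φ (T + y ^ 3 / T) := by
  have h1 := card_fib Finset.univ (fun Z => Z ^ 3 - 3 * y * Z) φ
  have h2 := card_fib (Finset.univ.erase 0) (fun T => T + y ^ 3 / T) φ
  have h4 : ∑ T ∈ Finset.univ.erase (0 : F), (card_c T : ℂ) * φ (T + y ^ 3 / T)
      = ∑ s, (∑ T ∈ card_M y s, (card_c T : ℂ)) * φ s := by
    rw [← Finset.sum_fiberwise (Finset.univ.erase (0 : F)) (fun T => T + y ^ 3 / T)]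
    refine Finset.sum_congr rfl fun s _ => ?_
    rw [Finset.sum_mul]
    refine Finset.sum_congr rfl fun T hT => ?_
    rw [(Finset.mem_filter.1 hT).2]
  have h5 : 2 * ∑ Z, φ (Z ^ 3 - 3 * y * Z) + ∑ T ∈ Finset.univ.erase 0, φ (T + y ^ 3 / T)
      = 2 * ∑ s, φ s
        + ∑ T ∈ Finset.univ.erase (0 : F), (card_c T : ℂ) * φ (T + y ^ 3 / T) := by
    rw [h1, h2, h4, Finset.mul_sum, Finset.mul_sum, ← Finset.sum_add_distrib,
      ← Finset.sum_add_distrib]
    refine Finset.sum_congr rfl fun s _ => ?_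
    have := congrArg (Nat.cast : ℕ → ℂ) (card_eq h3 hw hy s)
    push_cast at this
    change 2 * ((card_N y s).card * φ s) + (card_M y s).card * φ s = _
    linear_combination φ s * this
  have h6 : ∑ T ∈ Finset.univ.erase (0 : F), χ T * φ (T + y ^ 3 / T)
      = ∑ T ∈ Finset.univ.erase (0 : F), χ T ^ 2 * φ (T + y ^ 3 / T) := by
    have hi : ∀ T : F, T ≠ 0 → y ^ 3 / (y ^ 3 / T) = T := fun T hT => by field_simp
    refine Finset.sum_nbij' (fun T => y ^ 3 / T) (fun T => y ^ 3 / T) ?_ ?_ ?_ ?_ ?_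
    · intro T hT
      simp only [Finset.mem_erase, Finset.mem_univ, and_true] at hT ⊢
      exact div_ne_zero (pow_ne_zero 3 hy) hT
    · intro T hT
      simp only [Finset.mem_erase, Finset.mem_univ, and_true] at hT ⊢
      exact div_ne_zero (pow_ne_zero 3 hy) hT
    · intro T hT
      exact hi T (Finset.mem_erase.1 hT).1
    · intro T hT
      exact hi T (Finset.mem_erase.1 hT).1
    · intro T hT
      have hT0 := (Finset.mem_erase.1 hT).1
      rw [hi T hT0, add_comm (y ^ 3 / T)]
      congr 1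
      have e1 : χ (y ^ 3 / T) * χ T = 1 := by
        rw [← map_mul, div_mul_cancel₀ _ hT0, map_pow, hc y hy]
      have e2 := hc _ (div_ne_zero (pow_ne_zero 3 hy) hT0)
      linear_combination χ (y ^ 3 / T) ^ 2 * e1 - χ T * e2
  have h7 : ∑ T ∈ Finset.univ.erase (0 : F), (card_c T : ℂ) * φ (T + y ^ 3 / T)
      = ∑ T ∈ Finset.univ.erase 0, φ (T + y ^ 3 / T)
        + ∑ T ∈ Finset.univ.erase (0 : F), χ T * φ (T + y ^ 3 / T)
        + ∑ T ∈ Finset.univ.erase (0 : F), χ T ^ 2 * φ (T + y ^ 3 / T) := by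
    rw [← Finset.sum_add_distrib, ← Finset.sum_add_distrib]
    refine Finset.sum_congr rfl fun T _ => ?_
    rw [card_c_eq hw χ hc hk]
    ring
  have h8 : ∑ T ∈ Finset.univ.erase (0 : F), χ T ^ 2 * φ (T + y ^ 3 / T)
      = ∑ T, χ T ^ 2 * φ (T + y ^ 3 / T) :=
    Finset.sum_erase _ (by simp [MulChar.map_zero])
  rw [← h8]
  rw [h7, h6, hφ] at h5
  linear_combination h5 / 2

theorem card_main (h3 : (3 : F) ≠ 0) {w : F} (hw : IsPrimitiveRoot w 3) (χ : MulChar F ℂ)
    (h1 : χ ≠ 1) (hc : ∀ T, T ≠ 0 → χ T ^ 3 = 1) (hk : ∀ T, χ T = 1 → ∃ r, r ^ 3 = T)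
    (e : AddChar F ℂ) (he : e.IsPrimitive) (δ ξ : F) :
    ∑ y, ∑ x, χ y * e (x ^ 3 / y) * e (y * δ + 3 * x * ξ) + ∑ y, χ y ^ 2 * e y
      = Fintype.card F * (χ δ * e (ξ ^ 3 / δ))
        + if δ = 0 ∧ ξ = 0 then Fintype.card F * ∑ y, χ y ^ 2 * e y else 0 := by
  have hort : ∀ b : F, ∑ x, e (x * b) = if b = 0 then (Fintype.card F : ℂ) else 0 := by
    intro b
    rw [AddChar.sum_mulShift b he]
    split_ifs <;> simp
  have hdiv : ∀ y : F, y ≠ 0 → ∑ s, e (s / y) = 0 := by
    intro y hy
    simp only [div_eq_mul_inv]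
    rw [hort, if_neg (inv_ne_zero hy)]
  have hsc : ∀ y : F, y ≠ 0 → ∀ f : F → ℂ, ∑ T, f T = ∑ T, f (y * T) := fun y hy f =>
    (Equiv.sum_comp (Equiv.mulLeft₀ y hy) f).symm
  have hsplit : ∀ f : F → ℂ, ∑ y, f y = f 0 + ∑ y ∈ Finset.univ.erase 0, f y := fun f =>
    (Finset.add_sum_erase _ f (Finset.mem_univ 0)).symm
  have hort' : ∀ b : F, ∑ x ∈ Finset.univ.erase 0, e (x * b)
      = (if b = 0 then (Fintype.card F : ℂ) else 0) - 1 := by
    intro b
    rw [← hort, hsplit]
    simp
  by_cases hξ : ξ = 0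
  · subst hξ
    have hin : ∀ y ∈ Finset.univ.erase (0 : F),
        ∑ x, χ y * e (x ^ 3 / y) * e (y * δ + 3 * x * 0)
          = χ y ^ 2 * e (y * δ) * (∑ s, χ s * e s) + e (y * δ) * ∑ s, χ s ^ 2 * e s := by
      intro y hy
      have hy0 := (Finset.mem_erase.1 hy).1
      have a1 := card_fib Finset.univ (fun x => x ^ 3) (fun s => e (s / y))
      have a2 : ∑ x, e (x ^ 3 / y) = ∑ s, e (s / y) + ∑ s, χ s * e (s / y)
          + ∑ s, χ s ^ 2 * e (s / y) := by
        rw [a1, ← Finset.sum_add_distrib, ← Finset.sum_add_distrib]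
        refine Finset.sum_congr rfl fun s _ => ?_
        change (card_c s : ℂ) * _ = _
        rw [card_c_eq hw χ hc hk]
        ring
      have a3 : ∑ s, χ s * e (s / y) = χ y * ∑ s, χ s * e s := by
        rw [hsc y hy0, Finset.mul_sum]
        refine Finset.sum_congr rfl fun s _ => ?_
        rw [map_mul, mul_div_cancel_left₀ _ hy0]
        ring
      have a4 : ∑ s, χ s ^ 2 * e (s / y) = χ y ^ 2 * ∑ s, χ s ^ 2 * e s := by
        rw [hsc y hy0, Finset.mul_sum]
        refine Finset.sum_congr rfl fun s _ => ?_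
        rw [map_mul, mul_div_cancel_left₀ _ hy0]
        ring
      simp only [mul_zero, add_zero]
      rw [← Finset.sum_mul, ← Finset.mul_sum, a2, a3, a4, hdiv y hy0]
      linear_combination (e (y * δ) * ∑ s, χ s ^ 2 * e s) * hc y hy0
    have hinv : ∀ s, χ⁻¹ s = χ s ^ 2 := by
      intro s
      by_cases hs : s = 0
      · simp [hs, MulChar.map_zero]
      · rw [MulChar.inv_apply_eq_inv']
        exact inv_eq_of_mul_eq_one_right (by linear_combination hc s hs)
    have hm : χ (-1) = 1 := by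
      have b1 := hc (-1) (by simp)
      have b2 : χ (-1) * χ (-1) = 1 := by rw [← map_mul]; simp
      linear_combination b1 - χ (-1) * b2
    have hg : (∑ s, χ s * e s) * ∑ s, χ s ^ 2 * e s = Fintype.card F := by
      have b1 := gaussSum_mul_gaussSum_eq_card h1 he
      have b2 : gaussSum χ⁻¹ e⁻¹ = ∑ s, χ s ^ 2 * e s := by
        unfold gaussSum
        rw [hsc (-1) (by simp)]
        refine Finset.sum_congr rfl fun s _ => ?_
        rw [hinv, map_mul, hm, AddChar.inv_apply]
        simp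
      rw [b2] at b1
      exact b1
    have htw : ∑ y ∈ Finset.univ.erase (0 : F), χ y ^ 2 * e (y * δ)
        = χ δ * ∑ s, χ s ^ 2 * e s := by
      rw [Finset.sum_erase _ (by simp [MulChar.map_zero])]
      by_cases hδ : δ = 0
      · subst hδ
        have b1 := MulChar.sum_eq_zero_of_ne_one (inv_ne_one.2 h1)
        simp only [hinv] at b1
        simp [b1, MulChar.map_zero]
      · rw [hsc δ hδ (fun s => χ s ^ 2 * e s), Finset.mul_sum]
        refine Finset.sum_congr rfl fun s _ => ?_
        rw [map_mul χ, mul_comm δ s]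
        linear_combination (-(χ s ^ 2 * e (s * δ))) * hc δ hδ
    rw [hsplit, Finset.sum_congr rfl hin, Finset.sum_add_distrib, ← Finset.sum_mul,
      ← Finset.sum_mul, htw, hort']
    by_cases hδ : δ = 0
    · simp [hδ, MulChar.map_zero]
      ring
    · simp [hδ, MulChar.map_zero]
      linear_combination χ δ * hg
  · have hin : ∀ y ∈ Finset.univ.erase (0 : F),
        ∑ x, χ y * e (x ^ 3 / y) * e (y * δ + 3 * x * ξ)
          = ∑ T, χ T ^ 2 * e T * e (y * (δ - ξ ^ 3 / T)) := by
      intro y hy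
      have hy0 := (Finset.mem_erase.1 hy).1
      have a1 := card_sum h3 hw χ hc hk (y := -(y * ξ)) (neg_ne_zero.2 (mul_ne_zero hy0 hξ))
        (fun s => e (s / y)) (hdiv y hy0)
      have a2 : ∑ x, χ y * e (x ^ 3 / y) * e (y * δ + 3 * x * ξ)
          = χ y * e (y * δ) * ∑ Z, e ((Z ^ 3 - 3 * (-(y * ξ)) * Z) / y) := by
        rw [Finset.mul_sum]
        refine Finset.sum_congr rfl fun x _ => ?_
        rw [mul_assoc, mul_assoc (χ y), ← AddChar.map_add_eq_mul, ← AddChar.map_add_eq_mul]
        congr 2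
        field_simp
        ring
      rw [a2, a1, hsc y hy0, Finset.mul_sum]
      refine Finset.sum_congr rfl fun T _ => ?_
      by_cases hT : T = 0
      · simp [hT, MulChar.map_zero]
      have a3 : e (y * δ) * e ((y * T + (-(y * ξ)) ^ 3 / (y * T)) / y)
          = e T * e (y * (δ - ξ ^ 3 / T)) := by
        rw [← AddChar.map_add_eq_mul, ← AddChar.map_add_eq_mul]
        congr 1
        field_simp
        ring
      rw [map_mul χ]
      linear_combination χ T ^ 2 * a3
        + (χ T ^ 2 * e (y * δ) * e ((y * T + (-(y * ξ)) ^ 3 / (y * T)) / y)) * hc y hy0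
    rw [hsplit, Finset.sum_congr rfl hin, Finset.sum_comm]
    simp only [← Finset.mul_sum, hort']
    simp only [mul_sub, Finset.sum_sub_distrib, MulChar.map_zero,
      zero_mul, Finset.sum_const_zero, zero_add, mul_one, hξ, and_false, if_false, add_zero,
      sub_add_cancel]
    by_cases hδ : δ = 0
    · subst hδ
      rw [MulChar.map_zero, zero_mul, mul_zero]
      refine Finset.sum_eq_zero fun T _ => ?_
      by_cases hT : T = 0
      · simp [hT, MulChar.map_zero]
      · simp [hT, hξ]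
    · rw [Finset.sum_eq_single (ξ ^ 3 / δ)]
      · rw [if_pos (by field_simp; ring)]
        have e1 : χ (ξ ^ 3 / δ) * χ δ = 1 := by
          rw [← map_mul, div_mul_cancel₀ _ hδ, map_pow, hc ξ hξ]
        have e2 := hc _ (div_ne_zero (pow_ne_zero 3 hξ) hδ)
        linear_combination (Fintype.card F * e (ξ ^ 3 / δ)) *
          (χ δ * e2 - χ (ξ ^ 3 / δ) ^ 2 * e1)
      · intro T _ hT
        by_cases hT0 : T = 0
        · simp [hT0, MulChar.map_zero]
        rw [if_neg, mul_zero]
        intro h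
        apply hT
        field_simp at h ⊢
        linear_combination h
      · simp

end

theorem card1 : Card1 := by
  intro p u δ ξ a hu ha
  have hp := p.2.1
  have ha0 : a ≠ 0 := by rcases ha with rfl | rfl <;> norm_num
  obtain ⟨t, ht⟩ : ∃ t, p.1 ∣ u * t - 1 := ⟨_, inv_spec ((isCoprime_prime hp).2 hu)⟩
  have ht0 : ¬ p.1 ∣ t := fun h => hp.not_isUnit (isUnit_of_dvd_one (by
    have := dvd_sub (Dvd.dvd.mul_left h u) ht
    simpa using this))
  obtain ⟨e, he, hee⟩ := exists_addChar p ht0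
  obtain ⟨χ, hχ, hχ1⟩ := ((c3_mc p).pow ha0).exists_mulChar
  have hone : ∀ x, ¬ p.1 ∣ x → c3 p x ^ a = 1 → c3 p x = 1 := by
    intro x hx h
    rcases ha with rfl | rfl
    · simpa using h
    · linear_combination c3_cube hx - c3 p x * h
  have h1 : χ ≠ 1 := by
    rw [hχ1]
    obtain ⟨x, hx, hx1⟩ := c3_nt p
    exact ⟨x, hx, fun h => hx1 (hone x hx h)⟩
  have hc : ∀ T, T ≠ 0 → χ T ^ 3 = 1 := by
    intro T hT
    obtain ⟨x, rfl⟩ := rd_surj p T
    rw [hχ, ← pow_mul, mul_comm, pow_mul, c3_cube (mt rd_eq_zero.2 hT), one_pow]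
  have hk : ∀ T, χ T = 1 → ∃ r, r ^ 3 = T := by
    intro T hT
    obtain ⟨x, rfl⟩ := rd_surj p T
    by_cases hx : p.1 ∣ x
    · exact ⟨0, by simp [rd_eq_zero.2 hx]⟩
    rw [hχ] at hT
    obtain ⟨y, hy⟩ := (c3_eq_one_iff hx).1 (hone x hx hT)
    exact ⟨rd p y, by rw [rd_eq_iff.2 hy, map_pow]⟩
  have q1 : ∀ A, psq p.1 A (p.1 * u) = e (rd p A) := by
    intro A
    rw [hee, psq_eq hp (j := 1) (y := t) (by rw [pow_one]) hu (by rwa [pow_one]), pow_one]
  have q2 : ∀ A y, c3 p y ^ a * psq p.1 A (p.1 * u * y) = χ (rd p y) * e (rd p A / rd p y) := by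
    intro A y
    rw [hχ]
    by_cases hy : p.1 ∣ y
    · rw [(c3_mc p).zero y hy, zero_pow ha0, zero_mul, zero_mul]
    obtain ⟨z, hz⟩ : ∃ z, p.1 ∣ y * z - 1 := ⟨_, inv_spec ((isCoprime_prime hp).2 hy)⟩
    have hz' : rd p y * rd p z = 1 := by
      rw [← map_mul, rd_eq_iff.2 hz, map_one]
    have hd : rd p A / rd p y = rd p (A * z) := by
      rw [map_mul, div_eq_mul_inv, inv_eq_of_mul_eq_one_right hz']
    rw [hd, hee, psq_eq hp (j := 1) (u := u * y) (y := z * t) (by rw [pow_one, mul_assoc])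
      (fun h => (hp.dvd_or_dvd h).elim hu hy) ?_, pow_one, mul_assoc]
    rw [pow_one]
    have : u * y * (z * t) - 1 = (u * t - 1) * (y * z) + (y * z - 1) := by ring
    rw [this]
    exact dvd_add (Dvd.dvd.mul_right ht _) hz
  have q3 : ∀ y, conj (c3 p y) ^ a = χ (rd p y) ^ 2 := by
    intro y
    rw [hχ, conj_c3, ← pow_mul, ← pow_mul, mul_comm]
  have key := card_main (rd_three p) (rd_om_prim p) χ h1 hc hk e he (rd p δ) (rd p ξ)
  have r1 : rsum p.1 (fun y => conj (c3 p y) ^ a * psq p.1 y (p.1 * u))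
      = ∑ y, χ y ^ 2 * e y := by
    rw [← rsum_rd]
    simp only [q1, q3]
  have r2 : rsum2 p.1 (fun y x => c3 p y ^ a * psq p.1 (x ^ 3) (p.1 * u * y)
      * psq p.1 (y * δ + 3 * x * ξ) (p.1 * u))
      = ∑ y, ∑ x, χ y * e (x ^ 3 / y) * e (y * rd p δ + 3 * x * rd p ξ) := by
    rw [← rsum_rd]
    unfold rsum2
    congr 1
    funext y
    rw [← rsum_rd]
    congr 1
    funext x
    beta_reduce
    rw [q1, q2]
    simp only [map_pow, map_add, map_mul, map_ofNat]
  rw [r1, r2, key, q2, card_Fp, map_pow]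
  simp only [rd_eq_zero]

end QRH
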