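import Vale.Agent.P026.Eis1

noncomputable section
namespace QRH
open Complex MeasureTheory
open scoped ComplexConjugate Classical

theorem psi_add (z w : ℂ) : psi (z + w) = psi z * psi w := by
  simp only [psi, ← Complex.exp_add, Complex.add_im]
  congr 1; push_cast; ring
theorem psi_zero : psi 0 = 1 := by simp [psi]
theorem norm_psi (z : ℂ) : ‖psi z‖ = 1 := by
  rw [psi, show 2 * (Real.pi : ℂ) * I * ((2 * z.im / √3 : ℝ) : ℂ) =
    ((2 * Real.pi * (2 * z.im / √3) : ℝ) : ℂ) * I by push_cast; ring, Complex.norm_exp_ofReal_mul_I]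
theorem psi_neg (z : ℂ) : psi (-z) = conj (psi z) := by
  simp only [psi, ← Complex.exp_conj, Complex.neg_im, map_mul, Complex.conj_ofReal, Complex.conj_I,
    map_ofNat]
  congr 1; push_cast; ring
theorem psi_mul_conj (z : ℂ) : psi z * conj (psi z) = 1 := by rw [← psi_neg, ← psi_add, add_neg_cancel, psi_zero]
theorem rs_coord (a b : ℝ) : psi (a + b * omC) = Complex.exp (2 * Real.pi * I * b) := by
  have h : (√3 : ℝ) ≠ 0 := by positivity
  have : 2 * ((a : ℂ) + b * omC).im / √3 = b := by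
    simp [omC]; field_simp
  rw [psi, this]
theorem psi_toC (x : E) : psi (toC x) = 1 := by
  have := rs_coord x.re x.im
  rw [toC_apply]
  push_cast at this
  rw [this, mul_comm]
  exact Complex.exp_int_mul_two_pi_mul_I _
theorem continuous_psi : Continuous psi := by
  unfold psi; fun_prop
theorem contDiff_psi {n : WithTop ℕ∞} : ContDiff ℝ n psi := by
  have h1 : ContDiff ℝ n fun z : ℂ => ((2 * z.im / √3 : ℝ) : ℂ) :=
    Complex.ofRealCLM.contDiff.comp ((contDiff_const.mul Complex.imCLM.contDiff).div_const _)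
  exact (contDiff_const.mul h1).cexp
theorem psi_eq_fourierChar (z : ℂ) :
    psi z = ((Real.fourierChar (2 * z.im / √3) : Circle) : ℂ) := by
  rw [Real.fourierChar_apply, psi]
  congr 1; push_cast; ring
theorem psi_coord (a b : ℝ) : psi (a + b * omC) = Complex.exp (2 * Real.pi * I * b) := rs_coord a b

theorem psf_add (A A' B : E) : psf (A + A') B = psf A B * psf A' B := by
  rw [psf, map_add, add_div, psi_add]; rfl
theorem psf_zero (B : E) : psf 0 B = 1 := by simp [psf, psi_zero]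
theorem norm_psf (A B : E) : ‖psf A B‖ = 1 := norm_psi _
theorem psf_neg (A B : E) : psf (-A) B = conj (psf A B) := by
  rw [psf, map_neg, neg_div, psi_neg]; rfl
theorem psf_of_dvd {A B : E} (h : B ∣ A) : psf A B = 1 := by
  obtain ⟨t, rfl⟩ := h
  by_cases hB : B = 0
  · simp [hB, psf_zero]
  · rw [psf, map_mul, mul_div_cancel_left₀ _ (toC_ne_zero hB), psi_toC]
theorem psf_congr {A A' B : E} (h : B ∣ A - A') : psf A B = psf A' B := by
  have : A = (A - A') + A' := by ring
  rw [this, psf_add, psf_of_dvd h, one_mul]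
theorem psf_scale {t : E} (ht : t ≠ 0) (A B : E) : psf (t * A) (t * B) = psf A B := by
  rw [psf, map_mul, map_mul, mul_div_mul_left _ _ (toC_ne_zero ht)]; rfl
theorem psf_frac {B B' : E} (hB : B ≠ 0) (hB' : B' ≠ 0) (A A' : E) :
    psf (A * B' + A' * B) (B * B') = psf A B * psf A' B' := by
  rw [psf_add, mul_comm A, mul_comm B B', psf_scale hB', mul_comm A', mul_comm B' B, psf_scale hB]
theorem dvd_of_psf {A B : E} (hB : B ≠ 0) (h : ∀ x, psf (x * A) B = 1) : B ∣ A := by
  have h3 : (√3 : ℝ) ≠ 0 := by positivity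
  obtain ⟨a, b, hab⟩ : ∃ a b : ℝ, toC A / toC B = a + b * omC := by
    refine ⟨(toC A / toC B).re + (toC A / toC B).im / √3, 2 * (toC A / toC B).im / √3, ?_⟩
    apply Complex.ext
    · simp only [omC, add_re, ofReal_re, mul_re, ofReal_im]; ring
    · simp only [omC, add_im, ofReal_re, mul_im, ofReal_im]; field_simp; ring
  have key : ∀ t : ℝ, Complex.exp (2 * Real.pi * I * t) = 1 → ∃ n : ℤ, t = n := fun t ht => by
    obtain ⟨n, hn⟩ := Complex.exp_eq_one_iff.1 ht
    refine ⟨n, ?_⟩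
    have h2 : (2 * Real.pi * I : ℂ) ≠ 0 := Complex.two_pi_I_ne_zero
    have : (t : ℂ) = n := mul_left_cancel₀ h2 (by rw [hn]; ring)
    exact_mod_cast this
  have h1 := h 1
  rw [one_mul, psf, hab, psi_coord] at h1
  have h2 := h om
  rw [psf, map_mul, mul_div_assoc, hab, toC_om, show omC * (a + b * omC) =
    ((-b : ℝ) : ℂ) + ((a - b : ℝ) : ℂ) * omC by push_cast; linear_combination b * omC_sq,
    psi_coord] at h2
  obtain ⟨n, hn⟩ := key _ h1
  obtain ⟨m, hm⟩ := key _ h2
  refine ⟨⟨m + n, n⟩, toC_inj ?_⟩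
  rw [div_eq_iff (toC_ne_zero hB)] at hab
  have ha : a = m + n := by linarith
  rw [map_mul, hab, toC_apply ⟨m + n, n⟩, ha, hn]
  push_cast; ring

theorem Per.mono {a b : E} {f : E → ℂ} (h : Per a f) (hab : a ∣ b) : Per b f := fun x y h1 => h x y (hab.trans h1)
theorem Per.mul {c : E} {f g : E → ℂ} (hf : Per c f) (hg : Per c g) :
    Per c fun x => f x * g x := fun x y h => by simp only [hf x y h, hg x y h]
theorem Per2.mono {a b : E} {F : E → E → ℂ} (h : Per2 a F) (hab : a ∣ b) : Per2 b F := fun x x' y y' h1 h2 =>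
  h x x' y y' (hab.trans h1) (hab.trans h2)
theorem Per2.mul {c : E} {F G : E → E → ℂ} (hF : Per2 c F) (hG : Per2 c G) :
    Per2 c fun x y => F x y * G x y := fun x x' y y' h1 h2 => by
  simp only [hF x x' y y' h1 h2, hG x x' y y' h1 h2]
theorem per_psf (t c : E) : Per c fun x => psf (x * t) c := fun x y h =>
  psf_congr (by rw [← sub_mul]; exact h.mul_right t)

theorem rs_card (c : E) : Nat.card (E ⧸ Ideal.span {c}) = nm c := by
  have h := Ideal.absNorm_span_singleton c
  rw [Ideal.absNorm_apply, Submodule.cardQuot_apply] at h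
  rw [h, nm, ← QuadraticAlgebra.det_toLinearMap_eq_norm, Algebra.norm_apply]
  rfl
theorem rs_mk {c x y : E} : (Ideal.Quotient.mk (Ideal.span {c}) x = Ideal.Quotient.mk _ y) ↔
    c ∣ x - y := by
  rw [Ideal.Quotient.eq, Ideal.mem_span_singleton]
theorem finite_quot {c : E} (hc : c ≠ 0) : Finite (E ⧸ Ideal.span {c}) := Nat.finite_of_card_ne_zero (by rw [rs_card]; exact nm_eq_zero.not.2 hc)
theorem mem_reps {c : E} (hc : c ≠ 0) {r : E} :
    r ∈ reps c ↔ ∃ x : E ⧸ Ideal.span {c}, Quotient.out x = r := by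
  have := finite_quot hc
  rw [reps, dif_pos (Set.finite_range _)]; simp
theorem exists_rep {c : E} (hc : c ≠ 0) (x : E) : ∃ r ∈ reps c, c ∣ x - r := ⟨_, (mem_reps hc).2 ⟨Ideal.Quotient.mk _ x, rfl⟩, rs_mk.1 (Ideal.Quotient.mk_out _).symm⟩
theorem rep_unique {c r r' : E} (hc : c ≠ 0) (hr : r ∈ reps c) (hr' : r' ∈ reps c)
    (h : c ∣ r - r') : r = r' := by
  obtain ⟨x, rfl⟩ := (mem_reps hc).1 hr
  obtain ⟨y, rfl⟩ := (mem_reps hc).1 hr'
  have := rs_mk.2 h
  rw [Ideal.Quotient.mk_out, Ideal.Quotient.mk_out] at this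
  rw [this]
theorem card_reps {c : E} (hc : c ≠ 0) : (reps c).card = nm c := by
  have := finite_quot hc
  have := Fintype.ofFinite (E ⧸ Ideal.span {c})
  have h : reps c = Finset.univ.image fun x : E ⧸ Ideal.span {c} => Quotient.out x := by
    ext r; simp [mem_reps hc]
  rw [h, Finset.card_image_of_injective (f := fun x : E ⧸ Ideal.span {c} => Quotient.out x) _
    fun x y h => Quotient.out_injective h,
    Finset.card_univ, ← rs_card,
    Nat.card_eq_fintype_card]
/-- Any system of representatives computes `rsum`. -/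
theorem rsum_eq_sum {ι : Type*} {c : E} (hc : c ≠ 0) {f : E → ℂ} (hf : Per c f) (s : Finset ι)
    (g : ι → E) (hinj : ∀ i ∈ s, ∀ j ∈ s, c ∣ g i - g j → i = j)
    (hsurj : ∀ x, ∃ i ∈ s, c ∣ x - g i) : rsum c f = ∑ i ∈ s, f (g i) := by
  choose r hr1 hr2 using exists_rep hc
  symm
  refine Finset.sum_bij (fun i _ => r (g i)) (fun i _ => hr1 _) (fun i hi j hj h => ?_)
    (fun x hx => ?_) fun i _ => hf _ _ (hr2 _)
  · refine hinj i hi j hj ?_
    have := dvd_sub (hr2 (g i)) (hr2 (g j))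
    rwa [h, sub_sub_sub_cancel_right] at this
  · obtain ⟨i, hi, h⟩ := hsurj x
    refine ⟨i, hi, (rep_unique hc hx (hr1 _) ?_).symm⟩
    simpa using dvd_add h (hr2 (g i))

theorem rsum_const {c : E} (hc : c ≠ 0) (a : ℂ) : rsum c (fun _ => a) = nm c * a := by
  rw [rsum, Finset.sum_const, card_reps hc, nsmul_eq_mul]
theorem rsum_add (c : E) (f g : E → ℂ) :
    rsum c (fun x => f x + g x) = rsum c f + rsum c g := Finset.sum_add_distrib
theorem rsum_sub (c : E) (f g : E → ℂ) :
    rsum c (fun x => f x - g x) = rsum c f - rsum c g := Finset.sum_sub_distrib _ _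
theorem rsum_mul_left (c : E) (a : ℂ) (f : E → ℂ) :
    rsum c (fun x => a * f x) = a * rsum c f := (Finset.mul_sum _ _ _).symm
theorem rsum_mul_right (c : E) (a : ℂ) (f : E → ℂ) :
    rsum c (fun x => f x * a) = rsum c f * a := (Finset.sum_mul _ _ _).symm
theorem rsum_comm (a b : E) (F : E → E → ℂ) :
    rsum a (fun x => rsum b fun y => F x y) = rsum b fun y => rsum a fun x => F x y := Finset.sum_comm
theorem conj_rsum (c : E) (f : E → ℂ) : conj (rsum c f) = rsum c fun x => conj (f x) := map_sum _ _ _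
theorem norm_rsum_le {c : E} (hc : c ≠ 0) {f : E → ℂ} {M : ℝ} (h : ∀ x, ‖f x‖ ≤ M) :
    ‖rsum c f‖ ≤ nm c * M := by
  refine (norm_sum_le_of_le _ fun x _ => h x).trans ?_
  rw [Finset.sum_const, card_reps hc, nsmul_eq_mul]
theorem norm_rsum2_le {c : E} (hc : c ≠ 0) {F : E → E → ℂ} {M : ℝ} (h : ∀ x y, ‖F x y‖ ≤ M) :
    ‖rsum2 c F‖ ≤ (nm c : ℝ) ^ 2 * M := by
  rw [sq, mul_assoc]
  exact norm_rsum_le hc fun x => norm_rsum_le hc (h x)
theorem rsum_unit {u : E} (hu : IsUnit u) {f : E → ℂ} (hf : Per u f) : rsum u f = f 0 := by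
  rw [rsum_eq_sum hu.ne_zero hf {()} (fun _ => 0) (fun _ _ _ _ _ => rfl)
    fun x => ⟨(), by simp, hu.dvd⟩]
  simp
theorem rs_surj {α : Type*} {s : Finset α} {φ : α → α} (h1 : ∀ x ∈ s, φ x ∈ s)
    (h2 : ∀ x ∈ s, ∀ y ∈ s, φ x = φ y → x = y) : ∀ y ∈ s, ∃ x ∈ s, φ x = y := fun y hy => by
  obtain ⟨x, hx, h⟩ := Finset.surj_on_of_inj_on_of_card_le (fun x _ => φ x) h1
    (fun x y hx hy h => h2 x hx y hy h) le_rfl y hy
  exact ⟨x, hx, h.symm⟩
theorem rsum_bij {c : E} (hc : c ≠ 0) {f : E → ℂ} (hf : Per c f) (g : E → E)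
    (hg : ∀ x y, c ∣ g x - g y → c ∣ x - y) : rsum c (fun x => f (g x)) = rsum c f := by
  choose r hr1 hr2 using exists_rep hc
  have hr : ∀ x y, r x = r y → c ∣ x - y := fun x y h => by
    have := dvd_sub (hr2 x) (hr2 y)
    rwa [h, sub_sub_sub_cancel_right] at this
  refine (rsum_eq_sum hc hf (reps c) g (fun i hi j hj h => rep_unique hc hi hj (hg _ _ h))
    fun x => ?_).symm
  obtain ⟨i, hi, h⟩ := rs_surj (φ := fun x => r (g x)) (fun x _ => hr1 _)
    (fun i hi j hj h => rep_unique hc hi hj (hg _ _ (hr _ _ h))) (r x) (hr1 x)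
  exact ⟨i, hi, hr _ _ h.symm⟩
theorem rsum2_bij {c : E} (hc : c ≠ 0) {F : E → E → ℂ} (hF : Per2 c F) (g h : E → E → E)
    (hg : ∀ x y x' y', c ∣ g x y - g x' y' → c ∣ h x y - h x' y' → c ∣ x - x' ∧ c ∣ y - y') :
    rsum2 c (fun x y => F (g x y) (h x y)) = rsum2 c F := by
  choose r hr1 hr2 using exists_rep hc
  have hr : ∀ x y, r x = r y → c ∣ x - y := fun x y h => by
    have := dvd_sub (hr2 x) (hr2 y)
    rwa [h, sub_sub_sub_cancel_right] at this
  simp only [rsum2, rsum, ← Finset.sum_product']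
  have h1 : ∀ z ∈ reps c ×ˢ reps c, (r (g z.1 z.2), r (h z.1 z.2)) ∈ reps c ×ˢ reps c :=
    fun z _ => Finset.mem_product.2 ⟨hr1 _, hr1 _⟩
  have h2 : ∀ z ∈ reps c ×ˢ reps c, ∀ w ∈ reps c ×ˢ reps c,
      (r (g z.1 z.2), r (h z.1 z.2)) = (r (g w.1 w.2), r (h w.1 w.2)) → z = w := by
    intro z hz w hw e
    rw [Finset.mem_product] at hz hw
    obtain ⟨e1, e2⟩ := Prod.ext_iff.1 e
    obtain ⟨a1, a2⟩ := hg _ _ _ _ (hr _ _ e1) (hr _ _ e2)
    exact Prod.ext (rep_unique hc hz.1 hw.1 a1) (rep_unique hc hz.2 hw.2 a2)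
  refine Finset.sum_bij (fun z _ => (r (g z.1 z.2), r (h z.1 z.2))) h1
    (fun z hz w hw e => h2 z hz w hw e) (fun y hy => ?_) fun z _ => hF _ _ _ _ (hr2 _) (hr2 _)
  obtain ⟨z, hz, e⟩ := rs_surj h1 h2 y hy
  exact ⟨z, hz, e⟩
theorem rsum_shift {c : E} (hc : c ≠ 0) {f : E → ℂ} (hf : Per c f) (a : E) :
    rsum c (fun x => f (x + a)) = rsum c f := rsum_bij hc hf (fun x => x + a) fun x y h => by
  rwa [add_sub_add_right_eq_sub] at h
theorem rsum_mul_unit {c u : E} (hc : c ≠ 0) {f : E → ℂ} (hf : Per c f) (hu : IsCoprime u c) :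
    rsum c (fun x => f (u * x)) = rsum c f := rsum_bij hc hf (fun x => u * x) fun x y h => by
  rw [← mul_sub] at h
  exact hu.symm.dvd_of_dvd_mul_left h
theorem rsum_assoc {c c' : E} (h : Associated c c') (f : E → ℂ) : rsum c f = rsum c' f := by
  rw [rsum, rsum, reps, reps, Ideal.span_singleton_eq_span_singleton.2 h]
theorem rsum_mul {a b : E} (ha : a ≠ 0) (hb : b ≠ 0) {f : E → ℂ} (hf : Per (a * b) f) :
    rsum (a * b) f = rsum a fun x => rsum b fun y => f (x + a * y) := by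
  rw [rsum_eq_sum (mul_ne_zero ha hb) hf (reps a ×ˢ reps b) (fun z => z.1 + a * z.2) ?_ ?_,
    Finset.sum_product]
  · rfl
  · intro z hz w hw h
    rw [Finset.mem_product] at hz hw
    have h1 : z.1 = w.1 := rep_unique ha hz.1 hw.1 (by
      have := dvd_sub ((dvd_mul_right a b).trans h) (dvd_mul_right a (z.2 - w.2))
      rwa [show z.1 + a * z.2 - (w.1 + a * w.2) - a * (z.2 - w.2) = z.1 - w.1 by ring] at this)
    rw [h1, add_sub_add_left_eq_sub, ← mul_sub, mul_dvd_mul_iff_left ha] at h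
    exact Prod.ext h1 (rep_unique hb hz.2 hw.2 h)
  · intro x
    obtain ⟨r, hr, t, ht⟩ := exists_rep ha x
    obtain ⟨s, hs, u, hu⟩ := exists_rep hb t
    exact ⟨(r, s), Finset.mem_product.2 ⟨hr, hs⟩, u, by linear_combination ht + a * hu⟩
theorem rsum_of_per {a b : E} (ha : a ≠ 0) (hb : b ≠ 0) {f : E → ℂ} (hf : Per a f) :
    rsum (a * b) f = nm b * rsum a f := by
  rw [rsum_mul ha hb (hf.mono (dvd_mul_right a b)), ← rsum_mul_left]
  refine Finset.sum_congr rfl fun x _ => ?_
  beta_reduce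
  rw [← rsum_const hb]
  exact Finset.sum_congr rfl fun y _ => hf _ _ (by simp)
theorem rsum2_of_per {a b : E} (ha : a ≠ 0) (hb : b ≠ 0) {F : E → E → ℂ} (hF : Per2 a F) :
    rsum2 (a * b) F = (nm b : ℂ) ^ 2 * rsum2 a F := by
  have h1 : ∀ x, rsum (a * b) (fun y => F x y) = nm b * rsum a fun y => F x y := fun x =>
    rsum_of_per ha hb fun y y' h => hF x x y y' (by simp) h
  simp only [rsum2, h1, rsum_mul_left]
  rw [rsum_of_per (f := fun x => rsum a fun y => F x y) ha hb fun x x' h =>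
    Finset.sum_congr rfl fun y _ => hF x x' y y h (by simp)]
  ring
theorem rsum_eq_sum_single {c : E} (hc : c ≠ 0) (a : E) {f : E → ℂ} (hf : Per c f)
    (h0 : ∀ x, ¬ c ∣ x - a → f x = 0) : rsum c f = f a := by
  obtain ⟨r, hr, h⟩ := exists_rep hc a
  rw [rsum, Finset.sum_eq_single_of_mem r hr fun x hx hxr => h0 x fun h1 =>
    hxr (rep_unique hc hx hr (by simpa using dvd_add h1 h)), hf _ _ h]
theorem rsum_supp {a b : E} (ha : a ≠ 0) (hb : b ≠ 0) {f : E → ℂ} (hf : Per (a * b) f)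
    (h0 : ∀ x, ¬ a ∣ x → f x = 0) : rsum (a * b) f = rsum b fun y => f (a * y) := by
  rw [rsum_mul ha hb hf, rsum_eq_sum_single ha 0]
  · simp
  · intro x y h
    obtain ⟨t, ht⟩ := h
    beta_reduce
    rw [← rsum_shift hb (f := fun z => f (y + a * z)) (fun z w h => hf _ _ (by
      rw [add_sub_add_left_eq_sub, ← mul_sub]; exact mul_dvd_mul_left a h)) t]
    exact Finset.sum_congr rfl fun z _ => congrArg f (by linear_combination ht)
  · intro x hx
    rw [sub_zero] at hx
    exact Finset.sum_eq_zero fun y _ => h0 _ fun h =>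
      hx ((dvd_add_left (dvd_mul_right a y)).1 h)
theorem rsum_single {c : E} (hc : c ≠ 0) {f : E → ℂ} (hf : Per c f) (a : E)
    (h0 : ∀ x, ¬ c ∣ x - a → f x = 0) : rsum c f = f a := rsum_eq_sum_single hc a hf h0
theorem rsum_crt {a b : E} (ha : a ≠ 0) (hb : b ≠ 0) (hab : IsCoprime a b) {f g : E → ℂ}
    (hf : Per a f) (hg : Per b g) :
    rsum (a * b) (fun x => f x * g x) = rsum a f * rsum b g := by
  rw [rsum_mul ha hb ((hf.mono (dvd_mul_right a b)).mul (hg.mono (dvd_mul_left b a))),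
    ← rsum_mul_right]
  refine Finset.sum_congr rfl fun x _ => ?_
  rw [← rsum_bij hb hg (fun y => x + a * y) fun y z h => by
    rw [add_sub_add_left_eq_sub, ← mul_sub] at h
    exact hab.symm.dvd_of_dvd_mul_left h]
  beta_reduce
  rw [← rsum_mul_left]
  exact Finset.sum_congr rfl fun y _ => by beta_reduce; rw [hf (x + a * y) x (by simp)]
theorem rsum2_crt {a b : E} (ha : a ≠ 0) (hb : b ≠ 0) (hab : IsCoprime a b) {F G : E → E → ℂ}
    (hF : Per2 a F) (hG : Per2 b G) :
    rsum2 (a * b) (fun x y => F x y * G x y) = rsum2 a F * rsum2 b G := by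
  have h1 : ∀ x, rsum (a * b) (fun y => F x y * G x y) =
      (rsum a fun y => F x y) * rsum b fun y => G x y := fun x =>
    rsum_crt ha hb hab (fun y y' h => hF x x y y' (by simp) h)
      fun y y' h => hG x x y y' (by simp) h
  simp only [rsum2, h1]
  exact rsum_crt ha hb hab
    (fun x x' h => Finset.sum_congr rfl fun y _ => hF x x' y y h (by simp))
    fun x x' h => Finset.sum_congr rfl fun y _ => hG x x' y y h (by simp)
theorem rsum_crt_prod {ι : Type*} (s : Finset ι) (m : ι → E) (hm : ∀ i ∈ s, m i ≠ 0)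
    (hc : ∀ i ∈ s, ∀ j ∈ s, i ≠ j → IsCoprime (m i) (m j)) (f : ι → E → ℂ)
    (hf : ∀ i ∈ s, Per (m i) (f i)) :
    rsum (∏ i ∈ s, m i) (fun x => ∏ i ∈ s, f i x) = ∏ i ∈ s, rsum (m i) (f i) := by
  induction s using Finset.induction_on with
  | empty => simp only [Finset.prod_empty]; exact rsum_unit isUnit_one fun _ _ _ => rfl
  | insert a s ha ih =>
    have m1 : ∀ i ∈ s, i ∈ insert a s := fun i hi => Finset.mem_insert_of_mem hi
    simp only [Finset.prod_insert ha]
    rw [rsum_crt (hm a (Finset.mem_insert_self a s)) (Finset.prod_ne_zero_iff.2 fun i hi =>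
      hm i (m1 i hi)) (IsCoprime.prod_right fun i hi => hc a (Finset.mem_insert_self a s) i
        (m1 i hi) fun h => ha (h ▸ hi)) (hf a (Finset.mem_insert_self a s))
      (fun x y h => Finset.prod_congr rfl fun i hi =>
        hf i (m1 i hi) x y ((Finset.dvd_prod_of_mem m hi).trans h)),
      ih (fun i hi => hm i (m1 i hi)) (fun i hi j hj => hc i (m1 i hi) j (m1 j hj))
        fun i hi => hf i (m1 i hi)]
theorem rsum2_crt_prod {ι : Type*} (s : Finset ι) (m : ι → E) (hm : ∀ i ∈ s, m i ≠ 0)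
    (hc : ∀ i ∈ s, ∀ j ∈ s, i ≠ j → IsCoprime (m i) (m j)) (F : ι → E → E → ℂ)
    (hF : ∀ i ∈ s, Per2 (m i) (F i)) :
    rsum2 (∏ i ∈ s, m i) (fun x y => ∏ i ∈ s, F i x y) = ∏ i ∈ s, rsum2 (m i) (F i) := by
  induction s using Finset.induction_on with
  | empty =>
    simp only [Finset.prod_empty, rsum2]
    rw [rsum_unit isUnit_one fun _ _ _ => rfl, rsum_unit isUnit_one fun _ _ _ => rfl]
  | insert a s ha ih =>
    have m1 : ∀ i ∈ s, i ∈ insert a s := fun i hi => Finset.mem_insert_of_mem hi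
    simp only [Finset.prod_insert ha]
    rw [rsum2_crt (hm a (Finset.mem_insert_self a s)) (Finset.prod_ne_zero_iff.2 fun i hi =>
      hm i (m1 i hi)) (IsCoprime.prod_right fun i hi => hc a (Finset.mem_insert_self a s) i
        (m1 i hi) fun h => ha (h ▸ hi)) (hF a (Finset.mem_insert_self a s))
      (fun x x' y y' h h' => Finset.prod_congr rfl fun i hi =>
        hF i (m1 i hi) x x' y y' ((Finset.dvd_prod_of_mem m hi).trans h)
          ((Finset.dvd_prod_of_mem m hi).trans h')),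
      ih (fun i hi => hm i (m1 i hi)) (fun i hi j hj => hc i (m1 i hi) j (m1 j hj))
        fun i hi => hF i (m1 i hi)]
theorem rsum_psf {c : E} (hc : c ≠ 0) (t : E) :
    rsum c (fun x => psf (x * t) c) = if c ∣ t then (nm c : ℂ) else 0 := by
  split_ifs with h
  · rw [← mul_one (nm c : ℂ), ← rsum_const hc]
    exact Finset.sum_congr rfl fun x _ => psf_of_dvd (h.mul_left x)
  · obtain ⟨x, hx⟩ := not_forall.1 (mt (dvd_of_psf hc) h)
    have h1 := rsum_shift hc (per_psf t c) x
    simp only [add_mul, psf_add, rsum_mul_right] at h1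
    exact (mul_right_eq_self₀.1 h1).resolve_left hx
theorem fourier_inv {c : E} (hc : c ≠ 0) {f : E → ℂ} (hf : Per c f) (x : E) :
    (nm c : ℂ) * f x = rsum c fun u => rsum c (fun y => f y * psf (-(y * u)) c) * psf (x * u) c :=
  by
  have h1 : ∀ u, rsum c (fun y => f y * psf (-(y * u)) c) * psf (x * u) c =
      rsum c fun y => f y * psf (u * (x - y)) c := fun u => by
    rw [← rsum_mul_right]
    refine Finset.sum_congr rfl fun y _ => ?_
    beta_reduce
    rw [mul_assoc, ← psf_add]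
    congr 2; ring
  simp only [h1]
  rw [rsum_comm]
  simp only [rsum_mul_left, rsum_psf hc]
  rw [rsum_single hc (f := fun y => f y * if c ∣ x - y then (nm c : ℂ) else 0) ?_ x ?_]
  · simp [mul_comm]
  · intro y z h
    have : c ∣ x - y ↔ c ∣ x - z := by
      rw [show x - z = x - y + (y - z) by ring]; exact (dvd_add_left h).symm
    simp only [hf y z h, this]
  · intro y hy
    simp only [if_neg fun h => hy (dvd_sub_comm.1 h), mul_zero]
theorem parseval {c : E} (hc : c ≠ 0) (f : E → ℂ) :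
    ∑ u ∈ reps c, ‖rsum c fun y => f y * psf (y * u) c‖ ^ 2
      = nm c * ∑ y ∈ reps c, ‖f y‖ ^ 2 := by
  have h1 : ∀ u, ((‖rsum c fun y => f y * psf (y * u) c‖ : ℂ)) ^ 2 =
      rsum c fun y => rsum c fun z => f y * conj (f z) * psf (u * (y - z)) c := fun u => by
    rw [← Complex.mul_conj', conj_rsum, ← rsum_mul_right]
    refine Finset.sum_congr rfl fun y _ => ?_
    beta_reduce
    rw [← rsum_mul_left]
    refine Finset.sum_congr rfl fun z _ => ?_
    beta_reduce
    rw [map_mul, ← psf_neg, show u * (y - z) = y * u + -(z * u) by ring, psf_add]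
    ring
  have h2 : rsum c (fun u => ((‖rsum c fun y => f y * psf (y * u) c‖ : ℂ)) ^ 2) =
      nm c * rsum c fun y => ((‖f y‖ : ℂ)) ^ 2 := by
    simp only [h1]
    rw [rsum_comm, ← rsum_mul_left]
    refine Finset.sum_congr rfl fun y hy => ?_
    beta_reduce
    rw [rsum_comm]
    simp only [rsum_mul_left, rsum_psf hc]
    rw [rsum, Finset.sum_eq_single_of_mem y hy fun z hz hzy => by
      rw [if_neg fun h => hzy (rep_unique hc hy hz h).symm, mul_zero], Complex.mul_conj']
    simp [mul_comm]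
  simp only [rsum] at h2 ⊢
  exact_mod_cast h2
theorem tsum_split {c : E} (hc : c ≠ 0) {F : E → ℂ} (hF : Summable F) :
    ∑' x, F x = ∑ r ∈ reps c, ∑' y, F (r + c * y) := by
  let g : reps c × E → E := fun z => z.1 + c * z.2
  have hg : Function.Bijective g := by
    refine ⟨fun z w h => ?_, fun x => ?_⟩
    · have h1 : z.1 = w.1 := Subtype.ext (rep_unique hc z.1.2 w.1.2
        ⟨w.2 - z.2, by simp only [g] at h; linear_combination h⟩)
      simp only [g, h1, add_right_inj] at h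
      exact Prod.ext h1 (mul_left_cancel₀ hc h)
    · obtain ⟨r, hr, t, ht⟩ := exists_rep hc x
      exact ⟨(⟨r, hr⟩, t), by simp only [g]; linear_combination -ht⟩
  have h1 : Summable fun z => F (Equiv.ofBijective g hg z) :=
    (Equiv.ofBijective g hg).summable_iff.2 hF
  rw [← (Equiv.ofBijective g hg).tsum_eq, Summable.tsum_prod h1, tsum_fintype,
    ← Finset.sum_coe_sort (reps c)]
  rfl
theorem tsum_supp {c : E} (hc : c ≠ 0) {F : E → ℂ} (h0 : ∀ x, ¬ c ∣ x → F x = 0) :
    ∑' x, F x = ∑' y, F (c * y) := by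
  refine ((mul_right_injective₀ hc).tsum_eq fun x hx => ?_).symm
  by_contra h
  exact hx (h0 x fun ⟨t, ht⟩ => h ⟨t, ht.symm⟩)

end QRH
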