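import Vale.Agent.P026.Eis2

noncomputable section
namespace QRH
open Complex MeasureTheory
open scoped ComplexConjugate Classical

theorem cnt_inj : Function.Injective fun x : E => (x.re, x.im) := fun _ _ h =>
  QuadraticAlgebra.ext (congrArg Prod.fst h) (congrArg Prod.snd h)

theorem cnt_coord {R : ℝ} {a : ℤ} (h : 3 * (a : ℝ) ^ 2 ≤ 4 * R) :
    a ∈ Finset.Icc (-(Nat.sqrt ⌊4 * R / 3⌋₊ : ℤ)) (Nat.sqrt ⌊4 * R / 3⌋₊) := by
  have h1 : a.natAbs ^ 2 ≤ ⌊4 * R / 3⌋₊ := by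
    refine Nat.le_floor ?_
    have : ((a.natAbs : ℕ) : ℝ) = |(a : ℝ)| := by rw [Nat.cast_natAbs, Int.cast_abs]
    rw [Nat.cast_pow, this, sq_abs]
    linarith
  have h2 := Nat.le_sqrt'.2 h1
  rw [Finset.mem_Icc]
  omega

theorem card_ball_le {R : ℝ} (hR : 0 ≤ R) : ((ball R).card : ℝ) ≤ 12 * R := by
  rcases lt_or_ge R 1 with h | h
  · rw [ball_eq_empty h, Finset.card_empty, Nat.cast_zero]
    positivity
  set m := Nat.sqrt ⌊4 * R / 3⌋₊ with hm
  have h1 : (ball R).card ≤ (Finset.Icc (-(m : ℤ)) m ×ˢ Finset.Icc (-(m : ℤ)) m).card := by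
    refine Finset.card_le_card_of_injOn (fun x : E => (x.re, x.im)) (fun x hx => ?_) cnt_inj.injOn
    have h2 := (mem_ball.1 hx).2
    have h3 : (nm x : ℝ) = (x.re : ℝ) ^ 2 - x.re * x.im + (x.im : ℝ) ^ 2 := by
      exact_mod_cast nm_int x
    refine Finset.mem_coe.2 (Finset.mem_product.2 ⟨cnt_coord ?_, cnt_coord ?_⟩)
    · nlinarith [sq_nonneg ((x.re : ℝ) - 2 * x.im)]
    · nlinarith [sq_nonneg (2 * (x.re : ℝ) - x.im)]
  have h4 : (Finset.Icc (-(m : ℤ)) m).card = 2 * m + 1 := by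
    rw [Int.card_Icc]
    omega
  rw [Finset.card_product, h4] at h1
  have h5 : (m : ℝ) * m ≤ 4 * R / 3 := by
    have : m * m ≤ ⌊4 * R / 3⌋₊ := Nat.sqrt_le _
    exact le_trans (by exact_mod_cast this) (Nat.floor_le (by positivity))
  have h6 : (m : ℝ) ≤ m * m := by exact_mod_cast Nat.le_mul_self m
  have h7 : ((ball R).card : ℝ) ≤ (2 * m + 1) * (2 * m + 1) := by exact_mod_cast h1
  nlinarith

theorem card_ball_ge {R : ℝ} (hR : 1 ≤ R) : R / 4 ≤ (ball R).card := by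
  set m := Nat.sqrt ⌊R⌋₊ with hm
  have h0 : 1 ≤ m := Nat.le_sqrt'.2 (Nat.le_floor (by simpa using hR))
  have h5 : (m : ℝ) * m ≤ R := by
    have : m * m ≤ ⌊R⌋₊ := Nat.sqrt_le _
    exact le_trans (by exact_mod_cast this) (Nat.floor_le (by positivity))
  have h6 : R < (m + 1 : ℝ) * (m + 1) := by
    have : ⌊R⌋₊ + 1 ≤ (m + 1) * (m + 1) := Nat.lt_succ_sqrt _
    exact lt_of_lt_of_le (Nat.lt_floor_add_one R) (by exact_mod_cast this)
  have h1 : (Finset.Icc (1 : ℤ) m ×ˢ Finset.Icc (1 : ℤ) m).card ≤ (ball R).card := by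
    refine Finset.card_le_card_of_injOn (fun p : ℤ × ℤ => (⟨p.1, p.2⟩ : E)) (fun p hp => ?_)
      fun p _ q _ h => Prod.ext (congrArg QuadraticAlgebra.re h) (congrArg QuadraticAlgebra.im h)
    obtain ⟨a1, a2⟩ := Finset.mem_product.1 (Finset.mem_coe.1 hp)
    rw [Finset.mem_Icc] at a1 a2
    refine Finset.mem_coe.2 (mem_ball.2 ⟨fun h => ?_, le_trans ?_ h5⟩)
    · have : p.1 = 0 := congrArg QuadraticAlgebra.re h
      omega
    · have h3 : (nm (⟨p.1, p.2⟩ : E) : ℤ) = p.1 ^ 2 - p.1 * p.2 + p.2 ^ 2 := nm_int _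
      have h4 : (nm (⟨p.1, p.2⟩ : E) : ℤ) ≤ m * m := by
        rw [h3]
        rcases le_total p.1 p.2 with h | h <;> nlinarith [a1.1, a1.2, a2.1, a2.2]
      exact_mod_cast h4
  have h4 : (Finset.Icc (1 : ℤ) m).card = m := by
    rw [Int.card_Icc]
    omega
  rw [Finset.card_product, h4] at h1
  have h7 : (m : ℝ) * m ≤ (ball R).card := by exact_mod_cast h1
  have h8 : (1 : ℝ) ≤ m := by exact_mod_cast h0
  nlinarith

theorem cnt_sqf {R : ℝ} (g : E → ℝ) (hg : ∀ x, 0 ≤ g x) :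
    ∑ s ∈ sqf R, g (pr s) ≤ ∑ x ∈ ball R, g x := by
  rw [← Finset.sum_image (f := g) pr_inj.injOn]
  refine Finset.sum_le_sum_of_subset_of_nonneg (fun x hx => ?_) fun x _ _ => hg x
  obtain ⟨s, hs, rfl⟩ := Finset.mem_image.1 hx
  exact mem_ball.2 ⟨pr_ne_zero s, mem_sqf.1 hs⟩

theorem card_sqf_le {R : ℝ} (hR : 0 ≤ R) : ((sqf R).card : ℝ) ≤ 12 * R := by
  have := cnt_sqf (R := R) (fun _ => 1) fun _ => zero_le_one
  simp only [Finset.sum_const, nsmul_eq_mul, mul_one] at this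
  exact this.trans (card_ball_le hR)

theorem card_units : ∀ T : Finset E, (∀ u ∈ T, IsUnit u) → T.card ≤ 6 := by
  intro T hT
  have h1 : T ⊆ (Finset.range 3).image (fun j => om ^ j) ∪
      (Finset.range 3).image (fun j => -om ^ j) := by
    intro u hu
    obtain ⟨j, hj, h | h⟩ := isUnit_cases (hT u hu)
    · exact Finset.mem_union_left _ (Finset.mem_image.2 ⟨j, Finset.mem_range.2 hj, h.symm⟩)
    · exact Finset.mem_union_right _ (Finset.mem_image.2 ⟨j, Finset.mem_range.2 hj, h.symm⟩)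
  refine (Finset.card_le_card h1).trans ((Finset.card_union_le _ _).trans ?_)
  have a1 := Finset.card_image_le (s := Finset.range 3) (f := fun j => om ^ j)
  have a2 := Finset.card_image_le (s := Finset.range 3) (f := fun j => -om ^ j)
  rw [Finset.card_range] at a1 a2
  omega

theorem cnt_shell {T : Finset E} {R M : ℝ} (hR : 0 ≤ R) (hM : 0 ≤ M) (f : E → ℝ)
    (hT : T ⊆ ball R) (hf : ∀ x ∈ T, f x ≤ M) : ∑ x ∈ T, f x ≤ 12 * R * M := by
  refine (Finset.sum_le_card_nsmul _ _ _ hf).trans ?_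
  rw [nsmul_eq_mul]
  refine mul_le_mul_of_nonneg_right (le_trans ?_ (card_ball_le hR)) hM
  exact_mod_cast Finset.card_le_card hT

/-- Power sums over a ball. -/
theorem sum_ball_rpow {θ : ℝ} (hθ : -1 < θ) : ∃ C : ℝ, 0 < C ∧ ∀ R : ℝ, 0 ≤ R →
    ∑ x ∈ ball R, (nm x : ℝ) ^ θ ≤ C * R ^ (1 + θ) := by
  set q : ℝ := (1 / 2) ^ (1 + θ) with hq
  have hq1 : q < 1 := Real.rpow_lt_one (by norm_num) (by norm_num) (by linarith)
  have hC : 0 < 24 / (1 - q) := div_pos (by norm_num) (by linarith)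
  have key : ∀ n : ℕ, ∀ R : ℝ, 0 ≤ R → R < 2 ^ n →
      ∑ x ∈ ball R, (nm x : ℝ) ^ θ ≤ 24 / (1 - q) * R ^ (1 + θ) := by
    intro n
    induction n with
    | zero =>
      intro R h0 h1
      rw [ball_eq_empty (by simpa using h1), Finset.sum_empty]
      positivity
    | succ n ih =>
      intro R h0 h1
      rcases h0.eq_or_lt with rfl | h0'
      · rw [ball_eq_empty (by norm_num), Finset.sum_empty]
        positivity
      have a1 := ih (R / 2) (by positivity) (by rw [pow_succ] at h1; linarith)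
      have a2 : ball (R / 2) ⊆ ball R := ball_mono (by linarith)
      rw [← Finset.sum_sdiff a2]
      have a3 : ∑ x ∈ ball R \ ball (R / 2), (nm x : ℝ) ^ θ ≤ 12 * R * (2 * R ^ θ) := by
        refine cnt_shell h0 (by positivity) _ Finset.sdiff_subset fun x hx => ?_
        obtain ⟨b1, b2⟩ := Finset.mem_sdiff.1 hx
        obtain ⟨b3, b4⟩ := mem_ball.1 b1
        have b5 : R / 2 ≤ nm x := le_of_lt (lt_of_not_ge fun h => b2 (mem_ball.2 ⟨b3, h⟩))
        have b6 : (0 : ℝ) < nm x := by linarith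
        have b7 : (nm x : ℝ) ^ (θ + 1) ≤ R ^ (θ + 1) := Real.rpow_le_rpow b6.le b4 (by linarith)
        rw [Real.rpow_add_one b6.ne', Real.rpow_add_one h0'.ne'] at b7
        have b8 : 0 < R ^ θ := Real.rpow_pos_of_pos h0' θ
        refine le_of_mul_le_mul_right (b7.trans ?_) b6
        nlinarith
      have a4 : (R / 2) ^ (1 + θ) = R ^ (1 + θ) * q := by
        rw [hq, ← Real.mul_rpow h0 (by norm_num), mul_one_div]
      have a5 : R ^ (1 + θ) = R * R ^ θ := by rw [Real.rpow_add h0', Real.rpow_one]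
      have a6 : 24 / (1 - q) * (1 - q) = 24 := div_mul_cancel₀ _ (by linarith)
      rw [a4] at a1
      have a7 : 24 / (1 - q) * R ^ (1 + θ) =
          24 * R ^ (1 + θ) + 24 / (1 - q) * (R ^ (1 + θ) * q) := by
        linear_combination R ^ (1 + θ) * a6
      rw [a7]
      rw [a5] at a1 ⊢
      linarith
  refine ⟨_, hC, fun R hR => ?_⟩
  obtain ⟨n, hn⟩ := pow_unbounded_of_one_lt R (one_lt_two (α := ℝ))
  exact key n R hR hn

theorem sum_ball_inv {ε : ℝ} (hε : 0 < ε) : ∃ C : ℝ, 0 < C ∧ ∀ R : ℝ, 0 ≤ R →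
    ∑ x ∈ ball R, (nm x : ℝ)⁻¹ ≤ C * R ^ ε := by
  obtain ⟨C, hC, h⟩ := sum_ball_rpow (θ := ε - 1) (by linarith)
  refine ⟨C, hC, fun R hR => ?_⟩
  have := h R hR
  rw [add_sub_cancel] at this
  refine le_trans (Finset.sum_le_sum fun x hx => ?_) this
  rw [← Real.rpow_neg_one]
  exact Real.rpow_le_rpow_of_exponent_le (one_le_nmR (mem_ball.1 hx).1) (by linarith)

theorem sum_sqf_rpow {θ : ℝ} (hθ : -1 < θ) : ∃ C : ℝ, 0 < C ∧ ∀ R : ℝ, 0 ≤ R →
    ∑ s ∈ sqf R, Ns s ^ θ ≤ C * R ^ (1 + θ) := by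
  obtain ⟨C, hC, h⟩ := sum_ball_rpow hθ
  exact ⟨C, hC, fun R hR =>
    (cnt_sqf (fun x => (nm x : ℝ) ^ θ) fun x => by positivity).trans (h R hR)⟩

theorem sum_sqf_inv {ε : ℝ} (hε : 0 < ε) : ∃ C : ℝ, 0 < C ∧ ∀ R : ℝ, 0 ≤ R →
    ∑ s ∈ sqf R, (Ns s)⁻¹ ≤ C * R ^ ε := by
  obtain ⟨C, hC, h⟩ := sum_ball_inv hε
  exact ⟨C, hC, fun R hR =>
    (cnt_sqf (fun x => (nm x : ℝ)⁻¹) fun x => by positivity).trans (h R hR)⟩

theorem cnt_tail {σ : ℝ} (hσ : 1 < σ) : ∃ C : ℝ, 0 < C ∧ ∀ R : ℝ, 0 < R →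
    ∀ T : Finset E, (∀ x ∈ T, R ≤ nm x) → ∑ x ∈ T, (nm x : ℝ) ^ (-σ) ≤ C * R ^ (1 - σ) := by
  set q : ℝ := 2 ^ (1 - σ) with hq
  have hq1 : q < 1 := Real.rpow_lt_one_of_one_lt_of_neg (by norm_num) (by linarith)
  have hC : 0 < 24 / (1 - q) := div_pos (by norm_num) (by linarith)
  have key : ∀ n : ℕ, ∀ R : ℝ, 0 < R → ∀ T : Finset E, (∀ x ∈ T, R ≤ nm x) →
      (∀ x ∈ T, (nm x : ℝ) < R * 2 ^ n) →
      ∑ x ∈ T, (nm x : ℝ) ^ (-σ) ≤ 24 / (1 - q) * R ^ (1 - σ) := by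
    intro n
    induction n with
    | zero =>
      intro R h0 T h1 h2
      rw [Finset.eq_empty_of_forall_notMem (s := T) fun x hx => by
        linarith [h1 x hx, h2 x hx], Finset.sum_empty]
      positivity
    | succ n ih =>
      intro R h0 T h1 h2
      rw [← Finset.sum_filter_add_sum_filter_not T fun x => 2 * R ≤ (nm x : ℝ)]
      have a1 := ih (2 * R) (by positivity) (T.filter fun x => 2 * R ≤ (nm x : ℝ))
        (fun x hx => (Finset.mem_filter.1 hx).2) fun x hx => by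
          have := h2 x (Finset.mem_filter.1 hx).1
          rw [pow_succ] at this
          linarith
      have a3 : ∑ x ∈ T.filter fun x => ¬ 2 * R ≤ (nm x : ℝ), (nm x : ℝ) ^ (-σ) ≤
          12 * (2 * R) * R ^ (-σ) := by
        refine cnt_shell (by positivity) (by positivity) _ (fun x hx => ?_) fun x hx => ?_
        · obtain ⟨b1, b2⟩ := Finset.mem_filter.1 hx
          refine mem_ball.2 ⟨fun h => ?_, le_of_lt (lt_of_not_ge b2)⟩
          have := h1 x b1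
          rw [h, nm_zero, Nat.cast_zero] at this
          linarith
        · exact Real.rpow_le_rpow_of_nonpos h0 (h1 x (Finset.mem_filter.1 hx).1) (by linarith)
      have a4 : (2 * R) ^ (1 - σ) = q * R ^ (1 - σ) := Real.mul_rpow (by norm_num) h0.le
      have a5 : R ^ (1 - σ) = R * R ^ (-σ) := by
        rw [sub_eq_add_neg, Real.rpow_add h0, Real.rpow_one]
      have a6 : 24 / (1 - q) * (1 - q) = 24 := div_mul_cancel₀ _ (by linarith)
      rw [a4] at a1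
      have a7 : 24 / (1 - q) * R ^ (1 - σ) =
          24 * R ^ (1 - σ) + 24 / (1 - q) * (q * R ^ (1 - σ)) := by
        linear_combination R ^ (1 - σ) * a6
      rw [a7]
      rw [a5] at a1 ⊢
      linarith
  refine ⟨_, hC, fun R hR T hT => ?_⟩
  obtain ⟨n, hn⟩ := pow_unbounded_of_one_lt ((∑ x ∈ T, (nm x : ℝ)) / R) (one_lt_two (α := ℝ))
  refine key n R hR T hT fun x hx => ?_
  rw [div_lt_iff₀ hR, mul_comm] at hn
  exact (Finset.single_le_sum (f := fun x => (nm x : ℝ)) (fun _ _ => Nat.cast_nonneg _) hx).trans_lt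
    hn

/-- Lattice sums of a function with a power singularity and power decay at scale `R`. -/
theorem cnt_split {θ σ : ℝ} (hθ : -1 < θ) (hσ : 1 < σ) : ∃ C : ℝ, 0 < C ∧ ∀ R : ℝ, 0 < R →
    ∀ f : E → ℝ, (∀ x, 0 ≤ f x) → (∀ x, x ≠ 0 → (nm x : ℝ) ≤ R → f x ≤ (nm x / R) ^ θ) →
    (∀ x, R ≤ nm x → f x ≤ (nm x / R) ^ (-σ)) → Summable f ∧ ∑' x, f x ≤ f 0 + C * R := by
  obtain ⟨C, hC, h1⟩ := sum_ball_rpow hθ
  obtain ⟨D, hD, h2⟩ := cnt_tail hσ
  refine ⟨C + D, by positivity, fun R hR f f0 f1 f2 => ?_⟩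
  have key : ∀ T : Finset E, ∑ x ∈ T, f x ≤ f 0 + (C + D) * R := by
    intro T
    rw [← Finset.sum_filter_add_sum_filter_not T fun x => R ≤ (nm x : ℝ)]
    have a1 : ∑ x ∈ T.filter fun x => R ≤ (nm x : ℝ), f x ≤ D * R := by
      refine (Finset.sum_le_sum fun x hx => f2 x (Finset.mem_filter.1 hx).2).trans ?_
      simp only [Real.div_rpow (Nat.cast_nonneg _) hR.le, ← Finset.sum_div]
      rw [div_le_iff₀ (Real.rpow_pos_of_pos hR _)]
      refine (h2 R hR _ fun x hx => (Finset.mem_filter.1 hx).2).trans (le_of_eq ?_)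
      rw [sub_eq_add_neg, Real.rpow_add hR, Real.rpow_one, mul_assoc]
    have a2 : ∑ x ∈ ball R, f x ≤ C * R := by
      refine (Finset.sum_le_sum fun x hx => f1 x (mem_ball.1 hx).1 (mem_ball.1 hx).2).trans ?_
      simp only [Real.div_rpow (Nat.cast_nonneg _) hR.le, ← Finset.sum_div]
      rw [div_le_iff₀ (Real.rpow_pos_of_pos hR _)]
      refine (h1 R hR.le).trans (le_of_eq ?_)
      rw [Real.rpow_add hR, Real.rpow_one, mul_assoc]
    have a3 : ∑ x ∈ T.filter fun x => ¬ R ≤ (nm x : ℝ), f x ≤ ∑ x ∈ insert 0 (ball R), f x := by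
      refine Finset.sum_le_sum_of_subset_of_nonneg (fun x hx => ?_) fun x _ _ => f0 x
      by_cases h0 : x = 0
      · exact h0 ▸ Finset.mem_insert_self _ _
      · exact Finset.mem_insert_of_mem
          (mem_ball.2 ⟨h0, le_of_lt (lt_of_not_ge (Finset.mem_filter.1 hx).2)⟩)
    rw [Finset.sum_insert fun h => (mem_ball.1 h).1 rfl] at a3
    linarith
  exact ⟨summable_of_sum_le f0 key, Real.tsum_le_of_sum_le f0 key⟩

theorem summable_nm_rpow {σ : ℝ} (hσ : 1 < σ) : Summable fun x : E => (nm x : ℝ) ^ (-σ) := by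
  obtain ⟨C, -, h⟩ := cnt_split (θ := 0) (by norm_num) hσ
  refine (h 1 one_pos _ (fun x => by positivity) (fun x hx _ => ?_) fun x _ => ?_).1
  · rw [Real.rpow_zero]
    exact Real.rpow_le_one_of_one_le_of_nonpos (one_le_nmR hx) (by linarith)
  · rw [div_one]

theorem summable_Ns_rpow {σ : ℝ} (hσ : 1 < σ) : Summable fun s : Finset P => Ns s ^ (-σ) :=
  (summable_nm_rpow hσ).comp_injective pr_inj

theorem summable_P_rpow {σ : ℝ} (hσ : 1 < σ) : Summable fun p : P => (nm p.1 : ℝ) ^ (-σ) :=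
  (summable_nm_rpow hσ).comp_injective Subtype.val_injective

/-- Tails. -/
theorem tail_nm_rpow {σ : ℝ} (hσ : 1 < σ) : ∃ C : ℝ, 0 < C ∧ ∀ R : ℝ, 0 < R →
    ∀ T : Finset E, (∀ x ∈ T, R ≤ nm x) → ∑ x ∈ T, (nm x : ℝ) ^ (-σ) ≤ C * R ^ (1 - σ) :=
  cnt_tail hσ

theorem cnt_scale (x : E) {S : ℝ} (hS : 0 < S) (a : ℝ) :
    ((nm x : ℝ) / S ^ 2) ^ a = (‖toC x‖ / S) ^ (2 * a) := by
  rw [nm_eq, ← div_pow, Real.rpow_mul (by positivity), Real.rpow_two]

theorem cnt_pos {x : E} {S : ℝ} (hS : 0 < S) (h : S ^ 2 ≤ nm x) : 0 < ‖toC x‖ / S := by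
  refine div_pos (norm_pos_iff.2 (toC_ne_zero fun h0 => ?_)) hS
  rw [h0, nm_zero, Nat.cast_zero] at h
  exact absurd h (not_le.2 (by positivity))

/-- Lattice sums at scale `S`. -/
theorem lattice_decay {σ : ℝ} (hσ : 2 < σ) : ∃ C : ℝ, 0 < C ∧ ∀ S : ℝ, 0 < S →
    Summable (fun x : E => (1 + ‖toC x‖ / S) ^ (-σ)) ∧
    ∑' x : E, (1 + ‖toC x‖ / S) ^ (-σ) ≤ 1 + C * S ^ 2 := by
  obtain ⟨C, hC, h⟩ := cnt_split (θ := 0) (σ := σ / 2) (by norm_num) (by linarith)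
  refine ⟨C, hC, fun S hS => ?_⟩
  have := h (S ^ 2) (by positivity) (fun x : E => (1 + ‖toC x‖ / S) ^ (-σ))
    (fun x => by positivity) (fun x _ _ => by
      rw [Real.rpow_zero]
      exact Real.rpow_le_one_of_one_le_of_nonpos (le_add_of_nonneg_right (by positivity))
        (by linarith)) fun x hx => by
      rw [cnt_scale x hS, show 2 * -(σ / 2) = -σ by ring]
      exact Real.rpow_le_rpow_of_nonpos (cnt_pos hS hx) (by linarith) (by linarith)
  simpa only [map_zero, norm_zero, zero_div, add_zero, Real.one_rpow] using this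

theorem lattice_sing : ∃ C : ℝ, 0 < C ∧ ∀ S : ℝ, 0 < S →
    Summable (fun x : E => (‖toC x‖ / S)⁻¹ * (1 + ‖toC x‖ / S) ^ (-3 : ℝ)) ∧
    ∑' x : E, (‖toC x‖ / S)⁻¹ * (1 + ‖toC x‖ / S) ^ (-3 : ℝ) ≤ C * S ^ 2 := by
  obtain ⟨C, hC, h⟩ := cnt_split (θ := -1 / 2) (σ := 2) (by norm_num) (by norm_num)
  refine ⟨C, hC, fun S hS => ?_⟩
  have := h (S ^ 2) (by positivity)
    (fun x : E => (‖toC x‖ / S)⁻¹ * (1 + ‖toC x‖ / S) ^ (-3 : ℝ))
    (fun x => by positivity) (fun x _ _ => by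
      rw [cnt_scale x hS, show 2 * (-1 / 2 : ℝ) = -1 by norm_num, Real.rpow_neg_one]
      exact mul_le_of_le_one_right (by positivity) (Real.rpow_le_one_of_one_le_of_nonpos
        (le_add_of_nonneg_right (by positivity)) (by norm_num))) fun x hx => by
      have h0 := cnt_pos hS hx
      rw [cnt_scale x hS, show 2 * (-2 : ℝ) = -1 + -3 by norm_num, Real.rpow_add h0,
        Real.rpow_neg_one]
      exact mul_le_mul_of_nonneg_left
        (Real.rpow_le_rpow_of_nonpos h0 (by linarith) (by norm_num)) (by positivity)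
  simpa only [map_zero, norm_zero, zero_div, inv_zero, zero_mul, zero_add] using this

theorem summable_shift_decay {σ : ℝ} (hσ : 2 < σ) {a : ℂ} (ha : a ≠ 0) (b : ℂ) :
    Summable fun x : E => (1 + ‖a * toC x + b‖) ^ (-σ) := by
  obtain ⟨C, -, h⟩ := lattice_decay hσ
  have h0 : 0 < ‖a‖ := norm_pos_iff.2 ha
  refine Summable.of_nonneg_of_le (fun x => by positivity) (fun x => ?_)
    ((h ‖a‖⁻¹ (inv_pos.2 h0)).1.div_const ((1 + ‖b‖) ^ (-σ)))
  rw [← Real.div_rpow (by positivity) (by positivity)]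
  refine Real.rpow_le_rpow_of_nonpos (by positivity) ?_ (by linarith)
  rw [div_le_iff₀ (by positivity), div_inv_eq_mul, mul_comm _ ‖a‖, ← norm_mul]
  have h1 := norm_sub_le (a * toC x + b) b
  rw [add_sub_cancel_right] at h1
  nlinarith [norm_nonneg b, norm_nonneg (a * toC x + b)]

theorem cnt_two_le : 2 ≤ 2 * Real.pi / √3 := by
  have h1 : √3 ≤ 2 := Real.sqrt_le_iff.2 ⟨by norm_num, by norm_num⟩
  rw [le_div_iff₀ (by positivity)]
  linarith [Real.pi_gt_three]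

theorem cnt_Vg_le {y : ℝ} (hy : 0 ≤ y) : Vg y ≤ Real.exp (-(2 * y)) := by
  refine Real.exp_le_exp.2 ?_
  nlinarith [cnt_two_le]

theorem gauss_lattice : ∃ C : ℝ, 0 < C ∧ ∀ u : ℝ, 0 < u →
    Summable (fun x : E => Vg (u * nm x)) ∧ ∑' x : E, Vg (u * nm x) ≤ 1 + C / u := by
  obtain ⟨C, hC, h⟩ := cnt_split (θ := 0) (σ := 2) (by norm_num) (by norm_num)
  refine ⟨C, hC, fun u hu => ?_⟩
  have := h u⁻¹ (inv_pos.2 hu) (fun x : E => Vg (u * nm x)) (fun x => (Real.exp_pos _).le)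
    (fun x _ _ => by
      rw [Real.rpow_zero]
      exact (cnt_Vg_le (by positivity)).trans
        (Real.exp_le_one_iff.2 (neg_nonpos.2 (by positivity)))) fun x hx => by
      have h0 : 0 < u * nm x := mul_pos hu ((inv_pos.2 hu).trans_le hx)
      rw [div_inv_eq_mul, mul_comm _ u]
      refine (cnt_Vg_le h0.le).trans ?_
      rw [Real.rpow_def_of_pos h0]
      refine Real.exp_le_exp.2 ?_
      linarith [Real.log_le_sub_one_of_pos h0]
  simpa only [nm_zero, Nat.cast_zero, mul_zero, Vg, Real.exp_zero, div_eq_mul_inv] using this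

theorem Vg_le_rpow {A : ℝ} (hA : 0 ≤ A) : ∃ C : ℝ, 0 < C ∧ ∀ y : ℝ, 0 < y → Vg y ≤ C * y ^ (-A) := by
  refine ⟨Real.exp (A * A), Real.exp_pos _, fun y hy => (cnt_Vg_le hy.le).trans ?_⟩
  rw [Real.rpow_def_of_pos hy, ← Real.exp_add]
  refine Real.exp_le_exp.2 ?_
  have h1 : Real.log y ≤ 2 * √y := by
    have h2 := Real.log_le_sub_one_of_pos (Real.sqrt_pos.2 hy)
    rw [Real.log_sqrt hy.le] at h2
    linarith
  have h3 := Real.mul_self_sqrt hy.le
  nlinarith [mul_le_mul_of_nonneg_right h1 hA, sq_nonneg (√y - A)]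

/-- Number of dyadic blocks. -/
theorem log_le_rpow {ε : ℝ} (hε : 0 < ε) : ∃ C : ℝ, 0 < C ∧ ∀ (Z : ℝ) (J : ℕ), 1 ≤ Z →
    (2 : ℝ) ^ J ≤ Z → (J + 1 : ℝ) ≤ C * Z ^ ε := by
  refine ⟨2 / ε + 1, by positivity, fun Z J h1 h2 => ?_⟩
  have a1 : (J : ℝ) * Real.log 2 ≤ Real.log Z := by
    rw [← Real.log_pow]
    exact Real.log_le_log (by positivity) h2
  have a2 : Real.log Z ≤ Z ^ ε / ε := Real.log_le_rpow_div (by linarith) hε
  have a3 : 1 ≤ Z ^ ε := Real.one_le_rpow h1 hε.le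
  have a4 : (J : ℝ) * (1 / 2) ≤ J * Real.log 2 :=
    mul_le_mul_of_nonneg_left (by linarith [Real.log_two_gt_d9]) (Nat.cast_nonneg J)
  have a5 : (2 / ε + 1) * Z ^ ε = 2 * (Z ^ ε / ε) + Z ^ ε := by ring
  linarith

end QRH
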