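import Vale.Agent.P026.FtD

noncomputable section
namespace QRH
open Complex MeasureTheory Filter
open scoped ComplexConjugate Classical ContDiff Topology

def dl_f (z : ℂ) : ℝ := -(2 * Real.pi / √3) * (‖z‖ ^ 2) ^ 2
def dl_g (z : ℂ) : ℂ := (Vg (‖z‖ ^ 4) : ℝ)

theorem dl_f_temp : dl_f.HasTemperateGrowth :=
  (Function.HasTemperateGrowth.const (-(2 * Real.pi / √3))).mul
    ((Function.hasTemperateGrowth_norm_sq ℂ).pow 2)

theorem dl_exp (z : ℂ) : Real.exp (dl_f z) = Vg (‖z‖ ^ 4) := by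
  unfold dl_f Vg
  rw [← pow_mul]

theorem dl_g_eq : dl_g = Complex.ofRealLI ∘ (Real.exp ∘ dl_f) := by
  funext z
  simp only [dl_g, Function.comp_apply, dl_exp, ofRealLI_apply]

theorem dl_smooth0 : ContDiff ℝ ∞ (Real.exp ∘ dl_f) := Real.contDiff_exp.comp dl_f_temp.1

theorem dl_smooth : ContDiff ℝ ∞ dl_g := by
  rw [dl_g_eq]
  exact Complex.ofRealLI.contDiff.comp dl_smooth0

theorem dl_aux (m : ℕ) {r : ℝ} (hr : 0 ≤ r) :
    Vg (r ^ 4) * (1 + r) ^ m ≤ Real.exp ((m + 3) ^ 2 + 1) * (1 + r) ^ (-3 : ℝ) := by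
  have h0 : 1 + r ≤ Real.exp r := by linarith [Real.add_one_le_exp r]
  have h1 : Real.exp r ^ (-3 : ℝ) ≤ (1 + r) ^ (-3 : ℝ) :=
    Real.rpow_le_rpow_of_nonpos (by positivity) h0 (by norm_num)
  have h2 : (1 + r) ^ m ≤ Real.exp r ^ m := by gcongr
  calc Vg (r ^ 4) * (1 + r) ^ m ≤ Real.exp (-(2 * r ^ 4)) * Real.exp r ^ m :=
        mul_le_mul (cnt_Vg_le (by positivity)) h2 (by positivity) (by positivity)
    _ ≤ Real.exp ((m + 3) ^ 2 + 1) * Real.exp r ^ (-3 : ℝ) := by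
        rw [← Real.exp_nat_mul, ← Real.exp_mul, ← Real.exp_add, ← Real.exp_add, Real.exp_le_exp]
        have hm : (0 : ℝ) ≤ m := Nat.cast_nonneg m
        nlinarith [sq_nonneg (m + 3 - r), sq_nonneg (r ^ 2 - 1), mul_nonneg hm hr,
          pow_nonneg hr 4]
    _ ≤ _ := by gcongr

theorem dl_deriv (j : ℕ) : ∃ K : ℝ, 0 ≤ K ∧
    ∀ z, ‖iteratedFDeriv ℝ j dl_g z‖ ≤ K * (1 + ‖z‖) ^ (-3 : ℝ) := by
  obtain ⟨k, C, hC, H⟩ := dl_f_temp.norm_iteratedFDeriv_le_uniform j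
  refine ⟨j.factorial * (C + 1) ^ j * Real.exp (((k * j : ℕ) + 3) ^ 2 + 1), by positivity,
    fun z => ?_⟩
  have h1 : (1 : ℝ) ≤ (1 + ‖z‖) ^ k := one_le_pow₀ (le_add_of_nonneg_right (norm_nonneg _))
  have h2 : (1 : ℝ) ≤ (C + 1) * (1 + ‖z‖) ^ k :=
    one_le_mul_of_one_le_of_one_le (le_add_of_nonneg_left hC) h1
  have key := norm_iteratedFDeriv_comp_le (n := j) (N := ∞) Real.contDiff_exp dl_f_temp.1
    (by exact_mod_cast le_top) z (C := Real.exp (dl_f z)) (D := (C + 1) * (1 + ‖z‖) ^ k)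
    (fun i _ => by
      rw [norm_iteratedFDeriv_eq_norm_iteratedDeriv, iteratedDeriv_eq_iterate, Real.iter_deriv_exp,
        Real.norm_of_nonneg (Real.exp_pos _).le])
    (fun i hi hij => by
      refine (H i hij z).trans (le_trans ?_ (le_self_pow₀ h2 (by omega)))
      gcongr
      exact le_add_of_nonneg_right zero_le_one)
  rw [dl_g_eq, Complex.ofRealLI.norm_iteratedFDeriv_comp_left dl_smooth0.contDiffAt
    (by exact_mod_cast le_top)]
  refine key.trans ?_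
  rw [dl_exp, mul_pow, ← pow_mul]
  calc _ = j.factorial * (C + 1) ^ j * (Vg (‖z‖ ^ 4) * (1 + ‖z‖) ^ (k * j)) := by ring
    _ ≤ j.factorial * (C + 1) ^ j * (Real.exp (((k * j : ℕ) + 3) ^ 2 + 1)
        * (1 + ‖z‖) ^ (-3 : ℝ)) :=
        mul_le_mul_of_nonneg_left (dl_aux (k * j) (norm_nonneg z)) (by positivity)
    _ = _ := by ring

theorem dl_g_le : ∃ K : ℝ, 0 ≤ K ∧ ∀ z, ‖dl_g z‖ ≤ K * (1 + ‖z‖) ^ (-3 : ℝ) := by
  simpa only [norm_iteratedFDeriv_zero] using dl_deriv 0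

theorem dl_ft_le : ∃ K : ℝ, 0 ≤ K ∧ ∀ z, ‖ft dl_g z‖ ≤ K * (1 + ‖z‖) ^ (-3 : ℝ) := by
  obtain ⟨C, hC, H⟩ := ft_decay 3
  have hn : ∀ j, 0 ≤ ∫ z, ‖iteratedFDeriv ℝ j dl_g z‖ := fun j =>
    integral_nonneg fun _ => norm_nonneg _
  refine ⟨C * ∑ j ∈ Finset.range 4, ∫ z, ‖iteratedFDeriv ℝ j dl_g z‖,
    mul_nonneg hC.le (Finset.sum_nonneg fun j _ => hn j), fun z => ?_⟩
  have := H dl_g _ dl_smooth (fun j _ => ?_) (fun j hj => Finset.single_le_sum
    (f := fun j => ∫ z, ‖iteratedFDeriv ℝ j dl_g z‖) (fun j _ => hn j)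
    (Finset.mem_range.2 (Nat.lt_succ_of_le hj))) z
  · simpa using this
  · obtain ⟨K, hK, HK⟩ := dl_deriv j
    refine ((integrable_decay (σ := 3) (by norm_num)).const_mul K).mono'
      (dl_smooth.continuous_iteratedFDeriv (by exact_mod_cast le_top)).norm.aestronglyMeasurable
      (Eventually.of_forall fun z => ?_)
    rw [norm_norm]
    exact HK z

theorem dl_ft_zero : ft dl_g 0 = cDel := by
  unfold ft cDel dl_g
  simp only [mul_zero, neg_zero, psi_zero, mul_one]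
  rw [integral_complex_ofReal, ← ofReal_mul]

theorem dl_aff {g : ℂ → ℂ} {M : ℝ} (hM : 0 ≤ M) (H : ∀ x, ‖g x‖ ≤ M * (1 + ‖x‖) ^ (-3 : ℝ))
    {s : ℂ} (hs : s ≠ 0) (k : ℂ) :
    ∃ M' : ℝ, 0 ≤ M' ∧ ∀ x, ‖k * g (s * x)‖ ≤ M' * (1 + ‖x‖) ^ (-3 : ℝ) := by
  obtain ⟨C, hC, HC⟩ := decay_affine hs 0 (σ := 3) (by norm_num)
  refine ⟨‖k‖ * (M * C), by positivity, fun x => ?_⟩
  rw [norm_mul, mul_assoc, mul_assoc]
  gcongr
  refine (H _).trans ?_
  gcongr
  simpa using HC x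

theorem dl_sum {g : ℂ → ℂ} {M : ℝ} (H : ∀ x, ‖g x‖ ≤ M * (1 + ‖x‖) ^ (-3 : ℝ)) :
    Summable fun x : E => g (toC x) := by
  have := (summable_shift_decay (σ := 3) (by norm_num) one_ne_zero 0).mul_left M
  simp only [one_mul, add_zero] at this
  exact .of_norm_bounded this fun x => H _

theorem dl_small (h : PS1) : ∃ C : ℝ, 0 < C ∧ ∀ u : ℝ, 0 < u → u ≤ 1 → |Del u| ≤ C := by
  obtain ⟨K1, hK1, H1⟩ := dl_g_le
  obtain ⟨K2, hK2, H2⟩ := dl_ft_le
  have hS := (summable_nm_rpow (σ := 3 / 2) (by norm_num)).mul_left K2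
  have hS0 : 0 ≤ ∑' x : E, K2 * (nm x : ℝ) ^ (-(3 / 2) : ℝ) := tsum_nonneg fun _ => by positivity
  refine ⟨1 + ∑' x : E, K2 * (nm x : ℝ) ^ (-(3 / 2) : ℝ), by positivity, fun u hu hu1 => ?_⟩
  obtain ⟨s, hs⟩ : ∃ s : ℝ, s = u ^ (-(1 / 4) : ℝ) := ⟨_, rfl⟩
  have hs1 : 1 ≤ s := hs ▸ Real.one_le_rpow_of_pos_of_le_one_of_nonpos hu hu1 (by norm_num)
  have hs0 : 0 < s := by positivity
  have hs2 : s ^ 2 = u ^ (-(1 / 2) : ℝ) := by
    rw [hs, ← Real.rpow_natCast, ← Real.rpow_mul hu.le]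
    norm_num
  have hs4 : (s ^ 4)⁻¹ = u := by
    rw [hs, ← Real.rpow_natCast, ← Real.rpow_mul hu.le, ← Real.rpow_neg hu.le]
    norm_num
  have hsc : (s : ℂ) ≠ 0 := ofReal_ne_zero.2 hs0.ne'
  have f1 : ∀ ξ, ft (fun z => dl_g (z / s)) ξ = ((s ^ 2 : ℝ) : ℂ) * ft dl_g (s * ξ) := by
    intro ξ
    rw [ft_scale dl_g hsc, Complex.norm_real, Real.norm_eq_abs, sq_abs]
  obtain ⟨M1, hM1, B1⟩ := dl_aff hK1 H1 (inv_ne_zero hsc) 1
  obtain ⟨M2, hM2, B2⟩ := dl_aff hK2 H2 hsc ((s ^ 2 : ℝ) : ℂ)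
  simp only [one_mul, inv_mul_eq_div] at B1
  have cg := dl_smooth.continuous
  have key := h 1 (fun _ => 1) (fun z => dl_g (z / s)) (M1 + M2) one_ne_zero
    (fun _ _ _ => rfl) (by fun_prop)
    (fun z => (B1 z).trans (mul_le_mul_of_nonneg_right (le_add_of_nonneg_right hM2)
      (by positivity)))
    (fun z => by
      rw [f1]
      exact (B2 z).trans (mul_le_mul_of_nonneg_right (le_add_of_nonneg_left hM1) (by positivity)))
  simp only [one_mul, rsum_psf one_ne_zero, one_dvd, if_true, nm_one, Nat.cast_one, inv_one,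
    map_one, div_one, f1] at key
  rw [(dl_sum B1).tsum_eq_add_tsum_ite 0,
    (dl_sum (g := fun x => ((s ^ 2 : ℝ) : ℂ) * ft dl_g (s * x)) B2).tsum_eq_add_tsum_ite 0,
    map_zero, zero_div, mul_zero, dl_ft_zero, hs2] at key
  have e0 : dl_g 0 = 1 := by simp [dl_g, Vg]
  have e1 : ∀ b : E, (if b = 0 then 0 else dl_g (toC b / s))
      = ((if b = 0 then 0 else Vg (u * (nm b : ℝ) ^ 2) : ℝ) : ℂ) := by
    intro b
    split_ifs
    · rfl
    · unfold dl_g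
      rw [norm_div, Complex.norm_real, Real.norm_of_nonneg hs0.le, div_pow, div_eq_inv_mul, hs4,
        nm_eq, ← pow_mul]
  simp only [e0, e1] at key
  rw [← ofReal_tsum] at key
  have e2 : (Del u : ℂ) = -1 + ∑' x : E,
      if x = 0 then 0 else ((u ^ (-(1 / 2) : ℝ) : ℝ) : ℂ) * ft dl_g (s * toC x) := by
    unfold Del
    rw [ofReal_sub, ofReal_mul]
    linear_combination key
  rw [← Real.norm_eq_abs, ← Complex.norm_real, e2]
  refine (norm_add_le _ _).trans (add_le_add (by simp) (tsum_of_norm_bounded hS.hasSum fun x => ?_))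
  split_ifs with hx
  · rw [norm_zero]
    positivity
  have hr := one_le_norm hx
  rw [← hs2, norm_mul, Complex.norm_real, Real.norm_of_nonneg (by positivity), nm_eq,
    ← Real.rpow_natCast ‖toC x‖, ← Real.rpow_mul (norm_nonneg _)]
  have h3 := H2 (s * toC x)
  rw [norm_mul, Complex.norm_real, Real.norm_of_nonneg hs0.le] at h3
  generalize ‖toC x‖ = r at hr h3 ⊢
  have h4 : (1 + s * r) ^ (-3 : ℝ) ≤ (s * r) ^ (-3 : ℝ) :=
    Real.rpow_le_rpow_of_nonpos (by positivity) (by linarith) (by norm_num)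
  have h5 : s ^ 2 * s ^ (-3 : ℝ) ≤ 1 := by
    rw [← Real.rpow_natCast, ← Real.rpow_add hs0]
    exact Real.rpow_le_one_of_one_le_of_nonpos hs1 (by norm_num)
  rw [Real.mul_rpow hs0.le (by positivity)] at h4
  calc _ ≤ s ^ 2 * (K2 * (s ^ (-3 : ℝ) * r ^ (-3 : ℝ))) := by
        gcongr
        exact h3.trans (by gcongr)
    _ = s ^ 2 * s ^ (-3 : ℝ) * (K2 * r ^ (-3 : ℝ)) := by ring
    _ ≤ 1 * (K2 * r ^ (-3 : ℝ)) := by gcongr
    _ = _ := by norm_num

theorem dl_term {u v : ℝ} (hv : 0 < v) (huv : v ≤ u) (b : E) :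
    ‖if b = 0 then 0 else Vg (u * (nm b : ℝ) ^ 2)‖ ≤ if b = 0 then 0 else Vg (v * nm b) := by
  split_ifs with hb
  · rw [norm_zero]
  have h1 := one_le_nmR hb
  unfold Vg
  rw [Real.norm_of_nonneg (Real.exp_pos _).le, Real.exp_le_exp, neg_mul, neg_mul, neg_le_neg_iff]
  have h2 := cnt_two_le
  gcongr
  · linarith
  · exact le_self_pow₀ h1 two_ne_zero

theorem dl_gauss : ∃ C : ℝ, 0 < C ∧ ∀ u : ℝ, 0 < u →
    Summable (fun b : E => if b = 0 then 0 else Vg (u * nm b)) ∧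
      ∑' b : E, (if b = 0 then 0 else Vg (u * nm b)) ≤ C / u := by
  obtain ⟨C, hC, H⟩ := gauss_lattice
  refine ⟨C, hC, fun u hu => ⟨?_, ?_⟩⟩
  · refine (H u hu).1.of_nonneg_of_le (fun b => ?_) fun b => ?_
    · split_ifs
      exacts [le_rfl, (Real.exp_pos _).le]
    · split_ifs
      exacts [(Real.exp_pos _).le, le_rfl]
  · have h1 := (H u hu).2
    rw [(H u hu).1.tsum_eq_add_tsum_ite 0] at h1
    have e : Vg (u * nm (0 : E)) = 1 := by simp [nm_zero, Vg]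
    linarith

theorem delB (h : PS1) : DelB := by
  obtain ⟨C1, hC1, H1⟩ := dl_gauss
  obtain ⟨C2, hC2, H2⟩ := dl_small h
  refine ⟨fun u (hu : 0 < u) => ContinuousAt.continuousWithinAt ?_,
    C1 + |cDel| + C2, by positivity, fun u hu => ?_⟩
  · have h1 : ContinuousOn (fun v : ℝ => ∑' b : E, if b = 0 then 0 else Vg (v * (nm b : ℝ) ^ 2))
        (Set.Ici (u / 2)) := by
      refine continuousOn_tsum (fun b => ?_) (H1 _ (half_pos hu)).1
        fun b v hv => dl_term (half_pos hu) hv b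
      split_ifs
      · exact continuousOn_const
      · unfold Vg
        fun_prop
    exact (h1.continuousAt (Ici_mem_nhds (half_lt_self hu))).sub
      (continuousAt_const.mul (Real.continuousAt_rpow_const _ _ (Or.inl hu.ne')))
  · have hc := abs_nonneg cDel
    rcases le_total u 1 with h1 | h1
    · have h2 : |Del u| ≤ C1 + |cDel| + C2 := (H2 u hu h1).trans (by linarith)
      exact ⟨h2, h2.trans (le_mul_of_one_le_right (by positivity)
        (Real.one_le_rpow_of_pos_of_le_one_of_nonpos hu h1 (by norm_num)))⟩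
    · have h2 : u ^ (-(1 / 2) : ℝ) ≤ 1 := Real.rpow_le_one_of_one_le_of_nonpos h1 (by norm_num)
      have h3 : u⁻¹ ≤ u ^ (-(1 / 2) : ℝ) := by
        rw [← Real.rpow_neg_one]
        exact Real.rpow_le_rpow_of_exponent_le h1 (by norm_num)
      have h4 := (tsum_of_norm_bounded (H1 u hu).1.hasSum (dl_term hu le_rfl)).trans (H1 u hu).2
      have h0 : 0 < u ^ (-(1 / 2) : ℝ) := by positivity
      have h5 : |Del u| ≤ (C1 + |cDel| + C2) * u ^ (-(1 / 2) : ℝ) := by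
        unfold Del
        refine (abs_sub _ _).trans ?_
        rw [abs_mul, abs_of_pos h0]
        rw [Real.norm_eq_abs, div_eq_mul_inv] at h4
        nlinarith [mul_le_mul_of_nonneg_left h3 hC1.le, mul_pos hC2 h0]
      exact ⟨h5.trans (mul_le_of_le_one_right (by positivity) h2), h5⟩

end QRH
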