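import Vale.Agent.P026.Defs2

/-! Statements of the analytic results. Each is proved in its own file. -/

noncomputable section
namespace QRH
open Complex MeasureTheory Filter
open scoped ComplexConjugate Classical ContDiff Topology

/-- Separation of variables, bilinear form. -/
def SepB : Prop := ∀ (A : ℝ) (B : ℕ), ∃ C : ℝ, 0 < C ∧
  ∀ (ι κ : Type) (I : Finset ι) (J J' : ι → Finset κ) (G : ℝ → ℂ) (σ g K : ℝ) (s : ℂ)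
    (x x' : ι → κ → ℂ) (y : ι → ℝ) (a b : ι → κ → ℝ),
    |s.re - σ| ≤ A → Integrable (fun v => G v * (Real.exp (σ * v) : ℝ)) →
    ∫ v, ‖G v‖ * Real.exp (σ * v) ≤ g → (∀ i ∈ I, 0 < y i) → (∀ i j, 0 < a i j) →
    (∀ i j, 0 < b i j) →
    (∀ τ : ℝ, ∑ i ∈ I, y i ^ (-σ) * ‖∑ j ∈ J i, x i j * (a i j : ℂ) ^ (σ + τ * Complex.I)‖
        * ‖∑ j ∈ J' i, x' i j * (b i j : ℂ) ^ (σ + τ * Complex.I)‖ ≤ K * (1 + |τ|) ^ B) →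
    ∑ i ∈ I, ‖∑ j ∈ J i, ∑ j' ∈ J' i,
        x i j * x' i j' * sm s G (Real.log (y i / (a i j * b i j')))‖
      ≤ C * g * K * (1 + |s.im|) ^ B
/-- Separation of variables, quadratic form. -/
def SepQ : Prop := ∀ A : ℝ, ∃ C : ℝ, 0 < C ∧
  ∀ (ι κ : Type) (I : Finset ι) (J : Finset κ) (G : ℝ → ℂ) (σ g K : ℝ) (s : ℂ)
    (x : ι → κ → ℂ) (a : κ → ℝ) (b : ι → ℝ),
    |s.re - σ| ≤ A → Integrable (fun v => G v * (Real.exp (σ * v) : ℝ)) →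
    ∫ v, ‖G v‖ * Real.exp (σ * v) ≤ g → (∀ j ∈ J, 0 < a j) → (∀ i ∈ I, 0 < b i) →
    (∀ τ : ℝ, ∑ i ∈ I, b i ^ (-(2 * σ)) * ‖∑ j ∈ J, x i j * (a j : ℂ) ^ (-(σ + τ * Complex.I))‖ ^ 2
        ≤ K) →
    ∑ i ∈ I, ‖∑ j ∈ J, x i j * sm s G (Real.log (a j * b i))‖ ^ 2 ≤ C * g ^ 2 * K
/-- Rescaling. -/
def Resc : Prop := ∀ B : ℕ, ∃ C : ℝ, 0 < C ∧
  ∀ (ι : Type) (J : Finset ι) (γ : ι → Finset P → ℂ) (Xi : ι → ℝ) (X K : ℝ) (s : ℂ),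
    0 < X → |s.re| ≤ 3 → (∀ i ∈ J, X ≤ Xi i ∧ Xi i ≤ 2 * X) →
    (∀ X' τ : ℝ, X / 16 ≤ X' → X' ≤ 32 * X →
      ∑ i ∈ J, ‖S (γ i) X' (τ * I)‖ ^ 2 ≤ K * (1 + |τ|) ^ B) →
    ∑ i ∈ J, ‖S (γ i) (Xi i) s‖ ^ 2 ≤ C * K * (1 + ‖s‖) ^ B

/-- Decay of the two variable transform. -/
def IBd : Prop := ∀ A : ℕ, ∃ (n : ℕ) (C : ℝ), 0 < C ∧ ∀ (w : ℂ → ℂ) (W : ℝ), Adm w → DB n w W →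
  ∀ c z ζ : ℂ, c ≠ 0 → ‖Ia w c z ζ‖
    ≤ C * W * ‖c‖ * (1 + ‖c‖) ^ (-A : ℝ) * (1 + ‖z‖) ^ (-A : ℝ) * (1 + ‖ζ‖) ^ (-A : ℝ)
/-- Decay, rotation and continuity of the Voronoi transform. -/
def KFacts : Prop :=
  (∀ A : ℕ, ∃ (n : ℕ) (C : ℝ), 0 < C ∧ ∀ (w : ℂ → ℂ) (W : ℝ), Adm w → DB n w W →
    ∀ z : ℂ, ‖Ka w z‖ ≤ C * W * (1 + ‖z‖) ^ (-A : ℝ)) ∧
  (∀ (w : ℂ → ℂ) (u z : ℂ), Adm w → ‖u‖ = 1 → Ka w (u * z) = conj u * Ka w z) ∧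
  (∀ w : ℂ → ℂ, Adm w → ContinuousOn (Ka w) {z | z ≠ 0})

def VorA : Prop := ∀ a ρ q u η β w Y, VP a ρ q u η β w Y →
  Tendsto (fun X : ℝ => Sig a ρ q u w Y X / (((X ^ 3 / Y) ^ 2 * X ^ 2 : ℝ) : ℂ)) atTop
    (𝓝 (VL (fun c => ρ c * psf (c * u) q) w Y / (nm (Lam a) : ℂ)))
def VorB : Prop := ∀ a ρ q u η β w Y, VP a ρ q u η β w Y → ∀ X : ℝ, 0 < X →
  Summable (fun x : E × E × E => G1 a ρ q u w Y X x.1 x.2.1 x.2.2) ∧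
  Sig a ρ q u w Y X = ((X ^ 2 * Y ^ 2 : ℝ) : ℂ) / (nm (Lam a) : ℂ)
    * ∑' x : E × E × E, G1 a ρ q u w Y X x.1 x.2.1 x.2.2
def VorC : Prop := ∀ a ρ q u η β w Y, VP a ρ q u η β w Y → ∀ X : ℝ, 0 < X →
  Summable (fun x : E × E × E => G1 a ρ q u w Y X x.1 x.2.1 x.2.2) →
  Summable (fun x : E × E × E => G2 a ρ q β w Y X x.1 x.2.1 x.2.2) ∧
  ∑' x : E × E × E, G1 a ρ q u w Y X x.1 x.2.1 x.2.2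
    = xv c3 q u * ((((X ^ 3 / Y) ^ 2 / X ^ 2 : ℝ) : ℂ) / (nm q : ℂ))
      * ∑' x : E × E × E, psf (-(η * x.1)) q * G2 a ρ q β w Y X x.1 x.2.1 x.2.2
def VorD : Prop := ∀ a ρ q u η β w Y, VP a ρ q u η β w Y → ∀ δ : E, δ ≠ 0 →
  Tendsto (fun X : ℝ => ((Y ^ 2 / X ^ 2 : ℝ) : ℂ) / (nm (Lam a * q) : ℂ)
      * ∑' x : E × E, G2 a ρ q β w Y X δ x.1 x.2) atTop
    (𝓝 (nm (Lam a) * bb a ρ q β δ * Ka w (zd a q Y δ)))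
def VorE : Prop := ∀ a ρ q u η β w Y, VP a ρ q u η β w Y →
  Tendsto (fun X : ℝ => ((Y ^ 2 / X ^ 2 : ℝ) : ℂ) / (nm (Lam a * q) : ℂ)
      * ∑' x : E × E, G2 a ρ q β w Y X 0 x.1 x.2) atTop (𝓝 0) ∧
  ∃ g : E → ℝ, Summable g ∧ ∀ X : ℝ, 1 ≤ X → ∀ δ : E, δ ≠ 0 →
    ‖((Y ^ 2 / X ^ 2 : ℝ) : ℂ) / (nm (Lam a * q) : ℂ)
      * ∑' x : E × E, G2 a ρ q β w Y X δ x.1 x.2‖ ≤ g δ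
/-- The Voronoi formula for mean zero weights. -/
def Vor0 : Prop := ∀ a ρ q u η β w Y, VP a ρ q u η β w Y →
  VL (fun c => ρ c * psf (c * u) q) w Y = (nm (Lam a) : ℂ) ^ 2 * xv c3 q u *
    ∑' δ : E, if δ = 0 then 0 else bb a ρ q β δ * psf (-(η * δ)) q * Ka w (zd a q Y δ)
/-- The Voronoi formula for a residue class and a periodic twist. -/
def Vor2 : Prop := ∀ a : ℕ, 1 ≤ a → ∃ C : ℝ, 0 < C ∧ ∀ a0 q0 : E, (3 : E) ∣ a0 - 1 → ¬ lam ∣ q0 →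
  ∃ b : E → ℂ, b 0 = 0 ∧ (∀ δ, δ ≠ 0 → ‖b δ‖ ≤ C * ‖Tg δ‖ / nm (up lam δ)) ∧
    ∀ (q : E) (f : E → ℂ) (w : ℂ → ℂ) (Y : ℝ), Lam a ∣ q - q0 → Good q f → Adm w → 0 < Y →
      VL (fun c => if Lam a ∣ c - a0 then f c else 0) w Y
        = ∑' δ : E, b δ * Dq a q f δ * Ka w (zd a q Y δ)
/-- The twisted Voronoi formula. -/
def VorT : Prop := ∀ Q a : ℕ, GoodQ Q a → ∃ C : ℝ, 0 < C ∧ ∀ a0 ρ : E, IsCoprime a0 Q →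
  (3 : E) ∣ a0 - 1 → ρ ≠ 0 →
  ∃ (J : Finset (Finset P × E)) (g : Finset P × E → E) (B : Finset P × E → E → E → ℂ),
    (J.card : ℝ) ≤ C * 2 ^ (fac ρ).card ∧
    (∀ j ∈ J, g j ≠ 0 ∧ (nm (g j) : ℝ) ≤ C * Rr ρ ∧ (∀ δ, Per Q fun t => B j t δ) ∧
      (∀ t, B j t 0 = 0) ∧ ∀ t δ, δ ≠ 0 →
        ‖B j t δ‖ ≤ C * ‖Tg δ‖ / nm (up lam δ) * √(Ns (fac δ ∩ fac ρ))) ∧
    ∀ t : Finset P, Disjoint t (fac (Q * ρ)) → ∃ e : Finset P × E → ℂ, (∀ j, ‖e j‖ ≤ 1) ∧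
      ∀ (w : ℂ → ℂ) (Y : ℝ), Adm w → 0 < Y →
        VL (fun c => if (Q : E) ∣ c - a0 then conj (xv c6 c (pr t * ρ)) else 0) w Y
          = ∑ j ∈ J, e j * ∑' δ : E, B j (pr t) δ * xs c2 t δ * Ka w (zd a (pr t * g j) Y δ)

/-- The quadratic large sieve. -/
def QLS : Prop := ∀ ε : ℝ, 0 < ε → ∃ C : ℝ, 0 < C ∧ ∀ (M N : ℝ) (α : Finset P → ℂ), 1 ≤ M → 1 ≤ N →
  ∑ m ∈ sqo M, ‖∑ n ∈ sqf N, α n * xs c2 m (pr n)‖ ^ 2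
    ≤ C * (M * N) ^ ε * (M + N) * ∑ n ∈ sqf N, ‖α n‖ ^ 2
def QS (ξ : ℝ) : Prop := ∀ ε : ℝ, 0 < ε → ∃ C : ℝ, 0 < C ∧
  ∀ (M N : ℝ) (α : Finset P → ℂ), 1 ≤ M → 1 ≤ N →
  ∑ m ∈ sqo M, ‖∑ n ∈ sqo N, α n * xs c2 n (pr m)‖ ^ 2
    ≤ C * (M * N) ^ ε * (M + N ^ ξ) * ∑ n ∈ sqo N, ‖α n‖ ^ 2
/-- Coefficients in a dyadic range and in one class modulo 4. -/
def Dy (N : ℝ) (α : Finset P → ℂ) : Prop :=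
  ∃ a : E, ∀ n, α n ≠ 0 → Odd' n ∧ N / 2 < Ns n ∧ (4 : E) ∣ pr n - a
def QSd (ξ : ℝ) : Prop := ∀ ε : ℝ, 0 < ε → ∃ C : ℝ, 0 < C ∧
  ∀ (M N : ℝ) (α : Finset P → ℂ), 1 ≤ N → N ^ ξ ≤ M → Dy N α →
  ∑ m ∈ sqo M, ‖∑ n ∈ sqf N, α n * xs c2 n (pr m)‖ ^ 2
    ≤ C * (M * N) ^ ε * M * ∑ n ∈ sqf N, ‖α n‖ ^ 2
def QD (ξ : ℝ) : Prop := ∀ ε : ℝ, 0 < ε → ∃ C : ℝ, 0 < C ∧
  ∀ (A L : ℝ) (T : Finset (Finset P)) (g : Finset P) (x : Finset P → ℂ), 0 ≤ A → 0 ≤ L →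
  (∀ c ∈ T, x c ≠ 0 → Odd' c ∧ g ⊆ c ∧ Ns c ≤ L * Ns g) →
  ∑ a ∈ calA A, ‖∑ c ∈ T, x c * xs c2 c a‖ ^ 2
    ≤ C * (A * L) ^ ε * (L + A ^ ξ) * ∑ c ∈ T, ‖x c‖ ^ 2
def DelB : Prop := ContinuousOn Del (Set.Ioi 0) ∧ ∃ C : ℝ, 0 < C ∧ ∀ u : ℝ, 0 < u →
  |Del u| ≤ C ∧ |Del u| ≤ C * u ^ (-(1 / 2) : ℝ)
def QPair : Prop := ∀ B : ℝ, 1 < B → ∃ C : ℝ, 0 < C ∧ ∀ (A t : ℝ) (d c c' : Finset P), 0 < A → 0 < t →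
  Disjoint d c → Disjoint d c' → Disjoint c c' → Odd' c → Odd' c' → (4 : E) ∣ pr c - pr c' →
  ‖2 * T1 t d c c' - T2 A t d c c' - (E1 A t d c c' - E2 A t d c c')‖
    ≤ C * 2 ^ d.card * ((if c ∪ c' = ∅ then t + 1 else 0)
      + t * A * (A * t / (Ns d ^ 2 * (Ns c * Ns c'))) ^ (-B))
def QE (Ei : ℝ → ℝ → Finset P → Finset P → Finset P → ℂ) (ξ : ℝ) : Prop :=
  ∀ ε : ℝ, 0 < ε → ∃ C : ℝ, 0 < C ∧ ∀ (M N : ℝ) (α : Finset P → ℂ), 1 ≤ N →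
  N ^ (2 - 1 / ξ) ≤ M → Dy N α →
  ‖∑ n ∈ sqf N, ∑ n' ∈ sqf N, α n * conj (α n') * ∫ v : ℝ, (beta v : ℝ) *
      Ei (N ^ 2 * (M * N) ^ ε / M) (M * Real.exp v) (n ∩ n') (n \ n') (n' \ n)‖
    ≤ C * (M * N) ^ (3 * ε) * M * ∑ n ∈ sqf N, ‖α n‖ ^ 2

def HA (Q : ℕ) (η : ℝ) : Prop := ∀ ε : ℝ, 0 < ε → ∃ (B : ℕ) (C : ℝ), 0 < C ∧
  ∀ (Z X N τ : ℝ) (a ρ : E), 1 ≤ X → X ≤ Z → 1 ≤ N → N ≤ Z → IsCoprime a Q → ρ ≠ 0 → Rr ρ ≤ Z →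
  ∑ n ∈ ball N, ‖S (cA Q a ρ n) X (τ * I)‖ ^ 2
    ≤ C * Z ^ ε * (1 + |τ|) ^ B * (X * (N + X ^ (1 + η) * Rr ρ))
def HAs (Q : ℕ) (η : ℝ) : Prop := ∀ ε : ℝ, 0 < ε → ∃ (B : ℕ) (C : ℝ), 0 < C ∧
  ∀ (ι : Type) (J : Finset ι) (n a : ι → E) (Xi : ι → ℝ) (μ Z X N : ℝ) (s : ℂ) (ρ : E)
    (K : Finset P), 0 < X → X ≤ Z → 1 ≤ N → N ≤ Z → |s.re| ≤ 3 → ρ ≠ 0 → Rr ρ ≤ Z → Ns K ≤ Z →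
  (∀ i ∈ J, n i ∈ ball N ∧ IsCoprime (a i) Q ∧ X ≤ Xi i ∧ Xi i ≤ 2 * X) →
  (∀ n0, ((J.filter fun i => n i = n0).card : ℝ) ≤ μ) →
  ∑ i ∈ J, ‖S (cAK Q (a i) ρ K (n i)) (Xi i) s‖ ^ 2
    ≤ C * μ * Z ^ ε * (1 + ‖s‖) ^ B * (X * (N + X ^ (1 + η) * Rr ρ))
def HB (Q : ℕ) (η : ℝ) : Prop := ∀ ε : ℝ, 0 < ε → ∃ (B : ℕ) (C : ℝ), 0 < C ∧
  ∀ (Z X M T τ : ℝ) (a ρ : E) (K : Finset P) (F : Finset E), 1 ≤ X → X ≤ Z → 1 ≤ M → M ≤ Z →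
  1 ≤ T → T ≤ Z → IsCoprime a Q → ρ ≠ 0 → Rr ρ ≤ Z → Ns K ≤ Z → F ⊆ ball T →
  ∑ t ∈ F, ∑ m ∈ ball M, ‖S (cB Q a ρ K t m) X (τ * I)‖ ^ 2
    ≤ C * Z ^ ε * (1 + |τ|) ^ B * (F.card * X * M + X ^ 2 * T + M * X ^ (1 + η) * Rr ρ)
def HBs (Q : ℕ) (η : ℝ) : Prop := ∀ ε : ℝ, 0 < ε → ∃ (B : ℕ) (C : ℝ), 0 < C ∧
  ∀ (ι : Type) (J : Finset ι) (t a : ι → E) (Xi : ι → ℝ) (Z X M T : ℝ) (s : ℂ) (ρ : E)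
    (K : Finset P), 0 < X → X ≤ Z → 1 ≤ M → M ≤ Z → 1 ≤ T → T ≤ Z → |s.re| ≤ 3 → ρ ≠ 0 →
  Rr ρ ≤ Z → Ns K ≤ Z → Set.InjOn t J →
  (∀ i ∈ J, t i ∈ ball T ∧ IsCoprime (a i) Q ∧ X ≤ Xi i ∧ Xi i ≤ 2 * X) →
  ∑ i ∈ J, ∑ m ∈ ball M, ‖S (cB Q (a i) ρ K (t i) m) (Xi i) s‖ ^ 2
    ≤ C * Z ^ ε * (1 + ‖s‖) ^ B * (J.card * X * M + X ^ 2 * T + M * X ^ (1 + η) * Rr ρ)
def HH (Q : ℕ) (η : ℝ) : Prop := ∀ ε : ℝ, 0 < ε → ∃ (B : ℕ) (C : ℝ), 0 < C ∧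
  ∀ (Z X M τ : ℝ) (a ρ : E), 1 ≤ X → X ≤ Z → 1 ≤ M → M ≤ Z → IsCoprime a Q → ρ ≠ 0 → Rr ρ ≤ Z →
  ∑ m ∈ ball M, ‖S (cH Q a ρ m) X (τ * I)‖ ^ 2
    ≤ C * Z ^ ε * (1 + |τ|) ^ B * (X * (M * Rr ρ) ^ (1 + η))
def HHs (Q : ℕ) (η : ℝ) : Prop := ∀ ε : ℝ, 0 < ε → ∃ (B : ℕ) (C : ℝ), 0 < C ∧
  ∀ (Z X M : ℝ) (s : ℂ) (a ρ : E), 0 < X → X ≤ Z → 1 ≤ M → M ≤ Z → |s.re| ≤ 3 → IsCoprime a Q →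
  ρ ≠ 0 → Rr ρ ≤ Z →
  ∑ m ∈ ball M, ‖S (cH Q a ρ m) X s‖ ^ 2
    ≤ C * Z ^ ε * (1 + ‖s‖) ^ B * (X * (M * Rr ρ) ^ (1 + η))
def VB0 (Q : ℕ) : Prop := ∀ ε : ℝ, 0 < ε → ∃ (B : ℕ) (C : ℝ), 0 < C ∧
  ∀ (Z X M τ : ℝ) (a ρ : E), 1 ≤ X → X ≤ Z → 1 ≤ M → M ≤ Z → IsCoprime a Q → (3 : E) ∣ a - 1 →
  ρ ≠ 0 → Rr ρ ≤ Z →
  ∑ t ∈ sqf M with Disjoint t (fac (Q * ρ)), ‖Th Q a (pr t * ρ) X (τ * I)‖ ^ 2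
    ≤ C * Z ^ ε * (1 + |τ|) ^ B * (X * M + (M * Rr ρ) ^ 2)
def VB (Q : ℕ) : Prop := ∀ ε : ℝ, 0 < ε → ∃ (B : ℕ) (C : ℝ), 0 < C ∧
  ∀ (Z X M τ : ℝ) (a ρ : E), 1 ≤ X → X ≤ Z → 1 ≤ M → M ≤ Z → IsCoprime a Q → (3 : E) ∣ a - 1 →
  ρ ≠ 0 → Rr ρ ≤ Z →
  ∑ m ∈ ball M, ‖Th Q a (m * ρ) X (τ * I)‖ ^ 2
    ≤ C * Z ^ ε * (1 + |τ|) ^ B * (X * M + (M * Rr ρ) ^ 2)
/-- Bounded coefficients supported on one odd class modulo 4. -/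
def Cls (β : Finset P → ℂ) : Prop :=
  (∀ s, ‖β s‖ ≤ 1) ∧ ∃ a : E, ∀ s, β s ≠ 0 → Odd' s ∧ (4 : E) ∣ pr s - a
/-- Poisson summation in the mean value: the exact step. -/
def PLa (χ : P → E → ℂ) : Prop := ∃ C : ℝ, 0 < C ∧
  ∀ (β : Finset P → ℂ) (X N τ : ℝ), 1 ≤ X → 1 ≤ N → Cls β →
  (∀ d f e, Summable fun m : E => if m = 0 then 0 else ‖bil χ β d f e m X N (τ * I)‖) ∧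
  ∑ n ∈ ball N, ‖S (fun s => β s * xs χ s n) X (τ * I)‖ ^ 2
    ≤ C * (N * X + PSum X N fun d f e =>
        ∑' m : E, if m = 0 then 0 else ‖bil χ β d f e m X N (τ * I)‖)
/-- Poisson summation in the mean value. -/
def PL (χ : P → E → ℂ) : Prop := ∀ (ε : ℝ) (B : ℕ), 0 < ε → ∃ C : ℝ, 0 < C ∧
  ∀ (ι : Type) (J : Finset ι) (β : ι → Finset P → ℂ) (X N K τ : ℝ), 1 ≤ X → 1 ≤ N →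
  (∀ i ∈ J, Cls (β i)) →
  (∀ (j : ℕ) (s : ℂ), |s.re| ≤ 3 → ∑ i ∈ J, PSum X N (fun d f e =>
      ∑ m ∈ ball (2 ^ j * M0 X N d f), ‖S (dual χ (β i) d f e m) (X / (Ns d * Ns e)) s‖ ^ 2)
    ≤ K * 6 ^ j * (1 + ‖s‖) ^ B) →
  ∑ i ∈ J, ∑ n ∈ ball N, ‖S (fun s => β i s * xs χ s n) X (τ * I)‖ ^ 2
    ≤ C * (J.card * N * X + X ^ ε * K * (1 + |τ|) ^ B)
/-- Cancellation in the Moebius function on residue classes. -/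
def MoB (Q : ℕ) (θ : ℝ) : Prop := ∀ (a : E) (τ : ℝ), IsCoprime a Q → ∃ C : ℝ, ∀ X : ℝ, 1 ≤ X →
  ‖S (fun s => cl Q a s * mu s) X (τ * I)‖ ≤ C * X ^ θ
/-- Euler product for the Moebius series of the Eisenstein integers. -/
def Euler : Prop := ∀ (Q : ℕ) [NeZero Q] (χ : DirichletCharacter ℂ Q), 3 ∣ Q →
  ∃ χ' : DirichletCharacter ℂ Q, ∀ z : ℂ, 1 < z.re →
    (∑' s : Finset P, mu s * χ (nm (pr s)) * (Ns s : ℂ) ^ (-z)) * χ.LFunction z * χ'.LFunction z = 1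

end QRH
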