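import Vale.Agent.P026.Dvs
import Vale.Agent.P026.Stm2

noncomputable section
namespace QRH
open Complex MeasureTheory Filter
open scoped ComplexConjugate Classical ContDiff Topology

theorem rr_mem {R : ℝ} {d c : Finset P} (h : Disjoint c d) :
    c ∈ sqf (R / Ns d) ↔ d ∪ c ∈ sqf R := by
  rw [mem_sqf, mem_sqf, Ns_union h.symm, le_div_iff₀ (Ns_pos d), mul_comm]

theorem rr_sub {R : ℝ} {d n : Finset P} (h : d ⊆ n) (hn : n ∈ sqf R) : d ∈ sqf R :=
  mem_sqf.2 ((Ns_mono h).trans (mem_sqf.1 hn))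

theorem rr_sup (R : ℝ) (d : Finset P) (F : Finset P → ℂ) :
    ∑ c ∈ sqf (R / Ns d) with Disjoint c d, F c = ∑ n ∈ sqf R with d ⊆ n, F (n \ d) := by
  refine Finset.sum_bij' (fun c _ => d ∪ c) (fun n _ => n \ d) ?_ ?_ ?_ ?_ ?_
  · intro c hc
    rw [Finset.mem_filter] at hc ⊢
    exact ⟨(rr_mem hc.2).1 hc.1, Finset.subset_union_left⟩
  · intro n hn
    rw [Finset.mem_filter] at hn ⊢
    refine ⟨(rr_mem Finset.sdiff_disjoint).2 ?_, Finset.sdiff_disjoint⟩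
    rw [Finset.union_sdiff_of_subset hn.2]
    exact hn.1
  · intro c hc
    rw [Finset.mem_filter] at hc
    exact Finset.union_sdiff_cancel_left hc.2.symm
  · intro n hn
    rw [Finset.mem_filter] at hn
    exact Finset.union_sdiff_of_subset hn.2
  · intro c hc
    rw [Finset.mem_filter] at hc
    rw [Finset.union_sdiff_cancel_left hc.2.symm]

theorem rr_step1 (R : ℝ) (Ψ : Finset P → Finset P → Finset P → ℂ) :
    ∑ n ∈ sqf R, ∑ n' ∈ sqf R, Ψ (n ∩ n') (n \ n') (n' \ n)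
      = ∑ d ∈ sqf R, ∑ c ∈ sqf (R / Ns d) with Disjoint c d,
          ∑ c' ∈ sqf (R / Ns d) with Disjoint c' d, if Disjoint c c' then Ψ d c c' else 0 := by
  simp_rw [rr_sup]
  simp_rw [Finset.sum_filter]
  have e1 : ∀ d n : Finset P, (if d ⊆ n then ∑ n' ∈ sqf R, (if d ⊆ n' then
      (if Disjoint (n \ d) (n' \ d) then Ψ d (n \ d) (n' \ d) else 0) else 0) else 0)
      = ∑ n' ∈ sqf R, if d = n ∩ n' then Ψ d (n \ d) (n' \ d) else 0 := by
    intro d n
    by_cases h : d ⊆ n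
    · rw [if_pos h]
      refine Finset.sum_congr rfl fun n' _ => ?_
      by_cases h' : d ⊆ n'
      · rw [if_pos h']
        refine if_congr ?_ rfl rfl
        constructor
        · intro hd
          refine Finset.Subset.antisymm (Finset.subset_inter h h') fun p hp => ?_
          by_contra hpd
          rw [Finset.mem_inter] at hp
          exact Finset.disjoint_left.1 hd (Finset.mem_sdiff.2 ⟨hp.1, hpd⟩)
            (Finset.mem_sdiff.2 ⟨hp.2, hpd⟩)
        · rintro rfl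
          rw [Finset.disjoint_left]
          intro p hp hp'
          rw [Finset.mem_sdiff] at hp hp'
          exact hp.2 (Finset.mem_inter.2 ⟨hp.1, hp'.1⟩)
      · rw [if_neg h', if_neg]
        rintro rfl
        exact h' Finset.inter_subset_right
    · rw [if_neg h]
      refine (Finset.sum_eq_zero fun n' _ => if_neg ?_).symm
      rintro rfl
      exact h Finset.inter_subset_left
  simp_rw [e1]
  symm
  rw [Finset.sum_comm]
  refine Finset.sum_congr rfl fun n hn => ?_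
  rw [Finset.sum_comm]
  refine Finset.sum_congr rfl fun n' _ => ?_
  rw [Finset.sum_ite_eq', if_pos (rr_sub Finset.inter_subset_left hn),
    Finset.sdiff_inter_self_left, Finset.sdiff_inter_self_right]

theorem rr_mu {R : ℝ} {c : Finset P} (hc : c ∈ sqf R) (c' : Finset P) (z : ℂ) :
    (if Disjoint c c' then z else 0)
      = ∑ e ∈ sqf R, if e ⊆ c ∧ e ⊆ c' then mu e * z else 0 := by
  rw [← Finset.sum_filter, ← Finset.sum_mul]
  have : (sqf R).filter (fun e => e ⊆ c ∧ e ⊆ c') = (c ∩ c').powerset := by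
    ext e
    rw [Finset.mem_filter, Finset.mem_powerset, Finset.subset_inter_iff]
    exact ⟨fun h => h.2, fun h => ⟨rr_sub h.1 hc, h⟩⟩
  rw [this, sum_mu, ite_mul, one_mul, zero_mul]
  exact if_congr Finset.disjoint_iff_inter_eq_empty rfl rfl

theorem rr_down {R : ℝ} {d c : Finset P} (hc : c ∈ sqf (R / Ns d)) : c ∈ sqf R := by
  rw [mem_sqf] at hc ⊢
  rw [le_div_iff₀ (Ns_pos d)] at hc
  nlinarith [one_le_Ns d, one_le_Ns c]

/-- The same with the full cofactors as variables. -/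
theorem rearr2 (R : ℝ) (Ψ : Finset P → Finset P → Finset P → ℂ) :
    ∑ n ∈ sqf R, ∑ n' ∈ sqf R, Ψ (n ∩ n') (n \ n') (n' \ n)
      = ∑ d ∈ sqf R, ∑ e ∈ sqf R, mu e *
          ∑ c ∈ sqf (R / Ns d) with Disjoint c d ∧ e ⊆ c,
            ∑ c' ∈ sqf (R / Ns d) with Disjoint c' d ∧ e ⊆ c', Ψ d c c' := by
  rw [rr_step1]
  refine Finset.sum_congr rfl fun d _ => ?_
  rw [Finset.sum_congr rfl fun c hc => Finset.sum_congr rfl fun c' _ =>
    rr_mu (rr_down (Finset.mem_filter.1 hc).1) c' (Ψ d c c')]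
  rw [Finset.sum_congr rfl fun c _ => Finset.sum_comm, Finset.sum_comm]
  refine Finset.sum_congr rfl fun e _ => ?_
  simp_rw [← Finset.filter_filter, Finset.mul_sum]
  rw [Finset.sum_filter (fun c => e ⊆ c)]
  refine Finset.sum_congr rfl fun c _ => ?_
  by_cases h : e ⊆ c
  · rw [if_pos h, Finset.sum_filter (fun c => e ⊆ c)]
    refine Finset.sum_congr rfl fun c' _ => if_congr (by simp [h]) rfl rfl
  · rw [if_neg h]
    exact Finset.sum_eq_zero fun c' _ => if_neg fun h' => h h'.1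

theorem rr_shift (R : ℝ) {d e : Finset P} (h : Disjoint d e) (F : Finset P → ℂ) :
    ∑ c ∈ sqf (R / Ns d) with Disjoint c d ∧ e ⊆ c, F c
      = ∑ c ∈ sqf (R / (Ns d * Ns e)) with Disjoint c (d ∪ e), F (e ∪ c) := by
  rw [← div_div]
  refine Finset.sum_bij' (fun n _ => n \ e) (fun c _ => e ∪ c) ?_ ?_ ?_ ?_ ?_
  · intro n hn
    rw [Finset.mem_filter] at hn ⊢
    refine ⟨(rr_mem Finset.sdiff_disjoint).2 ?_, Finset.disjoint_union_right.2
      ⟨hn.2.1.mono_left Finset.sdiff_subset, Finset.sdiff_disjoint⟩⟩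
    rw [Finset.union_sdiff_of_subset hn.2.2]
    exact hn.1
  · intro c hc
    rw [Finset.mem_filter] at hc ⊢
    have hc2 := Finset.disjoint_union_right.1 hc.2
    exact ⟨(rr_mem hc2.2).1 hc.1, Finset.disjoint_union_left.2 ⟨h.symm, hc2.1⟩,
      Finset.subset_union_left⟩
  · intro n hn
    rw [Finset.mem_filter] at hn
    exact Finset.union_sdiff_of_subset hn.2.2
  · intro c hc
    rw [Finset.mem_filter] at hc
    exact Finset.union_sdiff_cancel_left (Finset.disjoint_union_right.1 hc.2).2.symm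
  · intro n hn
    rw [Finset.mem_filter] at hn
    rw [Finset.union_sdiff_of_subset hn.2.2]

/-- Pairs of squarefree elements: common part, and Moebius inversion for coprimality. -/
theorem rearr (R : ℝ) (Ψ : Finset P → Finset P → Finset P → ℂ) :
    ∑ n ∈ sqf R, ∑ n' ∈ sqf R, Ψ (n ∩ n') (n \ n') (n' \ n)
      = ∑ d ∈ sqf R, ∑ e ∈ sqf R with Disjoint d e, mu e *
          ∑ c ∈ sqf (R / (Ns d * Ns e)) with Disjoint c (d ∪ e),
            ∑ c' ∈ sqf (R / (Ns d * Ns e)) with Disjoint c' (d ∪ e), Ψ d (e ∪ c) (e ∪ c') := by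
  rw [rearr2]
  refine Finset.sum_congr rfl fun d _ => ?_
  rw [Finset.sum_filter (fun e => Disjoint d e)]
  refine Finset.sum_congr rfl fun e _ => ?_
  by_cases h : Disjoint d e
  · rw [if_pos h, rr_shift R h]
    simp_rw [rr_shift R h]
  · rw [if_neg h, Finset.sum_eq_zero, mul_zero]
    intro c hc
    rw [Finset.mem_filter] at hc
    exact absurd (hc.2.1.mono_left hc.2.2).symm h

/-- Splitting off the part supported on `K`. -/
theorem sum_sqf_split (R : ℝ) (K : Finset P) (F : Finset P → ℂ) :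
    ∑ s ∈ sqf R, F s = ∑ d ∈ K.powerset, ∑ c ∈ sqf (R / Ns d) with Disjoint c K, F (d ∪ c) := by
  rw [← Finset.sum_fiberwise_of_maps_to (s := sqf R) (t := K.powerset) (g := fun s => s ∩ K)
    fun s _ => Finset.mem_powerset.2 Finset.inter_subset_right]
  refine Finset.sum_congr rfl fun d hd => ?_
  rw [Finset.mem_powerset] at hd
  have key : ∀ s : Finset P, s ∩ K ∪ s \ K = s := fun s => by
    rw [Finset.union_comm, Finset.sdiff_union_inter]
  refine Finset.sum_bij' (fun n _ => n \ K) (fun c _ => d ∪ c) ?_ ?_ ?_ ?_ ?_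
  · intro n hn
    rw [Finset.mem_filter] at hn ⊢
    refine ⟨(rr_mem (Finset.sdiff_disjoint.mono_right hd)).2 ?_, Finset.sdiff_disjoint⟩
    rw [← hn.2, key]
    exact hn.1
  · intro c hc
    rw [Finset.mem_filter] at hc ⊢
    refine ⟨(rr_mem (hc.2.mono_right hd)).1 hc.1, ?_⟩
    rw [Finset.union_inter_distrib_right, Finset.disjoint_iff_inter_eq_empty.1 hc.2,
      Finset.union_empty, Finset.inter_eq_left.2 hd]
  · intro n hn
    rw [Finset.mem_filter] at hn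
    rw [← hn.2, key]
  · intro c hc
    rw [Finset.mem_filter] at hc
    rw [Finset.union_sdiff_distrib, Finset.sdiff_eq_empty_iff_subset.2 hd, Finset.empty_union,
      Finset.sdiff_eq_self_of_disjoint hc.2]
  · intro n hn
    rw [Finset.mem_filter] at hn
    rw [← hn.2, key]

theorem rr_card (T : Finset (Finset P)) (n : Finset P) :
    ∑ d ∈ T, (if d ⊆ n then (1 : ℝ) else 0) ≤ 2 ^ n.card := by
  rw [Finset.sum_boole]
  have : (T.filter fun d => d ⊆ n).card ≤ n.powerset.card := Finset.card_le_card fun d hd =>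
    Finset.mem_powerset.2 (Finset.mem_filter.1 hd).2
  rw [Finset.card_powerset] at this
  exact_mod_cast this

theorem rr_count (T : Finset (Finset P)) (n : Finset P) :
    ∑ d ∈ T, ∑ r ∈ T, ∑ e ∈ T, (if d ∪ r ∪ e ⊆ n then (2 : ℝ) ^ d.card else 0)
      ≤ 16 ^ n.card := by
  have h0 : 0 ≤ ∑ d ∈ T, (if d ⊆ n then (1 : ℝ) else 0) :=
    Finset.sum_nonneg fun d _ => by positivity
  calc _ ≤ ∑ d ∈ T, ∑ r ∈ T, ∑ e ∈ T, 2 ^ n.card * ((if d ⊆ n then (1 : ℝ) else 0) *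
        ((if r ⊆ n then (1 : ℝ) else 0) * (if e ⊆ n then (1 : ℝ) else 0))) := by
        refine Finset.sum_le_sum fun d _ => Finset.sum_le_sum fun r _ =>
          Finset.sum_le_sum fun e _ => ?_
        by_cases h : d ∪ r ∪ e ⊆ n
        · have h' := h
          rw [Finset.union_subset_iff, Finset.union_subset_iff] at h'
          rw [if_pos h, if_pos h'.1.1, if_pos h'.1.2, if_pos h'.2, mul_one, mul_one, mul_one]
          exact pow_le_pow_right₀ one_le_two (Finset.card_le_card h'.1.1)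
        · rw [if_neg h]
          positivity
    _ = 2 ^ n.card * ((∑ d ∈ T, (if d ⊆ n then (1 : ℝ) else 0)) *
        ((∑ d ∈ T, (if d ⊆ n then (1 : ℝ) else 0)) *
          (∑ d ∈ T, (if d ⊆ n then (1 : ℝ) else 0)))) := by
        simp_rw [← Finset.mul_sum, ← Finset.sum_mul]
    _ ≤ 2 ^ n.card * (2 ^ n.card * (2 ^ n.card * 2 ^ n.card)) := by
        have := rr_card T n
        gcongr
    _ = 16 ^ n.card := by
        rw [← mul_pow, ← mul_pow, ← mul_pow]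
        norm_num

theorem comb {ε : ℝ} (hε : 0 < ε) : ∃ C : ℝ, 0 < C ∧ ∀ (N : ℝ) (α : Finset P → ℂ), 1 ≤ N →
    ∑ d ∈ sqf N, ∑ r ∈ sqf N, 2 ^ d.card *
      (∑ e ∈ sqf N, √((∑ n ∈ sqf N with d ∪ r ∪ e ⊆ n, ‖α n‖ ^ 2) / Ns e)) ^ 2
      ≤ C * N ^ ε * ∑ n ∈ sqf N, ‖α n‖ ^ 2 := by
  obtain ⟨C1, hC1, h1⟩ := sum_sqf_inv (half_pos hε)
  obtain ⟨C2, hC2, h2⟩ := pow_card_le (A := 16) (by norm_num) (half_pos hε)
  refine ⟨C1 * C2, mul_pos hC1 hC2, fun N α hN => ?_⟩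
  have hN0 : 0 < N := by linarith
  have hS := h1 N hN0.le
  have cs : ∀ d r : Finset P,
      (∑ e ∈ sqf N, √((∑ n ∈ sqf N with d ∪ r ∪ e ⊆ n, ‖α n‖ ^ 2) / Ns e)) ^ 2
        ≤ (∑ e ∈ sqf N, ∑ n ∈ sqf N with d ∪ r ∪ e ⊆ n, ‖α n‖ ^ 2) * (C1 * N ^ (ε / 2)) := by
    intro d r
    have hA : ∀ e : Finset P, 0 ≤ ∑ n ∈ sqf N with d ∪ r ∪ e ⊆ n, ‖α n‖ ^ 2 := fun e =>
      Finset.sum_nonneg fun _ _ => by positivity
    refine (Finset.sum_sq_le_sum_mul_sum_of_sq_le_mul _ (fun e _ => hA e)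
      (fun e _ => (inv_pos.2 (Ns_pos e)).le) fun e _ => ?_).trans
      (mul_le_mul_of_nonneg_left hS (Finset.sum_nonneg fun e _ => hA e))
    rw [Real.sq_sqrt (div_nonneg (hA e) (Ns_pos e).le), div_eq_mul_inv]
  calc _ ≤ ∑ d ∈ sqf N, ∑ r ∈ sqf N, 2 ^ d.card *
        ((∑ e ∈ sqf N, ∑ n ∈ sqf N with d ∪ r ∪ e ⊆ n, ‖α n‖ ^ 2) * (C1 * N ^ (ε / 2))) :=
        Finset.sum_le_sum fun d _ => Finset.sum_le_sum fun r _ =>
          mul_le_mul_of_nonneg_left (cs d r) (by positivity)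
    _ = C1 * N ^ (ε / 2) * ∑ n ∈ sqf N, ‖α n‖ ^ 2 * ∑ d ∈ sqf N, ∑ r ∈ sqf N, ∑ e ∈ sqf N,
        (if d ∪ r ∪ e ⊆ n then (2 : ℝ) ^ d.card else 0) := by
        simp_rw [Finset.mul_sum, Finset.sum_filter, Finset.sum_mul, Finset.mul_sum]
        symm
        rw [Finset.sum_comm]
        refine Finset.sum_congr rfl fun d _ => ?_
        rw [Finset.sum_comm]
        refine Finset.sum_congr rfl fun r _ => ?_
        rw [Finset.sum_comm]
        refine Finset.sum_congr rfl fun e _ => Finset.sum_congr rfl fun n _ => ?_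
        split_ifs <;> ring
    _ ≤ C1 * N ^ (ε / 2) * ∑ n ∈ sqf N, ‖α n‖ ^ 2 * (C2 * N ^ (ε / 2)) := by
        refine mul_le_mul_of_nonneg_left (Finset.sum_le_sum fun n hn =>
          mul_le_mul_of_nonneg_left ((rr_count _ n).trans ((h2 n).trans ?_)) (by positivity))
          (by positivity)
        exact mul_le_mul_of_nonneg_left
          (Real.rpow_le_rpow (Ns_pos n).le (mem_sqf.1 hn) (half_pos hε).le) hC2.le
    _ = C1 * C2 * N ^ ε * ∑ n ∈ sqf N, ‖α n‖ ^ 2 := by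
        rw [← Finset.sum_mul]
        have : N ^ ε = N ^ (ε / 2) * N ^ (ε / 2) := by rw [← Real.rpow_add hN0, add_halves]
        rw [this]
        ring

/-- Minkowski inequality for finite families. -/
theorem minkowski {ι κ : Type*} (I : Finset ι) (J : Finset κ) (x : ι → κ → ℂ) :
    √(∑ i ∈ I, ‖∑ j ∈ J, x i j‖ ^ 2) ≤ ∑ j ∈ J, √(∑ i ∈ I, ‖x i j‖ ^ 2) := by
  have h := norm_sum_le J fun j => (WithLp.toLp 2 fun i : I => x i j : EuclideanSpace ℂ I)
  simp only [EuclideanSpace.norm_eq, WithLp.ofLp_sum, Finset.sum_apply] at h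
  rw [← Finset.sum_coe_sort I]
  refine h.trans (le_of_eq (Finset.sum_congr rfl fun j _ => ?_))
  rw [← Finset.sum_coe_sort I]

theorem norm_sum_sq_le {κ : Type*} (J : Finset κ) (x : κ → ℂ) :
    ‖∑ j ∈ J, x j‖ ^ 2 ≤ J.card * ∑ j ∈ J, ‖x j‖ ^ 2 :=
  (pow_le_pow_left₀ (norm_nonneg _) (norm_sum_le _ _) 2).trans sq_sum_le_card_mul_sum_sq

/-- Duality for bilinear forms. -/
theorem duality {ι κ : Type*} (I : Finset ι) (J : Finset κ) (a : ι → κ → ℂ) {K : ℝ} (hK : 0 ≤ K)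
    (h : ∀ x : κ → ℂ, ∑ i ∈ I, ‖∑ j ∈ J, x j * a i j‖ ^ 2 ≤ K * ∑ j ∈ J, ‖x j‖ ^ 2)
    (y : ι → ℂ) : ∑ j ∈ J, ‖∑ i ∈ I, y i * a i j‖ ^ 2 ≤ K * ∑ i ∈ I, ‖y i‖ ^ 2 := by
  have h1 := h fun j => conj (∑ i ∈ I, y i * a i j)
  simp only [Complex.norm_conj] at h1
  have e : ((∑ j ∈ J, ‖∑ i ∈ I, y i * a i j‖ ^ 2 : ℝ) : ℂ)
      = ∑ i ∈ I, y i * ∑ j ∈ J, conj (∑ i ∈ I, y i * a i j) * a i j := by
    simp_rw [Finset.mul_sum]
    rw [Finset.sum_comm]
    push_cast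
    refine Finset.sum_congr rfl fun j _ => ?_
    rw [← Complex.conj_mul']
    generalize conj (∑ i ∈ I, y i * a i j) = w
    rw [Finset.mul_sum]
    exact Finset.sum_congr rfl fun i _ => by ring
  have hS : 0 ≤ ∑ j ∈ J, ‖∑ i ∈ I, y i * a i j‖ ^ 2 := Finset.sum_nonneg fun _ _ => by positivity
  have hY : 0 ≤ ∑ i ∈ I, ‖y i‖ ^ 2 := Finset.sum_nonneg fun _ _ => by positivity
  have h2 : ∑ j ∈ J, ‖∑ i ∈ I, y i * a i j‖ ^ 2
      ≤ ∑ i ∈ I, ‖y i‖ * ‖∑ j ∈ J, conj (∑ i ∈ I, y i * a i j) * a i j‖ := by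
    rw [← Real.norm_of_nonneg hS, ← Complex.norm_real, e]
    exact (norm_sum_le _ _).trans (le_of_eq (Finset.sum_congr rfl fun i _ => norm_mul _ _))
  have h3 := (pow_le_pow_left₀ hS h2 2).trans ((Finset.sum_mul_sq_le_sq_mul_sq _ _ _).trans
    (mul_le_mul_of_nonneg_left h1 hY))
  rcases hS.eq_or_lt with h0 | h0
  · rw [← h0]
    exact mul_nonneg hK hY
  · refine le_of_mul_le_mul_right ?_ h0
    nlinarith [h3]

theorem exists_dyadic {R : ℝ} (hR : 1 ≤ R) : ∃ J : ℕ, (2 : ℝ) ^ J ≤ R ∧ R < 2 ^ (J + 1) :=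
  exists_nat_pow_near hR one_lt_two

/-- Dyadic decomposition of a sum over elements of size in `[1, R]`. -/
theorem sum_dyadic {ι M : Type*} [AddCommMonoid M] (I : Finset ι) (y : ι → ℝ) (F : ι → M) {J : ℕ}
    (h : ∀ i ∈ I, 1 ≤ y i ∧ y i < 2 ^ (J + 1)) :
    ∑ i ∈ I, F i = ∑ j ∈ Finset.range (J + 1), ∑ i ∈ I with 2 ^ j ≤ y i ∧ y i < 2 ^ (j + 1), F i := by
  simp_rw [Finset.sum_filter]
  rw [Finset.sum_comm]
  refine Finset.sum_congr rfl fun i hi => ?_
  obtain ⟨j, hj⟩ := exists_dyadic (h i hi).1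
  rw [Finset.sum_eq_single j, if_pos hj]
  · intro k _ hk
    refine if_neg fun hk' => hk ?_
    have a1 := (pow_lt_pow_iff_right₀ (one_lt_two (α := ℝ))).1 (hk'.1.trans_lt hj.2)
    have a2 := (pow_lt_pow_iff_right₀ (one_lt_two (α := ℝ))).1 (hj.1.trans_lt hk'.2)
    omega
  · intro hk
    exact absurd (Finset.mem_range.2
      ((pow_lt_pow_iff_right₀ (one_lt_two (α := ℝ))).1 (hj.1.trans_lt (h i hi).2))) hk

theorem rr_isA {a : E} :
    IsA a ↔ ∃ (s : Finset P) (i : ℕ) (u : E), i ≤ 1 ∧ (u = 1 ∨ u = -1) ∧ a = u * (lam ^ i * pr s) := by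
  constructor
  · rintro ⟨s, h | h | h | h⟩
    · exact ⟨s, 0, 1, zero_le_one, Or.inl rfl, by rw [h]; ring⟩
    · exact ⟨s, 0, -1, zero_le_one, Or.inr rfl, by rw [h]; ring⟩
    · exact ⟨s, 1, 1, le_rfl, Or.inl rfl, by rw [h]; ring⟩
    · exact ⟨s, 1, -1, le_rfl, Or.inr rfl, by rw [h]; ring⟩
  · rintro ⟨s, i, u, hi, hu, rfl⟩
    refine ⟨s, ?_⟩
    interval_cases i <;> rcases hu with rfl | rfl <;> simp

/-- Every nonzero element is `a b^2` in exactly two ways. -/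
theorem exists_isA {m : E} (hm : m ≠ 0) : ∃ a b, IsA a ∧ b ≠ 0 ∧ m = a * b ^ 2 := by
  refine induction_nz (M := fun m => ∃ a b, IsA a ∧ b ≠ 0 ∧ m = a * b ^ 2) ?_ ?_ ?_ hm
  · intro u hu
    obtain ⟨j, -, hj⟩ := isUnit_cases hu
    have h0 : om ^ (2 * j) ≠ 0 := pow_ne_zero _ isUnit_om.ne_zero
    have e : (om ^ (2 * j)) ^ 2 = om ^ j := by
      rw [← pow_mul, show 2 * j * 2 = 3 * j + j by ring, pow_add, pow_mul, om_cube, one_pow, one_mul]
    rcases hj with rfl | rfl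
    · exact ⟨1, _, ⟨∅, Or.inl pr_empty.symm⟩, h0, by rw [e, one_mul]⟩
    · exact ⟨-1, _, ⟨∅, Or.inr (Or.inl (by rw [pr_empty]))⟩, h0, by rw [e, neg_one_mul]⟩
  · rintro x - ⟨a, b, ha, hb, rfl⟩
    obtain ⟨s, i, u, hi, hu, rfl⟩ := rr_isA.1 ha
    interval_cases i
    · exact ⟨_, b, rr_isA.2 ⟨s, 1, u, le_rfl, hu, rfl⟩, hb, by ring⟩
    · exact ⟨_, lam * b, rr_isA.2 ⟨s, 0, u, zero_le_one, hu, rfl⟩,
        mul_ne_zero lam_prime.ne_zero hb, by ring⟩
  · rintro p x - ⟨a, b, ha, hb, rfl⟩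
    obtain ⟨s, i, u, hi, hu, rfl⟩ := rr_isA.1 ha
    by_cases hp : p ∈ s
    · refine ⟨_, p.1 * b, rr_isA.2 ⟨s.erase p, i, u, hi, hu, rfl⟩, mul_ne_zero p.ne_zero hb, ?_⟩
      have : pr s = p.1 * pr (s.erase p) := by
        rw [← pr_insert (Finset.notMem_erase p s), Finset.insert_erase hp]
      rw [this]
      ring
    · exact ⟨_, b, rr_isA.2 ⟨insert p s, i, u, hi, hu, rfl⟩, hb, by rw [pr_insert hp]; ring⟩

theorem rr_unit {u : E} (hu : u = 1 ∨ u = -1) : IsUnit u := by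
  rcases hu with rfl | rfl
  · exact isUnit_one
  · exact isUnit_one.neg

theorem rr_ne (s : Finset P) (i : ℕ) : lam ^ i * pr s ≠ 0 :=
  mul_ne_zero (pow_ne_zero _ lam_prime.ne_zero) (pr_ne_zero s)

theorem rr_vp (s : Finset P) (i : ℕ) {u : E} (hu : u = 1 ∨ u = -1) (p : P) :
    vp p.1 (u * (lam ^ i * pr s)) = if p ∈ s then 1 else 0 := by
  rw [vp_mul p.2.1 (rr_unit hu).ne_zero (rr_ne s i),
    vp_mul p.2.1 (pow_ne_zero _ lam_prime.ne_zero) (pr_ne_zero s), vp_pr,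
    vp_of_not_dvd (p.not_dvd_unit (rr_unit hu)),
    vp_of_not_dvd fun h => p.not_dvd_lam (p.2.1.dvd_of_dvd_pow h), zero_add, zero_add]

theorem rr_vl (s : Finset P) (i : ℕ) {u : E} (hu : u = 1 ∨ u = -1) :
    vp lam (u * (lam ^ i * pr s)) = i := by
  rw [vp_mul lam_prime (rr_unit hu).ne_zero (rr_ne s i),
    (vp_up_eq lam_prime (not_lam_dvd_of_primary (pr_primary s)) i).1,
    vp_of_not_dvd fun h => lam_prime.not_isUnit (isUnit_of_dvd_unit h (rr_unit hu)), zero_add]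

theorem IsA.ne_zero {a : E} (ha : IsA a) : a ≠ 0 := by
  obtain ⟨s, i, u, -, hu, rfl⟩ := rr_isA.1 ha
  exact mul_ne_zero (rr_unit hu).ne_zero (rr_ne s i)

theorem IsA.vp_le {a : E} (ha : IsA a) (p : P) : vp p.1 a ≤ 1 := by
  obtain ⟨s, i, u, -, hu, rfl⟩ := rr_isA.1 ha
  rw [rr_vp s i hu]
  split_ifs <;> simp

theorem rr_neg {b b1 : E} (hb : b ≠ 0) : b ^ 2 ≠ -b1 ^ 2 := by
  intro h
  have h1 : b ∣ b1 := (IsIntegrallyClosed.pow_dvd_pow_iff two_ne_zero).1
    ⟨-1, by linear_combination h⟩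
  obtain ⟨t, rfl⟩ := h1
  have h2 : t ^ 2 = -1 := mul_left_cancel₀ (pow_ne_zero 2 hb) (by linear_combination h)
  have h3 : IsUnit t := IsUnit.of_mul_eq_one (-t) (by linear_combination -h2)
  obtain ⟨j, hj, h4⟩ := isUnit_cases h3
  interval_cases j <;> rcases h4 with rfl | rfl <;> revert h2 <;> decide

theorem isA_unique {a a1 b b1 : E} (ha : IsA a) (ha1 : IsA a1) (hb : b ≠ 0)
    (h : a * b ^ 2 = a1 * b1 ^ 2) : a = a1 ∧ (b = b1 ∨ b = -b1) := by
  have hb1 : b1 ≠ 0 := by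
    rintro rfl
    exact mul_ne_zero ha.ne_zero (pow_ne_zero 2 hb) (by rw [h]; ring)
  have key : ∀ q : E, Prime q → vp q a + 2 * vp q b = vp q a1 + 2 * vp q b1 := fun q hq => by
    rw [← vp_pow hq hb, ← vp_pow hq hb1, ← vp_mul hq ha.ne_zero (pow_ne_zero 2 hb),
      ← vp_mul hq ha1.ne_zero (pow_ne_zero 2 hb1), h]
  obtain ⟨s, i, u, hi, hu, rfl⟩ := rr_isA.1 ha
  obtain ⟨s1, i1, u1, hi1, hu1, rfl⟩ := rr_isA.1 ha1
  have e1 : i = i1 := by
    have := key lam lam_prime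
    rw [rr_vl s i hu, rr_vl s1 i1 hu1] at this
    omega
  have e2 : s = s1 := by
    ext p
    have := key p.1 p.2.1
    rw [rr_vp s i hu, rr_vp s1 i1 hu1] at this
    split_ifs at this with h1 h2 h2
    · exact iff_of_true h1 h2
    · omega
    · omega
    · exact iff_of_false h1 h2
  subst e1 e2
  have h' : u * b ^ 2 = u1 * b1 ^ 2 := mul_left_cancel₀ (rr_ne s i) (by linear_combination h)
  rcases hu with rfl | rfl <;> rcases hu1 with rfl | rfl
  · exact ⟨rfl, sq_eq_sq_iff_eq_or_eq_neg.1 (by linear_combination h')⟩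
  · exact absurd (by linear_combination h') (rr_neg (b1 := b1) hb)
  · exact absurd (by linear_combination -h') (rr_neg (b1 := b1) hb)
  · exact ⟨rfl, sq_eq_sq_iff_eq_or_eq_neg.1 (by linear_combination -h')⟩

theorem rr_half {F : E → ℂ} (hF : Summable F) (g : E → E × E)
    (h1 : ∀ m, (g m).1 * (g m).2 ^ 2 = m) (h2 : ∀ m, m ≠ 0 → IsA (g m).1 ∧ (g m).2 ≠ 0) :
    HasSum (fun x : E × E => if x = g (x.1 * x.2 ^ 2) then
      (if IsA x.1 ∧ x.2 ≠ 0 then F (x.1 * x.2 ^ 2) else 0) else 0)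
      (∑' m : E, if m = 0 then 0 else F m) := by
  have hg : Function.Injective g := fun m m' h => by rw [← h1 m, h, h1]
  have hs : Summable fun m : E => if m = 0 then 0 else F m := by
    refine (hF.indicator {m | m ≠ 0}).congr fun m => ?_
    by_cases hm : m = 0 <;> simp [hm]
  refine (hg.hasSum_iff fun x hx => if_neg fun h => hx ⟨_, h.symm⟩).1 ?_
  refine Eq.mpr (congrArg (fun f => HasSum f _) (funext fun m => ?_)) hs.hasSum
  simp only [Function.comp_apply, h1, if_true]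
  by_cases hm : m = 0
  · rw [if_pos hm, if_neg]
    intro h
    exact mul_ne_zero h.1.ne_zero (pow_ne_zero 2 h.2) ((h1 m).trans hm)
  · rw [if_neg hm, if_pos (h2 m hm)]

theorem tsum_isA {F : E → ℂ} (hF : Summable F) :
    Summable (fun x : E × E => if IsA x.1 ∧ x.2 ≠ 0 then F (x.1 * x.2 ^ 2) else 0) ∧
    ∑' x : E × E, (if IsA x.1 ∧ x.2 ≠ 0 then F (x.1 * x.2 ^ 2) else 0)
      = 2 * ∑' m : E, if m = 0 then 0 else F m := by
  have ex : ∀ m : E, ∃ a b : E, a * b ^ 2 = m ∧ (m ≠ 0 → IsA a ∧ b ≠ 0) := fun m => by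
    by_cases hm : m = 0
    · exact ⟨0, 0, by simp [hm], fun h => absurd hm h⟩
    · obtain ⟨a, b, ha, hb, h⟩ := exists_isA hm
      exact ⟨a, b, h.symm, fun _ => ⟨ha, hb⟩⟩
  choose a b h1 h2 using ex
  have s1 := rr_half hF (fun m => (a m, b m)) h1 h2
  have s2 := rr_half hF (fun m => (a m, -b m)) (fun m => by rw [neg_sq]; exact h1 m)
    fun m hm => ⟨(h2 m hm).1, neg_ne_zero.2 (h2 m hm).2⟩
  have s3 : HasSum (fun x : E × E => if IsA x.1 ∧ x.2 ≠ 0 then F (x.1 * x.2 ^ 2) else 0)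
      (2 * ∑' m : E, if m = 0 then 0 else F m) := by
    rw [two_mul]
    refine Eq.mpr (congrArg (fun f => HasSum f _) (funext fun x => ?_)) (s1.add s2)
    by_cases hx : IsA x.1 ∧ x.2 ≠ 0
    · have hm : x.1 * x.2 ^ 2 ≠ 0 := mul_ne_zero hx.1.ne_zero (pow_ne_zero 2 hx.2)
      have hb := (h2 _ hm).2
      obtain ⟨u1, u2⟩ := isA_unique hx.1 (h2 _ hm).1 hx.2 (h1 _).symm
      have hne : b (x.1 * x.2 ^ 2) ≠ -b (x.1 * x.2 ^ 2) := fun h =>
        mul_ne_zero (show (2 : E) ≠ 0 by decide) hb (by linear_combination h)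
      rcases u2 with u2 | u2
      · rw [if_pos (Prod.ext u1 u2), if_neg fun h => hne (u2.symm.trans (congrArg Prod.snd h)),
          add_zero]
      · rw [if_neg fun h => hne ((congrArg Prod.snd h).symm.trans u2), if_pos (Prod.ext u1 u2),
          zero_add]
    · simp only [if_neg hx, ite_self, add_zero]
  exact ⟨s3.summable, s3.tsum_eq⟩

theorem GoodQ.ne_zero {Q a : ℕ} (h : GoodQ Q a) : Q ≠ 0 := by
  obtain ⟨-, Q1, rfl, h1, -⟩ := h
  refine mul_ne_zero (by positivity) ?_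
  rintro rfl
  simp at h1
theorem GoodQ.dvd72 {Q a : ℕ} (h : GoodQ Q a) : 72 ∣ Q := by
  obtain ⟨ha, Q1, rfl, -, h1⟩ := h
  exact Nat.mul_dvd_mul (show 9 ∣ 27 ^ a from
    dvd_pow (by norm_num) (by omega)) h1
theorem GoodQ.four_dvd {Q a : ℕ} (h : GoodQ Q a) : (4 : E) ∣ (Q : E) := by
  exact_mod_cast Nat.cast_dvd_cast (α := E) ((show 4 ∣ 72 by norm_num).trans h.dvd72)
theorem GoodQ.three_dvd {Q a : ℕ} (h : GoodQ Q a) : (3 : E) ∣ (Q : E) := by
  exact_mod_cast Nat.cast_dvd_cast (α := E) ((show 3 ∣ 72 by norm_num).trans h.dvd72)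
theorem norm_cl_le (Q : ℕ) (a : E) (s : Finset P) : ‖cl Q a s‖ ≤ 1 := by
  unfold cl
  split_ifs <;> simp
theorem cl_congr {Q : ℕ} {a a1 : E} (h : (Q : E) ∣ a - a1) : cl Q a = cl Q a1 := by
  funext s
  refine if_congr ?_ rfl rfl
  rw [show pr s - a1 = pr s - a + (a - a1) by ring]
  exact (dvd_add_left h).symm
theorem rr_cop {Q a x : E} (ha : IsCoprime a Q) (h : Q ∣ x - a) : IsCoprime x Q := by
  obtain ⟨k, hk⟩ := h
  rw [show x = a + Q * k by linear_combination hk]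
  exact ha.add_mul_left_left k
theorem cl_ne_zero {Q k : ℕ} (hQ : GoodQ Q k) {a : E} (ha : IsCoprime a Q) {s : Finset P}
    (h : cl Q a s ≠ 0) : Odd' s ∧ (4 : E) ∣ pr s - a ∧ IsCoprime (pr s) Q ∧ (3 : E) ∣ a - 1 := by
  have h1 : (Q : E) ∣ pr s - a := by
    by_contra h1
    exact h (if_neg h1)
  have h2 := rr_cop ha h1
  refine ⟨odd_iff_coprime.2 (h2.symm.of_isCoprime_of_dvd_left
    ((show (2 : E) ∣ 4 from ⟨2, by norm_num⟩).trans hQ.four_dvd)), hQ.four_dvd.trans h1, h2, ?_⟩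
  rw [show a - 1 = pr s - 1 - (pr s - a) by ring]
  exact dvd_sub (pr_primary s) (hQ.three_dvd.trans h1)
/-- Removing a factor shifts the class. -/
theorem cl_union {Q : ℕ} {a : E} {d c : Finset P} (hd : IsCoprime (pr d) Q) (h : Disjoint d c) :
    cl Q a (d ∪ c) = cl Q (a * inv Q (pr d)) c := by
  have hi := inv_spec hd
  refine if_congr ?_ rfl rfl
  rw [pr_union h]
  constructor
  · intro h1
    rw [show pr c - a * inv Q (pr d) = (pr d * pr c - a) * inv Q (pr d)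
      - (pr d * inv Q (pr d) - 1) * pr c by ring]
    exact dvd_sub (h1.mul_right _) (hi.mul_right _)
  · intro h1
    rw [show pr d * pr c - a = (pr c - a * inv Q (pr d)) * pr d
      + (pr d * inv Q (pr d) - 1) * a by ring]
    exact dvd_add (h1.mul_right _) (hi.mul_right _)
theorem cl_union_zero {Q : ℕ} {a : E} (ha : IsCoprime a Q) {d : Finset P}
    (hd : ¬ IsCoprime (pr d) Q) (c : Finset P) : cl Q a (d ∪ c) = 0 :=
  if_neg fun h => hd ((rr_cop ha h).of_isCoprime_of_dvd_left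
    (pr_dvd_pr.2 Finset.subset_union_left))
theorem coprime_mul_inv {Q a x : E} (ha : IsCoprime a Q) (hx : IsCoprime x Q) :
    IsCoprime (a * inv Q x) Q := by
  obtain ⟨k, hk⟩ := inv_spec hx
  exact ha.mul_left ⟨x, -k, by linear_combination hk⟩
theorem one_le_Rr (ρ : E) : 1 ≤ Rr ρ := one_le_Ns _
theorem Rr_mul_le {ρ x : E} (hρ : ρ ≠ 0) (hx : x ≠ 0) : Rr (ρ * x) ≤ Rr ρ * Rr x := by
  unfold Rr
  rw [fac_mul hρ hx]
  exact Ns_union_le _ _

end QRH
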