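import Vale.Agent.P026.Cnt

noncomputable section
namespace QRH
open Complex MeasureTheory
open scoped ComplexConjugate Classical

/-- Only finitely many primes have small norm. -/
theorem dvs_cprod {A : ℝ} (hA : 1 ≤ A) (R : ℝ) : ∃ C : ℝ, 0 < C ∧
    ∀ s : Finset P, ∏ p ∈ s, (if (nm p.1 : ℝ) ≤ R then A else 1) ≤ C := by
  refine ⟨A ^ (ball R).card, by positivity, fun s => ?_⟩
  rw [Finset.prod_ite, Finset.prod_const_one, mul_one, Finset.prod_const]
  apply pow_le_pow_right₀ hA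
  apply Finset.card_le_card_of_injOn (fun p : P => p.1)
  · intro p hp
    have := (Finset.mem_filter.1 (Finset.mem_coe.1 hp)).2
    exact Finset.mem_coe.2 (mem_ball.2 ⟨p.ne_zero, this⟩)
  · intro p _ q _ h
    exact Subtype.ext h

theorem dvs_nmP_pos (p : P) : (0 : ℝ) < nm p.1 := lt_of_lt_of_le one_pos (one_le_nmR p.ne_zero)

theorem dvs_four_le (p : P) : (4 : ℝ) ≤ nm p.1 := by exact_mod_cast p.four_le_nm

theorem dvs_le_rpow {A ε y : ℝ} (hA : 0 ≤ A) (hε : 0 < ε) (h : A ^ (1 / ε) ≤ y) : A ≤ y ^ ε := by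
  have h1 : (A ^ (1 / ε)) ^ ε ≤ y ^ ε := Real.rpow_le_rpow (by positivity) h hε.le
  rwa [← Real.rpow_mul hA, one_div_mul_cancel hε.ne', Real.rpow_one] at h1

theorem pow_card_le {A ε : ℝ} (hA : 0 ≤ A) (hε : 0 < ε) : ∃ C : ℝ, 0 < C ∧
    ∀ s : Finset P, A ^ s.card ≤ C * Ns s ^ ε := by
  obtain ⟨C, hC, h⟩ := dvs_cprod (le_max_right A 1) (A ^ (1 / ε))
  refine ⟨C, hC, fun s => ?_⟩
  have h1 : A ^ s.card ≤ ∏ p ∈ s, ((if (nm p.1 : ℝ) ≤ A ^ (1 / ε) then max A 1 else 1)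
      * (nm p.1 : ℝ) ^ ε) := by
    rw [← Finset.prod_const]
    refine Finset.prod_le_prod (fun _ _ => hA) fun p _ => ?_
    have h1 : 1 ≤ (nm p.1 : ℝ) ^ ε := Real.one_le_rpow (one_le_nmR p.ne_zero) hε.le
    split_ifs with hp
    · exact (le_max_left A 1).trans (le_mul_of_one_le_right (by positivity) h1)
    · rw [one_mul]; exact dvs_le_rpow hA hε (not_le.1 hp).le
  rw [Finset.prod_mul_distrib, Real.finsetProd_rpow _ _ (fun p _ => (dvs_nmP_pos p).le),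
    ← Ns_eq_prod] at h1
  exact h1.trans (mul_le_mul_of_nonneg_right (h s) (Real.rpow_nonneg (Ns_pos s).le _))

theorem dvs_vp_zero {x : E} (hx : x ≠ 0) {p : P} (hp : p ∉ fac x) : vp p.1 x = 0 :=
  vp_of_not_dvd fun h => hp ((mem_fac hx).2 h)

theorem dvs_prod_eq {x : E} (hx : x ≠ 0) {S : Finset P} (hS : fac x ⊆ S) :
    ∏ p ∈ fac x, p.1 ^ vp p.1 x = ∏ p ∈ S, p.1 ^ vp p.1 x :=
  Finset.prod_subset hS fun p _ hp => by rw [dvs_vp_zero hx hp, pow_zero]

/-- The norm through the factorisation. -/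
theorem dvs_nm_eq {x : E} (hx : x ≠ 0) {S : Finset P} (hS : fac x ⊆ S) :
    (nm x : ℝ) = 3 ^ vp lam x * ∏ p ∈ S, (nm p.1 : ℝ) ^ vp p.1 x := by
  obtain ⟨u, hu, h⟩ := exists_factor hx
  rw [dvs_prod_eq hx hS] at h
  have h2 := congrArg nm h
  rw [nm_mul, nm_mul, isUnit_iff.1 hu, nm_pow, nm_lam, nm_prod, one_mul] at h2
  simp only [nm_pow] at h2
  exact_mod_cast h2

theorem prod_vp_le {ε : ℝ} (hε : 0 < ε) : ∃ C : ℝ, 0 < C ∧ ∀ x : E, x ≠ 0 →
    ((vp lam x + 1 : ℝ) * ∏ p ∈ fac x, (vp p.1 x + 1 : ℝ)) ≤ C * (nm x : ℝ) ^ ε := by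
  obtain ⟨A, hA, hk⟩ := log_le_rpow hε
  obtain ⟨C, hC, h⟩ := dvs_cprod (le_max_right A 1) (2 ^ (1 / ε))
  have hk' : ∀ (k : ℕ) (y : ℝ), 2 ≤ y → (k + 1 : ℝ) ≤ A * (y ^ k) ^ ε := fun k y hy =>
    hk _ k (one_le_pow₀ (by linarith)) (pow_le_pow_left₀ (by norm_num) hy k)
  refine ⟨A * C, by positivity, fun x hx => ?_⟩
  have h1 : ∏ p ∈ fac x, (vp p.1 x + 1 : ℝ) ≤ ∏ p ∈ fac x,
      ((if (nm p.1 : ℝ) ≤ 2 ^ (1 / ε) then max A 1 else 1) * ((nm p.1 : ℝ) ^ vp p.1 x) ^ ε) := by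
    refine Finset.prod_le_prod (fun _ _ => by positivity) fun p _ => ?_
    have h4 := dvs_four_le p
    split_ifs with hp
    · exact (hk' _ (nm p.1) (by linarith)).trans
        (mul_le_mul_of_nonneg_right (le_max_left A 1) (by positivity))
    · have h2 : (2 : ℝ) ≤ (nm p.1 : ℝ) ^ ε := dvs_le_rpow (by norm_num) hε (not_le.1 hp).le
      rw [one_mul, ← Real.rpow_natCast, ← Real.rpow_mul (by linarith), mul_comm,
        Real.rpow_mul (by linarith), Real.rpow_natCast]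
      refine le_trans ?_ (pow_le_pow_left₀ (by norm_num) h2 _)
      have := Nat.lt_two_pow_self (n := vp p.1 x)
      exact_mod_cast this
  rw [Finset.prod_mul_distrib,
    Real.finsetProd_rpow _ _ (fun p _ => pow_nonneg (dvs_nmP_pos p).le _)] at h1
  have h3 := hk' (vp lam x) 3 (by norm_num)
  have hpos : 0 ≤ ∏ p ∈ fac x, (nm p.1 : ℝ) ^ vp p.1 x :=
    Finset.prod_nonneg fun p _ => pow_nonneg (dvs_nmP_pos p).le _
  rw [dvs_nm_eq hx (Finset.Subset.refl _), Real.mul_rpow (by positivity) hpos]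
  have h5 := h1.trans (mul_le_mul_of_nonneg_right (h (fac x)) (Real.rpow_nonneg hpos _))
  calc _ ≤ (A * (3 ^ vp lam x) ^ ε) * (C * (∏ p ∈ fac x, (nm p.1 : ℝ) ^ vp p.1 x) ^ ε) :=
        mul_le_mul h3 h5 (Finset.prod_nonneg fun _ _ => by positivity) (by positivity)
    _ = _ := by ring

/-- Euler product bound, abstract form. -/
theorem dvs_euler {α ι : Type*} (T : Finset α) (S : Finset ι) (v : α → ι → ℕ)
    (hv : ∀ a ∈ T, ∀ b ∈ T, (∀ p ∈ S, v a p = v b p) → a = b) (g : ι → ℕ → ℝ) (G : ι → ℝ)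
    (hg : ∀ p j, 0 ≤ g p j) (hG : ∀ p ∈ S, ∀ J, ∑ j ∈ Finset.range J, g p j ≤ G p) :
    ∑ a ∈ T, ∏ p ∈ S, g p (v a p) ≤ ∏ p ∈ S, G p := by
  obtain ⟨J, hJ⟩ : ∃ J, ∀ a ∈ T, ∀ p ∈ S, v a p < J := by
    refine ⟨(T ×ˢ S).sup (fun z => v z.1 z.2) + 1, fun a ha p hp => Nat.lt_succ_of_le ?_⟩
    exact Finset.le_sup (f := fun z : α × ι => v z.1 z.2)
      (Finset.mem_product.2 ⟨ha, hp⟩ : (a, p) ∈ T ×ˢ S)
  refine le_trans ?_ (Finset.prod_le_prod
    (fun p _ => Finset.sum_nonneg fun j _ => hg p j) fun p hp => hG p hp J)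
  rw [Finset.prod_sum]
  have hinj : Set.InjOn (fun (a : α) (p : ι) (_ : p ∈ S) => v a p) T := by
    intro a ha b hb h
    exact hv a ha b hb fun p hp => congrFun (congrFun h p) hp
  calc ∑ a ∈ T, ∏ p ∈ S, g p (v a p)
      = ∑ w ∈ T.image (fun (a : α) (p : ι) (_ : p ∈ S) => v a p),
          ∏ x ∈ S.attach, g x.1 (w x.1 x.2) := by
        rw [Finset.sum_image hinj]
        exact Finset.sum_congr rfl fun a _ => (Finset.prod_attach S fun p => g p (v a p)).symm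
    _ ≤ _ := by
        apply Finset.sum_le_sum_of_subset_of_nonneg
        · intro w hw
          obtain ⟨a, ha, rfl⟩ := Finset.mem_image.1 hw
          exact Finset.mem_pi.2 fun p hp => Finset.mem_range.2 (hJ a ha p hp)
        · exact fun w _ _ => Finset.prod_nonneg fun x _ => hg _ _

/-- Euler product bound for nonzero elements. -/
theorem dvs_euler_nz (T : Finset E) (S : Finset P) (hT : ∀ k ∈ T, k ≠ 0 ∧ fac k ⊆ S)
    (g0 : ℕ → ℝ) (G0 : ℝ) (g : P → ℕ → ℝ) (G : P → ℝ) (hg0 : ∀ j, 0 ≤ g0 j)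
    (hG0 : ∀ J, ∑ j ∈ Finset.range J, g0 j ≤ G0) (hg : ∀ p j, 0 ≤ g p j)
    (hG : ∀ p ∈ S, ∀ J, ∑ j ∈ Finset.range J, g p j ≤ G p) :
    ∑ k ∈ T, g0 (vp lam k) * ∏ p ∈ S, g p (vp p.1 k) ≤ 6 * (G0 * ∏ p ∈ S, G p) := by
  have hex : ∀ k : E, ∃ u : E, k ∈ T →
      IsUnit u ∧ k = u * lam ^ vp lam k * ∏ p ∈ S, p.1 ^ vp p.1 k := by
    intro k
    by_cases hk : k ∈ T
    · obtain ⟨u, hu, h⟩ := exists_factor (hT k hk).1
      rw [dvs_prod_eq (hT k hk).1 (hT k hk).2] at h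
      exact ⟨u, fun _ => ⟨hu, h⟩⟩
    · exact ⟨1, fun h => absurd h hk⟩
  choose un hun using hex
  have hB : 0 ≤ G0 * ∏ p ∈ S, G p := mul_nonneg (by simpa using hG0 0)
    (Finset.prod_nonneg fun p hp => by simpa using hG p hp 0)
  rw [← Finset.sum_fiberwise_of_maps_to (g := un) (t := T.image un)
    fun k hk => Finset.mem_image_of_mem un hk]
  have hc : ((T.image un).card : ℝ) ≤ 6 := by
    have := card_units (T.image un) fun u hu => by
      obtain ⟨k, hk, rfl⟩ := Finset.mem_image.1 hu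
      exact (hun k hk).1
    exact_mod_cast this
  refine le_trans (Finset.sum_le_card_nsmul _ _ (G0 * ∏ p ∈ S, G p) fun u _ => ?_) ?_
  · have := dvs_euler (T.filter fun k => un k = u) (Finset.insertNone S)
      (fun k o => Option.elim o (vp lam k) fun p => vp p.1 k) ?_
      (fun o => Option.elim o g0 g) (fun o => Option.elim o G0 G) ?_ ?_
    · simpa only [Finset.prod_insertNone, Option.elim] using this
    · intro a ha b hb h
      obtain ⟨ha1, ha2⟩ := Finset.mem_filter.1 ha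
      obtain ⟨hb1, hb2⟩ := Finset.mem_filter.1 hb
      have h0 : vp lam a = vp lam b := h none (by simp)
      have h1 : ∀ p ∈ S, vp p.1 a = vp p.1 b := fun p hp => h (some p) (by simpa using hp)
      refine (hun a ha1).2.trans (Eq.trans ?_ (hun b hb1).2.symm)
      rw [ha2, hb2, h0, Finset.prod_congr rfl fun p hp => congrArg (p.1 ^ ·) (h1 p hp)]
    · rintro (_ | p) j
      · exact hg0 j
      · exact hg p j
    · rintro (_ | p) hp J
      · exact hG0 J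
      · exact hG p (by simpa using hp) J
  · rw [nsmul_eq_mul]
    exact mul_le_mul_of_nonneg_right hc hB

theorem dvs_sum_ind (v J : ℕ) :
    ∑ j ∈ Finset.range J, (if j ≤ v then (1 : ℝ) else 0) ≤ v + 1 := by
  rw [Finset.sum_boole]
  have : ((Finset.range J).filter fun j => j ≤ v).card ≤ v + 1 := by
    refine le_trans (Finset.card_le_card (t := Finset.range (v + 1)) fun j hj => ?_) (by simp)
    exact Finset.mem_range.2 (Nat.lt_succ_of_le (Finset.mem_filter.1 hj).2)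
  exact_mod_cast this

theorem dvs_vp_le {q x y : E} (hq : Prime q) (hx : x ≠ 0) (h : y ∣ x) : vp q y ≤ vp q x :=
  (pow_dvd_iff hq hx _).1 (Dvd.dvd.trans ⟨_, (pow_vp_mul_up q y).symm⟩ h)

/-- Divisor bound. -/
theorem card_dvd_le {ε : ℝ} (hε : 0 < ε) : ∃ C : ℝ, 0 < C ∧ ∀ x : E, x ≠ 0 →
    ∀ T : Finset E, (∀ y ∈ T, y ∣ x) → (T.card : ℝ) ≤ C * (nm x : ℝ) ^ ε := by
  obtain ⟨C, hC, h⟩ := prod_vp_le hε
  refine ⟨6 * C, by positivity, fun x hx T hT => ?_⟩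
  have h1 := dvs_euler_nz T (fac x)
    (fun k hk => ⟨ne_zero_of_dvd_ne_zero hx (hT k hk), fac_mono hx (hT k hk)⟩)
    (fun j => if j ≤ vp lam x then 1 else 0) (vp lam x + 1)
    (fun p j => if j ≤ vp p.1 x then 1 else 0) (fun p => vp p.1 x + 1)
    (fun j => by positivity) (dvs_sum_ind _) (fun p j => by positivity)
    (fun p _ => dvs_sum_ind _)
  have h2 : ∑ k ∈ T, (if vp lam k ≤ vp lam x then (1 : ℝ) else 0) *
      ∏ p ∈ fac x, (if vp p.1 k ≤ vp p.1 x then (1 : ℝ) else 0) = T.card := by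
    rw [Finset.card_eq_sum_ones, Nat.cast_sum]
    refine Finset.sum_congr rfl fun k hk => ?_
    rw [if_pos (dvs_vp_le lam_prime hx (hT k hk)),
      Finset.prod_eq_one fun p _ => if_pos (dvs_vp_le p.2.1 hx (hT k hk))]
    simp
  rw [h2] at h1
  have := h x hx
  linarith

theorem dvs_geom {x : ℝ} (h0 : 0 ≤ x) (h1 : x < 1) (J : ℕ) :
    ∑ j ∈ Finset.range J, x ^ j ≤ (1 - x)⁻¹ := by
  rw [← tsum_geometric_of_lt_one h0 h1]
  exact (summable_geometric_of_lt_one h0 h1).sum_le_tsum _ fun j _ => pow_nonneg h0 j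

theorem dvs_rpow_lt {θ : ℝ} (hθ : 0 < θ) (p : P) : (nm p.1 : ℝ) ^ (-θ) ≤ 4 ^ (-θ) :=
  Real.rpow_le_rpow_of_nonpos (by norm_num) (dvs_four_le p) (by linarith)

theorem prod_inv_le {θ ε : ℝ} (hθ : 0 < θ) (hε : 0 < ε) : ∃ C : ℝ, 0 < C ∧
    ∀ K : Finset P, ∏ p ∈ K, (1 - (nm p.1 : ℝ) ^ (-θ))⁻¹ ≤ C * Ns K ^ ε := by
  have h4 : (4 : ℝ) ^ (-θ) < 1 := Real.rpow_lt_one_of_one_lt_of_neg (by norm_num) (by linarith)
  have h5 : 0 < 1 - (4 : ℝ) ^ (-θ) := by linarith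
  obtain ⟨C, hC, h⟩ := pow_card_le (A := (1 - (4 : ℝ) ^ (-θ))⁻¹) (inv_pos.2 h5).le hε
  refine ⟨C, hC, fun K => le_trans ?_ (h K)⟩
  rw [← Finset.prod_const]
  refine Finset.prod_le_prod (fun p _ => inv_nonneg.2 ?_) fun p _ => inv_anti₀ h5 ?_
  · linarith [dvs_rpow_lt hθ p]
  · linarith [dvs_rpow_lt hθ p]

/-- Sums over primary elements supported on the primes of `K`. -/
theorem smooth_sum_le {θ ε : ℝ} (hθ : 0 < θ) (hε : 0 < ε) : ∃ C : ℝ, 0 < C ∧
    ∀ (K : Finset P) (T : Finset E), (∀ k ∈ T, (3 : E) ∣ k - 1 ∧ fac k ⊆ K) →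
      ∑ k ∈ T, (nm k : ℝ) ^ (-θ) ≤ C * Ns K ^ ε := by
  obtain ⟨C, hC, h⟩ := prod_inv_le hθ hε
  have h4 : (4 : ℝ) ^ (-θ) < 1 := Real.rpow_lt_one_of_one_lt_of_neg (by norm_num) (by linarith)
  refine ⟨C, hC, fun K T hT => le_trans ?_ (h K)⟩
  have h1 := dvs_euler T K (fun k p => vp p.1 k) ?_
    (fun p j => ((nm p.1 : ℝ) ^ (-θ)) ^ j) (fun p => (1 - (nm p.1 : ℝ) ^ (-θ))⁻¹)
    (fun p j => by positivity)
    (fun p _ => dvs_geom (by positivity) ((dvs_rpow_lt hθ p).trans_lt h4))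
  · refine le_trans (le_of_eq (Finset.sum_congr rfl fun k hk => ?_)) h1
    rw [dvs_nm_eq (primary_ne_zero (hT k hk).1) (hT k hk).2,
      vp_of_not_dvd (not_lam_dvd_of_primary (hT k hk).1), pow_zero, one_mul,
      ← Real.finsetProd_rpow _ _ (fun p _ => pow_nonneg (dvs_nmP_pos p).le _)]
    refine Finset.prod_congr rfl fun p _ => ?_
    rw [← Real.rpow_natCast, ← Real.rpow_natCast, ← Real.rpow_mul (dvs_nmP_pos p).le,
      ← Real.rpow_mul (dvs_nmP_pos p).le, mul_comm]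
  · intro a ha b hb hab
    refine primary_ext (hT a ha).1 (hT b hb).1 fun p => ?_
    by_cases hp : p ∈ K
    · exact hab p hp
    · rw [dvs_vp_zero (primary_ne_zero (hT a ha).1) fun h => hp ((hT a ha).2 h),
        dvs_vp_zero (primary_ne_zero (hT b hb).1) fun h => hp ((hT b hb).2 h)]

theorem dvs_geom_skip {x : ℝ} (h0 : 0 ≤ x) (h1 : x ≤ 1 / 2) (J : ℕ) :
    ∑ j ∈ Finset.range J, (if j = 1 then 0 else x ^ j) ≤ 1 + 2 * x ^ 2 := by
  have key : ∀ J, ∑ j ∈ Finset.range (J + 2), (if j = 1 then 0 else x ^ j)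
      ≤ 1 + 2 * x ^ 2 - 2 * x ^ (J + 2) := by
    intro J
    induction J with
    | zero => simp [Finset.sum_range_succ]
    | succ J ih =>
      rw [show J + 1 + 2 = J + 2 + 1 by ring, Finset.sum_range_succ, if_neg (by omega),
        pow_succ x (J + 2)]
      have : 0 ≤ x ^ (J + 2) := by positivity
      nlinarith
  have h2 : ∑ j ∈ Finset.range J, (if j = 1 then 0 else x ^ j)
      ≤ ∑ j ∈ Finset.range (J + 2), (if j = 1 then 0 else x ^ j) :=
    Finset.sum_le_sum_of_subset_of_nonneg (Finset.range_mono (by omega))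
      fun j _ _ => by positivity
  have : 0 ≤ x ^ (J + 2) := by positivity
  linarith [key J]

/-- Elements that are squarefull away from `K`. -/
theorem sqfull_sum_le {ε : ℝ} (hε : 0 < ε) : ∃ C : ℝ, 0 < C ∧
    ∀ (K : Finset P) (Z : ℝ) (T : Finset E), 1 ≤ Z → Ns K ≤ Z →
      (∀ k ∈ T, k ≠ 0 ∧ (nm k : ℝ) ≤ Z ∧ ∀ p : P, p ∉ K → vp p.1 k ≠ 1) →
      ∑ k ∈ T, (nm k : ℝ)⁻¹ ≤ C * Z ^ ε := by
  obtain ⟨C, hC, h⟩ := pow_card_le (A := 2) (by norm_num) hε
  have hs := summable_P_rpow (σ := 2) (by norm_num)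
  set B : ℝ := ∑' p : P, (nm p.1 : ℝ) ^ (-2 : ℝ) with hB
  refine ⟨6 * (2 * (C * Real.exp (2 * B))), by positivity, fun K Z T hZ hK hT => ?_⟩
  set S : Finset P := T.biUnion fac with hS
  have hx : ∀ p : P, (nm p.1 : ℝ)⁻¹ ≤ 1 / 2 := fun p => by
    rw [one_div]
    exact inv_anti₀ (by norm_num) (by linarith [dvs_four_le p])
  have h1 := dvs_euler_nz T S
    (fun k hk => ⟨(hT k hk).1, Finset.subset_biUnion_of_mem fac hk⟩)
    (fun j => (3 : ℝ)⁻¹ ^ j) 2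
    (fun p j => if p ∈ K then (nm p.1 : ℝ)⁻¹ ^ j else if j = 1 then 0 else (nm p.1 : ℝ)⁻¹ ^ j)
    (fun p => (if p ∈ K then 2 else 1) * Real.exp (2 * (nm p.1 : ℝ) ^ (-2 : ℝ)))
    (fun j => by positivity)
    (fun J => (dvs_geom (by norm_num) (by norm_num) J).trans (by norm_num))
    (fun p j => by positivity) ?_
  · have h2 : ∑ k ∈ T, (nm k : ℝ)⁻¹ = ∑ k ∈ T, (3 : ℝ)⁻¹ ^ vp lam k * ∏ p ∈ S,
        (if p ∈ K then (nm p.1 : ℝ)⁻¹ ^ vp p.1 k
          else if vp p.1 k = 1 then 0 else (nm p.1 : ℝ)⁻¹ ^ vp p.1 k) := by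
      refine Finset.sum_congr rfl fun k hk => ?_
      rw [dvs_nm_eq (hT k hk).1 (Finset.subset_biUnion_of_mem fac hk), mul_inv, ← inv_pow,
        ← Finset.prod_inv_distrib]
      congr 1
      refine Finset.prod_congr rfl fun p _ => ?_
      rw [← inv_pow]
      split_ifs with h1 h2
      · rfl
      · exact absurd h2 ((hT k hk).2.2 p h1)
      · rfl
    rw [h2]
    refine h1.trans ?_
    rw [Finset.prod_mul_distrib, ← Real.exp_sum, ← Finset.mul_sum, Finset.prod_ite,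
      Finset.prod_const_one, mul_one, Finset.prod_const]
    have h3 : ∑ p ∈ S, (nm p.1 : ℝ) ^ (-2 : ℝ) ≤ B := hs.sum_le_tsum _ fun p _ => by positivity
    have h4 : (2 : ℝ) ^ (S.filter fun p => p ∈ K).card ≤ C * Z ^ ε := by
      refine le_trans (pow_le_pow_right₀ (by norm_num)
        (Finset.card_le_card fun p hp => (Finset.mem_filter.1 hp).2)) ((h K).trans ?_)
      exact mul_le_mul_of_nonneg_left (Real.rpow_le_rpow (Ns_pos K).le hK hε.le) hC.le
    have h5 : Real.exp (2 * ∑ p ∈ S, (nm p.1 : ℝ) ^ (-2 : ℝ)) ≤ Real.exp (2 * B) :=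
      Real.exp_le_exp.2 (by linarith)
    have h6 := mul_le_mul h4 h5 (Real.exp_pos _).le (by positivity)
    calc _ ≤ 6 * (2 * (C * Z ^ ε * Real.exp (2 * B))) := by linarith
      _ = _ := by ring
  · intro p _ J
    have h0 : (0 : ℝ) ≤ (nm p.1 : ℝ)⁻¹ := by positivity
    have he : 1 + 2 * (nm p.1 : ℝ)⁻¹ ^ 2 ≤ Real.exp (2 * (nm p.1 : ℝ) ^ (-2 : ℝ)) := by
      rw [Real.rpow_neg (dvs_nmP_pos p).le, Real.rpow_two, inv_pow, add_comm]
      exact Real.add_one_le_exp _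
    by_cases hp : p ∈ K
    · simp only [if_pos hp]
      refine (dvs_geom h0 (by linarith [hx p]) J).trans ?_
      have : (1 - (nm p.1 : ℝ)⁻¹)⁻¹ ≤ (1 / 2)⁻¹ := inv_anti₀ (by norm_num) (by linarith [hx p])
      nlinarith [sq_nonneg (nm p.1 : ℝ)⁻¹]
    · simp only [if_neg hp, one_mul]
      exact (dvs_geom_skip h0 (hx p) J).trans he

theorem gcd_sum_ball {ε : ℝ} (hε : 0 < ε) : ∃ C : ℝ, 0 < C ∧
    ∀ (r : Finset P) (Z : ℝ), 1 ≤ Z → Ns r ≤ Z →
      ∑ d ∈ ball Z, Ns (fac d ∩ r) / (nm d : ℝ) ≤ C * Z ^ ε := by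
  obtain ⟨C, hC, h⟩ := pow_card_le (A := 2) (by norm_num) (half_pos hε)
  obtain ⟨D, hD, h'⟩ := sum_ball_inv (half_pos hε)
  refine ⟨C * D, by positivity, fun r Z hZ hr => ?_⟩
  rw [← Finset.sum_fiberwise_of_maps_to (g := fun d => fac d ∩ r) (t := r.powerset)
    fun d _ => Finset.mem_powerset.2 Finset.inter_subset_right]
  refine le_trans (Finset.sum_le_card_nsmul _ _ (D * Z ^ (ε / 2)) fun t _ => ?_) ?_
  · refine le_trans ?_ (h' Z (by linarith))
    have hdv : ∀ d ∈ (ball Z).filter (fun d => fac d ∩ r = t), pr t * dv d (pr t) = d := by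
      intro d hd
      obtain ⟨hd1, hd2⟩ := Finset.mem_filter.1 hd
      refine mul_dv (pr_dvd_iff.2 fun p hp => (mem_fac (mem_ball.1 hd1).1).1 ?_)
      rw [← hd2] at hp
      exact (Finset.mem_inter.1 hp).1
    have hinj : Set.InjOn (fun d => dv d (pr t)) ((ball Z).filter fun d => fac d ∩ r = t) := by
      intro a ha b hb hab
      rw [← hdv a ha, ← hdv b hb]
      exact congrArg (pr t * ·) hab
    calc _ = ∑ x ∈ ((ball Z).filter fun d => fac d ∩ r = t).image (fun d => dv d (pr t)),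
          (nm x : ℝ)⁻¹ := by
          rw [Finset.sum_image hinj]
          refine Finset.sum_congr rfl fun d hd => ?_
          have h1 := congrArg (fun z => (nm z : ℝ)) (hdv d hd)
          simp only [nm_mul, Nat.cast_mul] at h1
          rw [(Finset.mem_filter.1 hd).2, ← h1]
          have := Ns_pos t
          unfold Ns at this ⊢
          field_simp
      _ ≤ _ := by
          apply Finset.sum_le_sum_of_subset_of_nonneg
          · intro x hx
            obtain ⟨d, hd, rfl⟩ := Finset.mem_image.1 hx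
            obtain ⟨hd0, hdZ⟩ := mem_ball.1 (Finset.mem_filter.1 hd).1
            have hdd : dv d (pr t) ∣ d := Dvd.intro_left _ (hdv d hd)
            refine mem_ball.2 ⟨ne_zero_of_dvd_ne_zero hd0 hdd, le_trans ?_ hdZ⟩
            exact_mod_cast nm_le_of_dvd hdd hd0
          · exact fun _ _ _ => by positivity
  · rw [nsmul_eq_mul, Finset.card_powerset, Nat.cast_pow, Nat.cast_ofNat]
    have h1 : (2 : ℝ) ^ r.card ≤ C * Z ^ (ε / 2) := (h r).trans
      (mul_le_mul_of_nonneg_left (Real.rpow_le_rpow (Ns_pos r).le hr (half_pos hε).le) hC.le)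
    have h2 : Z ^ ε = Z ^ (ε / 2) * Z ^ (ε / 2) := by
      rw [← Real.rpow_add (by linarith), add_halves]
    calc _ ≤ C * Z ^ (ε / 2) * (D * Z ^ (ε / 2)) :=
          mul_le_mul_of_nonneg_right h1 (by positivity)
      _ = _ := by rw [h2]; ring

/-- Sums weighted by the common part with `r`. -/
theorem gcd_sum_sqf {ε : ℝ} (hε : 0 < ε) : ∃ C : ℝ, 0 < C ∧
    ∀ (r : Finset P) (Z : ℝ), 1 ≤ Z → Ns r ≤ Z →
      ∑ f ∈ sqf Z, Ns (f ∩ r) / Ns f ≤ C * Z ^ ε := by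
  obtain ⟨C, hC, h⟩ := gcd_sum_ball hε
  refine ⟨C, hC, fun r Z hZ hr => le_trans ?_ (h r Z hZ hr)⟩
  calc _ = ∑ d ∈ (sqf Z).image pr, Ns (fac d ∩ r) / (nm d : ℝ) := by
        rw [Finset.sum_image pr_inj.injOn]
        exact Finset.sum_congr rfl fun f _ => by rw [fac_pr]; rfl
    _ ≤ _ := by
        apply Finset.sum_le_sum_of_subset_of_nonneg
        · intro d hd
          obtain ⟨f, hf, rfl⟩ := Finset.mem_image.1 hd
          exact mem_ball.2 ⟨pr_ne_zero f, mem_sqf.1 hf⟩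
        · exact fun d _ _ => div_nonneg (Ns_pos _).le (by positivity)

theorem sum_pow_card_div {A ε : ℝ} (hA : 0 ≤ A) (hε : 0 < ε) : ∃ C : ℝ, 0 < C ∧
    ∀ Z : ℝ, 1 ≤ Z → ∑ d ∈ sqf Z, A ^ d.card / Ns d ≤ C * Z ^ ε := by
  obtain ⟨C, hC, h⟩ := pow_card_le hA (half_pos hε)
  obtain ⟨D, hD, h'⟩ := sum_sqf_inv (half_pos hε)
  refine ⟨C * D, by positivity, fun Z hZ => ?_⟩
  have h2 : Z ^ ε = Z ^ (ε / 2) * Z ^ (ε / 2) := by
    rw [← Real.rpow_add (by linarith), add_halves]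
  calc _ ≤ ∑ d ∈ sqf Z, C * Z ^ (ε / 2) * (Ns d)⁻¹ := by
        refine Finset.sum_le_sum fun d hd => ?_
        rw [div_eq_mul_inv]
        refine mul_le_mul_of_nonneg_right ((h d).trans ?_) (inv_nonneg.2 (Ns_pos d).le)
        exact mul_le_mul_of_nonneg_left
          (Real.rpow_le_rpow (Ns_pos d).le (mem_sqf.1 hd) (half_pos hε).le) hC.le
    _ ≤ C * Z ^ (ε / 2) * (D * Z ^ (ε / 2)) := by
        rw [← Finset.mul_sum]
        exact mul_le_mul_of_nonneg_left (h' Z (by linarith)) (by positivity)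
    _ = _ := by rw [h2]; ring

end QRH
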