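import Vale.Agent.P026.Rsum
import Vale.Agent.P026.Cnt
import Vale.Agent.P026.Stm2

noncomputable section
namespace QRH
open Complex MeasureTheory Filter
open scoped ComplexConjugate Classical ContDiff Topology

theorem wt_log_four : Real.log 4 = 2 * Real.log 2 := by
  rw [show (4 : ℝ) = 2 ^ 2 by norm_num, Real.log_pow]; norm_num
theorem wt_bump {c : ℝ} (f : ContDiffBump c) {y : ℝ} (h : f y ≠ 0) : |y - c| < f.rOut := by
  have : y ∈ Function.support f := h
  rwa [f.support_eq, Metric.mem_ball, Real.dist_eq] at this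
theorem wt_re_integral {α : Type*} [MeasurableSpace α] {μ : Measure α} {f : α → ℂ}
    (h : Integrable f μ) : (∫ x, f x ∂μ).re = ∫ x, (f x).re ∂μ := (integral_re h).symm

theorem beta_nonneg (v : ℝ) : 0 ≤ beta v := betaB.nonneg
theorem beta_le_one (v : ℝ) : beta v ≤ 1 := betaB.le_one
theorem beta_supp {v : ℝ} (h : beta v ≠ 0) : 0 < v ∧ v < Real.log 4 := by
  have h1 : |v - Real.log 2| < Real.log 2 := wt_bump betaB h
  rw [abs_lt] at h1
  rw [wt_log_four]
  constructor <;> linarith [h1.1, h1.2]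
theorem beta_exp {v : ℝ} (h : beta v ≠ 0) : 1 < Real.exp v ∧ Real.exp v < 4 :=
  ⟨Real.one_lt_exp_iff.2 (beta_supp h).1, (Real.lt_log_iff_exp_lt (by norm_num)).1 (beta_supp h).2⟩
theorem contDiff_beta : ContDiff ℝ ∞ beta := betaB.contDiff
theorem hasCompactSupport_beta : HasCompactSupport beta := betaB.hasCompactSupport
theorem integrable_beta : Integrable beta := betaB.integrable
theorem integral_beta_pos : 0 < ∫ v, beta v := betaB.integral_pos
theorem integral_beta_le : ∫ v, beta v ≤ 2 := by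
  refine (betaB.integral_le_measure_closedBall volume).trans ?_
  have h : betaB.rOut = Real.log 2 := rfl
  have h1 := Real.log_two_lt_d9
  have h2 := Real.log_pos one_lt_two
  rw [Measure.real, Real.volume_closedBall, h, ENNReal.toReal_ofReal (by linarith)]
  linarith
/-- Anything continuous is integrable against the bump. -/
theorem integrable_beta_mul {F : ℝ → ℂ} (hF : Continuous F) :
    Integrable fun v => (beta v : ℂ) * F v :=
  ((continuous_ofReal.comp contDiff_beta.continuous).mul hF).integrable_of_hasCompactSupport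
    (hasCompactSupport_beta.comp_left (g := fun x : ℝ => (x : ℂ)) ofReal_zero).mul_right
theorem norm_integral_beta_le {F : ℝ → ℂ} {M : ℝ} (hM : 0 ≤ M)
    (h : ∀ v, 1 < Real.exp v → Real.exp v < 4 → ‖F v‖ ≤ M) :
    ‖∫ v, (beta v : ℂ) * F v‖ ≤ 2 * M := by
  refine (norm_integral_le_of_norm_le (integrable_beta.mul_const M)
    (Eventually.of_forall fun v => ?_)).trans ?_
  · by_cases hv : beta v = 0
    · simp [hv]
    · rw [norm_mul, norm_real, Real.norm_of_nonneg (beta_nonneg v)]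
      exact mul_le_mul_of_nonneg_left (h v (beta_exp hv).1 (beta_exp hv).2) (beta_nonneg v)
  · rw [integral_mul_const]
    exact mul_le_mul_of_nonneg_right integral_beta_le hM
theorem w0_nonneg (y : ℝ) : 0 ≤ w0 y := w0B.nonneg
theorem w0_le_one (y : ℝ) : w0 y ≤ 1 := w0B.le_one
theorem w0_supp {y : ℝ} (h : w0 y ≠ 0) : 1 < y ∧ y < 4 := by
  have h1 : |y - 5 / 2| < 3 / 2 := wt_bump w0B h
  rw [abs_lt] at h1
  constructor <;> linarith [h1.1, h1.2]
theorem wt_w0_pos {y : ℝ} (h1 : 1 < y) (h2 : y < 4) : 0 < w0 y :=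
  w0B.pos_of_mem_ball (by
    have h : w0B.rOut = 3 / 2 := rfl
    rw [Metric.mem_ball, Real.dist_eq, h, abs_lt]
    constructor <;> linarith)
theorem contDiff_w0 : ContDiff ℝ ∞ w0 := w0B.contDiff
theorem contDiff_a0 : ContDiff ℝ ∞ a0 :=
  ofRealCLM.contDiff.comp (contDiff_w0.comp (contDiff_norm_sq ℝ))
theorem contDiff_b0 : ContDiff ℝ ∞ b0 :=
  ofRealCLM.contDiff.comp (b1B.contDiff.comp (contDiff_norm_sq ℝ))
theorem a0_supp {d : ℂ} (h : a0 d ≠ 0) : 1 < ‖d‖ ∧ ‖d‖ < 2 := by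
  have h1 := w0_supp (ofReal_ne_zero.1 h)
  have h2 := norm_nonneg d
  constructor <;> nlinarith [h1.1, h1.2]
theorem b0_supp {x : ℂ} (h : b0 x ≠ 0) : ‖x‖ < 1 / 4 := by
  have h1 : |‖x‖ ^ 2 - 0| < 1 / 16 := wt_bump b1B (ofReal_ne_zero.1 h)
  have h2 := norm_nonneg x
  nlinarith [(abs_lt.1 h1).2]
theorem norm_a0_le (d : ℂ) : ‖a0 d‖ ≤ 1 := by
  rw [a0, norm_real, Real.norm_of_nonneg (w0_nonneg _)]; exact w0_le_one _
theorem norm_b0_le (x : ℂ) : ‖b0 x‖ ≤ 1 := by
  rw [b0, norm_real, Real.norm_of_nonneg b1B.nonneg]; exact b1B.le_one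
theorem a0_rot {u : ℂ} (hu : ‖u‖ = 1) (d : ℂ) : a0 (u * d) = a0 d := by
  rw [a0, norm_mul, hu, one_mul, a0]
theorem b0_rot {u : ℂ} (hu : ‖u‖ = 1) (x : ℂ) : b0 (u * x) = b0 x := by
  rw [b0, norm_mul, hu, one_mul, b0]
theorem kk_rot {u : ℂ} (hu : ‖u‖ = 1) (c : ℂ) : kk (u * c) = kk c := by
  let a : Circle := ⟨u, mem_sphere_zero_iff_norm.2 hu⟩
  have h : MeasurePreserving ((rotation a).toHomeomorph.toMeasurableEquiv.prodCongr
      (MeasurableEquiv.refl ℂ)) volume volume :=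
    (rotation a).measurePreserving.prod (MeasurePreserving.id volume)
  rw [kk, kk, ← h.integral_comp' fun z : ℂ × ℂ => a0 z.1 * b0 z.2 * psi (-(z.2 ^ 3 / (c * z.1)))]
  congr 1
  refine integral_congr_ae (Eventually.of_forall fun z => ?_)
  change _ = a0 (u * z.1) * b0 z.2 * psi (-(z.2 ^ 3 / (c * (u * z.1))))
  rw [a0_rot hu, mul_left_comm c, ← mul_assoc u]
theorem kk_norm (c : ℂ) : kk (‖c‖ : ℝ) = kk c := by
  rcases eq_or_ne c 0 with rfl | hc
  · simp
  have h : (‖c‖ : ℂ) ≠ 0 := ofReal_ne_zero.2 (norm_ne_zero_iff.2 hc)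
  rw [← kk_rot (u := c / ‖c‖) (by simp [hc]), div_mul_cancel₀ _ h]

/-- The majorant of the integrand of `kk`. -/
def wtG (z : ℂ × ℂ) : ℝ := w0 (‖z.1‖ ^ 2) * b1B (‖z.2‖ ^ 2)
theorem wt_G_eq (z : ℂ × ℂ) : a0 z.1 * b0 z.2 = wtG z := by rw [wtG, ofReal_mul, a0, b0]
theorem wt_G_nonneg (z : ℂ × ℂ) : 0 ≤ wtG z := mul_nonneg (w0_nonneg _) b1B.nonneg
theorem wt_G_supp {z : ℂ × ℂ} (h : wtG z ≠ 0) : 1 < ‖z.1‖ ∧ ‖z.1‖ < 2 ∧ ‖z.2‖ < 1 / 4 := by
  rw [← ofReal_ne_zero, ← wt_G_eq, mul_ne_zero_iff] at h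
  exact ⟨(a0_supp h.1).1, (a0_supp h.1).2, b0_supp h.2⟩
theorem wt_G_cont : Continuous wtG :=
  (contDiff_w0.continuous.comp (by fun_prop)).mul (b1B.continuous.comp (by fun_prop))
theorem wt_G_cpt : HasCompactSupport wtG :=
  HasCompactSupport.intro (isCompact_closedBall 0 2) fun z hz => by
    by_contra h
    have h1 := wt_G_supp h
    exact hz (mem_closedBall_zero_iff.2 (norm_prod_le_iff.2 ⟨h1.2.1.le, by linarith [h1.2.2]⟩))
theorem wt_G_int : Integrable wtG := wt_G_cont.integrable_of_hasCompactSupport wt_G_cpt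
theorem wt_G_pos : 0 < ∫ z, wtG z :=
  wt_G_cont.integral_pos_of_hasCompactSupport_nonneg_nonzero (x := (((3 / 2 : ℝ) : ℂ), 0)) wt_G_cpt
    wt_G_nonneg (mul_pos (by
      rw [norm_real, Real.norm_of_nonneg (by norm_num)]
      exact wt_w0_pos (by norm_num) (by norm_num))
      (b1B.pos_of_mem_ball (by simpa using b1B.rOut_pos))).ne'
theorem wt_kk_meas (c : ℂ) : AEStronglyMeasurable
    (fun z : ℂ × ℂ => (wtG z : ℂ) * psi (-(z.2 ^ 3 / (c * z.1)))) volume :=
  ((continuous_ofReal.comp wt_G_cont).measurable.mul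
    (continuous_psi.measurable.comp (by fun_prop))).aestronglyMeasurable
theorem wt_kk_norm (c : ℂ) (z : ℂ × ℂ) :
    ‖(wtG z : ℂ) * psi (-(z.2 ^ 3 / (c * z.1)))‖ ≤ wtG z := by
  rw [norm_mul, norm_psi, mul_one, norm_real, Real.norm_of_nonneg (wt_G_nonneg z)]
theorem wt_kk_eq : kk = fun c =>
    ((4 / 3 : ℝ) : ℂ) * ∫ z : ℂ × ℂ, (wtG z : ℂ) * psi (-(z.2 ^ 3 / (c * z.1))) := by
  funext c
  simp only [kk, wt_G_eq]

theorem continuousOn_kk : ContinuousOn kk {c | c ≠ 0} := by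
  rw [wt_kk_eq]
  refine continuousOn_const.mul (continuousOn_of_dominated (fun c _ => wt_kk_meas c)
    (fun c _ => Eventually.of_forall (wt_kk_norm c)) wt_G_int (Eventually.of_forall fun z => ?_))
  simp only [div_eq_mul_inv, mul_inv]
  exact continuousOn_const.mul (continuous_psi.comp_continuousOn
    (continuousOn_const.mul (continuousOn_inv₀.mul continuousOn_const)).neg)
theorem norm_kk_le : ∃ C : ℝ, 0 < C ∧ ∀ c, ‖kk c‖ ≤ C := by
  refine ⟨4 / 3 * ∫ z, wtG z, mul_pos (by norm_num) wt_G_pos, fun c => ?_⟩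
  rw [wt_kk_eq, norm_mul, norm_real, Real.norm_of_nonneg (by norm_num)]
  exact mul_le_mul_of_nonneg_left (norm_integral_le_of_norm_le wt_G_int
    (Eventually.of_forall (wt_kk_norm c))) (by norm_num)
theorem wt_psi_re {w : ℂ} (h : ‖w‖ ≤ 1 / 64) : 1 / 2 ≤ (psi w).re := by
  rw [psi, show 2 * (Real.pi : ℂ) * I * ((2 * w.im / √3 : ℝ) : ℂ) =
    ((2 * Real.pi * (2 * w.im / √3) : ℝ) : ℂ) * I by push_cast; ring, exp_ofReal_mul_I_re]
  refine le_trans ?_ Real.one_sub_sq_div_two_le_cos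
  have h1 : |w.im| ≤ 1 / 64 := (abs_im_le_norm w).trans h
  have h2 : w.im ^ 2 ≤ (1 / 64) ^ 2 := by
    rw [← sq_abs]; exact pow_le_pow_left₀ (abs_nonneg _) h1 2
  have h3 : Real.pi ^ 2 ≤ 4 ^ 2 := pow_le_pow_left₀ Real.pi_pos.le Real.pi_le_four 2
  have h4 := mul_le_mul h3 h2 (sq_nonneg _) (by norm_num)
  rw [mul_pow, mul_pow, div_pow, mul_pow, Real.sq_sqrt (by norm_num)]
  linarith
theorem kk_re_pos {c : ℂ} (hc : 1 ≤ ‖c‖) : 0 < (kk c).re := by
  have hi := wt_G_int.mono' (wt_kk_meas c) (Eventually.of_forall (wt_kk_norm c))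
  rw [wt_kk_eq, re_ofReal_mul, wt_re_integral hi]
  refine mul_pos (by norm_num) (lt_of_lt_of_le (mul_pos wt_G_pos (by norm_num : (0 : ℝ) < 1 / 2)) ?_)
  rw [← integral_mul_const]
  refine integral_mono (wt_G_int.mul_const _) hi.re fun z => ?_
  beta_reduce
  rw [re_ofReal_mul]
  by_cases h : wtG z = 0
  · simp [h]
  obtain ⟨h1, -, h2⟩ := wt_G_supp h
  refine mul_le_mul_of_nonneg_left (wt_psi_re ?_) (wt_G_nonneg z)
  have h3 : 1 ≤ ‖c‖ * ‖z.1‖ := one_le_mul_of_one_le_of_one_le hc h1.le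
  rw [norm_neg, norm_div, norm_mul, norm_pow]
  refine (div_le_self (by positivity) h3).trans
    ((pow_le_pow_left₀ (norm_nonneg _) h2.le 3).trans (by norm_num))
theorem V1_supp {y : ℝ} (h : V1 y ≠ 0) : 1 < y ∧ y < 4 :=
  w0_supp (ofReal_ne_zero.1 (left_ne_zero_of_mul h))
theorem continuous_V1 : Continuous V1 := by
  refine continuous_iff_continuousAt.2 fun y => ?_
  rcases lt_or_ge y 1 with h | h
  · refine (continuousAt_const (y := (0 : ℂ))).congr ?_
    filter_upwards [gt_mem_nhds h] with t ht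
    by_contra h0
    linarith [(V1_supp (Ne.symm h0)).1]
  · have h1 : ((√y : ℝ) : ℂ) ≠ 0 := ofReal_ne_zero.2 (Real.sqrt_pos.2 (by linarith)).ne'
    exact (continuous_ofReal.comp contDiff_w0.continuous).continuousAt.mul
      (ContinuousAt.comp (f := fun y : ℝ => ((√y : ℝ) : ℂ))
        (continuousOn_kk.continuousAt (isOpen_ne.mem_nhds h1)) (by fun_prop))
theorem wt_V1_le : ∃ C : ℝ, 0 < C ∧ ∀ y, ‖V1 y‖ ≤ C := by
  obtain ⟨C, hC, h⟩ := norm_kk_le
  refine ⟨C, hC, fun y => ?_⟩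
  rw [V1, norm_mul, norm_real, Real.norm_of_nonneg (w0_nonneg _)]
  exact (mul_le_of_le_one_left (norm_nonneg _) (w0_le_one _)).trans (h _)
theorem wt_V1_pos {y : ℝ} (h1 : 1 < y) (h2 : y < 4) : 0 < (V1 y).re := by
  rw [V1, re_ofReal_mul]
  refine mul_pos (wt_w0_pos h1 h2) (kk_re_pos ?_)
  rw [norm_real, Real.norm_of_nonneg (Real.sqrt_nonneg _)]
  exact Real.one_le_sqrt.2 h1.le
theorem wt_V1_nonneg (y : ℝ) : 0 ≤ (V1 y).re := by
  by_cases h : V1 y = 0
  · simp [h]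
  · exact (wt_V1_pos (V1_supp h).1 (V1_supp h).2).le
theorem wt_V1_cont (y : ℝ) : Continuous fun v : ℝ => V1 (y * Real.exp (-v)) :=
  continuous_V1.comp (by fun_prop)
theorem continuous_V0 : Continuous V0 := by
  obtain ⟨C, -, h⟩ := wt_V1_le
  refine continuous_of_dominated (fun y => (integrable_beta_mul (wt_V1_cont y)).1)
    (fun y => Eventually.of_forall fun v => ?_) (integrable_beta.mul_const C)
    (Eventually.of_forall fun v => continuous_const.mul (continuous_V1.comp (by fun_prop)))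
  rw [norm_mul, norm_real, Real.norm_of_nonneg (beta_nonneg v)]
  exact mul_le_mul_of_nonneg_left (h _) (beta_nonneg v)
theorem V0_supp {y : ℝ} (h : V0 y ≠ 0) : 1 < y ∧ y < 16 := by
  obtain ⟨v, hv⟩ : ∃ v, (beta v : ℂ) * V1 (y * Real.exp (-v)) ≠ 0 := by
    by_contra! h1
    exact h (by simp only [V0, h1, integral_zero])
  obtain ⟨h1, h2⟩ := beta_exp (ofReal_ne_zero.1 (left_ne_zero_of_mul hv))
  obtain ⟨h3, h4⟩ := V1_supp (right_ne_zero_of_mul hv)
  have h5 : y = y * Real.exp (-v) * Real.exp v := by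
    rw [mul_assoc, ← Real.exp_add, neg_add_cancel, Real.exp_zero, mul_one]
  rw [h5]
  constructor <;> nlinarith
theorem norm_V0_le : ∃ C : ℝ, 0 < C ∧ ∀ y, ‖V0 y‖ ≤ C := by
  obtain ⟨C, hC, h⟩ := wt_V1_le
  exact ⟨2 * C, by positivity, fun y => norm_integral_beta_le hC.le fun _ _ _ => h _⟩
theorem wt_V0_re (y : ℝ) : (V0 y).re = ∫ v, beta v * (V1 (y * Real.exp (-v))).re := by
  simp only [V0, wt_re_integral (integrable_beta_mul (wt_V1_cont y)), re_ofReal_mul]
theorem V0_re_nonneg (y : ℝ) : 0 ≤ (V0 y).re := by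
  rw [wt_V0_re]
  exact integral_nonneg fun v => mul_nonneg (beta_nonneg v) (wt_V1_nonneg _)
theorem V0_re_pos : 0 < (V0 5).re := by
  rw [wt_V0_re]
  refine (contDiff_beta.continuous.mul (continuous_re.comp (wt_V1_cont 5))
    ).integral_pos_of_hasCompactSupport_nonneg_nonzero (x := Real.log 2)
    hasCompactSupport_beta.mul_right (fun v => mul_nonneg (beta_nonneg v) (wt_V1_nonneg _))
    (mul_pos (betaB.pos_of_mem_ball (Metric.mem_ball_self betaB.rOut_pos)) ?_).ne'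
  rw [Real.exp_neg, Real.exp_log two_pos]
  exact wt_V1_pos (by norm_num) (by norm_num)
theorem integral_V0_exp_ne : ∫ v : ℝ, V0 (Real.exp v) ≠ 0 := by
  have h1 : Continuous fun v : ℝ => V0 (Real.exp v) := continuous_V0.comp Real.continuous_exp
  have h2 : HasCompactSupport fun v : ℝ => V0 (Real.exp v) :=
    HasCompactSupport.intro (isCompact_Icc (a := 0) (b := Real.log 16)) fun v hv => by
      by_contra h
      exact hv ⟨(Real.one_lt_exp_iff.1 (V0_supp h).1).le,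
        ((Real.lt_log_iff_exp_lt (by norm_num)).2 (V0_supp h).2).le⟩
  intro h
  have h3 := (continuous_re.comp h1).integral_pos_of_hasCompactSupport_nonneg_nonzero
    (μ := volume) (x := Real.log 5) (h2.comp_left zero_re) (fun v => V0_re_nonneg _) (by
      rw [Function.comp_apply, Real.exp_log (by norm_num)]
      exact V0_re_pos.ne')
  have h4 := wt_re_integral (h1.integrable_of_hasCompactSupport (μ := volume) h2)
  rw [h, zero_re] at h4
  exact h3.ne h4
theorem wt_V0_top (g : ℝ → ℝ) : V0 =O[atTop] g :=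
  (Asymptotics.isBigO_zero g _).congr' (by
    filter_upwards [eventually_ge_atTop 16] with y hy
    by_contra h
    linarith [(V0_supp (Ne.symm h)).2]) EventuallyEq.rfl
theorem wt_V0_bot (g : ℝ → ℝ) : V0 =O[𝓝[>] 0] g :=
  (Asymptotics.isBigO_zero g _).congr' (by
    filter_upwards [nhdsWithin_le_nhds (gt_mem_nhds zero_lt_one)] with y hy
    by_contra h
    linarith [(V0_supp (Ne.symm h)).1]) EventuallyEq.rfl
theorem mellinConvergent_V0 (s : ℂ) : MellinConvergent V0 s :=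
  mellinConvergent_of_isBigO_rpow (continuous_V0.locallyIntegrable.locallyIntegrableOn _)
    (wt_V0_top _) (lt_add_one _) (wt_V0_bot _) (sub_one_lt _)
theorem mellin_V0_ne (σ : ℝ) : mellin V0 σ ≠ 0 := by
  have h1 : Continuous fun t : ℝ => max t 1 ^ (σ - 1) * (V0 t).re :=
    ((continuous_id.max continuous_const).rpow_const fun t =>
      Or.inl (zero_lt_one.trans_le (le_max_right _ _)).ne').mul (continuous_re.comp continuous_V0)
  have h2 : HasCompactSupport fun t : ℝ => max t 1 ^ (σ - 1) * (V0 t).re :=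
    HasCompactSupport.intro (isCompact_Icc (a := 1) (b := 16)) fun t ht => by
      by_cases h : V0 t = 0
      · simp [h]
      · exact absurd ⟨(V0_supp h).1.le, (V0_supp h).2.le⟩ ht
  have h3 := h1.integral_pos_of_hasCompactSupport_nonneg_nonzero (μ := volume) (x := 5) h2
    (fun t => mul_nonneg (by positivity) (V0_re_nonneg t))
    (mul_pos (by positivity) V0_re_pos).ne'
  intro h
  have h4 := wt_re_integral (mellinConvergent_V0 σ)
  rw [← mellin, h, zero_re] at h4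
  rw [← setIntegral_eq_integral_of_forall_compl_eq_zero (s := Set.Ioi 0) fun t ht => by
    by_cases h : V0 t = 0
    · simp [h]
    · exact absurd (zero_lt_one.trans (V0_supp h).1) ht] at h3
  refine h3.ne (h4.trans (setIntegral_congr_fun measurableSet_Ioi fun t ht => ?_))
  by_cases h : V0 t = 0
  · simp [h]
  · rw [max_eq_left (V0_supp h).1.le, ← re_ofReal_mul, ofReal_cpow (le_of_lt ht), smul_eq_mul]
    push_cast
    rfl
theorem differentiable_mellin_V0 : Differentiable ℂ (mellin V0) := fun _ =>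
  mellin_differentiableAt_of_isBigO_rpow (continuous_V0.locallyIntegrable.locallyIntegrableOn _)
    (wt_V0_top _) (lt_add_one _) (wt_V0_bot _) (sub_one_lt _)
theorem wt_supp {y : ℝ} {z : ℂ} (h : wt y z ≠ 0) : 1 < y ∧ y < 16 := V0_supp (left_ne_zero_of_mul h)
theorem norm_wt_le : ∃ C : ℝ, 0 < C ∧ ∀ (y : ℝ) (z : ℂ), |z.re| ≤ 4 → ‖wt y z‖ ≤ C := by
  obtain ⟨C, hC, h⟩ := norm_V0_le
  refine ⟨C * 16 ^ (4 : ℝ), by positivity, fun y z hz => ?_⟩
  by_cases h0 : wt y z = 0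
  · rw [h0, norm_zero]; positivity
  obtain ⟨h1, h2⟩ := wt_supp h0
  rw [wt, norm_mul, norm_cpow_eq_rpow_re_of_pos (by linarith)]
  exact mul_le_mul (h y) ((Real.rpow_le_rpow_of_exponent_le h1.le (le_of_abs_le hz)).trans
    (Real.rpow_le_rpow (by linarith) h2.le (by norm_num))) (Real.rpow_nonneg (by linarith) _) hC.le
theorem wt_mul_cpow {y : ℝ} (hy : 0 < y) (z s : ℂ) : wt y z * (y : ℂ) ^ s = wt y (z + s) := by
  rw [wt, wt, cpow_add _ _ (ofReal_ne_zero.2 hy.ne'), mul_assoc]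
theorem conj_cpow_ofReal {y : ℝ} (hy : 0 < y) (s : ℂ) :
    conj ((y : ℂ) ^ s) = (y : ℂ) ^ conj s := by
  rw [cpow_conj _ _ (by rw [arg_ofReal_of_nonneg hy.le]; exact Real.pi_pos.ne), conj_ofReal]
theorem wt_zero {X : ℝ} (hX : 0 < X) {s : Finset P} (hs : s ∉ sqf (16 * X)) (β : Finset P → ℂ)
    (z : ℂ) : β s * wt (Ns s / X) z = 0 := by
  by_contra h
  exact hs (mem_sqf.2 ((div_lt_iff₀ hX).1 (wt_supp (right_ne_zero_of_mul h)).2).le)
theorem S_eq_sum {X : ℝ} (hX : 0 < X) {T : Finset (Finset P)} (hT : sqf (16 * X) ⊆ T)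
    (β : Finset P → ℂ) (z : ℂ) : S β X z = ∑ s ∈ T, β s * wt (Ns s / X) z :=
  Finset.sum_subset hT fun _ _ hs => wt_zero hX hs β z
theorem S_eq_tsum {X : ℝ} (hX : 0 < X) (β : Finset P → ℂ) (z : ℂ) :
    S β X z = ∑' s, β s * wt (Ns s / X) z := (tsum_eq_sum fun _ hs => wt_zero hX hs β z).symm
theorem S_eq_zero {X : ℝ} (hX : 16 * X < 1) (β : Finset P → ℂ) (z : ℂ) : S β X z = 0 := by
  rw [S, sqf_eq_empty hX, Finset.sum_empty]
theorem S_smul (κ : ℂ) (β : Finset P → ℂ) (X : ℝ) (z : ℂ) :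
    S (fun s => κ * β s) X z = κ * S β X z := by
  simp only [S, Finset.mul_sum, mul_assoc]
theorem norm_S_le : ∃ C : ℝ, 0 < C ∧ ∀ (β : Finset P → ℂ) (X : ℝ) (z : ℂ), 0 < X →
    (∀ s, ‖β s‖ ≤ 1) → |z.re| ≤ 4 → ‖S β X z‖ ≤ C * X := by
  obtain ⟨C, hC, h⟩ := norm_wt_le
  refine ⟨192 * C, by positivity, fun β X z hX hβ hz => ?_⟩
  refine (norm_sum_le_of_le _ (n := fun _ => C) fun s _ => ?_).trans ?_
  · rw [norm_mul]
    exact (mul_le_of_le_one_left (norm_nonneg _) (hβ s)).trans (h _ z hz)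
  · rw [Finset.sum_const, nsmul_eq_mul]
    refine (mul_le_mul_of_nonneg_right (card_sqf_le (by positivity)) hC.le).trans (le_of_eq ?_)
    ring

theorem wt_bound {F : Type*} [NormedAddCommGroup F] [NormedSpace ℝ F] {f : ℂ → F}
    (hf : ContDiff ℝ ∞ f) {R : ℝ} (hs : ∀ z, f z ≠ 0 → ‖z‖ ≤ R) (n : ℕ) :
    ∃ W : ℝ, 1 ≤ W ∧ ∀ i ≤ n, ∀ z, ‖iteratedFDeriv ℝ i f z‖ ≤ W := by
  have hc : HasCompactSupport f := HasCompactSupport.intro (isCompact_closedBall 0 R) fun z hz => by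
    by_contra h
    exact hz (mem_closedBall_zero_iff.2 (hs z h))
  choose C hC using fun i : ℕ => (hc.iteratedFDeriv (𝕜 := ℝ) i).exists_bound_of_continuous
    (hf.continuous_iteratedFDeriv (by exact_mod_cast le_top))
  have h0 : ∀ i, 0 ≤ C i := fun i => (norm_nonneg _).trans (hC i 0)
  refine ⟨1 + ∑ i ∈ Finset.range (n + 1), C i,
    le_add_of_nonneg_right (Finset.sum_nonneg fun i _ => h0 i), fun i hi z => (hC i z).trans ?_⟩
  linarith [Finset.single_le_sum (fun i _ => h0 i) (Finset.mem_range.2 (Nat.lt_succ_of_le hi))]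
/-- Cut-off equal to one on `[1, 4]`. -/
def wtB : ContDiffBump (5 / 2 : ℝ) := ⟨3 / 2, 2, by norm_num, by norm_num⟩
/-- A globally smooth version of `log |z|^2`. -/
def wtL (z : ℂ) : ℝ := wtB (‖z‖ ^ 2) * Real.log (‖z‖ ^ 2)
theorem wt_L_smooth : ContDiff ℝ ∞ wtL := by
  refine ContDiff.comp (g := fun y : ℝ => wtB y * Real.log y) (contDiff_iff_contDiffAt.2 fun y => ?_)
    (contDiff_norm_sq ℝ)
  rcases lt_or_ge y (1 / 2) with h | h
  · refine (contDiffAt_const (c := (0 : ℝ))).congr_of_eventuallyEq ?_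
    filter_upwards [gt_mem_nhds h] with t ht
    by_contra h0
    have h1 : |t - 5 / 2| < 2 := wt_bump wtB (left_ne_zero_of_mul h0)
    linarith [(abs_lt.1 h1).1]
  · exact wtB.contDiffAt.mul (Real.contDiffAt_log.2 (by linarith))
theorem wt_L_supp (z : ℂ) (h : wtL z ≠ 0) : ‖z‖ ≤ 3 := by
  have h1 : |‖z‖ ^ 2 - 5 / 2| < 2 := wt_bump wtB (left_ne_zero_of_mul h)
  nlinarith [(abs_lt.1 h1).2]
theorem wt_tau_eq (τ : ℝ) :
    wtau τ = fun z => z * a0 z * ((fun t : ℝ => Complex.exp (τ * I * t)) ∘ wtL) z := by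
  funext z
  by_cases h : a0 z = 0
  · simp [wtau, h]
  obtain ⟨h1, h2⟩ := w0_supp (ofReal_ne_zero.1 h)
  have h3 : wtB (‖z‖ ^ 2) = 1 := wtB.one_of_mem_closedBall (by
    have h : wtB.rIn = 3 / 2 := rfl
    rw [Metric.mem_closedBall, Real.dist_eq, h, abs_le]
    constructor <;> linarith)
  rw [wtau, Function.comp_apply, wtL, h3, one_mul,
    cpow_def_of_ne_zero (ofReal_ne_zero.2 (by linarith)), ← ofReal_log (by linarith),
    mul_comm (τ * I)]
theorem wt_exp_smooth (c : ℂ) : ContDiff ℝ ∞ fun t : ℝ => Complex.exp (c * t) :=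
  (contDiff_const.mul ofRealCLM.contDiff).cexp
theorem wt_exp_deriv (c : ℂ) (i : ℕ) :
    iteratedDeriv i (fun t : ℝ => Complex.exp (c * t)) = fun t : ℝ => c ^ i * Complex.exp (c * t) := by
  induction i with
  | zero => simp
  | succ i ih =>
    funext t
    have h : HasDerivAt (fun t : ℝ => c ^ i * Complex.exp (c * t))
        (c ^ i * (Complex.exp (c * t) * (c * 1))) t :=
      (((hasDerivAt_id (t : ℂ)).const_mul c).cexp.const_mul _).comp_ofReal
    rw [iteratedDeriv_succ, ih, h.deriv]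
    ring
theorem adm_wtau (τ : ℝ) : Adm (wtau τ) where
  smooth := by
    rw [wt_tau_eq]
    exact (contDiff_id.mul contDiff_a0).mul ((wt_exp_smooth _).comp wt_L_smooth)
  supp z h := by
    have h1 := a0_supp (right_ne_zero_of_mul (left_ne_zero_of_mul h))
    exact ⟨h1.1.le, h1.2.le⟩
  rot u z hu := by
    rw [wtau, wtau, a0_rot hu, norm_mul, hu, one_mul]
    ring
theorem db_wtau (n : ℕ) : ∃ C : ℝ, 0 < C ∧ ∀ τ : ℝ, DB n (wtau τ) (C * (1 + |τ|) ^ n) := by
  have ha : ContDiff ℝ ∞ fun z : ℂ => z * a0 z := contDiff_id.mul contDiff_a0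
  obtain ⟨A, hA, h1⟩ := wt_bound ha (fun z h => (a0_supp (right_ne_zero_of_mul h)).2.le) n
  obtain ⟨W, hW, h2⟩ := wt_bound wt_L_smooth wt_L_supp n
  refine ⟨2 ^ n * (A * (n.factorial * W ^ n)), by positivity, fun τ j hj z => ?_⟩
  have ht : 1 ≤ 1 + |τ| := le_add_of_nonneg_right (abs_nonneg _)
  have h3 : ∀ k ≤ n, ‖iteratedFDeriv ℝ k ((fun t : ℝ => Complex.exp (τ * I * t)) ∘ wtL) z‖ ≤
      n.factorial * (1 + |τ|) ^ n * W ^ n := by
    intro k hk
    refine (norm_iteratedFDeriv_comp_le (wt_exp_smooth _) wt_L_smooth (by exact_mod_cast le_top) z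
      (C := (1 + |τ|) ^ n) (D := W) (fun i hi => ?_) fun i h hi =>
        (h2 i (hi.trans hk) z).trans (le_self_pow₀ hW (by omega))).trans ?_
    · rw [norm_iteratedFDeriv_eq_norm_iteratedDeriv, wt_exp_deriv, norm_mul, norm_pow, norm_mul,
        norm_I, mul_one, norm_real, show τ * I * (wtL z : ℂ) = ((τ * wtL z : ℝ) : ℂ) * I by
          push_cast; ring, norm_exp_ofReal_mul_I, mul_one, Real.norm_eq_abs]
      exact (pow_le_pow_left₀ (abs_nonneg _) (by linarith) i).trans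
        (pow_le_pow_right₀ ht (hi.trans hk))
    · gcongr
  rw [wt_tau_eq]
  refine (norm_iteratedFDeriv_mul_le ha ((wt_exp_smooth _).comp wt_L_smooth) z
    (by exact_mod_cast le_top)).trans ((Finset.sum_le_sum (g := fun i => (j.choose i : ℝ) *
      (A * (n.factorial * (1 + |τ|) ^ n * W ^ n))) fun i hi => ?_).trans ?_)
  · rw [mul_assoc]
    have hi' := Finset.mem_range.1 hi
    exact mul_le_mul_of_nonneg_left (mul_le_mul (h1 i (by omega) z) (h3 _ (by omega))
      (norm_nonneg _) (by linarith)) (Nat.cast_nonneg _)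
  · rw [← Finset.sum_mul, ← Nat.cast_sum, Nat.sum_range_choose]
    push_cast
    calc _ ≤ 2 ^ n * (A * (n.factorial * (1 + |τ|) ^ n * W ^ n)) := by gcongr; norm_num
      _ = _ := by ring
theorem Adm.exists_DB {w : ℂ → ℂ} (h : Adm w) (n : ℕ) : ∃ W : ℝ, 0 < W ∧ DB n w W := by
  obtain ⟨W, hW, h1⟩ := wt_bound h.smooth (fun z hz => (h.supp z hz).2) n
  exact ⟨W, by linarith, h1⟩
theorem wt_term {X : ℝ} (hX : 0 < X) (τ v : ℝ) {c : E} (hc : c ≠ 0) :
    Complex.exp (τ * I * v) * (√(X * Real.exp v) : ℝ) *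
      (wtau τ (toC c / (√(X * Real.exp v) : ℝ)) * kk (toC c / (√(X * Real.exp v) : ℝ))) =
    toC c * ((nm c / X : ℝ) : ℂ) ^ (τ * I) * V1 (nm c / X * Real.exp (-v)) := by
  have h0 : 0 < X * Real.exp v := by positivity
  have h1 : 0 < √(X * Real.exp v) := Real.sqrt_pos.2 h0
  have hn : (0 : ℝ) < nm c / X := div_pos (zero_lt_one.trans_le (one_le_nmR hc)) hX
  have h2 : ‖toC c / (√(X * Real.exp v) : ℝ)‖ ^ 2 = nm c / X * Real.exp (-v) := by
    rw [norm_div, norm_real, Real.norm_of_nonneg h1.le, div_pow, Real.sq_sqrt h0.le, ← nm_eq,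
      Real.exp_neg]
    field_simp
  have h3 : Complex.exp (τ * I * v) * ((nm c / X * Real.exp (-v) : ℝ) : ℂ) ^ (τ * I) =
      ((nm c / X : ℝ) : ℂ) ^ (τ * I) := by
    rw [cpow_def_of_ne_zero (ofReal_ne_zero.2 (by positivity)),
      cpow_def_of_ne_zero (ofReal_ne_zero.2 hn.ne'), ← ofReal_log (by positivity),
      ← ofReal_log hn.le, Real.log_mul hn.ne' (Real.exp_pos _).ne', Real.log_exp,
      ← Complex.exp_add]
    congr 1
    push_cast
    ring
  have h4 : ((√(X * Real.exp v) : ℝ) : ℂ) ≠ 0 := ofReal_ne_zero.2 h1.ne'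
  rw [wtau, a0, V1, ← kk_norm, ← Real.sqrt_sq (norm_nonneg (toC c / _)), Real.sq_sqrt (sq_nonneg _),
    h2, ← h3]
  field_simp
/-- The theta sums are averages of Voronoi sums. -/
theorem Th_eq (Q : ℕ) (a n : E) {X : ℝ} (hX : 0 < X) (τ : ℝ) :
    Th Q a n X (τ * I) = ∫ v : ℝ, (beta v : ℂ) * (Complex.exp (τ * I * v) * (√(X * Real.exp v) : ℝ)
      * VL (fun c => if (Q : E) ∣ c - a then conj (xv c6 c n) else 0) (wtau τ)
          (√(X * Real.exp v))) := by
  obtain ⟨k, hk⟩ : ∃ k : E → ℂ, ∀ c, k c = (if (Q : E) ∣ c - a then conj (xv c6 c n) else 0) *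
      (Tg c / (nm c : ℂ)) * (toC c * ((nm c / X : ℝ) : ℂ) ^ (τ * I)) := ⟨_, fun _ => rfl⟩
  have h1 : ∀ v : ℝ, (beta v : ℂ) * (Complex.exp (τ * I * v) * (√(X * Real.exp v) : ℝ)
      * VL (fun c => if (Q : E) ∣ c - a then conj (xv c6 c n) else 0) (wtau τ)
          (√(X * Real.exp v))) =
      ∑ c ∈ ball (16 * X), k c * ((beta v : ℂ) * V1 (nm c / X * Real.exp (-v))) := by
    intro v
    by_cases hv : beta v = 0
    · simp [hv]
    have h0 : 0 < X * Real.exp v := by positivity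
    rw [VL, Real.sq_sqrt h0.le, Finset.mul_sum, Finset.mul_sum, ← Finset.sum_subset
      (ball_mono (by nlinarith [(beta_exp hv).2] : 4 * (X * Real.exp v) ≤ 16 * X))]
    · refine Finset.sum_congr rfl fun c hc => ?_
      rw [hk]
      linear_combination (beta v : ℂ) * (if (Q : E) ∣ c - a then conj (xv c6 c n) else 0) *
        (Tg c / (nm c : ℂ)) * wt_term hX τ v (mem_ball.1 hc).1
    · intro c hc hc'
      by_contra h
      have h2 := (V1_supp (right_ne_zero_of_mul (right_ne_zero_of_mul h))).2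
      rw [Real.exp_neg, ← div_eq_mul_inv, div_div, div_lt_iff₀ h0] at h2
      exact hc' (mem_ball.2 ⟨(mem_ball.1 hc).1, h2.le⟩)
  simp only [h1]
  rw [integral_finsetSum _ fun c _ => (integrable_beta_mul (wt_V1_cont _)).const_mul _, Th]
  refine Finset.sum_congr rfl fun c _ => ?_
  rw [integral_const_mul, hk, wt, V0]
  split_ifs <;> ring

end QRH
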