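import Vale.Agent.P026.Rsum
import Vale.Agent.P026.Cnt
import Vale.Agent.P026.Stm1

noncomputable section
namespace QRH
open Complex MeasureTheory
open scoped ComplexConjugate Classical

theorem ft_gauss {t : ℝ} (ht : 0 < t) (ξ : ℂ) :
    ft (fun z => (Vg (‖z‖ ^ 2 / t) : ℝ)) ξ = (t * Vg (‖ξ‖ ^ 2 * t) : ℝ) := by
  have h3 : (0 : ℝ) < √3 := by positivity
  have h33 : √3 * √3 = (3 : ℝ) := Real.mul_self_sqrt (by norm_num)
  have hπ := Real.pi_pos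
  have hb : 0 < (((2 * Real.pi / (√3 * t) : ℝ) : ℂ)).re := by
    rw [ofReal_re]
    positivity
  have key := GaussianFourier.integral_cexp_neg_mul_sq_norm_add (V := ℂ) hb
    (((-(4 * Real.pi / √3) : ℝ) : ℂ) * I) ⟨ξ.im, ξ.re⟩
  have h1 : ∀ z : ℂ, ((Vg (‖z‖ ^ 2 / t) : ℝ) : ℂ) * psi (-(z * ξ)) =
      cexp (-((2 * Real.pi / (√3 * t) : ℝ) : ℂ) * (‖z‖ : ℂ) ^ 2 +
        ((-(4 * Real.pi / √3) : ℝ) : ℂ) * I * ((inner ℝ (⟨ξ.im, ξ.re⟩ : ℂ) z : ℝ) : ℂ)) := by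
    intro z
    have e1 : (inner ℝ (⟨ξ.im, ξ.re⟩ : ℂ) z : ℝ) = (z * ξ).im := by
      simp [Complex.inner]
    rw [e1, Vg, psi, Complex.ofReal_exp, ← Complex.exp_add, neg_im]
    congr 1
    push_cast
    ring
  have h2 : ‖(⟨ξ.im, ξ.re⟩ : ℂ)‖ ^ 2 = ‖ξ‖ ^ 2 := by
    rw [Complex.sq_norm, Complex.sq_norm, normSq_apply, normSq_apply, add_comm]
  have h4 : (((-(4 * Real.pi / √3) : ℝ) : ℂ) * I) ^ 2 * (‖(⟨ξ.im, ξ.re⟩ : ℂ)‖ : ℂ) ^ 2 /
      (4 * ((2 * Real.pi / (√3 * t) : ℝ) : ℂ)) =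
      ((-(2 * Real.pi / √3) * (‖ξ‖ ^ 2 * t) : ℝ) : ℂ) := by
    have e : (-(2 * Real.pi / √3) * (‖ξ‖ ^ 2 * t) : ℝ) =
        -((4 * Real.pi / √3) ^ 2 * ‖ξ‖ ^ 2 / (4 * (2 * Real.pi / (√3 * t)))) := by
      field_simp
      ring
    rw [e, ← h2, mul_pow, I_sq]
    push_cast
    ring
  unfold ft
  simp only [h1]
  rw [key, h4, Complex.finrank_real_complex, ← Complex.ofReal_exp, Vg]
  have h5 : ((2 : ℕ) : ℂ) / 2 = 1 := by norm_num
  rw [h5, cpow_one, ← Complex.ofReal_div, ← Complex.ofReal_mul, ← Complex.ofReal_mul, ← mul_assoc]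
  congr 2
  field_simp

theorem pg_decay {s : ℝ} (hs : 0 < s) :
    ∃ M : ℝ, 0 ≤ M ∧ ∀ y : ℝ, 0 ≤ y → Vg (y ^ 2 * s) ≤ M * (1 + y) ^ (-3 : ℝ) := by
  have ha : 0 < 2 * Real.pi / √3 * s := by
    have := Real.pi_pos
    positivity
  obtain ⟨a, hae⟩ : ∃ a, a = 2 * Real.pi / √3 * s := ⟨_, rfl⟩
  rw [← hae] at ha
  refine ⟨Real.exp (9 / (4 * a)), (Real.exp_pos _).le, fun y hy => ?_⟩
  have h1 : Real.exp y ^ (-3 : ℝ) ≤ (1 + y) ^ (-3 : ℝ) :=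
    Real.rpow_le_rpow_of_nonpos (by positivity) (by linarith [Real.add_one_le_exp y]) (by norm_num)
  refine le_trans ?_ (mul_le_mul_of_nonneg_left h1 (Real.exp_pos _).le)
  rw [← Real.exp_mul, ← Real.exp_add, Vg, Real.exp_le_exp]
  have h2 : -(2 * Real.pi / √3) * (y ^ 2 * s) = -(a * y ^ 2) := by rw [hae]; ring
  have h3 : 9 / (4 * a) + y * -3 + a * y ^ 2 = (2 * a * y - 3) ^ 2 / (4 * a) := by
    field_simp
    ring
  have h4 : 0 ≤ (2 * a * y - 3) ^ 2 / (4 * a) := by positivity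
  rw [h2]
  linarith

theorem pSG (h : PS1) : PSG := by
  intro q ρ t hq hρ ht
  obtain ⟨M1, hM1, h1⟩ := pg_decay (inv_pos.2 ht)
  obtain ⟨M2, hM2, h2⟩ := pg_decay ht
  have hV : ∀ y, 0 ≤ Vg y := fun y => (Real.exp_pos _).le
  have hc : Continuous fun z : ℂ => ((Vg (‖z‖ ^ 2 / t) : ℝ) : ℂ) := by
    unfold Vg
    fun_prop
  have key := h q ρ (fun z => (Vg (‖z‖ ^ 2 / t) : ℝ)) (M1 + t * M2) hq hρ hc (fun z => by
    rw [Complex.norm_real, Real.norm_of_nonneg (hV _), div_eq_mul_inv]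
    exact (h1 _ (norm_nonneg z)).trans (mul_le_mul_of_nonneg_right
      (le_add_of_nonneg_right (by positivity)) (by positivity))) (fun z => by
    rw [ft_gauss ht, Complex.norm_real, Real.norm_of_nonneg (mul_nonneg ht.le (hV _))]
    refine (mul_le_mul_of_nonneg_left (h2 _ (norm_nonneg z)) ht.le).trans ?_
    rw [← mul_assoc]
    exact mul_le_mul_of_nonneg_right (le_add_of_nonneg_left hM1) (by positivity))
  have h3 : ∀ ξ : E, ‖toC ξ / toC q‖ ^ 2 * t = nm ξ * t / nm q := by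
    intro ξ
    rw [norm_div, div_pow, ← nm_eq, ← nm_eq]
    ring
  simp only [ft_gauss ht, ← nm_eq, h3] at key
  rw [key, ← tsum_mul_left, ← tsum_mul_left]
  refine tsum_congr fun ξ => ?_
  push_cast
  ring

end QRH
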