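import Vale.Agent.P026.Rsum
import Vale.Agent.P026.Cnt
import Vale.Agent.P026.Stm2

noncomputable section
namespace QRH
open Complex MeasureTheory Filter
open scoped ComplexConjugate Classical ContDiff Topology

/-- The bilinear form behind `ft`. -/
def fd_L1 : ℂ →L[ℝ] ℂ →L[ℝ] ℝ :=
  (ContinuousLinearMap.compL ℝ ℂ ℂ ℝ ((2 / √3 : ℝ) • imCLM)).comp (ContinuousLinearMap.mul ℝ ℂ)

theorem fd_L1_apply (z ξ : ℂ) : fd_L1 z ξ = 2 * (z * ξ).im / √3 := by
  simp only [fd_L1, ContinuousLinearMap.comp_apply, ContinuousLinearMap.compL_apply,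
    ContinuousLinearMap.mul_apply', smul_apply, imCLM_apply, smul_eq_mul]
  ring

/-- The bilinear form behind `ft2`. -/
def fd_L2 : ℂ × ℂ →L[ℝ] ℂ × ℂ →L[ℝ] ℝ :=
  fd_L1.bilinearComp (ContinuousLinearMap.fst ℝ ℂ ℂ) (ContinuousLinearMap.fst ℝ ℂ ℂ) +
    fd_L1.bilinearComp (ContinuousLinearMap.snd ℝ ℂ ℂ) (ContinuousLinearMap.snd ℝ ℂ ℂ)

theorem fd_L2_apply (z ξ : ℂ × ℂ) : fd_L2 z ξ = fd_L1 z.1 ξ.1 + fd_L1 z.2 ξ.2 := rfl

theorem fd_ft (f : ℂ → ℂ) : ft f = ((2 / √3 : ℝ) : ℂ) •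
    VectorFourier.fourierIntegral Real.fourierChar volume fd_L1.toLinearMap₁₂ f := by
  funext ξ
  rw [ft, Pi.smul_apply, smul_eq_mul, VectorFourier.fourierIntegral]
  congr 2
  funext z
  rw [Circle.smul_def, smul_eq_mul, mul_comm, psi_eq_fourierChar]
  congr 3
  change _ = -(fd_L1 z ξ)
  rw [fd_L1_apply, neg_im]
  ring

theorem fd_ft2 (F : ℂ × ℂ → ℂ) (ξ η : ℂ) : ft2 F ξ η = ((4 / 3 : ℝ) : ℂ) *
    VectorFourier.fourierIntegral Real.fourierChar volume fd_L2.toLinearMap₁₂ F (ξ, η) := by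
  rw [ft2, VectorFourier.fourierIntegral]
  congr 2
  funext z
  rw [Circle.smul_def, smul_eq_mul, mul_comm, psi_eq_fourierChar]
  congr 3
  change _ = -(fd_L2 z (ξ, η))
  rw [fd_L2_apply, fd_L1_apply, fd_L1_apply, neg_im, add_im]
  ring

theorem fd_dir (ξ : ℂ) : ∃ v : ℂ, ‖v‖ ≤ 1 ∧ ‖ξ‖ ≤ fd_L1 v ξ := by
  by_cases h : ξ = 0
  · exact ⟨0, by simp, by simp [h]⟩
  have h0 : 0 < ‖ξ‖ := norm_pos_iff.2 h
  refine ⟨I * ‖ξ‖ / ξ, by simp [h0.ne'], ?_⟩
  have h3 : √3 ≤ 2 := by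
    rw [Real.sqrt_le_left zero_le_two]
    norm_num
  rw [fd_L1_apply, div_mul_cancel₀ _ h, le_div_iff₀ (by positivity)]
  simp only [mul_im, I_re, ofReal_im, mul_zero, I_im, ofReal_re, one_mul, zero_add]
  nlinarith

theorem fd_gen {V : Type} [NormedAddCommGroup V] [NormedSpace ℝ V] [FiniteDimensional ℝ V]
    [MeasurableSpace V] [BorelSpace V] (μ : Measure V) [μ.IsAddHaarMeasure]
    (L : V →L[ℝ] V →L[ℝ] ℝ) (k n : ℕ) : ∃ C : ℝ, 0 < C ∧ ∀ (f : V → ℂ) (g : ℝ), ContDiff ℝ ∞ f →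
      (∀ i ≤ k, ∀ j ≤ n, Integrable (fun v => ‖v‖ ^ i * ‖iteratedFDeriv ℝ j f v‖) μ) →
      (∀ i ≤ k, ∀ j ≤ n, ∫ v, ‖v‖ ^ i * ‖iteratedFDeriv ℝ j f v‖ ∂μ ≤ g) →
      ∀ (w v : V) (s : ℝ), 0 ≤ s → ‖v‖ ≤ 1 → s ≤ L v w →
        ‖iteratedFDeriv ℝ k (VectorFourier.fourierIntegral Real.fourierChar μ L.toLinearMap₁₂ f) w‖
          ≤ C * g * (1 + s) ^ (-n : ℝ) := by
  obtain ⟨B, hB⟩ : ∃ B : ℝ,
      B = (2 * Real.pi * ‖L‖) ^ k * (2 * k + 2) ^ n * ((k + 1) * (n + 1)) := ⟨_, rfl⟩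
  have hB0 : 0 ≤ B := by rw [hB]; positivity
  refine ⟨2 ^ (n - 1) * (2 * B) + 1, by positivity, fun f g hf hi hg w v s hs hv hL => ?_⟩
  have hg0 : 0 ≤ g := le_trans (integral_nonneg fun v => by positivity)
    (hg 0 (Nat.zero_le _) 0 (Nat.zero_le _))
  have key : ∀ m ≤ n, s ^ m * ‖iteratedFDeriv ℝ k
      (VectorFourier.fourierIntegral Real.fourierChar μ L.toLinearMap₁₂ f) w‖ ≤ B * g := by
    intro m hm
    have h1 := VectorFourier.pow_mul_norm_iteratedFDeriv_fourierIntegral_le L (μ := μ) (K := k)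
      (N := n) (hf.of_le (by exact_mod_cast le_top))
      (fun i j h1 h2 => hi i (by exact_mod_cast h1) j (by exact_mod_cast h2)) (k := k) (n := m)
      le_rfl (by exact_mod_cast hm) v w
    have h2 : ∑ p ∈ Finset.range (k + 1) ×ˢ Finset.range (m + 1),
        ∫ v, ‖v‖ ^ p.1 * ‖iteratedFDeriv ℝ p.2 f v‖ ∂μ ≤ (k + 1) * (n + 1) * g := by
      refine (Finset.sum_le_card_nsmul _ _ g fun p hp => ?_).trans ?_
      · simp only [Finset.mem_product, Finset.mem_range] at hp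
        exact hg _ (by omega) _ (by omega)
      · rw [Finset.card_product, Finset.card_range, Finset.card_range, nsmul_eq_mul]
        have : (m : ℝ) ≤ n := by exact_mod_cast hm
        push_cast
        gcongr
    have h3 : ‖v‖ ^ m ≤ 1 := pow_le_one₀ (norm_nonneg _) hv
    have h4 : (2 * (k : ℝ) + 2) ^ m ≤ (2 * k + 2) ^ n :=
      pow_le_pow_right₀ (by linarith [Nat.cast_nonneg (α := ℝ) k]) hm
    have h5 : 0 ≤ ∑ p ∈ Finset.range (k + 1) ×ˢ Finset.range (m + 1),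
        ∫ v, ‖v‖ ^ p.1 * ‖iteratedFDeriv ℝ p.2 f v‖ ∂μ :=
      Finset.sum_nonneg fun _ _ => integral_nonneg fun v => by positivity
    calc _ ≤ |L v w| ^ m * ‖iteratedFDeriv ℝ k
          (VectorFourier.fourierIntegral Real.fourierChar μ L.toLinearMap₁₂ f) w‖ := by
          gcongr
          exact hL.trans (le_abs_self _)
      _ ≤ _ := h1
      _ ≤ 1 * (2 * Real.pi * ‖L‖) ^ k * (2 * k + 2) ^ n * ((k + 1) * (n + 1) * g) := by gcongr
      _ = B * g := by rw [hB]; ring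
  have h0 := key 0 (Nat.zero_le _)
  have hn := key n le_rfl
  have h6 := add_pow_le zero_le_one hs n
  rw [pow_zero, one_mul] at h0
  rw [one_pow] at h6
  rw [Real.rpow_neg (by positivity), Real.rpow_natCast, ← div_eq_mul_inv,
    le_div_iff₀ (by positivity)]
  calc _ ≤ ‖iteratedFDeriv ℝ k (VectorFourier.fourierIntegral Real.fourierChar μ
        L.toLinearMap₁₂ f) w‖ * (2 ^ (n - 1) * (1 + s ^ n)) := by gcongr
    _ ≤ 2 ^ (n - 1) * (B * g + B * g) := by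
        rw [mul_left_comm, mul_add, mul_one, mul_comm _ (s ^ n)]
        gcongr
    _ ≤ _ := by linarith

theorem fd_map {a : ℂ} (ha : a ≠ 0) (c : ℂ) :
    Measure.map (fun z : ℂ => a * z + c) volume = ENNReal.ofReal (‖a‖ ^ 2)⁻¹ • volume := by
  have h0 : 0 < ‖a‖ ^ 2 := pow_pos (norm_pos_iff.2 ha) 2
  have hd : LinearMap.det (LinearMap.mul ℝ ℂ a) = ‖a‖ ^ 2 := by
    rw [← Complex.normSq_eq_norm_sq, ← Algebra.norm_complex_apply, Algebra.norm_apply]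
    rfl
  have h1 := Measure.map_linearMap_addHaar_eq_smul_addHaar (volume : Measure ℂ)
    (f := LinearMap.mul ℝ ℂ a) (by rw [hd]; exact h0.ne')
  rw [hd, abs_of_pos (inv_pos.2 h0)] at h1
  change Measure.map (fun z : ℂ => a * z) volume = _ at h1
  have h2 : (fun z : ℂ => a * z + c) = (fun z => z + c) ∘ fun z => a * z := rfl
  rw [h2, ← Measure.map_map (measurable_add_const c) (measurable_const_mul a), h1,
    Measure.map_smul, map_add_right_eq_self]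

theorem fd_emb {a : ℂ} (ha : a ≠ 0) (c : ℂ) : MeasurableEmbedding fun z : ℂ => a * z + c :=
  ((Homeomorph.mulLeft₀ a ha).trans (Homeomorph.addRight c)).measurableEmbedding

theorem fd_supp {w : ℂ → ℂ} (hs : ∀ z, w z ≠ 0 → ‖z‖ ≤ 2) (j : ℕ) {z : ℂ}
    (hz : z ∉ Metric.closedBall (0 : ℂ) 2) : iteratedFDeriv ℝ j w z = 0 := by
  by_contra h
  refine hz (closure_minimal (fun y hy => ?_) Metric.isClosed_closedBall
    (support_iteratedFDeriv_subset j h))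
  exact mem_closedBall_zero_iff.2 (hs y hy)

theorem fd_int {w : ℂ → ℂ} (hw : ContDiff ℝ ∞ w) (hs : ∀ z, w z ≠ 0 → ‖z‖ ≤ 2) (i j : ℕ) :
    Integrable fun v => ‖v‖ ^ i * ‖iteratedFDeriv ℝ j w v‖ := by
  refine Continuous.integrable_of_hasCompactSupport ((continuous_norm.pow i).mul
    (hw.continuous_iteratedFDeriv (by exact_mod_cast le_top)).norm)
    (HasCompactSupport.intro (isCompact_closedBall 0 2) fun z hz => ?_)
  rw [fd_supp hs j hz, norm_zero, mul_zero]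

theorem fd_smooth {w : ℂ → ℂ} (hw : ContDiff ℝ ∞ w) (hs : ∀ z, w z ≠ 0 → ‖z‖ ≤ 2) :
    ContDiff ℝ ∞
      (VectorFourier.fourierIntegral Real.fourierChar volume fd_L1.toLinearMap₁₂ w) :=
  VectorFourier.contDiff_fourierIntegral fd_L1 fun i _ => by
    simpa only [norm_iteratedFDeriv_zero] using fd_int hw hs i 0

theorem ft_eq_fourier (f : ℂ → ℂ) (ξ : ℂ) :
    ft f ξ = ((2 / √3 : ℝ) : ℂ) * FourierTransform.fourier f (((2 / √3 : ℝ) : ℂ) * I * conj ξ) := by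
  rw [ft, Real.fourier_eq]
  congr 2
  funext z
  rw [Circle.smul_def, smul_eq_mul, mul_comm, psi_eq_fourierChar]
  congr 3
  simp [Complex.inner]
  ring

theorem continuous_ft {f : ℂ → ℂ} (hf : Integrable f) : Continuous (ft f) := by
  rw [fd_ft]
  exact (VectorFourier.fourierIntegral_continuous Real.continuous_fourierChar
    fd_L1.continuous₂ hf).const_smul _

theorem integral_comp_mul_left_complex (f : ℂ → ℂ) {a : ℂ} (ha : a ≠ 0) :
    ∫ z, f (a * z) = ((‖a‖ ^ 2 : ℝ) : ℂ)⁻¹ * ∫ z, f z := by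
  have h := (fd_emb ha 0).integral_map (μ := volume) f
  rw [fd_map ha, integral_smul_measure, ENNReal.toReal_ofReal (by positivity),
    Complex.real_smul, Complex.ofReal_inv] at h
  simpa only [add_zero] using h.symm

theorem integral2_comp_mul (F : ℂ × ℂ → ℂ) {a b : ℂ} (ha : a ≠ 0) (hb : b ≠ 0) (c : ℂ) :
    ∫ z : ℂ × ℂ, F (a * z.1 + c, b * z.2)
      = ((‖a‖ ^ 2 * ‖b‖ ^ 2 : ℝ) : ℂ)⁻¹ * ∫ z, F z := by
  have h := ((fd_emb ha c).prodMap (fd_emb hb 0)).integral_map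
    (μ := (volume : Measure ℂ).prod volume) F
  rw [← Measure.map_prod_map _ _ (fd_emb ha c).measurable (fd_emb hb 0).measurable, fd_map ha,
    fd_map hb, Measure.prod_smul_left, Measure.prod_smul_right, integral_smul_measure,
    integral_smul_measure, ENNReal.toReal_ofReal (by positivity),
    ENNReal.toReal_ofReal (by positivity), smul_smul, ← mul_inv, Complex.real_smul,
    Complex.ofReal_inv] at h
  simpa only [Prod.map, add_zero, Measure.volume_eq_prod] using h.symm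

theorem ft_scale (f : ℂ → ℂ) {a : ℂ} (ha : a ≠ 0) (ξ : ℂ) :
    ft (fun z => f (z / a)) ξ = ((‖a‖ ^ 2 : ℝ) : ℂ) * ft f (a * ξ) := by
  have h := integral_comp_mul_left_complex (fun z => f z * psi (-(z * (a * ξ)))) (inv_ne_zero ha)
  have e : ∀ z, f (a⁻¹ * z) * psi (-(a⁻¹ * z * (a * ξ))) = f (z / a) * psi (-(z * ξ)) := by
    intro z
    rw [div_eq_inv_mul, show a⁻¹ * z * (a * ξ) = z * ξ by field_simp]
  simp only [e] at h
  rw [ft, ft, h, norm_inv, inv_pow, Complex.ofReal_inv, inv_inv]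
  ring

theorem ft_mod (f : ℂ → ℂ) (t ξ : ℂ) : ft (fun z => psi (z * t) * f z) ξ = ft f (ξ - t) := by
  rw [ft, ft]
  congr 2
  funext z
  rw [mul_right_comm, ← psi_add, mul_comm]
  congr 2
  ring

theorem ft_rot {f : ℂ → ℂ} {u k : ℂ} (hu : ‖u‖ = 1) (h : ∀ z, f (u * z) = k * f z) (ξ : ℂ) :
    k * ft f (u * ξ) = ft f ξ := by
  have hu0 : u ≠ 0 := norm_pos_iff.1 (by rw [hu]; exact one_pos)
  have h1 := integral_comp_mul_left_complex (fun z => f z * psi (-(z * ξ))) hu0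
  simp only [h, hu, one_pow, Complex.ofReal_one, inv_one, one_mul] at h1
  rw [ft, ft, ← h1, mul_left_comm, ← integral_const_mul]
  congr 2
  funext z
  rw [mul_assoc k, mul_left_comm z, mul_assoc u]

theorem ft2_prod (f g : ℂ → ℂ) (ξ η : ℂ) :
    ft2 (fun z => f z.1 * g z.2) ξ η = ft f ξ * ft g η := by
  have h33 : (2 / √3 : ℝ) * (2 / √3) = 4 / 3 := by
    rw [div_mul_div_comm, Real.mul_self_sqrt (by norm_num)]
    norm_num
  have h := integral_prod_mul (μ := (volume : Measure ℂ)) (ν := (volume : Measure ℂ))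
    (fun z => f z * psi (-(z * ξ))) fun z => g z * psi (-(z * η))
  rw [ft2, ft, ft, mul_mul_mul_comm, ← Complex.ofReal_mul, h33, ← h, Measure.volume_eq_prod]
  congr 2
  funext z
  rw [neg_add, psi_add]
  ring

theorem ft2_affine (F : ℂ × ℂ → ℂ) {a b : ℂ} (ha : a ≠ 0) (hb : b ≠ 0) (c ξ η : ℂ) :
    ft2 (fun z => F (a * z.1 + c, b * z.2)) ξ η
      = ((‖a‖ ^ 2 * ‖b‖ ^ 2 : ℝ) : ℂ)⁻¹ * psi (c * ξ / a) * ft2 F (ξ / a) (η / b) := by
  have h := integral2_comp_mul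
    (fun z => psi (c * ξ / a) * (F z * psi (-(z.1 * (ξ / a) + z.2 * (η / b))))) ha hb c
  have e : ∀ z : ℂ × ℂ, psi (c * ξ / a) * (F (a * z.1 + c, b * z.2) *
      psi (-((a * z.1 + c) * (ξ / a) + b * z.2 * (η / b)))) =
      F (a * z.1 + c, b * z.2) * psi (-(z.1 * ξ + z.2 * η)) := by
    intro z
    rw [mul_left_comm, ← psi_add]
    congr 2
    field_simp
    ring
  simp only [e] at h
  rw [ft2, ft2, h, integral_const_mul]
  ring

/-- Decay of the transform from integrable derivatives. -/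
theorem ft_decay (n : ℕ) : ∃ C : ℝ, 0 < C ∧ ∀ (f : ℂ → ℂ) (g : ℝ), ContDiff ℝ ∞ f →
    (∀ j ≤ n, Integrable fun z => ‖iteratedFDeriv ℝ j f z‖) →
    (∀ j ≤ n, ∫ z, ‖iteratedFDeriv ℝ j f z‖ ≤ g) →
    ∀ ξ, ‖ft f ξ‖ ≤ C * g * (1 + ‖ξ‖) ^ (-n : ℝ) := by
  obtain ⟨C, hC, h⟩ := fd_gen (volume : Measure ℂ) fd_L1 0 n
  refine ⟨2 / √3 * C, by positivity, fun f g hf hi hg ξ => ?_⟩
  obtain ⟨v, hv, hL⟩ := fd_dir ξ
  have h1 := h f g hf (fun i hi' j hj => by simpa [Nat.le_zero.1 hi'] using hi j hj)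
    (fun i hi' j hj => by simpa [Nat.le_zero.1 hi'] using hg j hj) ξ v _ (norm_nonneg _) hv hL
  rw [norm_iteratedFDeriv_zero] at h1
  rw [fd_ft, Pi.smul_apply, norm_smul, Complex.norm_real, Real.norm_of_nonneg (by positivity),
    mul_assoc, mul_assoc, ← mul_assoc C]
  exact mul_le_mul_of_nonneg_left h1 (by positivity)

theorem ft2_decay (n : ℕ) : ∃ C : ℝ, 0 < C ∧ ∀ (F : ℂ × ℂ → ℂ) (g : ℝ), ContDiff ℝ ∞ F →
    (∀ j ≤ n, Integrable fun z => ‖iteratedFDeriv ℝ j F z‖) →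
    (∀ j ≤ n, ∫ z, ‖iteratedFDeriv ℝ j F z‖ ≤ g) →
    ∀ ξ η, ‖ft2 F ξ η‖ ≤ C * g * (1 + ‖ξ‖ + ‖η‖) ^ (-n : ℝ) := by
  obtain ⟨C, hC, h⟩ := fd_gen ((volume : Measure ℂ).prod (volume : Measure ℂ)) fd_L2 0 n
  rw [← Measure.volume_eq_prod] at h
  refine ⟨4 / 3 * C, by positivity, fun f g hf hi hg ξ η => ?_⟩
  obtain ⟨v, hv, hL⟩ := fd_dir ξ
  obtain ⟨v', hv', hL'⟩ := fd_dir η
  have h1 := h f g hf (fun i hi' j hj => by simpa [Nat.le_zero.1 hi'] using hi j hj)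
    (fun i hi' j hj => by simpa [Nat.le_zero.1 hi'] using hg j hj) (ξ, η) (v, v') (‖ξ‖ + ‖η‖)
    (by positivity) (max_le hv hv') (add_le_add hL hL')
  rw [norm_iteratedFDeriv_zero] at h1
  rw [fd_ft2, norm_mul, Complex.norm_real, Real.norm_of_nonneg (by positivity), add_assoc,
    mul_assoc, mul_assoc, ← mul_assoc C]
  exact mul_le_mul_of_nonneg_left h1 (by positivity)

/-- Transform of a compactly supported smooth function, with all derivatives. -/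
theorem contDiff_ft {w : ℂ → ℂ} (hw : ContDiff ℝ ∞ w) (hs : ∀ z, w z ≠ 0 → ‖z‖ ≤ 2) :
    ContDiff ℝ ∞ (ft w) := by
  rw [fd_ft]
  exact (fd_smooth hw hs).const_smul ((2 / √3 : ℝ) : ℂ)

theorem ft_deriv_le (A i : ℕ) : ∃ C : ℝ, 0 < C ∧ ∀ (w : ℂ → ℂ) (W : ℝ), ContDiff ℝ ∞ w →
    (∀ z, w z ≠ 0 → ‖z‖ ≤ 2) → DB A w W →
    ∀ η, ‖iteratedFDeriv ℝ i (ft w) η‖ ≤ C * W * (1 + ‖η‖) ^ (-A : ℝ) := by
  obtain ⟨C, hC, h⟩ := fd_gen (volume : Measure ℂ) fd_L1 i A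
  obtain ⟨K, hK⟩ : ∃ K : ℝ, K = volume.real (Metric.closedBall (0 : ℂ) 2) := ⟨_, rfl⟩
  have hK0 : 0 ≤ K := hK ▸ measureReal_nonneg
  refine ⟨2 / √3 * (C * ((K + 1) * 2 ^ i)), by positivity, fun w W hw hs hW η => ?_⟩
  obtain ⟨v, hv, hL⟩ := fd_dir η
  have hW0 : 0 ≤ W := (norm_nonneg _).trans (hW 0 (Nat.zero_le _) 0)
  have h1 := h w ((K + 1) * 2 ^ i * W) hw (fun k _ j _ => fd_int hw hs k j)
    (fun k hk j hj => by
      have h2 : ∫ v : ℂ, ‖v‖ ^ k * ‖iteratedFDeriv ℝ j w v‖ ≤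
          ∫ v, (Metric.closedBall (0 : ℂ) 2).indicator (fun _ => 2 ^ i * W) v := by
        refine integral_mono (fd_int hw hs k j) ((integrableOn_const
          (measure_closedBall_lt_top.ne)).integrable_indicator measurableSet_closedBall)
          fun z => ?_
        by_cases hz : z ∈ Metric.closedBall (0 : ℂ) 2
        · rw [Set.indicator_of_mem hz]
          exact mul_le_mul ((pow_le_pow_left₀ (norm_nonneg _) (mem_closedBall_zero_iff.1 hz)
            k).trans (pow_le_pow_right₀ one_le_two hk)) (hW j hj z) (norm_nonneg _)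
            (by positivity)
        · simp only [Set.indicator_of_notMem hz, fd_supp hs j hz, norm_zero, mul_zero, le_refl]
      rw [integral_indicator_const _ measurableSet_closedBall, ← hK, smul_eq_mul] at h2
      have : 0 ≤ 2 ^ i * W := by positivity
      nlinarith) η v _ (norm_nonneg _) hv hL
  rw [fd_ft, iteratedFDeriv_const_smul_apply
    ((fd_smooth hw hs).of_le (by exact_mod_cast le_top)).contDiffAt, norm_smul, Complex.norm_real,
    Real.norm_of_nonneg (by positivity)]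
  refine (mul_le_mul_of_nonneg_left h1 (by positivity)).trans (le_of_eq ?_)
  ring

theorem ft_le (A : ℕ) : ∃ C : ℝ, 0 < C ∧ ∀ (w : ℂ → ℂ) (W : ℝ), ContDiff ℝ ∞ w →
    (∀ z, w z ≠ 0 → ‖z‖ ≤ 2) → DB A w W → ∀ η, ‖ft w η‖ ≤ C * W * (1 + ‖η‖) ^ (-A : ℝ) := by
  simpa only [norm_iteratedFDeriv_zero] using ft_deriv_le A 0

theorem exists_DB {w : ℂ → ℂ} (hw : ContDiff ℝ ∞ w) (hs : ∀ z, w z ≠ 0 → ‖z‖ ≤ 2) (n : ℕ) :
    ∃ W : ℝ, 0 < W ∧ DB n w W := by
  have h : ∀ j : ℕ, ∃ B : ℝ, ∀ z, ‖iteratedFDeriv ℝ j w z‖ ≤ B := fun j =>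
    (hw.continuous_iteratedFDeriv (by exact_mod_cast le_top)).bounded_above_of_compact_support
      (HasCompactSupport.intro (isCompact_closedBall 0 2) fun z hz => fd_supp hs j hz)
  choose B hB using h
  have hB0 : ∀ j, 0 ≤ B j := fun j => (norm_nonneg _).trans (hB j 0)
  have hs0 : 0 ≤ ∑ j ∈ Finset.range (n + 1), B j := Finset.sum_nonneg fun j _ => hB0 j
  refine ⟨∑ j ∈ Finset.range (n + 1), B j + 1, by linarith, fun j hj z => (hB j z).trans ?_⟩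
  have := Finset.single_le_sum (f := B) (fun j _ => hB0 j)
    (Finset.mem_range.2 (Nat.lt_succ_of_le hj))
  linarith

/-- Decay survives affine changes of variable. -/
theorem decay_affine {a : ℂ} (ha : a ≠ 0) (b : ℂ) {σ : ℝ} (hσ : 0 ≤ σ) : ∃ C : ℝ, 0 < C ∧
    ∀ z : ℂ, (1 + ‖a * z + b‖) ^ (-σ) ≤ C * (1 + ‖z‖) ^ (-σ) := by
  have h0 : 0 < ‖a‖ := norm_pos_iff.2 ha
  obtain ⟨K, hK⟩ : ∃ K : ℝ, K = 1 + (1 + ‖b‖) / ‖a‖ := ⟨_, rfl⟩
  have hK0 : 0 < K := by rw [hK]; positivity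
  refine ⟨K ^ σ, by positivity, fun z => ?_⟩
  have h1 : ‖a‖ * ‖z‖ ≤ ‖a * z + b‖ + ‖b‖ := by
    have := norm_sub_le (a * z + b) b
    rwa [add_sub_cancel_right, norm_mul] at this
  have h2 : ‖z‖ ≤ (1 + ‖b‖) / ‖a‖ * (1 + ‖a * z + b‖) := by
    rw [div_mul_eq_mul_div, le_div_iff₀ h0]
    nlinarith [mul_nonneg (norm_nonneg b) (norm_nonneg (a * z + b))]
  have h3 : (1 + ‖z‖) / K ≤ 1 + ‖a * z + b‖ := by
    rw [div_le_iff₀ hK0, hK]
    nlinarith [norm_nonneg (a * z + b)]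
  refine (Real.rpow_le_rpow_of_nonpos (by positivity) h3 (by linarith)).trans (le_of_eq ?_)
  rw [Real.div_rpow (by positivity) hK0.le, Real.rpow_neg hK0.le, div_inv_eq_mul, mul_comm]

theorem integrable_decay {σ : ℝ} (hσ : 2 < σ) :
    Integrable fun z : ℂ => (1 + ‖z‖) ^ (-σ) :=
  integrable_one_add_norm (by simpa using hσ)

theorem integrable_sing : Integrable fun z : ℂ => ‖z‖⁻¹ * (1 + ‖z‖) ^ (-3 : ℝ) := by
  refine (integrable_fun_norm_addHaar (μ := (volume : Measure ℂ))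
    (f := fun y : ℝ => y⁻¹ * (1 + y) ^ (-3 : ℝ))).2 ?_
  have h : Integrable fun y : ℝ => (1 + ‖y‖) ^ (-3 : ℝ) :=
    integrable_one_add_norm (by simp)
  refine h.integrableOn.congr_fun (fun y hy => ?_) measurableSet_Ioi
  have hy' : 0 < y := hy
  simp only [Complex.finrank_real_complex, smul_eq_mul, Real.norm_eq_abs, abs_of_pos hy']
  field_simp
  norm_num


end QRH
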