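import Vale.Agent.P026.Rsum
import Vale.Agent.P026.Cnt
import Vale.Agent.P026.Stm1

noncomputable section
namespace QRH
open Complex MeasureTheory
open scoped ComplexConjugate Classical

section General
open Set
variable {ι : Type} [Fintype ι]

/-- The character with frequency `-k`. -/
def poisE (k : ι → ℤ) (x : ι → ℝ) : ℂ := cexp (-(2 * Real.pi * I * ∑ i, (k i : ℂ) * x i))

/-- The unit box with corner `n`. -/
def poisBox (n : ι → ℤ) : Set (ι → ℝ) := {x | ∀ i, x i ∈ Ioc (n i : ℝ) (n i + 1)}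

theorem pois_mF (k : ι → ℤ) (y : ι → ℝ) :
    UnitAddTorus.mFourier (-k) (fun i => (y i : UnitAddCircle)) = poisE k y := by
  simp only [UnitAddTorus.mFourier, ContinuousMap.coe_mk, fourier_coe_apply, poisE]
  rw [← Complex.exp_sum, Finset.mul_sum, ← Finset.sum_neg_distrib]
  congr 1
  refine Finset.sum_congr rfl fun i _ => ?_
  simp only [Pi.neg_apply]
  push_cast
  ring

theorem pois_norm (k : ι → ℤ) (x : ι → ℝ) : ‖poisE k x‖ = 1 := by
  have : -(2 * Real.pi * I * ∑ i, (k i : ℂ) * x i)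
      = I * ((-(2 * Real.pi * ∑ i, (k i : ℝ) * x i) : ℝ) : ℂ) := by
    push_cast; ring
  rw [poisE, this, Complex.norm_exp_I_mul_ofReal]

theorem pois_per (k n : ι → ℤ) (x : ι → ℝ) : poisE k (x + fun i => (n i : ℝ)) = poisE k x := by
  unfold poisE
  rw [Complex.exp_eq_exp_iff_exists_int]
  refine ⟨-∑ i, k i * n i, ?_⟩
  simp only [Pi.add_apply]
  push_cast
  simp only [mul_add, Finset.sum_add_distrib]
  ring

theorem pois_cont (k : ι → ℤ) : Continuous (poisE k) := by
  unfold poisE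
  fun_prop

theorem pois_box_meas (n : ι → ℤ) : MeasurableSet (poisBox n) :=
  MeasurableSet.univ_pi' fun _ => measurableSet_Ioc

theorem pois_box_shift {V : Type} [NormedAddCommGroup V] [NormedSpace ℝ V] (g : (ι → ℝ) → V)
    (n : ι → ℤ) :
    ∫ x in poisBox n, g x = ∫ x in poisBox 0, g (x + fun i => (n i : ℝ)) := by
  rw [← (measurePreserving_add_right volume (fun i => (n i : ℝ))).setIntegral_preimage_emb
    (measurableEmbedding_addRight _) _ (poisBox n)]
  congr 2
  ext x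
  simp only [poisBox, mem_preimage, mem_ofPred_eq, Pi.add_apply, mem_Ioc, Pi.zero_apply,
    Int.cast_zero, zero_add]
  refine forall_congr' fun i => ?_
  constructor
  · rintro ⟨h1, h2⟩
    constructor <;> linarith
  · rintro ⟨h1, h2⟩
    constructor <;> linarith

theorem pois_box_sub (n : ι → ℤ) :
    poisBox n ⊆ Metric.closedBall (fun i => (n i : ℝ)) 1 := by
  intro x hx
  rw [Metric.mem_closedBall, dist_pi_le_iff zero_le_one]
  intro i
  rw [Real.dist_eq, abs_le]
  constructor <;> linarith [(hx i).1, (hx i).2]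

omit [Fintype ι] in
theorem pois_box_union : ⋃ n : ι → ℤ, poisBox n = univ := by
  refine eq_univ_of_forall fun x => mem_iUnion.2 ⟨fun i => ⌈x i⌉ - 1, fun i => ?_⟩
  push_cast
  constructor <;> linarith [Int.le_ceil (x i), Int.ceil_lt_add_one (x i)]

omit [Fintype ι] in
theorem pois_box_disj : Pairwise (Function.onFun Disjoint (poisBox (ι := ι))) := by
  intro m n hmn
  refine Set.disjoint_left.2 fun x h1 h2 => hmn (funext fun i => ?_)
  have a1 : (m i : ℝ) < n i + 1 := (h1 i).1.trans_le (h2 i).2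
  have a2 : (n i : ℝ) < m i + 1 := (h2 i).1.trans_le (h1 i).2
  have b1 : m i < n i + 1 := by exact_mod_cast a1
  have b2 : n i < m i + 1 := by exact_mod_cast a2
  omega

theorem pois_gen (F : (ι → ℝ) → ℂ) (hF : Continuous F)
    (h1 : ∀ R : ℝ, ∃ u : (ι → ℤ) → ℝ, Summable u ∧
      ∀ x : ι → ℝ, ‖x‖ ≤ R → ∀ n : ι → ℤ, ‖F (x + fun i => (n i : ℝ))‖ ≤ u n)
    (h2 : Summable fun k : ι → ℤ => ∫ x, F x * poisE k x) :
    ∑' n : ι → ℤ, F (fun i => (n i : ℝ)) = ∑' k : ι → ℤ, ∫ x, F x * poisE k x := by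
  set G : (ι → ℝ) → ℂ := fun x => ∑' n : ι → ℤ, F (x + fun i => (n i : ℝ)) with hG
  have hGc : Continuous G := by
    refine continuous_iff_continuousAt.2 fun x => ?_
    obtain ⟨u, hu, hb⟩ := h1 (‖x‖ + 1)
    have : ContinuousOn G (Metric.closedBall 0 (‖x‖ + 1)) :=
      continuousOn_tsum (fun n => (hF.comp (continuous_id.add continuous_const)).continuousOn) hu
        fun n y hy => hb y (by simpa using hy) n
    exact this.continuousAt (Metric.closedBall_mem_nhds_of_mem (by simp))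
  have hGp : ∀ (x : ι → ℝ) (m : ι → ℤ), G (x + fun i => (m i : ℝ)) = G x := by
    intro x m
    simp only [hG]
    rw [← (Equiv.addLeft m).tsum_eq fun n : ι → ℤ => F (x + fun i => (n i : ℝ))]
    refine tsum_congr fun n => ?_
    congr 1
    funext i
    simp [add_assoc]
  let g : UnitAddTorus ι → ℂ := fun z => G fun i => (AddCircle.equivIoc 1 0 (z i) : ℝ)
  have hg : ∀ y : ι → ℝ, g (fun i => (y i : UnitAddCircle)) = G y := by
    intro y
    rw [← hGp y fun i => -toIocDiv one_pos 0 (y i)]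
    simp only [g]
    congr 1
    funext i
    change toIocMod one_pos 0 (y i) = _
    simp [toIocMod, sub_eq_add_neg]
  have hgc : Continuous g := by
    have h3 : IsOpenQuotientMap (Pi.map fun (_ : ι) (y : ℝ) => (y : UnitAddCircle)) :=
      IsOpenQuotientMap.piMap fun _ => QuotientAddGroup.isOpenQuotientMap_mk
    rw [← h3.continuous_comp_iff]
    have h4 : g ∘ (Pi.map fun (_ : ι) (y : ℝ) => (y : UnitAddCircle)) = G := funext hg
    rw [h4]
    exact hGc
  let g' : C(UnitAddTorus ι, ℂ) := ⟨g, hgc⟩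
  have hg' : ∀ y : ι → ℝ, g' (fun i => (y i : UnitAddCircle)) = G y := hg
  obtain ⟨u, hu, hb⟩ := h1 1
  have hvol : volume (poisBox (0 : ι → ℤ)) < ⊤ :=
    (measure_mono (pois_box_sub 0)).trans_lt measure_closedBall_lt_top
  have hcoef : ∀ k, UnitAddTorus.mFourierCoeff g' k = ∫ x, F x * poisE k x := by
    intro k
    have hc : Continuous fun x => F x * poisE k x := hF.mul (pois_cont k)
    have hint : ∀ (h : (ι → ℝ) → ℂ), Continuous h → ∀ n : ι → ℤ, IntegrableOn h (poisBox n) :=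
      fun h hh n => (hh.continuousOn.integrableOn_compact (isCompact_closedBall _ 1)).mono_set
        (pois_box_sub n)
    have hsum : Summable fun n : ι → ℤ => ∫ x in poisBox 0,
        ‖F (x + fun i => (n i : ℝ)) * poisE k (x + fun i => (n i : ℝ))‖ := by
      refine Summable.of_nonneg_of_le (fun n => integral_nonneg fun x => norm_nonneg _)
        (fun n => ?_) (hu.mul_right (volume.real (poisBox (0 : ι → ℤ))))
      refine (Real.le_norm_self _).trans (norm_setIntegral_le_of_norm_le_const hvol fun x hx => ?_)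
      rw [norm_norm, norm_mul, pois_norm, mul_one]
      refine hb x ?_ n
      have := pois_box_sub 0 hx
      simpa [Metric.mem_closedBall, dist_eq_norm, ← Pi.zero_def] using this
    have hI : IntegrableOn (fun x => F x * poisE k x) (⋃ n : ι → ℤ, poisBox n) := by
      refine integrableOn_iUnion_of_summable_integral_norm (hint _ hc) (hsum.congr fun n => ?_)
      exact (pois_box_shift (fun x => ‖F x * poisE k x‖) n).symm
    have h3 := (hasSum_integral_iUnion pois_box_meas pois_box_disj hI).tsum_eq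
    rw [pois_box_union, Measure.restrict_univ] at h3
    rw [← h3, UnitAddTorus.mFourierCoeff_eq_integral g' k 0]
    simp only [pois_mF, hg', smul_eq_mul, pois_box_shift (fun x => F x * poisE k x)]
    rw [integral_tsum_of_summable_integral_norm
      (F := fun (n : ι → ℤ) x => F (x + fun i => (n i : ℝ)) * poisE k (x + fun i => (n i : ℝ)))
      (fun n => hint _ (hc.comp (continuous_id.add continuous_const)) 0) hsum]
    have e : {x : ι → ℝ | ∀ i, x i ∈ Ioc ((0 : ι → ℝ) i) ((0 : ι → ℝ) i + 1)} = poisBox 0 := by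
      simp [poisBox]
    rw [e]
    refine integral_congr_ae (Filter.Eventually.of_forall fun x => ?_)
    simp only [hG, pois_per]
    rw [tsum_mul_right, mul_comm]
  have h3 : Summable (UnitAddTorus.mFourierCoeff g') := by
    rw [funext hcoef]
    exact h2
  have h4 := (UnitAddTorus.hasSum_mFourier_series_apply_of_summable h3
    fun i => (((0 : ι → ℝ) i : ℝ) : UnitAddCircle)).tsum_eq
  rw [hg'] at h4
  simp only [hG, zero_add] at h4
  rw [← h4]
  refine tsum_congr fun k => ?_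
  rw [hcoef]
  simp [UnitAddTorus.mFourier]

end General

/-- Affine coordinates on the plane. -/
def poisA (a r : ℂ) (x : Fin 2 → ℝ) : ℂ := r + a * (x 0 + x 1 * omC)

/-- Coordinates on the lattice. -/
def poisL : (Fin 2 → ℤ) ≃ E where
  toFun n := ⟨n 0, n 1⟩
  invFun x := ![x.re, x.im]
  left_inv n := by funext i; fin_cases i <;> rfl
  right_inv x := rfl

/-- Coordinates on the dual lattice. -/
def poisD : (Fin 2 → ℤ) ≃ E where
  toFun k := ⟨k 0 + k 1, k 0⟩
  invFun x := ![x.im, x.re - x.im]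
  left_inv n := by funext i; fin_cases i <;> simp
  right_inv x := by ext <;> simp

theorem pois_toC (n : Fin 2 → ℤ) : toC (poisL n) = (n 0 : ℂ) + (n 1 : ℂ) * omC := rfl

theorem pois_contA (a r : ℂ) : Continuous (poisA a r) := by
  unfold poisA
  fun_prop

theorem pois_mp {a : ℂ} (ha : a ≠ 0) (r : ℂ) : MeasurePreserving (poisA a r) volume
    (ENNReal.ofReal (2 / √3 / ‖a‖ ^ 2) • volume) := by
  have h3 : 0 < √3 := by positivity
  have hn : 0 < ‖a‖ ^ 2 := by positivity
  set M : Matrix (Fin 2) (Fin 2) ℝ :=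
    !![a.re, -a.re / 2 - a.im * (√3 / 2); a.im, -a.im / 2 + a.re * (√3 / 2)] with hM
  have hd : M.det = √3 / 2 * ‖a‖ ^ 2 := by
    rw [hM, Matrix.det_fin_two_of, Complex.sq_norm, Complex.normSq_apply]
    ring
  have h1 : MeasurePreserving (Matrix.toLin' M) volume
      (ENNReal.ofReal (2 / √3 / ‖a‖ ^ 2) • volume) := by
    refine ⟨(LinearMap.continuous_of_finiteDimensional _).measurable, ?_⟩
    rw [Real.map_matrix_volume_pi_eq_smul_volume_pi (by rw [hd]; positivity), hd,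
      abs_of_pos (by positivity)]
    congr 2
    field_simp
  have h2 := ((measurePreserving_add_left (volume : Measure ℂ) r).smul_measure
    (ENNReal.ofReal (2 / √3 / ‖a‖ ^ 2))).comp
    ((Complex.volume_preserving_equiv_pi.symm.smul_measure _).comp h1)
  have e : poisA a r = (fun z => r + z) ∘ (Complex.measurableEquivPi.symm ∘ Matrix.toLin' M) := by
    funext x
    simp only [poisA, Function.comp, Complex.measurableEquivPi_symm_apply, hM, Matrix.toLin'_apply]
    congr 1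
    apply Complex.ext <;> simp [omC, Matrix.mulVec, dotProduct, Fin.sum_univ_two] <;> ring
  rw [e]
  exact h2

theorem pois_shift (a r : ℂ) (x : Fin 2 → ℝ) (n : Fin 2 → ℤ) :
    poisA a r (x + fun i => (n i : ℝ)) = a * toC (poisL n) + r + (poisA a r x - r) := by
  simp only [poisA, pois_toC, Pi.add_apply]
  push_cast
  ring

theorem pois_int (a r : ℂ) (n : Fin 2 → ℤ) :
    poisA a r (fun i => (n i : ℝ)) = r + a * toC (poisL n) := by
  simp only [poisA, pois_toC]
  push_cast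
  ring

theorem pois_char {a : ℂ} (ha : a ≠ 0) (r : ℂ) (k : Fin 2 → ℤ) (x : Fin 2 → ℝ) :
    poisE k x = psi (r * toC (poisD k) / a) * psi (-(poisA a r x * (toC (poisD k) / a))) := by
  have e : r * toC (poisD k) / a + -(poisA a r x * (toC (poisD k) / a))
      = ((-(x 0 * (k 0 + k 1) - x 1 * k 0) : ℝ) : ℂ)
        + ((-(k 0 * x 0 + k 1 * x 1) : ℝ) : ℂ) * omC := by
    have e1 : r * toC (poisD k) / a + -(poisA a r x * (toC (poisD k) / a))
        = -((x 0 + x 1 * omC) * toC (poisD k)) := by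
      unfold poisA
      field_simp
      ring
    rw [e1]
    simp only [poisD, toC_apply, Equiv.coe_fn_mk]
    push_cast
    linear_combination (-(x 1 : ℂ) * k 0) * omC_sq
  rw [← psi_add, e, psi_coord, poisE, Fin.sum_univ_two]
  congr 1
  push_cast
  ring

theorem pois_peetre {z w : ℂ} {S : ℝ} (h : ‖w‖ ≤ S) :
    (1 + ‖z + w‖) ^ (-3 : ℝ) ≤ (1 + S) ^ (3 : ℝ) * (1 + ‖z‖) ^ (-3 : ℝ) := by
  have hS : 0 ≤ S := (norm_nonneg _).trans h
  have h1 : ‖z‖ ≤ ‖z + w‖ + S := by
    have := norm_sub_le (z + w) w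
    rw [add_sub_cancel_right] at this
    linarith
  have h2 : (1 + ‖z‖) / (1 + S) ≤ 1 + ‖z + w‖ := by
    rw [div_le_iff₀ (by positivity)]
    nlinarith [norm_nonneg (z + w)]
  refine (Real.rpow_le_rpow_of_nonpos (by positivity) h2 (by norm_num)).trans (le_of_eq ?_)
  rw [Real.div_rpow (by positivity) (by positivity), Real.rpow_neg (x := 1 + S) (by positivity),
    div_inv_eq_mul, mul_comm]

theorem pois_loc (a r : ℂ) {x : Fin 2 → ℝ} {R : ℝ} (hx : ‖x‖ ≤ R) (n : Fin 2 → ℤ) :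
    (1 + ‖poisA a r (x + fun i => (n i : ℝ))‖) ^ (-3 : ℝ)
      ≤ (1 + ‖a‖ * (2 * R)) ^ (3 : ℝ) * (1 + ‖a * toC (poisL n) + r‖) ^ (-3 : ℝ) := by
  rw [pois_shift]
  refine pois_peetre ?_
  rw [poisA, add_sub_cancel_left, norm_mul]
  refine mul_le_mul_of_nonneg_left ((norm_add_le _ _).trans ?_) (norm_nonneg _)
  rw [norm_mul, norm_omC, mul_one, Complex.norm_real, Complex.norm_real]
  linarith [norm_le_pi_norm x 0, norm_le_pi_norm x 1]

theorem pois_M {M t c : ℝ} (hc : 0 ≤ c) (ht : 0 < t) (h : c ≤ M * t) : 0 ≤ M :=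
  nonneg_of_mul_nonneg_left (hc.trans h) ht

theorem pois_dec {a : ℂ} (ha : a ≠ 0) :
    Summable fun x : E => (1 + ‖toC x / a‖) ^ (-3 : ℝ) := by
  refine (summable_shift_decay (σ := 3) (by norm_num) (inv_ne_zero ha) 0).congr fun x => ?_
  rw [add_zero, inv_mul_eq_div]

theorem pois_one {a : ℂ} (ha : a ≠ 0) (r : ℂ) {f : ℂ → ℂ} {M : ℝ} (hf : Continuous f)
    (h1 : ∀ z, ‖f z‖ ≤ M * (1 + ‖z‖) ^ (-3 : ℝ)) (h2 : Summable fun ξ : E => ‖ft f (toC ξ / a)‖) :
    ∑' y : E, f (r + a * toC y)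
      = ∑' ξ : E, (((‖a‖ ^ 2)⁻¹ : ℝ) : ℂ) * (psi (r * toC ξ / a) * ft f (toC ξ / a)) := by
  have hM : 0 ≤ M := pois_M (norm_nonneg _) (by positivity) (h1 0)
  have e : ∀ k, ∫ x, f (poisA a r x) * poisE k x = (((‖a‖ ^ 2)⁻¹ : ℝ) : ℂ)
      * (psi (r * toC (poisD k) / a) * ft f (toC (poisD k) / a)) := by
    intro k
    have hc : Continuous fun z => f z * psi (-(z * (toC (poisD k) / a))) :=
      hf.mul (continuous_psi.comp (by fun_prop))
    have e1 := integral_map (μ := volume) (pois_contA a r).measurable.aemeasurable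
      hc.aestronglyMeasurable
    rw [(pois_mp ha r).map_eq, integral_smul_measure, ENNReal.toReal_ofReal (by positivity)] at e1
    simp only [pois_char ha r, mul_left_comm (f _), integral_const_mul]
    rw [← e1, ft, Complex.real_smul]
    push_cast
    ring
  have key := pois_gen (fun x => f (poisA a r x)) (hf.comp (pois_contA a r)) (fun R =>
    ⟨fun n => M * ((1 + ‖a‖ * (2 * R)) ^ (3 : ℝ) * (1 + ‖a * toC (poisL n) + r‖) ^ (-3 : ℝ)),
      ((poisL.summable_iff.2 (summable_shift_decay (σ := 3) (by norm_num) ha r)).mul_left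
        _).mul_left _, fun x hx n => (h1 _).trans
        (mul_le_mul_of_nonneg_left (pois_loc a r hx n) hM)⟩) (by
      simp only [e]
      refine Summable.mul_left _ (Summable.of_norm ?_)
      simp only [norm_mul, norm_psi, one_mul]
      exact poisD.summable_iff.2 h2)
  simp only [e, pois_int] at key
  rw [← poisL.tsum_eq, key, ← poisD.tsum_eq]

theorem pS1 : PS1 := by
  intro q ρ f M hq hρ hf h1 h2
  have ha := toC_ne_zero hq
  have hM : 0 ≤ M := pois_M (norm_nonneg _) (by positivity) (h1 0)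
  have hs : Summable fun ξ : E => ‖ft f (toC ξ / toC q)‖ :=
    Summable.of_nonneg_of_le (fun _ => norm_nonneg _) (fun _ => h2 _) ((pois_dec ha).mul_left M)
  have hρb : ∀ x, ‖ρ x‖ ≤ ∑ r ∈ reps q, ‖ρ r‖ := by
    intro x
    obtain ⟨r, hr, hx⟩ := exists_rep hq x
    rw [hρ x r hx]
    exact Finset.single_le_sum (f := fun r => ‖ρ r‖) (fun _ _ => norm_nonneg _) hr
  have hF : Summable fun x : E => ρ x * f (toC x) := by
    refine Summable.of_norm_bounded
      (((pois_dec one_ne_zero).mul_left M).mul_left (∑ r ∈ reps q, ‖ρ r‖)) fun x => ?_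
    rw [norm_mul, div_one]
    exact mul_le_mul (hρb x) (h1 _) (norm_nonneg _) ((norm_nonneg _).trans (hρb x))
  have e : ∀ r : E, ∑' y, ρ (r + q * y) * f (toC (r + q * y))
      = ∑' ξ : E, (nm q : ℂ)⁻¹ * (ρ r * psf (r * ξ) q * ft f (toC ξ / toC q)) := by
    intro r
    have e1 : ∀ y, ρ (r + q * y) = ρ r := fun y => hρ _ _ ⟨y, by ring⟩
    simp only [e1, map_add, map_mul]
    rw [tsum_mul_left, pois_one ha (toC r) hf h1 hs, ← tsum_mul_left]
    refine tsum_congr fun ξ => ?_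
    rw [← nm_eq, psf, map_mul]
    push_cast
    ring
  rw [tsum_split hq hF]
  simp only [e]
  rw [← Summable.tsum_finsetSum, ← tsum_mul_left]
  · refine tsum_congr fun ξ => ?_
    rw [rsum, Finset.sum_mul, Finset.mul_sum]
  · intro r _
    refine Summable.mul_left _ (Summable.of_norm ?_)
    simp only [norm_mul, norm_psf, mul_one]
    exact hs.mul_left _

/-- Affine coordinates on the product of two planes. -/
def poisA2 (a r s : ℂ) (x : Fin 2 ⊕ Fin 2 → ℝ) : ℂ × ℂ :=
  (poisA a r fun i => x (.inl i), poisA a s fun i => x (.inr i))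

theorem pois_contA2 (a r s : ℂ) : Continuous (poisA2 a r s) :=
  ((pois_contA a r).comp (by fun_prop)).prodMk ((pois_contA a s).comp (by fun_prop))

theorem pois_mp2 {a : ℂ} (ha : a ≠ 0) (r s : ℂ) : MeasurePreserving (poisA2 a r s) volume
    (ENNReal.ofReal ((2 / √3 / ‖a‖ ^ 2) ^ 2) • volume) := by
  have h := ((pois_mp ha r).prod (pois_mp ha s)).comp
    (volume_measurePreserving_sumPiEquivProdPi fun _ : Fin 2 ⊕ Fin 2 => ℝ)
  rw [Measure.prod_smul_left, Measure.prod_smul_right, smul_smul,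
    ← ENNReal.ofReal_mul (by positivity), ← sq] at h
  exact h

theorem pois_split (k : Fin 2 ⊕ Fin 2 → ℤ) (x : Fin 2 ⊕ Fin 2 → ℝ) :
    poisE k x = poisE (fun i => k (.inl i)) (fun i => x (.inl i))
      * poisE (fun i => k (.inr i)) (fun i => x (.inr i)) := by
  unfold poisE
  rw [← Complex.exp_add, Fintype.sum_sum_type]
  congr 1
  ring

/-- A pair of coordinates. -/
def poisP (e : (Fin 2 → ℤ) ≃ E) : (Fin 2 ⊕ Fin 2 → ℤ) ≃ E × E :=
  (Equiv.sumArrowEquivProdArrow _ _ ℤ).trans (e.prodCongr e)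

theorem poisP_fst (e : (Fin 2 → ℤ) ≃ E) (k : Fin 2 ⊕ Fin 2 → ℤ) :
    (poisP e k).1 = e fun i => k (.inl i) := rfl

theorem poisP_snd (e : (Fin 2 → ℤ) ≃ E) (k : Fin 2 ⊕ Fin 2 → ℤ) :
    (poisP e k).2 = e fun i => k (.inr i) := rfl

theorem pois_coef2 {a : ℂ} (ha : a ≠ 0) (r s : ℂ) {F : ℂ × ℂ → ℂ} (hF : Continuous F)
    (k : Fin 2 ⊕ Fin 2 → ℤ) :
    ∫ x, F (poisA2 a r s x) * poisE k x = ((((‖a‖ ^ 2) ^ 2)⁻¹ : ℝ) : ℂ)
      * (psi (r * toC (poisP poisD k).1 / a) * psi (s * toC (poisP poisD k).2 / a)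
        * ft2 F (toC (poisP poisD k).1 / a) (toC (poisP poisD k).2 / a)) := by
  have e2 : ∀ x, F (poisA2 a r s x) * poisE k x
      = psi (r * toC (poisP poisD k).1 / a) * psi (s * toC (poisP poisD k).2 / a)
        * (F (poisA2 a r s x) * psi (-((poisA2 a r s x).1 * (toC (poisP poisD k).1 / a)
          + (poisA2 a r s x).2 * (toC (poisP poisD k).2 / a)))) := by
    intro x
    rw [pois_split, pois_char ha r, pois_char ha s, neg_add, psi_add, poisP_fst, poisP_snd]
    simp only [poisA2]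
    ring
  simp only [e2]
  generalize toC (poisP poisD k).1 = u
  generalize toC (poisP poisD k).2 = v
  have hc : Continuous fun z : ℂ × ℂ => F z * psi (-(z.1 * (u / a) + z.2 * (v / a))) :=
    hF.mul (continuous_psi.comp (by fun_prop))
  have e1 := integral_map (μ := volume) (pois_contA2 a r s).measurable.aemeasurable
    hc.aestronglyMeasurable
  rw [(pois_mp2 ha r s).map_eq, integral_smul_measure,
    ENNReal.toReal_ofReal (by positivity)] at e1
  have e3 : (2 / √3 / ‖a‖ ^ 2) ^ 2 = ((‖a‖ ^ 2) ^ 2)⁻¹ * (4 / 3) := by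
    rw [div_pow, div_pow, Real.sq_sqrt (by norm_num)]
    ring
  rw [integral_const_mul, ← e1, ft2, Complex.real_smul, e3, Complex.ofReal_mul]
  ring

theorem pois_loc2 (a r s : ℂ) {F : ℂ × ℂ → ℂ} {M : ℝ}
    (h1 : ∀ z, ‖F z‖ ≤ M * (1 + ‖z.1‖) ^ (-3 : ℝ) * (1 + ‖z.2‖) ^ (-3 : ℝ))
    {x : Fin 2 ⊕ Fin 2 → ℝ} {R : ℝ} (hx : ‖x‖ ≤ R) (n : Fin 2 ⊕ Fin 2 → ℤ) :
    ‖F (poisA2 a r s (x + fun i => (n i : ℝ)))‖
      ≤ M * ((1 + ‖a‖ * (2 * R)) ^ (3 : ℝ)) ^ 2 * ((1 + ‖a * toC (poisP poisL n).1 + r‖) ^ (-3 : ℝ)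
        * (1 + ‖a * toC (poisP poisL n).2 + s‖) ^ (-3 : ℝ)) := by
  have hM : 0 ≤ M := pois_M (norm_nonneg _) (by positivity) ((h1 0).trans_eq (mul_assoc _ _ _))
  have hR : 0 ≤ R := (norm_nonneg _).trans hx
  have b1 : (1 + ‖(poisA2 a r s (x + fun i => (n i : ℝ))).1‖) ^ (-3 : ℝ) ≤ _ :=
    pois_loc a r (x := fun i => x (.inl i)) (R := R)
      ((pi_norm_le_iff_of_nonneg hR).2 fun i => (norm_le_pi_norm x _).trans hx)
      fun i => n (.inl i)
  have b2 : (1 + ‖(poisA2 a r s (x + fun i => (n i : ℝ))).2‖) ^ (-3 : ℝ) ≤ _ :=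
    pois_loc a s (x := fun i => x (.inr i)) (R := R)
      ((pi_norm_le_iff_of_nonneg hR).2 fun i => (norm_le_pi_norm x _).trans hx)
      fun i => n (.inr i)
  refine (h1 _).trans ((mul_le_mul (mul_le_mul_of_nonneg_left b1 hM) b2 (by positivity)
    (by positivity)).trans (le_of_eq ?_))
  rw [poisP_fst, poisP_snd]
  ring

theorem pois_sum2 {f g : E → ℝ} (hf : Summable f) (hg : Summable g) (h1 : ∀ x, 0 ≤ f x)
    (h2 : ∀ x, 0 ≤ g x) (e : (Fin 2 → ℤ) ≃ E) :
    Summable fun n => f (poisP e n).1 * g (poisP e n).2 :=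
  (Equiv.summable_iff (f := fun y : E × E => f y.1 * g y.2) (poisP e)).2 (hf.mul_of_nonneg hg h1 h2)

theorem pois_two {a : ℂ} (ha : a ≠ 0) (r s : ℂ) {F : ℂ × ℂ → ℂ} {M : ℝ} (hF : Continuous F)
    (h1 : ∀ z, ‖F z‖ ≤ M * (1 + ‖z.1‖) ^ (-3 : ℝ) * (1 + ‖z.2‖) ^ (-3 : ℝ))
    (h2 : Summable fun ξ : E × E => ‖ft2 F (toC ξ.1 / a) (toC ξ.2 / a)‖) :
    ∑' y : E × E, F (r + a * toC y.1, s + a * toC y.2)
      = ∑' ξ : E × E, ((((‖a‖ ^ 2) ^ 2)⁻¹ : ℝ) : ℂ) * (psi (r * toC ξ.1 / a) * psi (s * toC ξ.2 / a)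
        * ft2 F (toC ξ.1 / a) (toC ξ.2 / a)) := by
  have hsum := pois_sum2 (summable_shift_decay (σ := 3) (by norm_num) ha r)
      (summable_shift_decay (σ := 3) (by norm_num) ha s)
      (fun _ => by positivity) (fun _ => by positivity) poisL
  have h2' := (Equiv.summable_iff
    (f := fun ξ : E × E => ‖ft2 F (toC ξ.1 / a) (toC ξ.2 / a)‖) (poisP poisD)).2 h2
  have h3 : Summable fun k : Fin 2 ⊕ Fin 2 → ℤ => ∫ x, F (poisA2 a r s x) * poisE k x := by
    rw [funext (pois_coef2 ha r s hF)]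
    refine Summable.mul_left _ (Summable.of_norm (h2'.congr fun k => ?_))
    rw [norm_mul, norm_mul, norm_psi, norm_psi, one_mul, one_mul]
    rfl
  have key := pois_gen (fun x => F (poisA2 a r s x)) (hF.comp (pois_contA2 a r s))
    (fun R => ⟨_, hsum.mul_left (M * ((1 + ‖a‖ * (2 * R)) ^ (3 : ℝ)) ^ 2),
      fun x hx n => pois_loc2 a r s h1 hx n⟩) h3
  rw [funext (pois_coef2 ha r s hF)] at key
  rw [← (poisP poisL).tsum_eq, ← (poisP poisD).tsum_eq, ← key]
  refine tsum_congr fun n => ?_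
  rw [poisP_fst, poisP_snd, ← pois_int, ← pois_int]
  rfl

/-- Division with remainder as a bijection. -/
def poisQ {q : E} (hq : q ≠ 0) : reps q × E ≃ E :=
  Equiv.ofBijective (fun p => p.1.1 + q * p.2) ⟨by
    rintro ⟨⟨r, hr⟩, y⟩ ⟨⟨r', hr'⟩, y'⟩ h
    have h' : r + q * y = r' + q * y' := h
    obtain rfl : r = r' := rep_unique hq hr hr' ⟨y' - y, by linear_combination h'⟩
    obtain rfl : y = y' := mul_left_cancel₀ hq (add_left_cancel h')
    rfl, fun x => by
    obtain ⟨r, hr, y, hy⟩ := exists_rep hq x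
    exact ⟨(⟨r, hr⟩, y), by linear_combination -hy⟩⟩

theorem pois_split2 {q : E} (hq : q ≠ 0) {G : E × E → ℂ} (hG : Summable G) :
    ∑' x, G x = ∑ r ∈ reps q, ∑ s ∈ reps q, ∑' y : E × E, G (r + q * y.1, s + q * y.2) := by
  let e : (reps q × reps q) × (E × E) ≃ E × E :=
    (Equiv.prodProdProdComm _ _ _ _).trans ((poisQ hq).prodCongr (poisQ hq))
  have hG' : Summable fun p => G (e p) := e.summable_iff.2 hG
  rw [← e.tsum_eq, hG'.tsum_prod, tsum_fintype, Fintype.sum_prod_type,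
    ← Finset.sum_coe_sort (reps q)]
  refine Finset.sum_congr rfl fun r _ => ?_
  rw [← Finset.sum_coe_sort (reps q)]
  rfl

theorem pS2 : PS2 := by
  intro q ρ F M hq hρ hF h1 h2
  have ha := toC_ne_zero hq
  have hdec : ∀ {a : ℂ}, a ≠ 0 → Summable fun y : E × E =>
      M * (1 + ‖toC y.1 / a‖) ^ (-3 : ℝ) * (1 + ‖toC y.2 / a‖) ^ (-3 : ℝ) := by
    intro a ha
    simp only [mul_assoc]
    exact ((pois_dec ha).mul_of_nonneg (pois_dec ha) (fun _ => by positivity)
      fun _ => by positivity).mul_left M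
  have hs : Summable fun ξ : E × E => ‖ft2 F (toC ξ.1 / toC q) (toC ξ.2 / toC q)‖ :=
    Summable.of_nonneg_of_le (fun _ => norm_nonneg _) (fun _ => h2 _ _) (hdec ha)
  have hρb : ∀ x y, ‖ρ x y‖ ≤ ∑ r ∈ reps q, ∑ s ∈ reps q, ‖ρ r s‖ := by
    intro x y
    obtain ⟨r, hr, hx⟩ := exists_rep hq x
    obtain ⟨s, hs, hy⟩ := exists_rep hq y
    rw [hρ x r y s hx hy]
    exact (Finset.single_le_sum (f := fun s => ‖ρ r s‖) (fun _ _ => norm_nonneg _) hs).trans
      (Finset.single_le_sum (f := fun r => ∑ s ∈ reps q, ‖ρ r s‖)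
        (fun _ _ => Finset.sum_nonneg fun _ _ => norm_nonneg _) hr)
  have hG : Summable fun x : E × E => ρ x.1 x.2 * F (toC x.1, toC x.2) := by
    refine Summable.of_norm_bounded
      ((hdec one_ne_zero).mul_left (∑ r ∈ reps q, ∑ s ∈ reps q, ‖ρ r s‖)) fun x => ?_
    rw [norm_mul, div_one, div_one]
    exact mul_le_mul (hρb _ _) (h1 _) (norm_nonneg _) ((norm_nonneg _).trans (hρb x.1 x.2))
  have e : ∀ r s : E, ∑' y : E × E, ρ (r + q * y.1) (s + q * y.2)
        * F (toC (r + q * y.1), toC (s + q * y.2))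
      = ∑' ξ : E × E, ((nm q : ℂ) ^ 2)⁻¹ * (ρ r s * psf (r * ξ.1 + s * ξ.2) q
        * ft2 F (toC ξ.1 / toC q) (toC ξ.2 / toC q)) := by
    intro r s
    have e1 : ∀ y z, ρ (r + q * y) (s + q * z) = ρ r s :=
      fun y z => hρ _ _ _ _ ⟨y, by ring⟩ ⟨z, by ring⟩
    simp only [e1, map_add, map_mul]
    rw [tsum_mul_left, pois_two ha (toC r) (toC s) hF h1 hs, ← tsum_mul_left]
    refine tsum_congr fun ξ => ?_
    rw [← nm_eq, psf_add, psf, psf, map_mul, map_mul]
    push_cast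
    ring
  have hsum : ∀ r s : E, Summable fun ξ : E × E => ((nm q : ℂ) ^ 2)⁻¹
      * (ρ r s * psf (r * ξ.1 + s * ξ.2) q * ft2 F (toC ξ.1 / toC q) (toC ξ.2 / toC q)) := by
    intro r s
    refine Summable.mul_left _ (Summable.of_norm ?_)
    simp only [norm_mul, norm_psf, mul_one]
    exact hs.mul_left _
  rw [pois_split2 hq hG]
  simp only [e]
  rw [Finset.sum_congr rfl fun r _ => (Summable.tsum_finsetSum fun s _ => hsum r s).symm,
    ← Summable.tsum_finsetSum fun r _ => summable_sum fun s _ => hsum r s, ← tsum_mul_left]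
  refine tsum_congr fun ξ => ?_
  simp only [rsum2, rsum, Finset.sum_mul, Finset.mul_sum]

end QRH
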