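import Vale.Agent.P026.Sym
import Vale.Agent.P026.Rearr
import Vale.Agent.P026.Wt

noncomputable section
namespace QRH
open Complex MeasureTheory Filter
open scoped ComplexConjugate Classical ContDiff Topology

/-- The error function in logarithmic coordinates. -/
def q1G (v : ℝ) : ℂ := (Del (Real.exp v) : ℝ)

theorem q1_cont (h1 : DelB) : Continuous q1G :=
  continuous_ofReal.comp (h1.1.comp_continuous Real.continuous_exp fun v => Real.exp_pos v)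

theorem q1_integrable {δ : ℝ} (hδ : 0 < δ) : Integrable fun v : ℝ => Real.exp (-(δ * |v|)) := by
  rw [← integrableOn_univ, ← Set.Iic_union_Ioi (a := (0 : ℝ))]
  refine IntegrableOn.union ?_ ?_
  · refine (integrableOn_exp_mul_Iic hδ 0).congr_fun (fun v hv => ?_) measurableSet_Iic
    simp only [abs_of_nonpos (Set.mem_Iic.1 hv), mul_neg, neg_neg]
  · refine (integrableOn_exp_mul_Ioi (neg_lt_zero.2 hδ) 0).congr_fun (fun v hv => ?_)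
      measurableSet_Ioi
    simp only [abs_of_pos (Set.mem_Ioi.1 hv), neg_mul]

theorem q1_G (h1 : DelB) {δ : ℝ} (hδ : 0 < δ) : ∃ g : ℝ, 0 < g ∧ ∀ σ : ℝ, δ ≤ σ → σ ≤ 1 / 2 - δ →
    Integrable (fun v => q1G v * (Real.exp (σ * v) : ℝ)) ∧
      ∫ v, ‖q1G v‖ * Real.exp (σ * v) ≤ g := by
  obtain ⟨C, hC, hb⟩ := h1.2
  have hi := (q1_integrable hδ).const_mul C
  have h0 : 0 ≤ ∫ v, C * Real.exp (-(δ * |v|)) := integral_nonneg fun v => by positivity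
  refine ⟨(∫ v, C * Real.exp (-(δ * |v|))) + 1, by linarith, fun σ s1 s2 => ?_⟩
  have key : ∀ v, ‖q1G v‖ * Real.exp (σ * v) ≤ C * Real.exp (-(δ * |v|)) := fun v => by
    rw [q1G, Complex.norm_real, Real.norm_eq_abs]
    obtain ⟨b1, b2⟩ := hb _ (Real.exp_pos v)
    rcases le_total v 0 with hv | hv
    · refine mul_le_mul b1 (Real.exp_le_exp.2 ?_) (Real.exp_pos _).le hC.le
      rw [abs_of_nonpos hv]
      nlinarith
    · refine (mul_le_mul_of_nonneg_right b2 (Real.exp_pos _).le).trans ?_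
      rw [← Real.exp_mul, mul_assoc, ← Real.exp_add]
      refine mul_le_mul_of_nonneg_left (Real.exp_le_exp.2 ?_) hC.le
      rw [abs_of_nonneg hv]
      nlinarith
  refine ⟨hi.mono' ((q1_cont h1).mul (by fun_prop)).aestronglyMeasurable
    (Eventually.of_forall fun v => ?_), ?_⟩
  · rw [norm_mul, Complex.norm_real, Real.norm_eq_abs, abs_of_pos (Real.exp_pos _)]
    exact key v
  · refine le_trans (integral_mono_of_nonneg (Eventually.of_forall fun v => by positivity) hi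
      (Eventually.of_forall key)) (by linarith)

theorem q1_sigma {δ y Y : ℝ} (hδ : 0 < δ) (hδ1 : δ ≤ 1 / 4) (hy : 0 < y) (h1 : y ≤ Y)
    (h2 : y⁻¹ ≤ Y) : ∃ σ m : ℝ, δ ≤ σ ∧ σ ≤ 1 / 2 - δ ∧ 0 ≤ m ∧ m ≤ 1 ∧ m ^ 2 * y ≤ 1 ∧
      y ^ (-σ) ≤ Y ^ δ * m := by
  rcases le_total y 1 with h | h
  · refine ⟨δ, 1, le_rfl, by linarith, zero_le_one, le_rfl, by linarith, ?_⟩
    rw [mul_one, Real.rpow_neg hy.le, ← Real.inv_rpow hy.le]
    exact Real.rpow_le_rpow (by positivity) h2 hδ.le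
  · refine ⟨1 / 2 - δ, y ^ (-(1 / 2) : ℝ), by linarith, le_rfl, by positivity,
      Real.rpow_le_one_of_one_le_of_nonpos h (by norm_num), le_of_eq ?_, ?_⟩
    · rw [← Real.rpow_natCast, ← Real.rpow_mul hy.le]
      norm_num [Real.rpow_neg_one]
      exact inv_mul_cancel₀ hy.ne'
    · rw [show -(1 / 2 - δ) = δ + -(1 / 2) by ring, Real.rpow_add hy]
      exact mul_le_mul_of_nonneg_right (Real.rpow_le_rpow hy.le h1 hδ.le) (by positivity)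

/-- The statement of `QD` with fixed constants. -/
def QDc (ξ δ C : ℝ) : Prop :=
  ∀ (A L : ℝ) (T : Finset (Finset P)) (g : Finset P) (x : Finset P → ℂ), 0 ≤ A → 0 ≤ L →
  (∀ c ∈ T, x c ≠ 0 → Odd' c ∧ g ⊆ c ∧ Ns c ≤ L * Ns g) →
  ∑ a ∈ calA A, ‖∑ c ∈ T, x c * xs c2 c a‖ ^ 2
    ≤ C * (A * L) ^ δ * (L + A ^ ξ) * ∑ c ∈ T, ‖x c‖ ^ 2

/-- Support condition for the coefficients. -/
def Q1S (J : Finset (Finset P)) (z : Finset P → ℂ) (e : Finset P) (N1 : ℝ) : Prop :=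
  ∀ c ∈ J, z c ≠ 0 → Odd' c ∧ e ⊆ c ∧ N1 / 2 < Ns c ∧ Ns c ≤ N1

/-- Normalised coefficients. -/
def q1x (z : Finset P → ℂ) (N1 : ℝ) (a : E) (c : Finset P) : ℂ :=
  z c * xs c2 c a / (√(Ns c / N1) : ℝ)

theorem q1_QD {ξ δ C : ℝ} (hC : 0 < C) (hδ : 0 < δ) (h : QDc ξ δ C) {I : Finset E}
    {J : Finset (Finset P)} {z : Finset P → ℂ} {e : Finset P} {N1 A Y σ : ℝ} (hN : 0 < N1)
    (hA : 0 ≤ A) (hI : I ⊆ calA A) (hY : A * N1 ≤ Y) (hσ : 0 ≤ σ) (hz : Q1S J z e N1) (τ : ℝ) :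
    ∑ a ∈ I, ‖∑ c ∈ J, q1x z N1 a c * ((Ns c / N1 : ℝ) : ℂ) ^ (σ + τ * Complex.I)‖ ^ 2
      ≤ 2 * C * Y ^ δ * ((N1 / Ns e + A ^ ξ) * ∑ c ∈ J, ‖z c‖ ^ 2) := by
  have he := Ns_pos e
  have h1 := h A (N1 / Ns e) J e
    (fun c => z c / (√(Ns c / N1) : ℝ) * ((Ns c / N1 : ℝ) : ℂ) ^ (σ + τ * Complex.I)) hA
    (by positivity) (fun c hc h0 => by
      obtain ⟨k1, k2, -, k4⟩ := hz c hc fun h2 => h0 (by simp [h2])
      exact ⟨k1, k2, by rwa [div_mul_cancel₀ _ he.ne']⟩)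
  have h2 : ∑ c ∈ J, ‖z c / (√(Ns c / N1) : ℝ) * ((Ns c / N1 : ℝ) : ℂ) ^ (σ + τ * Complex.I)‖ ^ 2
      ≤ 2 * ∑ c ∈ J, ‖z c‖ ^ 2 := by
    rw [Finset.mul_sum]
    refine Finset.sum_le_sum fun c hc => ?_
    by_cases h0 : z c = 0
    · simp [h0]
    obtain ⟨-, -, k3, k4⟩ := hz c hc h0
    have hc0 : 0 < Ns c / N1 := div_pos (Ns_pos c) hN
    have k5 : 1 / 2 ≤ Ns c / N1 := by rw [le_div_iff₀ hN]; linarith
    have k6 : (Ns c / N1) ^ σ ≤ 1 := Real.rpow_le_one hc0.le ((div_le_one hN).2 k4) hσ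
    rw [norm_mul, norm_div, Complex.norm_cpow_eq_rpow_re_of_pos hc0, Complex.norm_real,
      Real.norm_eq_abs, mul_pow, div_pow, sq_abs, Real.sq_sqrt hc0.le]
    simp only [add_re, ofReal_re, mul_re, I_re, mul_zero, ofReal_im, I_im, mul_one, sub_self,
      add_zero]
    refine (mul_le_of_le_one_right (by positivity) (pow_le_one₀ (by positivity) k6)).trans ?_
    rw [div_le_iff₀ hc0]
    nlinarith [sq_nonneg ‖z c‖]
  have h3 : (A * (N1 / Ns e)) ^ δ ≤ Y ^ δ := Real.rpow_le_rpow (by positivity)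
    ((mul_le_mul_of_nonneg_left (div_le_self hN.le (one_le_Ns e)) hA).trans hY) hδ.le
  have h4 : ∀ a c, q1x z N1 a c * ((Ns c / N1 : ℝ) : ℂ) ^ (σ + τ * Complex.I) =
      z c / (√(Ns c / N1) : ℝ) * ((Ns c / N1 : ℝ) : ℂ) ^ (σ + τ * Complex.I) * xs c2 c a :=
    fun a c => by rw [q1x]; ring
  simp only [h4]
  refine (Finset.sum_le_sum_of_subset_of_nonneg hI fun _ _ _ => sq_nonneg _).trans (h1.trans ?_)
  have h5 : 0 ≤ ∑ c ∈ J, ‖z c‖ ^ 2 := Finset.sum_nonneg fun _ _ => sq_nonneg _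
  have hY0 : 0 ≤ Y := (mul_nonneg hA hN.le).trans hY
  calc _ ≤ C * Y ^ δ * (N1 / Ns e + A ^ ξ) * (2 * ∑ c ∈ J, ‖z c‖ ^ 2) := by gcongr
    _ = _ := by ring

theorem q1_block (h1 : DelB) (h2 : SepB) {ξ δ : ℝ} (h : QD ξ) (hδ : 0 < δ) (hδ1 : δ ≤ 1 / 4) :
    ∃ C : ℝ, 0 < C ∧ ∀ (I : Finset E) (J : Finset (Finset P)) (z z' : Finset P → ℂ)
      (e1 e2 : Finset P) (y : E → ℝ) (N1 A y0 Y : ℝ), 0 < N1 → 0 ≤ A → I ⊆ calA A → 0 < y0 →
      (∀ a ∈ I, y0 ≤ y a) → y0 ≤ Y → y0⁻¹ ≤ Y → A * N1 ≤ Y → Q1S J z e1 N1 → Q1S J z' e2 N1 →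
      ∃ m : ℝ, 0 ≤ m ∧ m ≤ 1 ∧ m ^ 2 * y0 ≤ 1 ∧
        ∑ a ∈ I, ‖∑ c ∈ J, ∑ c' ∈ J, q1x z N1 a c * q1x z' N1 a c' *
          sm 1 q1G (Real.log (y a / (Ns c / N1 * (Ns c' / N1))))‖
        ≤ C * (Y ^ δ) ^ 2 * (√(m * (N1 / Ns e1 + A ^ ξ) * ∑ c ∈ J, ‖z c‖ ^ 2) *
          √(m * (N1 / Ns e2 + A ^ ξ) * ∑ c ∈ J, ‖z' c‖ ^ 2)) := by
  obtain ⟨C1, hC1, hS⟩ := h2 1 0
  obtain ⟨g, hg, hG⟩ := q1_G h1 hδ
  obtain ⟨C2, hC2, hQ⟩ := h δ hδ
  refine ⟨C1 * g * (2 * C2), by positivity,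
    fun I J z z' e1 e2 y N1 A y0 Y hN hA hI hy0 hy k1 k2 k3 hz hz' => ?_⟩
  obtain ⟨σ, m, s1, s2, m0, m1, m2, s3⟩ := q1_sigma hδ hδ1 hy0 k1 k2
  have hY0 : 0 ≤ Y := hy0.le.trans k1
  have hσ : 0 ≤ σ := hδ.le.trans s1
  refine ⟨m, m0, m1, m2, ?_⟩
  set Q1 := (N1 / Ns e1 + A ^ ξ) * ∑ c ∈ J, ‖z c‖ ^ 2 with hQ1
  set Q2 := (N1 / Ns e2 + A ^ ξ) * ∑ c ∈ J, ‖z' c‖ ^ 2 with hQ2
  have key := hS E (Finset P) I (fun _ => J) (fun _ => J) q1G σ g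
    (Y ^ δ * m * (√(2 * C2 * Y ^ δ * Q1) * √(2 * C2 * Y ^ δ * Q2))) 1 (q1x z N1) (q1x z' N1) y
    (fun _ c => Ns c / N1) (fun _ c => Ns c / N1)
    (by rw [one_re, abs_le]; constructor <;> linarith) (hG σ s1 s2).1 (hG σ s1 s2).2
    (fun a ha => hy0.trans_le (hy a ha)) (fun _ c => div_pos (Ns_pos c) hN)
    (fun _ c => div_pos (Ns_pos c) hN) (fun τ => by
      rw [pow_zero, mul_one]
      have b1 := Real.sqrt_le_sqrt (q1_QD hC2 hδ hQ hN hA hI k3 hσ hz τ)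
      have b2 := Real.sqrt_le_sqrt (q1_QD hC2 hδ hQ hN hA hI k3 hσ hz' τ)
      refine le_trans ?_ (mul_le_mul_of_nonneg_left ((Real.sum_mul_le_sqrt_mul_sqrt I _ _).trans
        (mul_le_mul b1 b2 (Real.sqrt_nonneg _) (Real.sqrt_nonneg _))) (by positivity))
      rw [Finset.mul_sum]
      refine Finset.sum_le_sum fun a ha => ?_
      rw [mul_assoc]
      exact mul_le_mul_of_nonneg_right
        ((Real.rpow_le_rpow_of_nonpos hy0 (hy a ha) (by linarith)).trans s3) (by positivity))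
  rw [pow_zero, mul_one] at key
  refine key.trans (le_of_eq ?_)
  have p0 : 0 ≤ 2 * C2 * Y ^ δ := by positivity
  rw [mul_assoc m, mul_assoc m, ← hQ1, ← hQ2, Real.sqrt_mul p0, Real.sqrt_mul p0,
    Real.sqrt_mul m0, Real.sqrt_mul m0]
  have e1 := Real.mul_self_sqrt p0
  have e2 := Real.mul_self_sqrt m0
  linear_combination (C1 * g * Y ^ δ * m * √Q1 * √Q2) * e1 -
    (C1 * g * (2 * C2) * (Y ^ δ) ^ 2 * √Q1 * √Q2) * e2

theorem q1_num {ξ M N Z A m w N1 a b : ℝ} (hξ : 1 ≤ ξ) (hξ2 : ξ ≤ 2) (hN : 1 ≤ N)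
    (hM : N ^ (2 - 1 / ξ) ≤ M) (hZ : 1 ≤ Z) (hA : 1 ≤ A) (hA2 : A ≤ N ^ (1 / ξ) * Z)
    (m0 : 0 ≤ m) (m1 : m ≤ 1) (hw : 0 < w) (hN1 : 0 < N1) (hw1 : w * N1 ≤ M) (ha : 1 ≤ a)
    (hb : 1 ≤ b) (m2 : m ^ 2 * (A * (a * b) ^ 2 * w ^ 2 / M) ≤ 1) :
    w * (m * (N1 / a + (2 * A) ^ ξ)) ≤ 5 * M * Z ^ 2 / a := by
  have hM0 : 0 < M := (mul_pos hw hN1).trans_le hw1
  have hA0 : 0 < A := by linarith
  have h1 : A ^ (2 * ξ - 1) ≤ M * Z ^ 4 := by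
    refine (Real.rpow_le_rpow hA0.le hA2 (by linarith)).trans ?_
    rw [Real.mul_rpow (by positivity) (by linarith), ← Real.rpow_mul (by linarith),
      show 1 / ξ * (2 * ξ - 1) = 2 - 1 / ξ by field_simp, ← Real.rpow_natCast]
    exact mul_le_mul hM (Real.rpow_le_rpow_of_exponent_le hZ (by push_cast; linarith))
      (by positivity) hM0.le
  have h2 : (A ^ ξ) ^ 2 = A * A ^ (2 * ξ - 1) := by
    rw [← Real.rpow_natCast, ← Real.rpow_mul hA0.le, ← Real.rpow_one_add' hA0.le (by linarith)]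
    congr 1
    push_cast
    ring
  have h3 : w * m * A ^ ξ * (a * b) ≤ M * Z ^ 2 := by
    refine (sq_le_sq₀ (by positivity) (by positivity)).1 ?_
    have e : (w * m * A ^ ξ * (a * b)) ^ 2 =
        m ^ 2 * (A * (a * b) ^ 2 * w ^ 2 / M) * (M * A ^ (2 * ξ - 1)) := by
      rw [mul_pow, mul_pow, h2]; field_simp
    rw [e]
    calc _ ≤ 1 * (M * (M * Z ^ 4)) := by gcongr
      _ = _ := by ring
  have h4 : (2 * A) ^ ξ ≤ 4 * A ^ ξ := by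
    rw [Real.mul_rpow (by norm_num) hA0.le]
    refine mul_le_mul_of_nonneg_right ?_ (by positivity)
    calc (2 : ℝ) ^ ξ ≤ 2 ^ (2 : ℝ) := Real.rpow_le_rpow_of_exponent_le (by norm_num) hξ2
      _ = 4 := by norm_num
  rw [le_div_iff₀ (by linarith)]
  have h5 : w * (m * (N1 / a + (2 * A) ^ ξ)) * a = m * (w * N1) + w * m * a * (2 * A) ^ ξ := by
    field_simp
  have h6 : m * (w * N1) ≤ M * Z ^ 2 :=
    (mul_le_of_le_one_left (by positivity) m1).trans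
      (hw1.trans (le_mul_of_one_le_right hM0.le (one_le_pow₀ hZ)))
  have h7 : w * m * A ^ ξ * a ≤ w * m * A ^ ξ * (a * b) :=
    mul_le_mul_of_nonneg_left (le_mul_of_one_le_right (by linarith) hb) (by positivity)
  rw [h5]
  nlinarith [mul_le_mul_of_nonneg_left h4 (by positivity : 0 ≤ w * m * a)]

end QRH
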