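import Vale.Agent.P026.Sym
import Vale.Agent.P026.Rearr
import Vale.Agent.P026.Wt

noncomputable section
namespace QRH
open Complex MeasureTheory Filter
open scoped ComplexConjugate Classical ContDiff Topology

/-- The smoothed error term. -/
def qe2I (M U : ℝ) : ℂ := ∫ v : ℝ, (beta v : ℂ) * (Del (U / (M * Real.exp v)) : ℝ)

theorem qe2_cont (h1 : DelB) {M U : ℝ} (hM : 0 < M) (hU : 0 < U) :
    Continuous fun v : ℝ => ((Del (U / (M * Real.exp v)) : ℝ) : ℂ) := by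
  refine continuous_ofReal.comp (h1.1.comp_continuous ?_ fun v => ?_)
  · exact continuous_const.div (by fun_prop) fun v => by positivity
  · change 0 < U / (M * Real.exp v)
    positivity

theorem qe2_norm_I {C M U y : ℝ} (hC : 0 < C)
    (h : ∀ u : ℝ, 0 < u → |Del u| ≤ C ∧ |Del u| ≤ C * u ^ (-(1 / 2) : ℝ)) (hM : 0 < M) (hy : 0 < y)
    (hU : y ≤ U) : ‖qe2I M U‖ ≤ 2 * (C * min 1 ((y / (4 * M)) ^ (-(1 / 2) : ℝ))) := by
  have hU0 : 0 < U := hy.trans_le hU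
  refine norm_integral_beta_le (by positivity) fun v _ hv => ?_
  have h0 : 0 < U / (M * Real.exp v) := by positivity
  rw [Complex.norm_real, Real.norm_eq_abs, mul_min_of_nonneg _ _ hC.le, mul_one]
  refine le_min (h _ h0).1 ((h _ h0).2.trans (mul_le_mul_of_nonneg_left ?_ hC.le))
  refine Real.rpow_le_rpow_of_nonpos (by positivity) ?_ (by norm_num)
  rw [mul_comm 4 M]
  gcongr

theorem qe2_int (h1 : DelB) {A M : ℝ} (hM : 0 < M) (d c c' : Finset P) :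
    ∫ v : ℝ, (beta v : ℂ) * E2 A (M * Real.exp v) d c c' =
      ∑ a ∈ calA A, cop d a * xs c2 c a * xs c2 c' a *
        ∑ e0 ∈ d.powerset, ∑ e1 ∈ c.powerset, ∑ e2 ∈ c'.powerset, mu e0 * mu e1 * mu e2 *
          qe2I M (nm a * (Ns e0 * Ns e1 * Ns e2) ^ 2) := by
  have hi : ∀ a ∈ calA A, ∀ (e0 e1 e2 : Finset P) (k : ℂ), Integrable fun v : ℝ =>
      k * ((beta v : ℂ) * (Del (nm a * (Ns e0 * Ns e1 * Ns e2) ^ 2 / (M * Real.exp v)) : ℝ)) := by
    intro a ha e0 e1 e2 k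
    have h0 : 0 < nm a := one_le_nm (mem_ball.1 (Finset.mem_filter.1 ha).1).1
    have := Ns_pos e0
    have := Ns_pos e1
    have := Ns_pos e2
    exact (integrable_beta_mul (qe2_cont h1 hM (by positivity))).const_mul k
  have e : ∀ v : ℝ, (beta v : ℂ) * E2 A (M * Real.exp v) d c c' =
      ∑ a ∈ calA A, ∑ e0 ∈ d.powerset, ∑ e1 ∈ c.powerset, ∑ e2 ∈ c'.powerset,
        (cop d a * xs c2 c a * xs c2 c' a * (mu e0 * mu e1 * mu e2)) * ((beta v : ℂ) *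
          (Del (nm a * (Ns e0 * Ns e1 * Ns e2) ^ 2 / (M * Real.exp v)) : ℝ)) := fun v => by
    simp only [E2, Finset.mul_sum]
    refine Finset.sum_congr rfl fun _ _ => Finset.sum_congr rfl fun _ _ =>
      Finset.sum_congr rfl fun _ _ => Finset.sum_congr rfl fun _ _ => by ring
  simp only [e]
  rw [integral_finsetSum _ fun a ha => integrable_finsetSum _ fun e0 _ =>
    integrable_finsetSum _ fun e1 _ => integrable_finsetSum _ fun e2 _ => hi a ha e0 e1 e2 _]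
  refine Finset.sum_congr rfl fun a ha => ?_
  rw [integral_finsetSum _ fun e0 _ =>
    integrable_finsetSum _ fun e1 _ => integrable_finsetSum _ fun e2 _ => hi a ha e0 e1 e2 _,
    Finset.mul_sum]
  refine Finset.sum_congr rfl fun e0 _ => ?_
  rw [integral_finsetSum _ fun e1 _ => integrable_finsetSum _ fun e2 _ => hi a ha e0 e1 e2 _,
    Finset.mul_sum]
  refine Finset.sum_congr rfl fun e1 _ => ?_
  rw [integral_finsetSum _ fun e2 _ => hi a ha e0 e1 e2 _, Finset.mul_sum]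
  refine Finset.sum_congr rfl fun e2 _ => ?_
  rw [integral_const_mul, qe2I]
  ring

theorem qe2_filter {κ : Type*} (S : Finset κ) (p : κ → Prop) [DecidablePred p] (f : κ → ℂ) :
    ∑ e ∈ S with p e, f e = ∑ e ∈ S, (if p e then 1 else 0) * f e := by
  rw [Finset.sum_filter]
  exact Finset.sum_congr rfl fun e _ => by split_ifs <;> simp

theorem qe2_swap {α : Type*} (T T' S S' D : Finset (Finset P)) (A : Finset α)
    (x y : Finset P → α → ℂ) (k : α → ℂ) (G : α → Finset P → Finset P → Finset P → ℂ) :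
    ∑ c ∈ T, ∑ c' ∈ T', ∑ a ∈ A, k a * x c a * y c' a *
        ∑ e0 ∈ D, ∑ e1 ∈ S with e1 ⊆ c, ∑ e2 ∈ S' with e2 ⊆ c', G a e0 e1 e2 =
      ∑ e0 ∈ D, ∑ e1 ∈ S, ∑ e2 ∈ S', ∑ a ∈ A, k a * G a e0 e1 e2 *
        (∑ c ∈ T with e1 ⊆ c, x c a) * ∑ c' ∈ T' with e2 ⊆ c', y c' a := by
  simp only [qe2_filter, Finset.mul_sum, Finset.sum_mul]
  simp only [Finset.sum_comm (s := T')]
  simp only [Finset.sum_comm (s := T)]
  simp only [Finset.sum_comm (s := A)]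
  refine Finset.sum_congr rfl fun _ _ => Finset.sum_congr rfl fun _ _ =>
    Finset.sum_congr rfl fun _ _ => Finset.sum_congr rfl fun _ _ =>
    Finset.sum_congr rfl fun _ _ => Finset.sum_congr rfl fun _ _ => by ring

theorem qe2_alg {m u B N M Z n1 n2 A F a1 a2 : ℝ} (hm0 : 0 ≤ m) (hm1 : m ≤ 1) (hmu : m ≤ u)
    (hA : 0 < A) (hu : u ^ 2 * (A * (n1 * n2) ^ 2) = 4 * M) (hB0 : 0 ≤ B)
    (hB : B ^ 2 ≤ 16 * (A * (M * Z ^ 4))) (hN : 0 ≤ N) (hNM : N ≤ M) (hZ : 1 ≤ Z) (h1 : 1 ≤ n1)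
    (h2 : 1 ≤ n2) (hF : 0 ≤ F) (ha1 : 0 ≤ a1) (ha2 : 0 ≤ a2) :
    m * (√(F * (N / n1 + B) * a1) * √(F * (N / n2 + B) * a2)) ≤
      9 * F * M * Z ^ 2 * (√(a1 / n1) * √(a2 / n2)) := by
  have hM : 0 ≤ M := hN.trans hNM
  have hu0 : 0 ≤ u := hm0.trans hmu
  have hE : 1 ≤ n1 * n2 := one_le_mul_of_one_le_of_one_le h1 h2
  have hZ2 : 1 ≤ Z ^ 2 := one_le_pow₀ hZ
  have k1 : u * B * (n1 * n2) ≤ 8 * M * Z ^ 2 := by
    refine (sq_le_sq₀ (by positivity) (by positivity)).1 (le_of_mul_le_mul_left ?_ hA)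
    have := mul_le_mul_of_nonneg_left hB (by positivity : 0 ≤ 4 * M)
    calc A * (u * B * (n1 * n2)) ^ 2 = (u ^ 2 * (A * (n1 * n2) ^ 2)) * B ^ 2 := by ring
      _ = 4 * M * B ^ 2 := by rw [hu]
      _ ≤ _ := this
      _ = _ := by ring
  have k2 : m * B * (n1 * n2) ≤ 8 * M * Z ^ 2 := le_trans (by gcongr) k1
  have k3 : m * N ≤ M * Z ^ 2 := by
    calc m * N ≤ 1 * M := by gcongr
      _ ≤ M * Z ^ 2 := by rw [one_mul]; exact le_mul_of_one_le_right hM hZ2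
  have k4 : ∀ {n : ℝ}, n ≤ n1 * n2 → m * (N + B * n) ≤ 9 * M * Z ^ 2 := fun {n} hn => by
    have : m * B * n ≤ m * B * (n1 * n2) := by gcongr
    linarith
  have k5 := k4 (le_mul_of_one_le_right (by linarith) h2)
  have k6 := k4 (le_mul_of_one_le_left (by linarith) h1)
  refine (sq_le_sq₀ (by positivity) (by positivity)).1 ?_
  have n1p : 0 < n1 := by linarith
  have n2p : 0 < n2 := by linarith
  simp only [mul_pow]
  rw [Real.sq_sqrt (by positivity), Real.sq_sqrt (by positivity), Real.sq_sqrt (by positivity),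
    Real.sq_sqrt (by positivity)]
  have k7 := mul_le_mul k5 k6 (by positivity) (by positivity)
  have k8 := mul_le_mul_of_nonneg_right k7 (by positivity : 0 ≤ F ^ 2 * (a1 / n1 * (a2 / n2)))
  refine le_trans (le_of_eq ?_) (k8.trans (le_of_eq ?_))
  · field_simp
  · ring

theorem qe2_A0 {ξ M N Z : ℝ} (hξ : 1 ≤ ξ) (hN : 1 ≤ N) (hM : N ^ (2 - 1 / ξ) ≤ M) (hZ : 1 ≤ Z) :
    N ≤ M ∧ N ^ 2 * Z / M ≤ N ^ (1 / ξ) * Z ∧ N ^ (1 / ξ) ≤ N := by
  have h1 : 1 / ξ ≤ 1 := by rw [div_le_one (by linarith)]; exact hξ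
  have h2 : N ≤ N ^ (2 - 1 / ξ) := by
    conv_lhs => rw [← Real.rpow_one N]
    exact Real.rpow_le_rpow_of_exponent_le hN (by linarith)
  have h3 : N ^ (1 / ξ) ≤ N := by
    conv_rhs => rw [← Real.rpow_one N]
    exact Real.rpow_le_rpow_of_exponent_le hN h1
  refine ⟨h2.trans hM, ?_, h3⟩
  have h4 : N ^ (1 / ξ) * N ^ (2 - 1 / ξ) = N ^ 2 := by
    rw [← Real.rpow_add (by linarith), ← Real.rpow_natCast]
    congr 1
    push_cast
    ring
  rw [div_le_iff₀ (by linarith), ← h4]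
  have : 0 ≤ N ^ (1 / ξ) * Z := by positivity
  calc N ^ (1 / ξ) * N ^ (2 - 1 / ξ) * Z = N ^ (1 / ξ) * Z * N ^ (2 - 1 / ξ) := by ring
    _ ≤ _ := mul_le_mul_of_nonneg_left hM this

theorem qe2_B {ξ M N Z A : ℝ} (hξ : 1 ≤ ξ) (hξ2 : ξ ≤ 2) (hN : 1 ≤ N) (hM : N ^ (2 - 1 / ξ) ≤ M)
    (hZ : 1 ≤ Z) (hA : 0 < A) (hA0 : A ≤ N ^ (1 / ξ) * Z) :
    ((2 * A) ^ ξ) ^ 2 ≤ 16 * (A * (M * Z ^ 4)) := by
  have hN0 : 0 ≤ N := by linarith
  have h1 : (2 : ℝ) ^ ξ ≤ 4 := by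
    calc (2 : ℝ) ^ ξ ≤ 2 ^ (2 : ℝ) := Real.rpow_le_rpow_of_exponent_le one_le_two hξ2
      _ = 4 := by norm_num
  have h2 : (A ^ ξ) ^ 2 = A * A ^ (2 * ξ - 1) := by
    rw [← Real.rpow_natCast, ← Real.rpow_mul hA.le, ← Real.rpow_one_add' hA.le (by linarith)]
    congr 1
    push_cast
    ring
  have h3 : A ^ (2 * ξ - 1) ≤ M * Z ^ 4 := by
    refine (Real.rpow_le_rpow hA.le hA0 (by linarith)).trans ?_
    rw [Real.mul_rpow (by positivity) (by linarith), ← Real.rpow_mul hN0]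
    have e : 1 / ξ * (2 * ξ - 1) = 2 - 1 / ξ := by field_simp
    have h4 : Z ^ (2 * ξ - 1) ≤ Z ^ 4 := by
      rw [← Real.rpow_natCast]
      exact Real.rpow_le_rpow_of_exponent_le hZ (by push_cast; linarith)
    rw [e]
    exact mul_le_mul hM h4 (by positivity) (le_trans (by positivity) hM)
  rw [Real.mul_rpow zero_le_two hA.le, mul_pow, h2]
  have h5 : ((2 : ℝ) ^ ξ) ^ 2 ≤ 16 := by
    have := pow_le_pow_left₀ (by positivity) h1 2
    linarith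
  exact mul_le_mul h5 (mul_le_mul_of_nonneg_left h3 hA.le) (by positivity) (by norm_num)

/-- The sum over `a` for fixed parameters. -/
theorem qe2_main (h1 : DelB) {ξ : ℝ} (hξ : 1 ≤ ξ) (hξ2 : ξ ≤ 2) (h : QD ξ) {ε : ℝ} (hε : 0 < ε) :
    ∃ C : ℝ, 0 < C ∧ ∀ (M N : ℝ) (T1 T2 : Finset (Finset P)) (e0 e1 e2 : Finset P)
      (x1 x2 : Finset P → ℂ), 1 ≤ N → N ^ (2 - 1 / ξ) ≤ M →
      (∀ c ∈ T1, x1 c ≠ 0 → Odd' c ∧ e1 ⊆ c ∧ Ns c ≤ N) →
      (∀ c ∈ T2, x2 c ≠ 0 → Odd' c ∧ e2 ⊆ c ∧ Ns c ≤ N) →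
      ∑ a ∈ calA (N ^ 2 * (M * N) ^ ε / M), ‖qe2I M (nm a * (Ns e0 * Ns e1 * Ns e2) ^ 2)‖ *
        (‖∑ c ∈ T1, x1 c * xs c2 c a‖ * ‖∑ c ∈ T2, x2 c * xs c2 c a‖) ≤
      C * ((M * N) ^ (ε / 3)) ^ 8 * M *
        (√((∑ c ∈ T1, ‖x1 c‖ ^ 2) / Ns e1) * √((∑ c ∈ T2, ‖x2 c‖ ^ 2) / Ns e2)) := by
  obtain ⟨C0, hC0, hD⟩ := h1.2
  have hδ : 0 < ε / 3 / (1 + ε) := by positivity
  obtain ⟨C1, hC1, hQ⟩ := h _ hδ
  obtain ⟨C2, hC2, hL⟩ := log_le_rpow hδ
  refine ⟨C2 * (2 * C0 * (9 * (C1 * 2 ^ (ε / 3 / (1 + ε))))), by positivity,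
    fun M N T1 T2 e0 e1 e2 x1 x2 hN hM hx1 hx2 => ?_⟩
  have hNM := (qe2_A0 hξ hN hM le_rfl).1
  have hMN : 1 ≤ M * N := one_le_mul_of_one_le_of_one_le (hN.trans hNM) hN
  have hM0 : 0 < M := by linarith
  have hZ : 1 ≤ (M * N) ^ ε := Real.one_le_rpow hMN hε.le
  obtain ⟨-, hA0, hN1⟩ := qe2_A0 hξ hN hM hZ
  have hZW : (M * N) ^ ε = ((M * N) ^ (ε / 3)) ^ 3 := by
    rw [← Real.rpow_natCast, ← Real.rpow_mul (by linarith)]
    congr 1
    push_cast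
    ring
  have hW : (M * N * (M * N) ^ ε) ^ (ε / 3 / (1 + ε)) = (M * N) ^ (ε / 3) := by
    rw [← Real.rpow_one_add' (by linarith) (by linarith), ← Real.rpow_mul (by linarith)]
    congr 1
    field_simp
  have hW0 : 0 ≤ (M * N) ^ (ε / 3) := by positivity
  generalize (M * N) ^ (ε / 3) = W at *
  generalize (M * N) ^ ε = Z at *
  generalize ε / 3 / (1 + ε) = δ at *
  generalize N ^ 2 * Z / M = A0 at *
  have hA1 : A0 * N ≤ M * N * Z := by
    calc A0 * N ≤ N ^ (1 / ξ) * Z * N := by gcongr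
      _ ≤ M * Z * N := by gcongr; linarith
      _ = _ := by ring
  by_cases hA : A0 < 1
  · rw [calA, ball_eq_empty hA, Finset.filter_empty, Finset.sum_empty]
    positivity
  obtain ⟨J, hJ1, hJ2⟩ := exists_dyadic (not_lt.1 hA)
  rw [sum_dyadic (calA A0) (fun a => (nm a : ℝ)) _ (J := J) fun a ha => by
    obtain ⟨h0, h2⟩ := mem_ball.1 (Finset.mem_filter.1 ha).1
    exact ⟨one_le_nmR h0, h2.trans_lt hJ2⟩]
  have hJ : (J + 1 : ℝ) ≤ C2 * W := by
    refine (hL A0 J (not_lt.1 hA) hJ1).trans (mul_le_mul_of_nonneg_left ?_ hC2.le)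
    rw [← hW]
    refine Real.rpow_le_rpow (by linarith) (le_trans ?_ hA1) hδ.le
    exact le_mul_of_one_le_right (by linarith) hN
  have n0 := one_le_Ns e0
  have n1 := one_le_Ns e1
  have n2 := one_le_Ns e2
  refine (Finset.sum_le_card_nsmul _ _ (2 * C0 * (9 * (C1 * 2 ^ δ * W) * M * Z ^ 2 *
    (√((∑ c ∈ T1, ‖x1 c‖ ^ 2) / Ns e1) * √((∑ c ∈ T2, ‖x2 c‖ ^ 2) / Ns e2)))) fun j hj => ?_).trans ?_
  · have hj' : (2 : ℝ) ^ j ≤ A0 :=
      (pow_le_pow_right₀ one_le_two (Nat.lt_succ_iff.1 (Finset.mem_range.1 hj))).trans hJ1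
    have hA2 : (0 : ℝ) < 2 ^ j := by positivity
    rw [pow_succ' (2 : ℝ) j]
    generalize (2 : ℝ) ^ j = A at *
    have hQ' : ∀ (T : Finset (Finset P)) (e : Finset P) (x : Finset P → ℂ),
        (∀ c ∈ T, x c ≠ 0 → Odd' c ∧ e ⊆ c ∧ Ns c ≤ N) →
        ∑ a ∈ calA A0 with A ≤ (nm a : ℝ) ∧ (nm a : ℝ) < 2 * A, ‖∑ c ∈ T, x c * xs c2 c a‖ ^ 2 ≤
          C1 * 2 ^ δ * W * (N / Ns e + (2 * A) ^ ξ) * ∑ c ∈ T, ‖x c‖ ^ 2 := by
      intro T e x hx
      have ne := one_le_Ns e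
      have hLe : N / Ns e ≤ N := div_le_self (by linarith) ne
      have k1 := hQ (2 * A) (N / Ns e) T e x (by positivity) (by positivity) fun c hc h0 =>
        ⟨(hx c hc h0).1, (hx c hc h0).2.1, by
          rw [div_mul_cancel₀ _ (Ns_pos e).ne']; exact (hx c hc h0).2.2⟩
      have k2 : (2 * A * (N / Ns e)) ^ δ ≤ 2 ^ δ * W := by
        rw [← hW, ← Real.mul_rpow zero_le_two (by positivity)]
        refine Real.rpow_le_rpow (by positivity) ?_ hδ.le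
        calc 2 * A * (N / Ns e) ≤ 2 * A0 * N :=
              mul_le_mul (by linarith) hLe (by positivity) (by linarith)
          _ ≤ _ := by linarith
      refine le_trans (Finset.sum_le_sum_of_subset_of_nonneg (fun a ha => ?_)
        fun _ _ _ => by positivity) (k1.trans ?_)
      · obtain ⟨ha1, ha2⟩ := Finset.mem_filter.1 ha
        obtain ⟨ha3, ha4⟩ := Finset.mem_filter.1 ha1
        exact Finset.mem_filter.2 ⟨mem_ball.2 ⟨(mem_ball.1 ha3).1, ha2.2.le⟩, ha4⟩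
      · rw [mul_assoc C1 (2 ^ δ) W]
        gcongr
    have hy : 0 < A * (Ns e1 * Ns e2) ^ 2 := by positivity
    have hu : ((A * (Ns e1 * Ns e2) ^ 2 / (4 * M)) ^ (-(1 / 2) : ℝ)) ^ 2 *
        (A * (Ns e1 * Ns e2) ^ 2) = 4 * M := by
      rw [← Real.rpow_natCast, ← Real.rpow_mul (by positivity),
        show (-(1 / 2) : ℝ) * ((2 : ℕ) : ℝ) = -1 by norm_num, Real.rpow_neg_one]
      field_simp
    have hu0 : 0 ≤ (A * (Ns e1 * Ns e2) ^ 2 / (4 * M)) ^ (-(1 / 2) : ℝ) := by positivity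
    have k3 := qe2_alg (le_min zero_le_one hu0) (min_le_left _ _) (min_le_right _ _) hA2 hu
      (by positivity) (qe2_B hξ hξ2 hN hM hZ hA2 (hj'.trans hA0)) (by linarith) hNM hZ n1 n2
      (F := C1 * 2 ^ δ * W) (a1 := ∑ c ∈ T1, ‖x1 c‖ ^ 2) (a2 := ∑ c ∈ T2, ‖x2 c‖ ^ 2)
      (by positivity) (by positivity) (by positivity)
    refine le_trans ?_ (mul_le_mul_of_nonneg_left k3 (by positivity))
    refine (Finset.sum_le_sum fun a ha => mul_le_mul_of_nonneg_right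
      (qe2_norm_I hC0 hD hM0 hy ?_) (by positivity)).trans ?_
    · have k4 : Ns e1 * Ns e2 ≤ Ns e0 * Ns e1 * Ns e2 := by
        rw [mul_assoc]
        exact le_mul_of_one_le_left (by positivity) n0
      have k5 := (Finset.mem_filter.1 ha).2.1
      gcongr
    · rw [← Finset.mul_sum, ← mul_assoc, mul_assoc (2 * C0)]
      refine mul_le_mul_of_nonneg_left (mul_le_mul_of_nonneg_left ?_ (le_min zero_le_one hu0))
        (by positivity)
      refine (Real.sum_mul_le_sqrt_mul_sqrt _ _ _).trans ?_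
      exact mul_le_mul (Real.sqrt_le_sqrt (hQ' T1 e1 x1 hx1)) (Real.sqrt_le_sqrt (hQ' T2 e2 x2 hx2))
        (Real.sqrt_nonneg _) (Real.sqrt_nonneg _)
  · rw [Finset.card_range, nsmul_eq_mul]
    push_cast
    refine (mul_le_mul_of_nonneg_right hJ (by positivity)).trans (le_of_eq ?_)
    rw [hZW]
    ring

theorem qe2_sub {N : ℝ} (α : Finset P → ℂ) (d r e : Finset P) :
    ∑ c ∈ ((sqf (N / Ns d)).filter fun c => Disjoint c d ∧ r ⊆ c) with e ⊆ c, ‖α (d ∪ c)‖ ^ 2 ≤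
      ∑ n ∈ sqf N with d ∪ r ∪ e ⊆ n, ‖α n‖ ^ 2 := by
  rw [← Finset.sum_image (g := fun c => d ∪ c) (f := fun n => ‖α n‖ ^ 2) ?_]
  refine Finset.sum_le_sum_of_subset_of_nonneg ?_ fun _ _ _ => by positivity
  swap
  · intro c hc c' hc' e
    have h1 := (Finset.mem_filter.1 (Finset.mem_filter.1 hc).1).2.1
    have h2 := (Finset.mem_filter.1 (Finset.mem_filter.1 hc').1).2.1
    beta_reduce at e
    rw [← Finset.union_sdiff_cancel_left h1.symm, e, Finset.union_sdiff_cancel_left h2.symm]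
  · intro n hn
    obtain ⟨c, hc, rfl⟩ := Finset.mem_image.1 hn
    obtain ⟨h1, h2⟩ := Finset.mem_filter.1 hc
    obtain ⟨h3, h4, h5⟩ := Finset.mem_filter.1 h1
    refine Finset.mem_filter.2 ⟨mem_sqf.2 ?_, ?_⟩
    · rw [Ns_union h4.symm, mul_comm, ← le_div_iff₀ (Ns_pos d)]
      exact mem_sqf.1 h3
    · rw [Finset.union_assoc]
      exact Finset.union_subset_union_right (Finset.union_subset h5 h2)

theorem qE2 (h1 : DelB) {ξ : ℝ} (hξ : 1 ≤ ξ) (hξ2 : ξ ≤ 2) (h : QD ξ) : QE E2 ξ := by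
  intro ε hε
  obtain ⟨C, hC, hm⟩ := qe2_main h1 hξ hξ2 h hε
  obtain ⟨C', hC', hc⟩ := comb (ε := ε / 3) (by positivity)
  refine ⟨C * C', by positivity, fun M N α hN hM hα => ?_⟩
  obtain ⟨a0, hα⟩ := hα
  have hNM := (qe2_A0 hξ hN hM le_rfl).1
  have hM0 : 0 < M := by linarith
  have e1 : ∑ n ∈ sqf N, ∑ n' ∈ sqf N, α n * conj (α n') * ∫ v : ℝ, (beta v : ℝ) *
      E2 (N ^ 2 * (M * N) ^ ε / M) (M * Real.exp v) (n ∩ n') (n \ n') (n' \ n) = _ :=
    Eq.trans (Finset.sum_congr rfl fun n _ => Finset.sum_congr rfl fun n' _ => by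
      rw [Finset.union_comm, Finset.sdiff_union_inter, Finset.union_comm, Finset.inter_comm n n',
        Finset.sdiff_union_inter])
      (rearr2 N fun d c c' => α (d ∪ c) * conj (α (d ∪ c')) * ∫ v : ℝ, (beta v : ℝ) *
        E2 (N ^ 2 * (M * N) ^ ε / M) (M * Real.exp v) d c c')
  rw [e1]
  have hW : N ^ (ε / 3) ≤ (M * N) ^ (ε / 3) :=
    Real.rpow_le_rpow (by linarith) (le_mul_of_one_le_left (by linarith) (by linarith))
      (by positivity)
  have hW9 : (M * N) ^ (3 * ε) = ((M * N) ^ (ε / 3)) ^ 9 := by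
    rw [← Real.rpow_natCast, ← Real.rpow_mul (by positivity)]
    congr 1
    push_cast
    ring
  have hK : 0 ≤ C * ((M * N) ^ (ε / 3)) ^ 8 * M := by positivity
  refine le_trans ?_ ((mul_le_mul_of_nonneg_left ((hc N α hN).trans (mul_le_mul_of_nonneg_right
    (mul_le_mul_of_nonneg_left hW hC'.le) (by positivity))) hK).trans (le_of_eq ?_))
  swap
  · rw [hW9]
    ring
  rw [Finset.mul_sum]
  refine norm_sum_le_of_le _ fun d _ => ?_
  rw [Finset.mul_sum]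
  refine norm_sum_le_of_le _ fun r _ => ?_
  rw [norm_mul, norm_mu, one_mul]
  set T := (sqf (N / Ns d)).filter fun c => Disjoint c d ∧ r ⊆ c with hT
  have hTN : ∀ c ∈ T, Ns c ≤ N := fun c hc =>
    (mem_sqf.1 (Finset.mem_filter.1 hc).1).trans (div_le_self (by linarith) (one_le_Ns d))
  have hp : ∀ c ∈ T, c.powerset = (sqf N).filter fun e => e ⊆ c := fun c hc => by
    ext e
    rw [Finset.mem_powerset, Finset.mem_filter, mem_sqf]
    exact ⟨fun he => ⟨(Ns_mono he).trans (hTN c hc), he⟩, fun he => he.2⟩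
  have e2 := qe2_swap T T (sqf N) (sqf N) d.powerset (calA (N ^ 2 * (M * N) ^ ε / M))
    (fun c a => α (d ∪ c) * xs c2 c a) (fun c a => conj (α (d ∪ c)) * xs c2 c a) (cop d)
    fun a e0 e1 e2 => mu e0 * mu e1 * mu e2 * qe2I M (nm a * (Ns e0 * Ns e1 * Ns e2) ^ 2)
  rw [Finset.sum_congr rfl fun c hc => Finset.sum_congr rfl fun c' hc' => ?_, e2]
  swap
  · rw [qe2_int h1 hM0, hp c hc, hp c' hc', Finset.mul_sum]
    exact Finset.sum_congr rfl fun a _ => by ring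
  have hodd : ∀ c, α (d ∪ c) ≠ 0 → Odd' c := fun c h0 p hp =>
    (hα _ h0).1 p (Finset.mem_union_right _ hp)
  have e3 : (2 : ℝ) ^ d.card = ∑ _e0 ∈ d.powerset, (1 : ℝ) := by simp
  rw [e3, Finset.sum_mul, Finset.mul_sum]
  refine norm_sum_le_of_le _ fun e0 _ => ?_
  rw [one_mul, sq (∑ e ∈ sqf N, _), Finset.sum_mul_sum, Finset.mul_sum]
  refine norm_sum_le_of_le _ fun e1 _ => ?_
  rw [Finset.mul_sum]
  refine norm_sum_le_of_le _ fun e2 _ => ?_
  have k1 := hm M N (T.filter fun c => e1 ⊆ c) (T.filter fun c => e2 ⊆ c) e0 e1 e2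
    (fun c => α (d ∪ c)) (fun c => conj (α (d ∪ c))) hN hM
    (fun c hc h0 => ⟨hodd c h0, (Finset.mem_filter.1 hc).2, hTN c (Finset.mem_filter.1 hc).1⟩)
    fun c hc h0 => ⟨hodd c (by simpa using h0), (Finset.mem_filter.1 hc).2,
      hTN c (Finset.mem_filter.1 hc).1⟩
  simp only [RCLike.norm_conj] at k1
  refine (norm_sum_le_of_le _ fun a _ => ?_).trans (k1.trans (mul_le_mul_of_nonneg_left ?_ hK))
  · have hcop : ‖cop d a‖ ≤ 1 := by
      unfold cop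
      split_ifs <;> simp
    simp only [norm_mul, norm_mu, one_mul, mul_assoc]
    exact mul_le_of_le_one_left (by positivity) hcop
  · have p1 := Ns_pos e1
    have p2 := Ns_pos e2
    have q1 := qe2_sub (N := N) α d r e1
    have q2 := qe2_sub (N := N) α d r e2
    gcongr

end QRH
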