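import Vale.Agent.P026.Rsum

/-! The Fourier transform of a chirped Gaussian. -/

noncomputable section
namespace QRH
open Complex MeasureTheory
open scoped ComplexConjugate Classical

theorem qg_sqrt_mul {w : ℂ} (hw : 0 < w.re) :
    conj w ^ (1 / 2 : ℂ) * w ^ (1 / 2 : ℂ) = (‖w‖ : ℝ) := by
  have h1 : w.arg ≠ Real.pi := fun h => absurd (arg_eq_pi_iff.1 h).1 hw.not_gt
  have h2 : conj (1 / 2 : ℂ) = 1 / 2 := by simp [map_ofNat]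
  have h3 : (1 / 2 : ℂ) = ((1 / 2 : ℝ) : ℂ) := by push_cast; rfl
  rw [conj_cpow _ _ h1, h2, conj_mul', h3, norm_cpow_real, ← ofReal_pow, ← Real.sqrt_eq_rpow,
    Real.sq_sqrt (norm_nonneg w)]

theorem qg_two {κ ε a : ℝ} (hκ : 0 < κ) (hε : 0 < ε) (s t : ℝ) :
    (∫ x : ℝ, cexp (-(κ * (ε / 2 - a * I)) * x ^ 2 + -(κ * t * I) * x + 0)) *
      ∫ y : ℝ, cexp (-(κ * (ε / 2 + a * I)) * y ^ 2 + -(κ * s * I) * y + 0)
    = ((2 * Real.pi / (κ * √(4 * a ^ 2 + ε ^ 2)) : ℝ) : ℂ) *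
      cexp (((-(κ / 2) * (ε / (4 * a ^ 2 + ε ^ 2) * (s ^ 2 + t ^ 2)) : ℝ) : ℂ) +
        I * ((κ * ((s ^ 2 - t ^ 2) * a / (4 * a ^ 2 + ε ^ 2)) : ℝ) : ℂ)) := by
  have hp : 0 < κ * (ε / 2) := by positivity
  have r1 : ((κ : ℂ) * (ε / 2 - a * I)).re = κ * (ε / 2) := by simp
  have r2 : ((κ : ℂ) * (ε / 2 + a * I)).re = κ * (ε / 2) := by simp
  have hW : 0 < 4 * a ^ 2 + ε ^ 2 := by positivity
  have hW' : (4 * (a : ℂ) ^ 2 + (ε : ℂ) ^ 2) ≠ 0 := by exact_mod_cast hW.ne'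
  have hκ' : (κ : ℂ) ≠ 0 := ofReal_ne_zero.2 hκ.ne'
  have n1 : ((ε : ℂ) / 2 - a * I) ≠ 0 := fun h => by
    rw [h, mul_zero, zero_re] at r1; exact hp.ne r1
  have n2 : ((ε : ℂ) / 2 + a * I) ≠ 0 := fun h => by
    rw [h, mul_zero, zero_re] at r2; exact hp.ne r2
  have i1 : ((ε : ℂ) / 2 - a * I)⁻¹ = 4 * (ε / 2 + a * I) / (4 * a ^ 2 + ε ^ 2) := by
    rw [eq_div_iff hW', inv_mul_eq_iff_eq_mul₀ n1]
    linear_combination (4 * (a : ℂ) ^ 2) * I_sq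
  have i2 : ((ε : ℂ) / 2 + a * I)⁻¹ = 4 * (ε / 2 - a * I) / (4 * a ^ 2 + ε ^ 2) := by
    rw [eq_div_iff hW', inv_mul_eq_iff_eq_mul₀ n2]
    linear_combination (4 * (a : ℂ) ^ 2) * I_sq
  have c1 : (Real.pi : ℂ) / (κ * (ε / 2 - a * I)) = conj ((Real.pi : ℂ) / (κ * (ε / 2 + a * I))) := by
    simp [map_ofNat, sub_eq_add_neg]
  have c2 : 0 < ((Real.pi : ℂ) / (κ * (ε / 2 + a * I))).re := by
    rw [div_eq_mul_inv, re_ofReal_mul, inv_re, r2]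
    exact mul_pos Real.pi_pos (div_pos hp (normSq_pos.2 (mul_ne_zero hκ' n2)))
  have c3 : ‖(Real.pi : ℂ) / (κ * (ε / 2 + a * I))‖ = 2 * Real.pi / (κ * √(4 * a ^ 2 + ε ^ 2)) := by
    have c4 : ‖(ε : ℂ) / 2 + a * I‖ = √(4 * a ^ 2 + ε ^ 2) / 2 := by
      have : (ε : ℂ) / 2 + a * I = ((ε / 2 : ℝ) : ℂ) + a * I := by push_cast; rfl
      rw [this, norm_add_mul_I, show (ε / 2) ^ 2 + a ^ 2 = (4 * a ^ 2 + ε ^ 2) / 2 ^ 2 by ring,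
        Real.sqrt_div hW.le, Real.sqrt_sq zero_le_two]
    rw [norm_div, norm_mul, c4, norm_real, norm_real, Real.norm_of_nonneg Real.pi_pos.le,
      Real.norm_of_nonneg hκ.le]
    field_simp
  rw [integral_cexp_quadratic (by rw [neg_re, r1]; linarith),
    integral_cexp_quadratic (by rw [neg_re, r2]; linarith), neg_neg, neg_neg, mul_mul_mul_comm,
    c1, qg_sqrt_mul c2, c3, ← Complex.exp_add]
  congr 2
  have d : ∀ x y : ℂ, x / (4 * -(κ * y)) = -(x * (4⁻¹ * ((κ : ℂ)⁻¹ * y⁻¹))) := fun x y => by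
    rw [div_eq_mul_inv, mul_inv, inv_neg, mul_inv]; ring
  rw [d, d, i1, i2]
  push_cast
  field_simp
  linear_combination (κ * (ε * (s ^ 2 + t ^ 2) - 2 * a * I * (s ^ 2 - t ^ 2))) * I_sq

theorem qg_unit {α : ℂ} (hα : α ≠ 0) : ∃ u : ℂ, ‖u‖ = 1 ∧ α * u ^ 2 = I * ‖α‖ := by
  obtain ⟨u, hu⟩ := IsAlgClosed.exists_pow_nat_eq (I * ‖α‖ / α) two_pos
  refine ⟨u, ?_, by rw [hu]; field_simp⟩
  have h : ‖u‖ ^ 2 = 1 := by
    rw [← norm_pow, hu, norm_div, norm_mul, norm_I, one_mul, norm_real, norm_norm,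
      div_self (norm_ne_zero_iff.2 hα)]
  exact (pow_eq_one_iff_of_nonneg (norm_nonneg u) two_ne_zero).1 h

theorem qg_int {u : ℂ} (hu : ‖u‖ = 1) (F : ℂ → ℂ) :
    ∫ z, F z = ∫ p : ℝ × ℝ, F (u * (p.1 + p.2 * I)) := by
  have h1 := (rotation ⟨u, mem_sphere_zero_iff_norm.2 hu⟩).measurePreserving.integral_comp
    (rotation ⟨u, mem_sphere_zero_iff_norm.2 hu⟩).toHomeomorph.measurableEmbedding F
  rw [← h1, ← volume_preserving_equiv_real_prod.symm.integral_comp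
    measurableEquivRealProd.symm.measurableEmbedding]
  refine integral_congr_ae (Filter.Eventually.of_forall fun p => ?_)
  simp only [measurableEquivRealProd_symm_apply, mk_eq_add_mul_I]
  rfl

theorem qg_psi (z : ℂ) : psi z = cexp (I * ((4 * Real.pi / √3 * z.im : ℝ) : ℂ)) := by
  rw [psi]
  congr 1
  push_cast
  ring

theorem qg_Vg (y : ℝ) : ((Vg y : ℝ) : ℂ) = cexp (((-(4 * Real.pi / √3 / 2) * y : ℝ) : ℂ)) := by
  rw [Vg, ofReal_exp]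
  congr 2
  ring

theorem qg_ft {α : ℂ} (hα : α ≠ 0) {ε : ℝ} (hε : 0 < ε) (ξ : ℂ) :
    ft (fun z => psi (α * z ^ 2) * (Vg (ε * ‖z‖ ^ 2) : ℝ)) ξ =
      ((√(4 * ‖α‖ ^ 2 + ε ^ 2))⁻¹ : ℝ) *
        (psi (-(ξ ^ 2 / (4 * α)) * ((4 * ‖α‖ ^ 2 / (4 * ‖α‖ ^ 2 + ε ^ 2) : ℝ) : ℂ)) *
          (Vg (ε / (4 * ‖α‖ ^ 2 + ε ^ 2) * ‖ξ‖ ^ 2) : ℝ)) := by
  obtain ⟨u, hu, hu2⟩ := qg_unit hα
  have ha : 0 < ‖α‖ := norm_pos_iff.2 hα
  have hu0 : u ≠ 0 := fun h => by rw [h, norm_zero] at hu; exact zero_ne_one hu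
  have hκ : 0 < 4 * Real.pi / √3 := by have := Real.pi_pos; positivity
  have e1 : ‖ξ‖ ^ 2 = (u * ξ).re ^ 2 + (u * ξ).im ^ 2 := by
    rw [← one_mul ‖ξ‖, ← hu, ← norm_mul, Complex.sq_norm, normSq_apply]; ring
  have e2 : -(ξ ^ 2 / (4 * α)) = I * (u * ξ) ^ 2 * ((4 * ‖α‖ : ℝ)⁻¹ : ℝ) := by
    have ha' : ((‖α‖ : ℝ) : ℂ) ≠ 0 := ofReal_ne_zero.2 ha.ne'
    push_cast
    field_simp
    linear_combination (-(ξ ^ 2) * I) * hu2 - ξ ^ 2 * ‖α‖ * I_sq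
  have e3 : ∀ p : ℝ × ℝ, psi (α * (u * (p.1 + p.2 * I)) ^ 2) *
      (Vg (ε * ‖u * (p.1 + p.2 * I)‖ ^ 2) : ℝ) * psi (-(u * (p.1 + p.2 * I) * ξ)) =
      cexp (-((4 * Real.pi / √3 : ℝ) * (ε / 2 - ‖α‖ * I)) * p.1 ^ 2 +
        -((4 * Real.pi / √3 : ℝ) * (u * ξ).im * I) * p.1 + 0) *
      cexp (-((4 * Real.pi / √3 : ℝ) * (ε / 2 + ‖α‖ * I)) * p.2 ^ 2 +
        -((4 * Real.pi / √3 : ℝ) * (u * ξ).re * I) * p.2 + 0) := by
    intro p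
    have a1 : (α * (u * (p.1 + p.2 * I)) ^ 2).im = ‖α‖ * (p.1 ^ 2 - p.2 ^ 2) := by
      rw [mul_pow, ← mul_assoc, hu2]
      simp [sq]
    have a2 : ‖u * (p.1 + p.2 * I)‖ ^ 2 = p.1 ^ 2 + p.2 ^ 2 := by
      rw [norm_mul, hu, one_mul, norm_add_mul_I, Real.sq_sqrt (by positivity)]
    have a3 : (-(u * (p.1 + p.2 * I) * ξ)).im = -(p.1 * (u * ξ).im + p.2 * (u * ξ).re) := by
      rw [mul_right_comm]
      generalize u * ξ = η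
      simp
      ring
    rw [qg_psi, qg_psi, qg_Vg, a1, a2, a3, ← Complex.exp_add, ← Complex.exp_add,
      ← Complex.exp_add]
    generalize 4 * Real.pi / √3 = κ
    congr 1
    push_cast
    ring
  have e4 : (I * (u * ξ) ^ 2 * ((4 * ‖α‖ : ℝ)⁻¹ : ℝ) *
      ((4 * ‖α‖ ^ 2 / (4 * ‖α‖ ^ 2 + ε ^ 2) : ℝ) : ℂ)).im =
      ((u * ξ).re ^ 2 - (u * ξ).im ^ 2) * ‖α‖ / (4 * ‖α‖ ^ 2 + ε ^ 2) := by
    rw [im_mul_ofReal, im_mul_ofReal, I_mul_im]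
    generalize u * ξ = η
    rw [sq η, mul_re]
    field_simp
  rw [ft, qg_int hu]
  simp only [e3]
  rw [Measure.volume_eq_prod, integral_prod_mul
    (fun x : ℝ => cexp (-((4 * Real.pi / √3 : ℝ) * (ε / 2 - ‖α‖ * I)) * x ^ 2 +
        -((4 * Real.pi / √3 : ℝ) * (u * ξ).im * I) * x + 0))
    (fun y : ℝ => cexp (-((4 * Real.pi / √3 : ℝ) * (ε / 2 + ‖α‖ * I)) * y ^ 2 +
        -((4 * Real.pi / √3 : ℝ) * (u * ξ).re * I) * y + 0)),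
    qg_two hκ hε, Complex.exp_add, e2, qg_psi, qg_Vg, e4, e1, ← mul_assoc, ← ofReal_mul,
    mul_comm (cexp _)]
  congr 2
  have h3 : (0 : ℝ) < √3 := by positivity
  have := Real.pi_pos
  field_simp
  norm_num

end QRH
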