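import Vale.Agent.P026.Rsum
import Vale.Agent.P026.Cnt
import Vale.Agent.P026.Stm1
import Vale.Agent.P026.QGa

noncomputable section
namespace QRH
open Complex MeasureTheory Filter Topology
open scoped ComplexConjugate Classical

theorem qg_one_le : 1 ≤ Real.pi / √3 := by
  rw [le_div_iff₀ (by positivity), one_mul]
  exact (Real.sqrt_le_iff.2 ⟨by norm_num, by norm_num⟩).trans Real.pi_gt_three.le

theorem qg_Vg_pos (y : ℝ) : 0 < Vg y := Real.exp_pos _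

theorem qg_Vg_anti {y y' : ℝ} (h : y ≤ y') : Vg y' ≤ Vg y := by
  have : 0 ≤ 2 * Real.pi / √3 := by have := Real.pi_pos; positivity
  exact Real.exp_le_exp.2 (by nlinarith)

theorem qg_mul_Vg {y : ℝ} (hy : 0 ≤ y) : y * Vg y ≤ Vg (y / 2) := by
  have h1 : Vg (y / 2) = Real.exp (Real.pi / √3 * y) * Vg y := by
    rw [Vg, Vg, ← Real.exp_add]; congr 1; ring
  rw [h1]
  refine mul_le_mul_of_nonneg_right ?_ (qg_Vg_pos y).le
  nlinarith [Real.add_one_le_exp (Real.pi / √3 * y), qg_one_le]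

theorem qg_decay {u : ℝ} (hu : 0 < u) :
    ∃ M : ℝ, 0 ≤ M ∧ ∀ z : ℂ, Vg (u * ‖z‖ ^ 2) ≤ M * (1 + ‖z‖) ^ (-3 : ℝ) := by
  refine ⟨Real.exp (9 / (8 * u)), (Real.exp_pos _).le, fun z => ?_⟩
  have h0 : 0 < 1 + ‖z‖ := by positivity
  rw [Real.rpow_neg h0.le, ← div_eq_mul_inv, le_div_iff₀ (Real.rpow_pos_of_pos h0 _),
    show (3 : ℝ) = ((3 : ℕ) : ℝ) by norm_num, Real.rpow_natCast]
  have h1 : (1 + ‖z‖) ^ 3 ≤ Real.exp (3 * ‖z‖) := by
    rw [show 3 * ‖z‖ = ((3 : ℕ) : ℝ) * ‖z‖ by norm_num, Real.exp_nat_mul]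
    exact pow_le_pow_left₀ h0.le (by linarith [Real.add_one_le_exp ‖z‖]) 3
  refine (mul_le_mul_of_nonneg_left h1 (qg_Vg_pos _).le).trans ?_
  rw [Vg, ← Real.exp_add]
  refine Real.exp_le_exp.2 ?_
  have h2 : 2 * (u * ‖z‖ ^ 2) ≤ 2 * Real.pi / √3 * (u * ‖z‖ ^ 2) := by
    refine mul_le_mul_of_nonneg_right ?_ (by positivity)
    rw [mul_div_assoc]
    linarith [qg_one_le]
  have h3 : 3 * ‖z‖ - 2 * (u * ‖z‖ ^ 2) ≤ 9 / (8 * u) := by
    rw [le_div_iff₀ (by positivity)]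
    nlinarith [sq_nonneg (4 * u * ‖z‖ - 3)]
  linarith

theorem qg_norm (z : ℂ) (y : ℝ) : ‖psi z * (Vg y : ℝ)‖ = Vg y := by
  rw [norm_mul, norm_psi, one_mul, norm_real, Real.norm_of_nonneg (qg_Vg_pos y).le]

theorem qg_lip (z w : ℂ) : ‖psi z - psi w‖ ≤ 4 * Real.pi / √3 * ‖z - w‖ := by
  have h1 : psi z - psi w = psi w * (psi (z - w) - 1) := by
    rw [mul_sub, ← psi_add, add_sub_cancel, mul_one]
  rw [h1, norm_mul, norm_psi, one_mul, qg_psi]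
  refine Real.norm_exp_I_mul_ofReal_sub_one_le.trans ?_
  have hκ : 0 ≤ 4 * Real.pi / √3 := by have := Real.pi_pos; positivity
  rw [norm_mul, Real.norm_of_nonneg hκ]
  exact mul_le_mul_of_nonneg_left (abs_im_le_norm _) hκ

/-- Gaussian means of periodic functions. -/
theorem qg_mean (h2 : PSG) {q : E} (hq : q ≠ 0) {ρ : E → ℂ} (hρ : Per q ρ)
    (hb : ∀ x, ‖ρ x‖ ≤ 1) :
    Tendsto (fun ε : ℝ => (ε : ℂ) * ∑' x : E, ρ x * (Vg (ε * nm x) : ℝ)) (𝓝[>] 0)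
      (𝓝 (rsum q ρ / nm q)) := by
  have hN : (0 : ℝ) < nm q := zero_lt_one.trans_le (one_le_nmR hq)
  obtain ⟨C, -, hC⟩ := gauss_lattice
  have hs := ((hC (nm q : ℝ)⁻¹ (inv_pos.2 hN)).1.mul_left (nm q : ℝ))
  have h3 : Tendsto (fun ε : ℝ => ∑' ξ : E, rsum q (fun y => ρ y * psf (y * ξ) q) *
      (Vg (nm ξ * ε⁻¹ / nm q) : ℝ)) (𝓝[>] 0) (𝓝 (∑' ξ : E, if ξ = 0 then rsum q ρ else 0)) := by
    refine tendsto_tsum_of_dominated_convergence hs (fun ξ => ?_) ?_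
    · split_ifs with h0
      · subst h0
        simp [psf_zero, nm_zero, Vg]
      · have a0 : (0 : ℝ) < nm ξ := zero_lt_one.trans_le (one_le_nmR h0)
        have a1 : Tendsto (fun ε : ℝ => nm ξ * ε⁻¹ / nm q) (𝓝[>] 0) atTop :=
          (tendsto_inv_nhdsGT_zero.const_mul_atTop a0).atTop_div_const hN
        have a2 : -(2 * Real.pi / √3) < 0 := by
          have := Real.pi_pos
          exact neg_lt_zero.2 (by positivity)
        have a3 : Tendsto (fun ε : ℝ => Vg (nm ξ * ε⁻¹ / nm q)) (𝓝[>] 0) (𝓝 0) :=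
          Real.tendsto_exp_atBot.comp (a1.const_mul_atTop_of_neg a2)
        simpa using ((continuous_ofReal.tendsto 0).comp a3).const_mul
          (rsum q fun y => ρ y * psf (y * ξ) q)
    · filter_upwards [Ioo_mem_nhdsGT (zero_lt_one (α := ℝ))] with ε hε ξ
      rw [norm_mul, norm_real, Real.norm_of_nonneg (qg_Vg_pos _).le]
      refine mul_le_mul ((norm_rsum_le hq (M := 1) fun y => ?_).trans (mul_one _).le)
        (qg_Vg_anti ?_) (qg_Vg_pos _).le hN.le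
      · rw [norm_mul, norm_psf, mul_one]; exact hb y
      · rw [inv_mul_eq_div]
        exact div_le_div_of_nonneg_right
          (le_mul_of_one_le_right (Nat.cast_nonneg _) ((one_le_inv₀ hε.1).2 hε.2.le)) hN.le
  rw [tsum_ite_eq] at h3
  refine (h3.div_const (nm q : ℂ)).congr' ?_
  filter_upwards [self_mem_nhdsWithin] with ε hε
  have hε' : 0 < ε := hε
  have h4 := h2 q ρ ε⁻¹ hq hρ (inv_pos.2 hε')
  simp only [div_inv_eq_mul, mul_comm _ ε] at h4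
  have h5 : (ε : ℂ) ≠ 0 := ofReal_ne_zero.2 hε'.ne'
  rw [h4]
  push_cast
  field_simp

theorem qg_pois (h1 : PS1) {α : ℂ} (hα : α ≠ 0) {ε : ℝ} (hε : 0 < ε) :
    ∑' x : E, psi (α * toC x ^ 2) * (Vg (ε * nm x) : ℝ) =
      ((√(4 * ‖α‖ ^ 2 + ε ^ 2))⁻¹ : ℝ) * ∑' ξ : E,
        psi (-(toC ξ ^ 2 / (4 * α)) * ((4 * ‖α‖ ^ 2 / (4 * ‖α‖ ^ 2 + ε ^ 2) : ℝ) : ℂ)) *
          (Vg (ε / (4 * ‖α‖ ^ 2 + ε ^ 2) * nm ξ) : ℝ) := by
  have hW : 0 < 4 * ‖α‖ ^ 2 + ε ^ 2 := by positivity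
  obtain ⟨M, hM, hM'⟩ := qg_decay hε
  obtain ⟨M₂, hM₂, hM₂'⟩ := qg_decay (div_pos hε hW)
  have hS : 0 ≤ (√(4 * ‖α‖ ^ 2 + ε ^ 2))⁻¹ := by positivity
  have hp : ∀ z : ℂ, 0 ≤ (1 + ‖z‖) ^ (-3 : ℝ) := fun z => by positivity
  have hc : Continuous fun z : ℂ => psi (α * z ^ 2) * (Vg (ε * ‖z‖ ^ 2) : ℝ) := by
    have := continuous_psi
    unfold Vg
    fun_prop
  have h := h1 1 (fun _ => 1) _ (M + (√(4 * ‖α‖ ^ 2 + ε ^ 2))⁻¹ * M₂) one_ne_zero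
    (fun _ _ _ => rfl) hc (fun z => ?_) fun z => ?_
  · simp only [qg_ft hα hε, psf_of_dvd (one_dvd _), rsum_const one_ne_zero, nm_one, map_one,
      div_one, one_mul, Nat.cast_one, inv_one, ← nm_eq] at h
    rw [h, tsum_mul_left]
  · rw [qg_norm]
    exact (hM' z).trans (mul_le_mul_of_nonneg_right (le_add_of_nonneg_right (by positivity)) (hp z))
  · rw [qg_ft hα hε, norm_mul, qg_norm, norm_real, Real.norm_of_nonneg hS]
    refine (mul_le_mul_of_nonneg_left (hM₂' z) hS).trans ?_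
    rw [← mul_assoc]
    exact mul_le_mul_of_nonneg_right (le_add_of_nonneg_left hM) (hp z)

theorem qg_err : ∃ C : ℝ, ∀ (w : E → ℂ) (K r δ : ℝ), 0 ≤ K → (∀ ξ, ‖w ξ‖ ≤ K * nm ξ) → 0 < δ →
    ‖(δ : ℂ) * ∑' ξ : E, psi (w ξ * r) * (Vg (δ * nm ξ) : ℝ) -
      (δ : ℂ) * ∑' ξ : E, psi (w ξ) * (Vg (δ * nm ξ) : ℝ)‖ ≤
      4 * Real.pi / √3 * K * |r - 1| * (1 + C / δ) := by
  obtain ⟨C, -, hC⟩ := gauss_lattice
  refine ⟨2 * C, fun w K r δ hK hw hδ => ?_⟩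
  have hκ : 0 ≤ 4 * Real.pi / √3 := by have := Real.pi_pos; positivity
  have hs : ∀ v : E → ℂ, Summable fun ξ : E => psi (v ξ) * (Vg (δ * nm ξ) : ℝ) := fun v =>
    Summable.of_norm (by simpa only [qg_norm] using (hC δ hδ).1)
  obtain ⟨a1, a2⟩ := hC (δ / 2) (half_pos hδ)
  rw [← mul_sub, ← (hs _).tsum_sub (hs _), ← tsum_mul_left]
  refine (tsum_of_norm_bounded (a1.mul_left (4 * Real.pi / √3 * K * |r - 1|)).hasSum
    fun ξ => ?_).trans ?_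
  · have b1 : ‖psi (w ξ * r) - psi (w ξ)‖ ≤ 4 * Real.pi / √3 * (K * nm ξ * |r - 1|) := by
      refine (qg_lip _ _).trans (mul_le_mul_of_nonneg_left ?_ hκ)
      rw [← mul_sub_one, norm_mul, ← ofReal_one, ← ofReal_sub, norm_real]
      exact mul_le_mul_of_nonneg_right (hw ξ) (abs_nonneg _)
    have b2 := qg_mul_Vg (show 0 ≤ δ * nm ξ by positivity)
    rw [← sub_mul, norm_mul, norm_mul, norm_real, norm_real, Real.norm_of_nonneg hδ.le,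
      Real.norm_of_nonneg (qg_Vg_pos _).le, div_mul_eq_mul_div δ 2]
    refine le_trans ?_ (mul_le_mul_of_nonneg_left b2 (by positivity))
    refine (mul_le_mul_of_nonneg_left
      (mul_le_mul_of_nonneg_right b1 (qg_Vg_pos _).le) hδ.le).trans (le_of_eq (by ring))
  · rw [tsum_mul_left]
    refine mul_le_mul_of_nonneg_left (a2.trans (le_of_eq ?_)) (by positivity)
    field_simp

theorem qg_lim (h1 : PS1) {α L : ℂ} (hα : α ≠ 0)
    (hL : Tendsto (fun δ : ℝ => (δ : ℂ) * ∑' ξ : E,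
      psi (-(toC ξ ^ 2 / (4 * α))) * (Vg (δ * nm ξ) : ℝ)) (𝓝[>] 0) (𝓝 L)) :
    Tendsto (fun ε : ℝ => (ε : ℂ) * ∑' x : E, psi (α * toC x ^ 2) * (Vg (ε * nm x) : ℝ))
      (𝓝[>] 0) (𝓝 (((2 * ‖α‖ : ℝ) : ℂ) * L)) := by
  obtain ⟨C, hC⟩ := qg_err
  have ha : 0 < ‖α‖ := norm_pos_iff.2 hα
  have hW : ∀ ε : ℝ, 0 < 4 * ‖α‖ ^ 2 + ε ^ 2 := fun ε => by positivity
  have hWc : Continuous fun ε : ℝ => 4 * ‖α‖ ^ 2 + ε ^ 2 := by fun_prop
  have t1 : Tendsto (fun ε : ℝ => ε / (4 * ‖α‖ ^ 2 + ε ^ 2)) (𝓝[>] 0) (𝓝[>] 0) := by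
    refine tendsto_nhdsWithin_iff.2 ⟨tendsto_nhdsWithin_of_tendsto_nhds
      ((continuous_id.div hWc fun ε => (hW ε).ne').tendsto' 0 0 (zero_div _)), ?_⟩
    filter_upwards [self_mem_nhdsWithin] with ε hε
    exact div_pos hε (hW ε)
  have t2 : Tendsto (fun ε : ℝ => ((√(4 * ‖α‖ ^ 2 + ε ^ 2) : ℝ) : ℂ)) (𝓝[>] 0)
      (𝓝 ((2 * ‖α‖ : ℝ) : ℂ)) := by
    refine tendsto_nhdsWithin_of_tendsto_nhds
      ((continuous_ofReal.comp hWc.sqrt).tendsto' 0 _ ?_)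
    show ((√(4 * ‖α‖ ^ 2 + 0 ^ 2) : ℝ) : ℂ) = _
    rw [show 4 * ‖α‖ ^ 2 + 0 ^ 2 = (2 * ‖α‖) ^ 2 by ring, Real.sqrt_sq (by positivity)]
  have t3 : Tendsto (fun ε : ℝ => 4 * Real.pi / √3 * (4 * ‖α‖)⁻¹ *
      (ε ^ 2 / (4 * ‖α‖ ^ 2 + ε ^ 2) + C * ε)) (𝓝[>] 0) (𝓝 0) := by
    refine tendsto_nhdsWithin_of_tendsto_nhds (Continuous.tendsto' ?_ 0 0 (by simp))
    exact continuous_const.mul (((continuous_pow 2).div hWc fun ε => (hW ε).ne').add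
      (continuous_const.mul continuous_id))
  have hw : ∀ ξ : E, ‖-(toC ξ ^ 2 / (4 * α))‖ ≤ (4 * ‖α‖)⁻¹ * nm ξ := fun ξ => by
    rw [norm_neg, norm_div, norm_pow, norm_mul, ← nm_eq, Complex.norm_ofNat, inv_mul_eq_div]
  have t4 := squeeze_zero_norm' (by
    filter_upwards [self_mem_nhdsWithin] with ε hε
    have hε' : 0 < ε := hε
    refine (hC _ _ (4 * ‖α‖ ^ 2 / (4 * ‖α‖ ^ 2 + ε ^ 2)) _ (by positivity) hw
      (div_pos hε' (hW ε))).trans (le_of_eq ?_)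
    have e : 4 * ‖α‖ ^ 2 / (4 * ‖α‖ ^ 2 + ε ^ 2) - 1 = -(ε ^ 2 / (4 * ‖α‖ ^ 2 + ε ^ 2)) := by
      have := (hW ε).ne'
      field_simp
      ring
    rw [e, abs_neg, abs_of_nonneg (by positivity), mul_assoc]
    congr 1
    have := (hW ε).ne'
    field_simp) t3
  have t5 := t2.mul (t4.add (hL.comp t1))
  rw [zero_add] at t5
  refine t5.congr' ?_
  filter_upwards [self_mem_nhdsWithin] with ε hε
  have hε' : 0 < ε := hε
  have e : √(4 * ‖α‖ ^ 2 + ε ^ 2) * (ε / (4 * ‖α‖ ^ 2 + ε ^ 2)) =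
      ε * (√(4 * ‖α‖ ^ 2 + ε ^ 2))⁻¹ := by
    have a1 := Real.sqrt_pos.2 (hW ε)
    have a2 := Real.sq_sqrt (hW ε).le
    generalize √(4 * ‖α‖ ^ 2 + ε ^ 2) = s at a1 a2
    rw [← a2]
    field_simp
  simp only [Function.comp_apply]
  rw [sub_add_cancel, qg_pois h1 hα hε', ← mul_assoc, ← mul_assoc, ← ofReal_mul, ← ofReal_mul, e]

theorem qGauss (h1 : PS1) (h2 : PSG) : QGauss := by
  intro c t hc ht
  have hc' := toC_ne_zero hc
  have ht' := toC_ne_zero ht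
  have h2t : 2 * t ≠ 0 := mul_ne_zero two_ne_zero ht
  have p1 : Per c fun x => psf (t * x ^ 2) c := by
    rintro x y ⟨k, hk⟩
    exact psf_congr ⟨t * k * (x + y), by linear_combination (t * (x + y)) * hk⟩
  have p2 : Per (2 * t) fun y => psf (-(c * y ^ 2)) (4 * t) := by
    rintro x y ⟨k, hk⟩
    exact psf_congr ⟨-(c * k * (y + t * k)), by
      linear_combination (-(c * (x + y + 2 * t * k))) * hk⟩
  have m1 := qg_mean h2 hc p1 fun x => (norm_psf _ _).le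
  have m2 := qg_mean h2 h2t p2 fun x => (norm_psf _ _).le
  have e1 : ∀ x, psf (t * x ^ 2) c = psi (toC t / toC c * toC x ^ 2) := fun x => by
    rw [psf, map_mul, map_pow, mul_div_right_comm]
  have e2 : ∀ x, psf (-(c * x ^ 2)) (4 * t) = psi (-(toC x ^ 2 / (4 * (toC t / toC c)))) := by
    intro x
    rw [psf, map_neg, map_mul, map_pow, map_mul, map_ofNat]
    congr 1
    field_simp
  have m3 := qg_lim h1 (div_ne_zero ht' hc') (by simpa only [e2] using m2)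
  have m4 := tendsto_nhds_unique (by simpa only [e1] using m1) m3
  simp only [e1, e2]
  have n1 : ∀ x : E, (nm x : ℂ) = ((‖toC x‖ : ℝ) : ℂ) ^ 2 := fun x => by
    rw [← ofReal_pow, ← nm_eq, ofReal_natCast]
  have n2 : ‖toC (2 * t)‖ = 2 * ‖toC t‖ := by rw [map_mul, map_ofNat, norm_mul, Complex.norm_ofNat]
  have n3 : ((‖toC c‖ : ℝ) : ℂ) ≠ 0 := ofReal_ne_zero.2 (norm_ne_zero_iff.2 hc')
  have n4 : ((‖toC t‖ : ℝ) : ℂ) ≠ 0 := ofReal_ne_zero.2 (norm_ne_zero_iff.2 ht')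
  rw [n1, n1, n2, norm_div, div_eq_iff (pow_ne_zero 2 n3)] at m4
  rw [m4, n2]
  generalize rsum (2 * t) _ = S
  push_cast
  field_simp

end QRH
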