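import Vale.Agent.P026.Sym
import Vale.Agent.P026.Rearr

noncomputable section
namespace QRH
open Complex MeasureTheory Filter
open scoped ComplexConjugate Classical ContDiff Topology

/-- A large sieve inequality for the matrix `a`. -/
def ql_LS {ι κ : Type*} (I : Finset ι) (J : Finset κ) (a : ι → κ → ℂ) (K : ℝ) : Prop :=
  0 ≤ K ∧ ∀ x : κ → ℂ, ∑ i ∈ I, ‖∑ j ∈ J, x j * a i j‖ ^ 2 ≤ K * ∑ j ∈ J, ‖x j‖ ^ 2

section
variable {ι ι' κ β : Type*} {I : Finset ι} {I' : Finset ι'} {J : Finset κ} {a : ι → κ → ℂ}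
  {a' : ι' → κ → ℂ} {K K' : ℝ}

theorem ql_LS.dual (h : ql_LS I J a K) : ql_LS J I (fun j i => a i j) K :=
  ⟨h.1, duality I J a h.1 h.2⟩

theorem ql_LS.mono (h : ql_LS I J a K) (hK : K ≤ K') : ql_LS I J a K' :=
  ⟨h.1.trans hK, fun x => (h.2 x).trans (mul_le_mul_of_nonneg_right hK (by positivity))⟩

theorem ql_LS.pull (h : ql_LS I' J a' K) (e : ι → ι') (he : Set.InjOn e I)
    (hI : ∀ i ∈ I, e i ∈ I') (v : κ → ℂ) (hv : ∀ j, ‖v j‖ ≤ 1)
    (ha : ∀ i ∈ I, ∀ j ∈ J, a i j = v j * a' (e i) j) : ql_LS I J a K := by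
  refine ⟨h.1, fun x => ?_⟩
  calc ∑ i ∈ I, ‖∑ j ∈ J, x j * a i j‖ ^ 2
      = ∑ i ∈ I, ‖∑ j ∈ J, x j * v j * a' (e i) j‖ ^ 2 := Finset.sum_congr rfl fun i hi => by
        rw [Finset.sum_congr rfl fun j hj => by rw [ha i hi j hj, ← mul_assoc]]
    _ = ∑ i ∈ I.image e, ‖∑ j ∈ J, x j * v j * a' i j‖ ^ 2 :=
        (Finset.sum_image (f := fun i => ‖∑ j ∈ J, x j * v j * a' i j‖ ^ 2) he).symm
    _ ≤ ∑ i ∈ I', ‖∑ j ∈ J, x j * v j * a' i j‖ ^ 2 :=
        Finset.sum_le_sum_of_subset_of_nonneg (Finset.image_subset_iff.2 hI)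
          fun _ _ _ => by positivity
    _ ≤ K * ∑ j ∈ J, ‖x j * v j‖ ^ 2 := h.2 _
    _ ≤ _ := by
        refine mul_le_mul_of_nonneg_left (Finset.sum_le_sum fun j _ => ?_) h.1
        rw [norm_mul]
        exact pow_le_pow_left₀ (by positivity) (mul_le_of_le_one_right (norm_nonneg _) (hv j)) 2

theorem ql_fiber [DecidableEq β] (R : Finset β) (g : ι → β) (hg : ∀ i ∈ I, g i ∈ R) (hK : 0 ≤ K)
    (h : ∀ r ∈ R, ql_LS (I.filter fun i => g i = r) J a K) : ql_LS I J a (R.card * K) := by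
  refine ⟨by positivity, fun x => ?_⟩
  rw [← Finset.sum_fiberwise_of_maps_to hg, mul_assoc, ← nsmul_eq_mul]
  exact Finset.sum_le_card_nsmul _ _ _ fun r hr => (h r hr).2 x

end

theorem ql_mem {R : ℝ} {s : Finset P} : s ∈ sqo R ↔ Ns s ≤ R ∧ Odd' s := by
  rw [sqo, Finset.mem_filter, mem_sqf]

theorem ql_rep : ∃ g : Finset P → E, ∀ s, g s ∈ reps 4 ∧ (4 : E) ∣ pr s - g s := by
  have h4 : (4 : E) ≠ 0 := by decide
  choose g h1 h2 using fun s => exists_rep h4 (pr s)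
  exact ⟨g, fun s => ⟨h1 s, h2 s⟩⟩

theorem ql_swap (hR : QRec) {M N K : ℝ}
    (h : ql_LS (sqo M) (sqo N) (fun m n => xs c2 n (pr m)) K) :
    ql_LS (sqo M) (sqo N) (fun m n => xs c2 m (pr n)) ((reps 4).card * K) := by
  obtain ⟨sg, h1, h2, h3⟩ := hR
  obtain ⟨g, hg⟩ := ql_rep
  refine ql_fiber _ g (fun s _ => (hg s).1) h.1 fun r _ => h.pull id (Set.injOn_id _)
    (fun m hm => (Finset.mem_filter.1 hm).1) (fun n => sg r (pr n)) (fun n => ?_)
    fun m hm n hn => ?_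
  · rcases h2 r (pr n) with h4 | h4 <;> simp [h4]
  · obtain ⟨h4, rfl⟩ := Finset.mem_filter.1 hm
    have := h3 (pr m) (pr n) (pr_primary m) (pr_primary n)
      (odd_iff_coprime.1 (ql_mem.1 h4).2).symm (odd_iff_coprime.1 (ql_mem.1 hn).2).symm
    rw [xv_pr, xv_pr, h1 _ _ _ _ (hg m).2 (by rw [sub_self]; exact dvd_zero _)] at this
    exact this

theorem ql_ext {ι : Type*} {I : Finset ι} {J : Finset (Finset P)} {A K : ℝ} (f : ι → E)
    (hf : Set.InjOn f I) (R : Finset E) (hR : ∀ i ∈ I, ∃ u ∈ R, ∃ s ∈ sqo A, f i = u * pr s)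
    (h : ql_LS (sqo A) J (fun s c => xs c2 c (pr s)) K) :
    ql_LS I J (fun i c => xs c2 c (f i)) (R.card * K) := by
  choose! u hu s hs e using hR
  refine ql_fiber R u hu h.1 fun r _ => h.pull s (fun i hi j hj hij => ?_)
    (fun i hi => hs i (Finset.mem_filter.1 hi).1) (fun c => xs c2 c r)
    (fun c => norm_xs_le ch_c2 c r) fun i hi c _ => ?_
  · obtain ⟨h1, h2⟩ := Finset.mem_filter.1 (Finset.mem_coe.1 hi)
    obtain ⟨h3, h4⟩ := Finset.mem_filter.1 (Finset.mem_coe.1 hj)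
    exact hf h1 h3 (by rw [e i h1, e j h3, h2, h4, hij])
  · obtain ⟨h1, h2⟩ := Finset.mem_filter.1 hi
    rw [e i h1, h2, xs_mul ch_c2]

theorem ql_two (s : Finset P) :
    ∃ u ∈ ({1, -2} : Finset E), ∃ t, Odd' t ∧ pr s = u * pr t := by
  by_cases h : pTwo ∈ s
  · refine ⟨-2, by simp, s.erase pTwo, odd_iff.2 (Finset.notMem_erase _ _), ?_⟩
    conv_lhs => rw [← Finset.insert_erase h, pr_insert (Finset.notMem_erase _ _)]
    rfl
  · exact ⟨1, by simp, s, odd_iff.2 h, (one_mul _).symm⟩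

theorem ql_fam : ∃ R : Finset E, ∀ A : ℝ, ∀ a ∈ calA A, ∃ u ∈ R, ∃ s ∈ sqo A, a = u * pr s := by
  refine ⟨(({1, -1, lam, -lam} : Finset E) ×ˢ ({1, -2} : Finset E)).image fun p => p.1 * p.2,
    fun A a ha => ?_⟩
  obtain ⟨h1, s, h2⟩ := Finset.mem_filter.1 ha
  obtain ⟨w, hw, h3⟩ : ∃ w ∈ ({1, -1, lam, -lam} : Finset E), a = w * pr s := by
    rcases h2 with h | h | h | h
    · exact ⟨1, by simp, by rw [h, one_mul]⟩
    · exact ⟨-1, by simp, by rw [h, neg_one_mul]⟩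
    · exact ⟨lam, by simp, h⟩
    · exact ⟨-lam, by simp, by rw [h, neg_mul]⟩
  obtain ⟨u, hu, t, ht, h4⟩ := ql_two s
  have h5 : a = w * u * pr t := by rw [h3, h4, mul_assoc]
  exact ⟨w * u, Finset.mem_image.2 ⟨(w, u), Finset.mem_product.2 ⟨hw, hu⟩, rfl⟩, t,
    ql_mem.2 ⟨(e2_Ns_le (mem_ball.1 h1).1 (h5 ▸ dvd_mul_left _ _)).trans (mem_ball.1 h1).2, ht⟩, h5⟩

theorem ql_QS {ξ : ℝ} (h : QS ξ) {ε : ℝ} (hε : 0 < ε) : ∃ C : ℝ, 0 < C ∧ ∀ M N : ℝ, 1 ≤ M →
    1 ≤ N → ql_LS (sqo M) (sqo N) (fun m n => xs c2 n (pr m)) (C * (M * N) ^ ε * (M + N ^ ξ)) := by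
  obtain ⟨C, hC, h⟩ := h ε hε
  exact ⟨C, hC, fun M N hM hN => ⟨by positivity, fun x => h M N x hM hN⟩⟩

theorem qD (hR : QRec) {ξ : ℝ} (hξ : 0 ≤ ξ) (h : QS ξ) : QD ξ := by
  intro ε hε
  have _ := hξ
  obtain ⟨C, hC, h⟩ := ql_QS h hε
  obtain ⟨R, hR1⟩ := ql_fam
  refine ⟨(R.card + 1) * (((reps 4).card + 1) * C), by positivity, fun A L T g x hA hL hx => ?_⟩
  rcases lt_or_ge A 1 with hA1 | hA1
  · rw [calA, ball_eq_empty hA1, Finset.filter_empty, Finset.sum_empty]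
    positivity
  have h1 : ∀ a, ∑ c ∈ T, x c * xs c2 c a =
      ∑ c ∈ T with Odd' c ∧ g ⊆ c ∧ Ns c ≤ L * Ns g, x c * xs c2 c a := fun a =>
    (Finset.sum_filter_of_ne fun c hc h0 => hx c hc (left_ne_zero_of_mul h0)).symm
  simp only [h1]
  rcases lt_or_ge L 1 with hL1 | hL1
  · rw [Finset.filter_eq_empty_iff.2 fun c _ hc => by
      have := mul_lt_of_lt_one_left (Ns_pos g) hL1
      linarith [Ns_mono hc.2.1, hc.2.2]]
    simp only [Finset.sum_empty, norm_zero, ne_eq, OfNat.ofNat_ne_zero, not_false_eq_true,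
      zero_pow, Finset.sum_const_zero]
    positivity
  have h2 := (ql_ext id (Set.injOn_id _) R (hR1 A) (ql_swap hR (h L A hL1 hA1)).dual).dual
  have h3 : ql_LS (T.filter fun c => Odd' c ∧ g ⊆ c ∧ Ns c ≤ L * Ns g) (calA A)
      (fun c a => xs c2 c a) _ := h2.pull (fun c => c \ g) (fun c hc c' hc' hcc => by
      have a1 := (Finset.mem_filter.1 (Finset.mem_coe.1 hc)).2.2.1
      have a2 := (Finset.mem_filter.1 (Finset.mem_coe.1 hc')).2.2.1
      rw [← Finset.sdiff_union_of_subset a1, ← Finset.sdiff_union_of_subset a2]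
      exact congrArg (· ∪ g) hcc)
    (fun c hc => by
      obtain ⟨-, a1, a2, a3⟩ := Finset.mem_filter.1 hc
      refine ql_mem.2 ⟨?_, fun p hp => a1 p (Finset.mem_sdiff.1 hp).1⟩
      rw [← Finset.sdiff_union_of_subset a2, Ns_union Finset.sdiff_disjoint] at a3
      exact le_of_mul_le_mul_right a3 (Ns_pos g))
    (fun a => xs c2 g a) (fun a => norm_xs_le ch_c2 g a) fun c hc a _ => by
      have a2 := (Finset.mem_filter.1 hc).2.2.1
      rw [mul_comm, id, ← xs_union Finset.sdiff_disjoint, Finset.sdiff_union_of_subset a2]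
  refine (h3.dual.2 x).trans (mul_le_mul ?_ (Finset.sum_le_sum_of_subset_of_nonneg
    (Finset.filter_subset _ _) fun _ _ _ => by positivity) (by positivity) (by positivity))
  rw [mul_comm A L]
  calc _ = R.card * ((reps 4).card * C) * (L * A) ^ ε * (L + A ^ ξ) := by ring
    _ ≤ _ := by gcongr <;> linarith

theorem qS_of_QSd {ξ : ℝ} (hξ : 1 ≤ ξ) (hξ2 : ξ ≤ 2) (h : QSd ξ) : QS ξ := by
  intro ε hε
  have hε' : 0 < ε / 4 := by positivity
  obtain ⟨C, hC, h⟩ := h _ hε'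
  obtain ⟨C1, hC1, h1⟩ := log_le_rpow hε'
  obtain ⟨g, hg⟩ := ql_rep
  refine ⟨((reps 4).card + 1) * C1 * (C * 2 ^ (ε / 4)), by positivity, fun M N α hM hN => ?_⟩
  obtain ⟨J, hJ1, hJ2⟩ := exists_dyadic hN
  have h2 : ∀ n ∈ sqo N, ∃ j : ℕ, (2 : ℝ) ^ j ≤ N / Ns n ∧ N / Ns n < 2 ^ (j + 1) := fun n hn =>
    exists_dyadic ((one_le_div (Ns_pos n)).2 (ql_mem.1 hn).1)
  choose! j hj1 hj2 using h2
  have hMN : 1 ≤ M * N := one_le_mul_of_one_le_of_one_le hM hN
  have hNξ : 0 ≤ N ^ ξ := by positivity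
  have h3 := ql_fiber (I := sqo N) (J := sqo M) (a := fun n m => xs c2 n (pr m))
    (K := C * (2 ^ (ε / 4) * ((M * N) ^ (ε / 4)) ^ 3) * (M + N ^ ξ))
    (reps 4 ×ˢ Finset.range (J + 1)) (fun n => (g n, j n)) (fun n hn => by
      refine Finset.mem_product.2 ⟨(hg n).1, Finset.mem_range.2 ?_⟩
      exact (pow_lt_pow_iff_right₀ one_lt_two).1 (((hj1 n hn).trans
        (div_le_self (by linarith) (one_le_Ns n))).trans_lt hJ2)) (by positivity) fun r hr => by
      refine ql_LS.dual (a := fun m n => xs c2 n (pr m)) ⟨by positivity, fun x => ?_⟩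
      have a1 : (2 : ℝ) ^ r.2 ≤ N := (pow_le_pow_right₀ one_le_two
        (Nat.lt_succ_iff.1 (Finset.mem_range.1 (Finset.mem_product.1 hr).2))).trans hJ1
      have a2 : 1 ≤ N / 2 ^ r.2 := (one_le_div (by positivity)).2 a1
      have a3 : N / 2 ^ r.2 ≤ N := div_le_self (by linarith) (one_le_pow₀ one_le_two)
      set B := (sqo N).filter fun n => (g n, j n) = r with hB
      have a4 : ∀ n ∈ B, Odd' n ∧ N / 2 ^ r.2 / 2 < Ns n ∧ (4 : E) ∣ pr n - r.1 ∧
          n ∈ sqf (N / 2 ^ r.2) := by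
        intro n hn
        obtain ⟨b1, rfl⟩ := Finset.mem_filter.1 hn
        have b2 := hj1 n b1
        have b3 := hj2 n b1
        rw [le_div_iff₀ (Ns_pos n)] at b2
        rw [div_lt_iff₀ (Ns_pos n), pow_succ] at b3
        refine ⟨(ql_mem.1 b1).2, ?_, (hg n).2, mem_sqf.2 ?_⟩
        · rw [div_div, div_lt_iff₀ (by positivity)]
          linarith
        · rw [le_div_iff₀ (by positivity)]
          linarith
      have a5 := h (M + N ^ ξ) (N / 2 ^ r.2) (fun n => if n ∈ B then x n else 0) a2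
        ((Real.rpow_le_rpow (by linarith) a3 (by linarith)).trans (by linarith))
        ⟨r.1, fun n hn => by
          have b1 : n ∈ B := by
            by_contra b1
            exact hn (if_neg b1)
          exact ⟨(a4 n b1).1, (a4 n b1).2.1, (a4 n b1).2.2.1⟩⟩
      have a6 : sqf (N / 2 ^ r.2) ∩ B = B :=
        Finset.inter_eq_right.2 fun n hn => (a4 n hn).2.2.2
      simp only [ite_mul, zero_mul, apply_ite fun z : ℂ => ‖z‖ ^ 2, norm_zero, ne_eq,
        OfNat.ofNat_ne_zero, not_false_eq_true, zero_pow, Finset.sum_ite_mem, a6] at a5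
      refine le_trans (Finset.sum_le_sum_of_subset_of_nonneg (Finset.filter_subset_filter _
        (sqf_mono (le_add_of_nonneg_right hNξ))) fun _ _ _ => by positivity) (a5.trans ?_)
      have a7 : (M + N ^ ξ) * (N / 2 ^ r.2) ≤ 2 * (M * N) ^ 3 := by
        have b1 : N ^ ξ ≤ N ^ 2 := by
          rw [← Real.rpow_two]
          exact Real.rpow_le_rpow_of_exponent_le hN hξ2
        have b2 : N ≤ M * N := le_mul_of_one_le_left (by linarith) hM
        have b3 : M ≤ (M * N) ^ 2 :=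
          (le_mul_of_one_le_right (by linarith) hN).trans (le_self_pow₀ hMN (by norm_num))
        have b4 := pow_le_pow_left₀ (by linarith) b2 2
        calc _ ≤ (2 * (M * N) ^ 2) * (M * N) :=
              mul_le_mul (by linarith) (a3.trans b2) (by linarith) (by positivity)
          _ = _ := by ring
      have a8 := Real.rpow_le_rpow (by positivity) a7 hε'.le
      rw [Real.mul_rpow (x := 2) (by norm_num) (by positivity),
        ← Real.rpow_pow_comm (by positivity)] at a8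
      gcongr
  refine (h3.dual.2 α).trans (mul_le_mul_of_nonneg_right ?_ (by positivity))
  have h4 : (J + 1 : ℝ) ≤ C1 * (M * N) ^ (ε / 4) :=
    h1 (M * N) J hMN (hJ1.trans (le_mul_of_one_le_left (by linarith) hM))
  have h5 : (M * N) ^ ε = ((M * N) ^ (ε / 4)) ^ 4 := by
    rw [← Real.rpow_natCast, ← Real.rpow_mul (by linarith)]
    congr 1
    push_cast
    ring
  rw [Finset.card_product, Finset.card_range, h5]
  push_cast
  calc _ ≤ ((reps 4).card + 1) * (C1 * (M * N) ^ (ε / 4)) *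
        (C * (2 ^ (ε / 4) * ((M * N) ^ (ε / 4)) ^ 3) * (M + N ^ ξ)) := by
        gcongr
        linarith
    _ = _ := by ring

theorem QS.mono {ξ ξ1 : ℝ} (h : QS ξ) (hξ : ξ ≤ ξ1) : QS ξ1 := by
  intro ε hε
  obtain ⟨C, hC, h⟩ := h ε hε
  refine ⟨C, hC, fun M N α hM hN => (h M N α hM hN).trans ?_⟩
  gcongr

theorem qS_all (h2 : QS 2) (h : ∀ ξ : ℝ, 1 ≤ ξ → ξ ≤ 2 → QS ξ → QS (2 - 1 / ξ)) {ξ : ℝ}
    (hξ : 1 < ξ) : QS ξ := by
  have h1 : ∀ k : ℕ, QS (1 + 1 / (k + 1 : ℝ)) := by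
    intro k
    induction k with
    | zero => exact h2.mono (by norm_num)
    | succ k ih =>
      have a1 : 1 / (k + 1 : ℝ) ≤ 1 := (div_le_one (by positivity)).2 (by linarith)
      refine (h _ (le_add_of_nonneg_right (by positivity)) (by linarith) ih).mono (le_of_eq ?_)
      push_cast
      field_simp
      ring
  obtain ⟨k, hk⟩ := exists_nat_one_div_lt (sub_pos.2 hξ)
  exact (h1 k).mono (by linarith)

theorem qLS (hR : QRec) (h : ∀ ξ : ℝ, 1 < ξ → QS ξ) : QLS := by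
  intro ε hε
  have hε' : 0 < ε / 2 := by positivity
  obtain ⟨C, hC, h⟩ := ql_QS (h (1 + ε / 2) (by linarith)) hε'
  refine ⟨2 * (((reps 4).card + 1) * C), by positivity, fun M N α hM hN => ?_⟩
  have h1 := (ql_ext (I := sqf N) pr pr_inj.injOn {1, -2} (fun n hn => by
    obtain ⟨u, hu, t, ht, e⟩ := ql_two n
    exact ⟨u, hu, t, ql_mem.2 ⟨(e2_Ns_le (pr_ne_zero n) (e ▸ dvd_mul_left _ _)).trans
      (mem_sqf.1 hn), ht⟩, e⟩) (ql_swap hR (h M N hM hN)).dual).dual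
  refine (h1.2 α).trans (mul_le_mul_of_nonneg_right ?_ (by positivity))
  have hMN : 1 ≤ M * N := one_le_mul_of_one_le_of_one_le hM hN
  have h2 : M + N ^ (1 + ε / 2) ≤ (M * N) ^ (ε / 2) * (M + N) := by
    rw [Real.rpow_add (by linarith), Real.rpow_one, mul_add, mul_comm N]
    exact add_le_add (le_mul_of_one_le_left (by linarith) (Real.one_le_rpow hMN hε'.le))
      (mul_le_mul_of_nonneg_right (Real.rpow_le_rpow (by linarith)
        (le_mul_of_one_le_left (by linarith) hM) hε'.le) (by linarith))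
  have h3 : (M * N) ^ ε = (M * N) ^ (ε / 2) * (M * N) ^ (ε / 2) := by
    rw [← Real.rpow_add (by linarith), add_halves]
  have h4 : ((({1, -2} : Finset E).card : ℕ) : ℝ) ≤ 2 := by exact_mod_cast Finset.card_le_two
  rw [h3]
  calc _ ≤ 2 * (((reps 4).card + 1) * (C * (M * N) ^ (ε / 2) * ((M * N) ^ (ε / 2) * (M + N)))) := by
        gcongr
        linarith
    _ = _ := by ring

end QRH
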