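import Vale.Agent.P026.Hs
import Vale.Agent.P026.Stm1

noncomputable section
namespace QRH
open Complex MeasureTheory
open scoped ComplexConjugate Classical

theorem ho_prime (h : CubRec) (p r : P) : H p.1 r.1 = 1 := by
  by_cases hpr : p = r
  · rw [hpr]
    exact H_self r.ne_zero
  · have hnd : ¬ p.1 ∣ r.1 := fun hd => hpr ((P.dvd_iff p r).1 hd)
    rw [H_coprime p.ne_zero r.ne_zero fun q hq =>
      hpr (((P.dvd_iff q p).1 hq.1).symm.trans ((P.dvd_iff q r).1 hq.2)), xv_prime, xv_prime,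
      ← h p r, Complex.mul_conj, Complex.normSq_eq_norm_sq, (c3_mc p).norm _ hnd]
    simp

theorem H_primary (h : CubRec) {a b : E} (ha : (3 : E) ∣ a - 1) (hb : (3 : E) ∣ b - 1) :
    H a b = 1 := by
  have hb0 := primary_ne_zero hb
  refine induction_primary (M := fun a => H a b = 1) (H_one_left hb0) (fun p x hx ih => ?_) ha
  rw [H_mul_left p.ne_zero (primary_ne_zero hx) hb0, ih, mul_one]
  refine induction_primary (M := fun b => H p.1 b = 1) (H_one_right p.ne_zero)
    (fun r y hy ih' => ?_) hb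
  rw [H_mul_right p.ne_zero r.ne_zero (primary_ne_zero hy), ih', mul_one, ho_prime h]

theorem xv_c3_recip (h : CubRec) {a b : E} (ha : (3 : E) ∣ a - 1) (hb : (3 : E) ∣ b - 1) :
    xv c3 a b = xv c3 b a := by
  refine induction_primary (M := fun a => xv c3 a b = xv c3 b a) ?_ (fun p x hx ih => ?_) ha
  · rw [xv_unit isUnit_one, xv_one ch_c3]
  · rw [xv_mul_left p.ne_zero (primary_ne_zero hx), xv_mul ch_c3, ih]
    congr 1
    refine induction_primary (M := fun b => xv c3 p.1 b = xv c3 b p.1) ?_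
      (fun r y hy ih' => ?_) hb
    · rw [xv_unit isUnit_one, xv_one ch_c3]
    · rw [xv_mul_left r.ne_zero (primary_ne_zero hy), xv_mul ch_c3, ih', xv_prime, xv_prime, h]

theorem ho_xv_om {u : E} (hu : (3 : E) ∣ u - 1) : xv c3 u om = omC ^ ((nm u - 1) / 3) := by
  refine induction_primary (M := fun u => xv c3 u om = omC ^ ((nm u - 1) / 3)) ?_
    (fun p x hx ih => ?_) hu
  · rw [xv_unit isUnit_one, nm_one]
    simp
  · rw [xv_mul_left p.ne_zero (primary_ne_zero hx), ih, xv_prime, c3_om, ← pow_add,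
      omC_pow_eq_iff, nm_mul]
    have h1 := p.nm_mod
    have h2 := nm_mod_three (not_lam_dvd_of_primary hx)
    obtain ⟨a, ha⟩ : ∃ a, nm p.1 = 3 * a + 1 := ⟨nm p.1 / 3, by omega⟩
    obtain ⟨b, hb⟩ : ∃ b, nm x = 3 * b + 1 := ⟨nm x / 3, by omega⟩
    have h3 : (3 * a + 1) * (3 * b + 1) = 9 * (a * b) + 3 * a + 3 * b + 1 := by ring
    rw [ha, hb, h3]
    omega

theorem ho_primary {u : E} (hu : (9 : E) ∣ u - 1) : (3 : E) ∣ u - 1 :=
  (show (3 : E) ∣ 9 from ⟨3, by norm_num⟩).trans hu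

theorem ho_om {u : E} (hu : (9 : E) ∣ u - 1) : H u om = 1 := by
  have hu3 := ho_primary hu
  rw [H_coprime (primary_ne_zero hu3) isUnit_om.ne_zero
    fun p hp => p.not_dvd_unit isUnit_om hp.2, xv_unit isUnit_om, map_one, mul_one, ho_xv_om hu3,
    ← pow_zero omC, omC_pow_eq_iff]
  have h1 := nm_sub_dvd (m := 9) 9 (by norm_num) hu
  rw [nm_one] at h1
  have h2 := one_le_nm (primary_ne_zero hu3)
  omega

theorem ho_unit {u e : E} (hu : (9 : E) ∣ u - 1) (he : IsUnit e) : H u e = 1 := by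
  have hu0 := primary_ne_zero (ho_primary hu)
  have h1 : ∀ j, H u (om ^ j) = 1 := fun j => by
    rw [H_pow_right hu0 isUnit_om.ne_zero, ho_om hu, one_pow]
  obtain ⟨j, -, rfl | rfl⟩ := isUnit_cases he
  · exact h1 j
  · rw [H_neg_right hu0 (isUnit_om.pow j).ne_zero, h1]

theorem ho_nlam (h : CubRec) {u w : E} (hu : (9 : E) ∣ u - 1) (hw : ¬ lam ∣ w) : H u w = 1 := by
  have hu0 := primary_ne_zero (ho_primary hu)
  have hw0 : w ≠ 0 := fun h0 => hw (h0 ▸ dvd_zero _)
  obtain ⟨e, he, hew⟩ := exists_primary hw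
  have h1 := H_primary h (ho_primary hu) hew
  rwa [H_mul_right hu0 he.ne_zero hw0, ho_unit hu he, one_mul] at h1

theorem ho_nine : (9 : E) = lam ^ 4 := by
  rw [show (4 : ℕ) = 2 * 2 from rfl, pow_mul, lam_sq]
  norm_num

theorem ho_lam4 (h : CubRec) {u w : E} (hu : u - 1 = 9 * w) (hw : ¬ lam ∣ w) : H u lam = 1 := by
  have hu9 : (9 : E) ∣ u - 1 := ⟨w, hu⟩
  have hu0 := primary_ne_zero (ho_primary hu9)
  have hw0 : w ≠ 0 := fun h0 => hw (h0 ▸ dvd_zero _)
  have hl0 := lam_prime.ne_zero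
  have h0 : u - 1 ≠ 0 := by
    rw [hu, ho_nine]
    exact mul_ne_zero (pow_ne_zero _ hl0) hw0
  have h1 := H_stein one_ne_zero h0 hu0 (by ring)
  rw [H_one_left h0, H_one_right hu0, one_mul, mul_one] at h1
  have h2 : H u (u - 1) = 1 := by rw [H_swap, h1, map_one]
  rw [hu, ho_nine, H_mul_right hu0 (pow_ne_zero _ hl0) hw0, ho_nlam h hu9 hw, mul_one,
    H_pow_right hu0 hl0, pow_succ, H_cube hu0 hl0, one_mul] at h2
  exact h2

theorem ho_lam (h : CubRec) {u : E} (hu : (9 : E) ∣ u - 1) : H u lam = 1 := by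
  have hu0 := primary_ne_zero (ho_primary hu)
  obtain ⟨w, hw⟩ := hu
  by_cases hl : lam ∣ w
  · have h1 : ¬ lam ∣ (1 : E) := lam_prime.not_dvd_one
    have h2 : H 10 lam = 1 := ho_lam4 h (w := 1) (by norm_num) h1
    have h3 : H (10 * u) lam = 1 := by
      refine ho_lam4 h (w := 10 * w + 1) (by linear_combination 10 * hw) fun hd => h1 ?_
      exact (dvd_add_right (hl.mul_left 10)).1 hd
    have h10 : (10 : E) ≠ 0 := primary_ne_zero ⟨3, by norm_num⟩
    rwa [H_mul_left h10 hu0 lam_prime.ne_zero, h2, one_mul] at h3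
  · exact ho_lam4 h hw hl

theorem hOne (h : CubRec) : HOne := by
  intro u b hu hb
  have hu0 := primary_ne_zero (ho_primary hu)
  refine induction_nz (M := fun b => H u b = 1) (fun e he => ho_unit hu he)
    (fun x hx ih => ?_) (fun p x hx ih => ?_) hb
  · rw [H_mul_right hu0 lam_prime.ne_zero hx, ih, ho_lam h hu, one_mul]
  · rw [H_mul_right hu0 p.ne_zero hx, ih, H_primary h (ho_primary hu) p.2.2, one_mul]

theorem hCongr (h : CubRec) : HCongr := by
  intro a a' b ha hb hd
  have key : H a' b = H a b := by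
    obtain ⟨c, hc⟩ := hd
    have e0 := pow_vp_mul_up lam a
    have hn := not_dvd_up lam_prime ha
    generalize up lam a = a0 at e0 hn
    generalize vp lam a = k at e0 hc
    have e1 : a' = lam ^ k * (a0 + 9 * c) := by linear_combination hc - e0
    have hcop : IsCoprime a0 9 := by
      have := (isCoprime_three.2 hn).pow_right (n := 2)
      rwa [show (3 : E) ^ 2 = 9 by norm_num] at this
    have h1 := inv_spec hcop
    generalize inv 9 a0 = t at h1
    have h2 : (9 : E) ∣ (a0 + 9 * c) * t - 1 := by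
      have : (a0 + 9 * c) * t - 1 = a0 * t - 1 + 9 * (c * t) := by ring
      rw [this]
      exact dvd_add h1 (dvd_mul_right _ _)
    have n1 := primary_ne_zero (ho_primary h1)
    have n2 := primary_ne_zero (ho_primary h2)
    have g1 := hOne h _ b h1 hb
    have g2 := hOne h _ b h2 hb
    rw [H_mul_left (left_ne_zero_of_mul n1) (right_ne_zero_of_mul n1) hb] at g1
    rw [H_mul_left (left_ne_zero_of_mul n2) (right_ne_zero_of_mul n2) hb] at g2
    have g3 : H (a0 + 9 * c) b = H a0 b :=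
      mul_right_cancel₀ (right_ne_zero_of_mul_eq_one g1) (g2.trans g1.symm)
    have hl := pow_ne_zero k lam_prime.ne_zero
    rw [e1, ← e0, H_mul_left hl (left_ne_zero_of_mul n2) hb,
      H_mul_left hl (left_ne_zero_of_mul n1) hb, g3]
  exact ⟨key, by rw [H_swap a' b, H_swap a b, key]⟩

end QRH
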