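import Vale.Agent.P026.Gauss
import Vale.Agent.P026.Stm1

noncomputable section
namespace QRH
open Complex MeasureTheory
open scoped ComplexConjugate Classical

/-- The cubic residue symbol with values in `E`. -/
def rc_e (p : P) (x : E) : E :=
  if p.1 ∣ x then 0
  else if p.1 ∣ x ^ ((nm p.1 - 1) / 3) - 1 then 1
  else if p.1 ∣ x ^ ((nm p.1 - 1) / 3) - om then om else om ^ 2

theorem rc_toC_e (p : P) (x : E) : toC (rc_e p x) = c3 p x := by
  unfold rc_e c3
  split_ifs <;> simp [toC_om]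

theorem rc_e_per (p : P) {x y : E} (h : rd p x = rd p y) : rc_e p x = rc_e p y :=
  toC_inj (by rw [rc_toC_e, rc_toC_e]; exact (c3_mc p).per _ _ (rd_eq_iff.1 h))

theorem rc_e_mul (p : P) (x y : E) : rc_e p (x * y) = rc_e p x * rc_e p y :=
  toC_inj (by rw [map_mul, rc_toC_e, rc_toC_e, rc_toC_e]; exact (c3_mc p).mul _ _)

theorem rc_e_spec {p : P} {x : E} (h : ¬ p.1 ∣ x) :
    ∃ j < 3, p.1 ∣ x ^ ((nm p.1 - 1) / 3) - om ^ j ∧ rc_e p x = om ^ j := by
  obtain ⟨j, hj, h1, h2⟩ := c3_spec h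
  exact ⟨j, hj, h1, toC_inj (by rw [rc_toC_e, h2, map_pow, toC_om])⟩

theorem rc_nm (p : P) : ∃ k, 1 ≤ k ∧ nm p.1 = 3 * k + 1 ∧ (nm p.1 - 1) / 3 = k := by
  have h1 := p.nm_mod
  have h2 := p.four_le_nm
  exact ⟨nm p.1 / 3, by omega, by omega, by omega⟩

theorem rc_rd_e (p : P) (x : E) : rd p (rc_e p x) = rd p x ^ ((nm p.1 - 1) / 3) := by
  by_cases h : p.1 ∣ x
  · obtain ⟨k, hk, -, hk2⟩ := rc_nm p
    rw [rd_eq_zero.2 h, hk2, zero_pow (by omega), rc_e, if_pos h, map_zero]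
  · obtain ⟨j, -, h1, h2⟩ := rc_e_spec h
    rw [h2, ← map_pow]
    exact (rd_eq_iff.2 h1).symm

/-- The cubic residue symbol as a character of the residue field. -/
def rc_chi (p : P) : MulChar (Fp p) E where
  toFun y := rc_e p (rd_surj p y).choose
  map_one' := by
    rw [rc_e_per p ((rd_surj p 1).choose_spec.trans (map_one (rd p)).symm)]
    exact toC_inj (by rw [rc_toC_e, map_one]; exact (c3_mc p).one)
  map_mul' y z := by
    rw [← rc_e_mul]
    apply rc_e_per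
    rw [map_mul, (rd_surj p y).choose_spec, (rd_surj p z).choose_spec,
      (rd_surj p (y * z)).choose_spec]
  map_nonunit' y hy := by
    have h0 : y = 0 := by
      by_contra h
      exact hy (isUnit_iff_ne_zero.2 h)
    have h1 : p.1 ∣ (rd_surj p y).choose := rd_eq_zero.1 ((rd_surj p y).choose_spec.trans h0)
    show rc_e p (rd_surj p y).choose = 0
    rw [rc_e, if_pos h1]

theorem rc_chi_rd (p : P) (x : E) : rc_chi p (rd p x) = rc_e p x :=
  rc_e_per p (rd_surj p (rd p x)).choose_spec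

theorem rc_rd_chi (p : P) (y : Fp p) : rd p (rc_chi p y) = y ^ ((nm p.1 - 1) / 3) := by
  obtain ⟨x, rfl⟩ := rd_surj p y
  rw [rc_chi_rd, rc_rd_e]

theorem rc_chi_cube (p : P) : rc_chi p ^ 3 = 1 := by
  apply MulChar.ext
  intro u
  obtain ⟨x, hx⟩ := rd_surj p u
  have h : ¬ p.1 ∣ x := fun h => u.ne_zero (hx ▸ rd_eq_zero.2 h)
  obtain ⟨j, -, -, h2⟩ := rc_e_spec h
  rw [MulChar.pow_apply_coe, MulChar.one_apply_coe, ← hx, rc_chi_rd, h2, ← pow_mul, mul_comm,
    pow_mul, om_cube, one_pow]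

theorem rc_om_prim : IsPrimitiveRoot om 3 := by
  have : Fact (Nat.Prime 3) := ⟨Nat.prime_three⟩
  have h : orderOf om = 3 := orderOf_eq_prime om_cube fun h => omC_ne_one (by
    rw [← toC_om, h, map_one])
  exact h ▸ IsPrimitiveRoot.orderOf om

theorem rc_order {R : Type*} [CommRing R] (p : P) (f : E →+* R) (hf : f om ≠ 1) :
    orderOf ((rc_chi p).ringHomComp f) = 3 := by
  have : Fact (Nat.Prime 3) := ⟨Nat.prime_three⟩
  refine orderOf_eq_prime ?_ fun h => ?_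
  · rw [MulChar.ringHomComp_pow, rc_chi_cube, MulChar.ringHomComp_one]
  · obtain ⟨x, hx, h1⟩ := c3_nt p
    obtain ⟨j, hj, -, h2⟩ := rc_e_spec hx
    have hu : IsUnit (rd p x) := isUnit_iff_ne_zero.2 fun h => hx (rd_eq_zero.1 h)
    have h3 : f om ^ j = 1 := by
      have := congrArg (fun c : MulChar (Fp p) R => c (rd p x)) h
      simp only [MulChar.ringHomComp_apply, MulChar.one_apply hu] at this
      rwa [rc_chi_rd, h2, map_pow] at this
    have h4 : f om ^ 3 = 1 := by rw [← map_pow, om_cube, map_one]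
    interval_cases j
    · exact h1 (by rw [← rc_toC_e, h2, pow_zero, map_one])
    · exact hf (by rwa [pow_one] at h3)
    · exact hf (by rw [pow_succ, h3, one_mul] at h4; exact h4)

/-- The Jacobi sum. -/
def rc_J (p : P) : E := jacobiSum (rc_chi p) (rc_chi p)

theorem rc_gauss0 {R : Type*} [CommRing R] [IsDomain R] (p : P) (f : E →+* R) (hf : f om ≠ 1)
    {e : AddChar (Fp p) R} (he : e.IsPrimitive) :
    gaussSum ((rc_chi p).ringHomComp f) e ^ 3 = nm p.1 * f (rc_J p) := by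
  have ho := rc_order p f hf
  have h := gaussSum_pow_eq_prod_jacobiSum (χ := (rc_chi p).ringHomComp f) (by omega) he
  have h1 : rc_chi p (-1) = 1 := by
    rw [← map_one (rd p), ← map_neg, rc_chi_rd]
    exact toC_inj (by rw [rc_toC_e, c3_neg_one, map_one])
  rw [ho, show 3 - 1 = 1 + 1 from rfl, Nat.Ico_succ_singleton, Finset.prod_singleton, pow_one,
    jacobiSum_ringHomComp, MulChar.ringHomComp_apply, h1, map_one, one_mul, card_Fp] at h
  exact h

theorem rc_gs (p : P) : gs c3 {p} ^ 3 = nm p.1 * toC (rc_J p) := by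
  obtain ⟨e, he, h⟩ := exists_addChar p (t := 1) (p.not_dvd_unit isUnit_one)
  rw [← rc_gauss0 p toC (by rw [toC_om]; exact omC_ne_one) he, gs_singleton, gaussSum,
    ← rsum_rd]
  simp only [MulChar.ringHomComp_apply, rc_chi_rd, rc_toC_e, h, mul_one]

theorem rc_nm_J (p : P) : nm (rc_J p) = nm p.1 := by
  have h := congrArg norm (rc_gs p)
  rw [norm_pow, norm_gs ch_c3 (fun q _ => c3_nt q), pr_singleton, norm_mul, Complex.norm_natCast,
    nm_eq] at h
  have h0 : 0 < ‖toC p.1‖ := norm_pos_iff.2 (toC_ne_zero p.ne_zero)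
  have h1 : ‖toC p.1‖ = ‖toC (rc_J p)‖ :=
    mul_left_cancel₀ (pow_pos h0 2).ne' (by rw [← h]; ring)
  have h2 : (nm (rc_J p) : ℝ) = nm p.1 := by rw [nm_eq, nm_eq, h1]
  exact_mod_cast h2

theorem rc_dvd_J (p : P) : p.1 ∣ rc_J p := by
  obtain ⟨k, hk, hk1, hk2⟩ := rc_nm p
  rw [← rd_eq_zero, rc_J, jacobiSum, map_sum]
  simp only [map_mul, rc_rd_chi, hk2]
  have h : ∀ y : Fp p, y ^ k * (1 - y) ^ k
      = ∑ m ∈ Finset.range (k + 1), ((-1) ^ m * (k.choose m : Fp p)) * y ^ (k + m) := by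
    intro y
    rw [sub_eq_neg_add, add_pow, Finset.mul_sum]
    refine Finset.sum_congr rfl fun m _ => ?_
    rw [neg_pow]
    ring
  simp only [h]
  rw [Finset.sum_comm]
  refine Finset.sum_eq_zero fun m hm => ?_
  have hm' := Finset.mem_range.1 hm
  rw [← Finset.mul_sum, FiniteField.sum_pow_lt_card_sub_one _ _ (by rw [card_Fp]; omega),
    mul_zero]

theorem rc_J_eq (p : P) : rc_J p = -p.1 := by
  obtain ⟨k, hk, hk1, hk2⟩ := rc_nm p
  obtain ⟨z, -, hz⟩ := exists_jacobiSum_eq_neg_one_add (n := 3) (by norm_num) (rc_chi_cube p)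
    (rc_chi_cube p) ⟨k, by rw [card_Fp]; omega⟩ rc_om_prim
  have h3 : (3 : E) ∣ -rc_J p - 1 :=
    ⟨z * om, by rw [rc_J, hz]; linear_combination (-z) * om_rel⟩
  obtain ⟨u, hu⟩ := rc_dvd_J p
  have hu1 : nm u = 1 := by
    have h := rc_nm_J p
    rw [hu, nm_mul] at h
    exact mul_left_cancel₀ (by omega : nm p.1 ≠ 0) (h.trans (mul_one _).symm)
  have ha : Associated p.1 (-rc_J p) :=
    ⟨(isUnit_iff.2 hu1).neg.unit, by rw [IsUnit.unit_spec, hu, mul_neg]⟩
  rw [primary_unique p.2.2 h3 ha, neg_neg]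

theorem g3Cube : G3Cube := by
  intro p
  rw [rc_gs, rc_J_eq, ← map_natCast toC, ← mul_star_eq, map_mul, toC_star, map_neg]
  ring

theorem rc_frob {F R : Type*} [CommRing F] [Fintype F] [CommRing R] (l : ℕ) [Fact l.Prime]
    [CharP R l] (χ : MulChar F R) (e : AddChar F R) (n : ℕ) :
    gaussSum χ e ^ l ^ n = gaussSum (χ ^ l ^ n) (e ^ l ^ n) := by
  induction n with
  | zero => simp only [pow_zero, pow_one]
  | succ n ih => rw [pow_succ, pow_mul, ih, gaussSum_frob, ← pow_mul, ← pow_mul]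

theorem rc_symm {p r : P} (h : ¬ r.1 ∣ (nm p.1 : E)) : ¬ p.1 ∣ (nm r.1 : E) := by
  intro h1
  apply h
  have h2 : nm p.1 = nm r.1 := by
    rcases P.eq_or_bar h1 with h2 | h2
    · rw [h2]
    · rw [h2]; exact nm_star _
  rw [h2, ← mul_star_eq]
  exact dvd_mul_right _ _

theorem rc_not_dvd {p r : P} (h : ¬ r.1 ∣ (nm p.1 : E)) :
    ¬ r.1 ∣ p.1 ∧ ¬ r.1 ∣ star p.1 := by
  rw [← mul_star_eq] at h
  exact ⟨fun h1 => h (h1.mul_right _), fun h1 => h (h1.mul_left _)⟩

theorem rc_key {p r : P} (h : ¬ r.1 ∣ (nm p.1 : E)) :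
    c3 p (nm r.1) * c3 r (-(p.1 ^ 2 * star p.1)) = 1 := by
  have h' := rc_symm h
  have hp0 : (nm p.1 : Fp r) ≠ 0 := fun h0 => h (rd_eq_zero.1 (by rw [map_natCast, h0]))
  have hr0 : (nm r.1 : Fp p) ≠ 0 := fun h0 => h' (rd_eq_zero.1 (by rw [map_natCast, h0]))
  have hch : ringChar (Fp r) ≠ ringChar (Fp p) := by
    intro hc
    apply hp0
    rw [ringChar.spec, hc, ← ringChar.spec, ← card_Fp]
    exact FiniteField.cast_card_eq_zero _
  obtain ⟨n, hl, hc⟩ := FiniteField.card (Fp r) (ringChar (Fp r))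
  have : Fact (ringChar (Fp r)).Prime := ⟨hl⟩
  let ψ := AddChar.FiniteField.primitiveChar (Fp p) (Fp r) hch
  let K := CyclotomicField ψ.n (Fp r)
  have : CharP K (ringChar (Fp r)) := (Algebra.charP_iff (Fp r) K _).1 inferInstance
  have hinj : Function.Injective (algebraMap (Fp r) K) := (algebraMap (Fp r) K).injective
  let f : E →+* K := (algebraMap (Fp r) K).comp (rd r)
  have hf : f om ≠ 1 := fun h1 =>
    (rd_om_prim r).ne_one (by norm_num) (hinj (h1.trans (map_one _).symm))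
  have ho := rc_order p f hf
  have hg := rc_gauss0 p f hf ψ.prim
  have hg0 : gaussSum ((rc_chi p).ringHomComp f) ψ.char ≠ 0 := by
    refine gaussSum_ne_zero_of_nontrivial ?_ (fun h1 => ?_) ψ.prim
    · rw [card_Fp, ← map_natCast (algebraMap (Fp r) K)]
      exact fun h1 => hp0 (hinj (h1.trans (map_zero _).symm))
    · rw [h1, orderOf_one] at ho
      omega
  obtain ⟨k, hk, hk1, hk2⟩ := rc_nm r
  have hfr := rc_frob (ringChar (Fp r)) ((rc_chi p).ringHomComp f) ψ.char n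
  have hχ : (rc_chi p).ringHomComp f ^ nm r.1 = (rc_chi p).ringHomComp f := by
    rw [hk1, pow_succ, pow_mul, ← ho, pow_orderOf_eq_one, one_pow, one_mul]
  rw [← hc, card_Fp, hχ, AddChar.pow_mulShift] at hfr
  have hm := gaussSum_mulShift ((rc_chi p).ringHomComp f) ψ.char (Units.mk0 _ hr0)
  rw [Units.val_mk0, ← hfr, MulChar.ringHomComp_apply, ← map_natCast (rd p), rc_chi_rd] at hm
  have hA : (nm p.1 : K) * f (rc_J p) = f (-(p.1 ^ 2 * star p.1)) := by
    rw [rc_J_eq, ← map_natCast f, ← mul_star_eq, ← map_mul]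
    exact congrArg f (by ring)
  have hB : f (-(p.1 ^ 2 * star p.1)) ^ k = f (rc_e r (-(p.1 ^ 2 * star p.1))) := by
    show algebraMap (Fp r) K (rd r _) ^ k = algebraMap (Fp r) K (rd r _)
    rw [rc_rd_e, hk2, map_pow]
  have hC : f (rc_e p (nm r.1) * rc_e r (-(p.1 ^ 2 * star p.1))) = 1 := by
    apply mul_right_cancel₀ hg0
    rw [map_mul, ← hB, ← hA, ← hg, one_mul, mul_assoc, ← pow_mul, ← pow_succ, ← hk1]
    exact hm
  obtain ⟨i, -, -, hi⟩ := rc_e_spec h'
  have hA0 : ¬ r.1 ∣ -(p.1 ^ 2 * star p.1) := by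
    rw [dvd_neg]
    intro h1
    rcases r.2.1.dvd_or_dvd h1 with h2 | h2
    · exact (rc_not_dvd h).1 (r.2.1.dvd_of_dvd_pow h2)
    · exact (rc_not_dvd h).2 h2
  obtain ⟨j, -, -, hj⟩ := rc_e_spec hA0
  rw [hi, hj, ← pow_add, map_pow] at hC
  have hD : rd r om ^ (i + j) = 1 := hinj (by rw [map_pow, map_one]; exact hC)
  obtain ⟨m, hm2⟩ := ((rd_om_prim r).pow_eq_one_iff_dvd _).1 hD
  rw [← rc_toC_e, ← rc_toC_e, ← map_mul, hi, hj, ← pow_add, hm2, pow_mul, om_cube, one_pow,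
    map_one]

theorem rc_diff {p r : P} (h : ¬ r.1 ∣ (nm p.1 : E)) : c3 p r.1 = c3 r p.1 := by
  have h1 := rc_key h
  have h2 := rc_key (rc_symm h)
  rw [c3_neg, (c3_mc _).mul, (c3_mc _).map_pow, ← mul_star_eq, (c3_mc _).mul] at h1 h2
  linear_combination (c3 r p.1) * h2 - (c3 p r.1) * h1

theorem cubRec : CubRec := by
  intro p r
  by_cases h : r.1 ∣ (nm p.1 : E)
  swap
  · exact rc_diff h
  by_cases hrp : r = p
  · rw [hrp]
  have hr : r = p.bar := (P.eq_or_bar h).resolve_left hrp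
  have hr1 : r.1 = star p.1 := by rw [hr]; rfl
  have hnm : nm r.1 = nm p.1 := by rw [hr1, nm_star]
  have key : ∀ x : E, (3 : E) ∣ x - 1 → x ∣ p.1 + r.1 → c3 p x = c3 r x := by
    intro x hx
    refine induction_primary (M := fun x => x ∣ p.1 + r.1 → c3 p x = c3 r x) ?_ ?_ hx
    · intro _
      rw [(c3_mc p).one, (c3_mc r).one]
    · intro s y _ ih hd
      have hs : s.1 ∣ p.1 + r.1 := (dvd_mul_right _ _).trans hd
      have hs1 : ¬ s.1 ∣ (nm p.1 : E) := by
        intro h1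
        rcases P.eq_or_bar h1 with h2 | h2
        · rw [h2] at hs
          exact hrp ((P.dvd_iff _ _).1 ((dvd_add_right dvd_rfl).1 hs)).symm
        · rw [h2, ← hr] at hs
          exact hrp ((P.dvd_iff _ _).1 ((dvd_add_left dvd_rfl).1 hs))
      rw [(c3_mc p).mul, (c3_mc r).mul, ih ((dvd_mul_left _ _).trans hd), rc_diff hs1,
        rc_diff (p := r) (hnm ▸ hs1), ← c3_neg s r.1,
        (c3_mc s).per p.1 (-r.1) (by rwa [sub_neg_eq_add])]
  have hT : (3 : E) ∣ -(p.1 + r.1) - 1 := by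
    obtain ⟨a, ha⟩ := p.2.2
    obtain ⟨b, hb⟩ := r.2.2
    exact ⟨-a - b - 1, by linear_combination -ha - hb⟩
  have h1 := key _ hT (neg_dvd.2 dvd_rfl)
  rw [c3_neg, c3_neg, (c3_mc p).per (p.1 + r.1) r.1 (by rw [add_sub_cancel_right]),
    (c3_mc r).per (p.1 + r.1) p.1 (by rw [add_sub_cancel_left])] at h1
  exact h1

end QRH
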