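import Vale.Agent.P026.Wt

noncomputable section
namespace QRH
open Complex MeasureTheory Filter
open scoped ComplexConjugate Classical ContDiff Topology FourierTransform

/-- Laplace transform. -/
def spL (f : ℝ → ℂ) (z : ℂ) : ℂ := ∫ v : ℝ, f v * Complex.exp (z * v)

theorem sp_int {f : ℝ → ℂ} (hf : Continuous f) (hc : HasCompactSupport f) {F : ℝ → ℂ}
    (hF : Continuous F) : Integrable fun v => f v * F v :=
  (hf.mul hF).integrable_of_hasCompactSupport hc.mul_right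

theorem sp_ibp {f : ℝ → ℂ} (hf : ContDiff ℝ ∞ f) (hc : HasCompactSupport f) (z : ℂ) :
    spL (deriv f) z = -z * spL f z := by
  obtain ⟨hd, hd'⟩ := contDiff_infty_iff_deriv.1 hf
  have h1 : ∀ v : ℝ, HasDerivAt (fun v : ℝ => f v * Complex.exp (z * v))
      (deriv f v * Complex.exp (z * v) + z * (f v * Complex.exp (z * v))) v := fun v => by
    have h0 : HasDerivAt (fun v : ℝ => Complex.exp (z * v)) (Complex.exp (z * v) * (z * 1)) v :=
      ((hasDerivAt_id v).ofReal_comp.const_mul z).cexp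
    refine ((hd v).hasDerivAt.fun_mul h0).congr_deriv ?_
    ring
  have i1 := sp_int hd'.continuous hc.deriv (F := fun v => Complex.exp (z * v)) (by fun_prop)
  have i2 := sp_int hf.continuous hc (F := fun v => Complex.exp (z * v)) (by fun_prop)
  have h2 := integral_eq_zero_of_hasDerivAt_of_integrable h1 (i1.add (i2.const_mul z)) i2
  rw [integral_add i1 (i2.const_mul z), integral_const_mul] at h2
  unfold spL
  linear_combination h2

theorem sp_decay (A : ℝ) (N : ℕ) : ∀ f : ℝ → ℂ, ContDiff ℝ ∞ f → HasCompactSupport f →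
    ∃ C : ℝ, 0 ≤ C ∧ ∀ z : ℂ, |z.re| ≤ A → ‖z‖ ^ N * ‖spL f z‖ ≤ C := by
  induction N with
  | zero =>
    intro f hf hc
    have i1 := (sp_int hf.continuous hc (F := fun v => (Real.exp (A * |v|) : ℝ))
      (by fun_prop)).norm
    refine ⟨∫ v, ‖f v * (Real.exp (A * |v|) : ℝ)‖, integral_nonneg fun v => norm_nonneg _,
      fun z hz => ?_⟩
    rw [pow_zero, one_mul]
    refine norm_integral_le_of_norm_le i1 (Eventually.of_forall fun v => ?_)
    rw [norm_mul, norm_mul, Complex.norm_exp, Complex.norm_real, Real.norm_eq_abs,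
      abs_of_pos (Real.exp_pos _)]
    refine mul_le_mul_of_nonneg_left (Real.exp_le_exp.2 ?_) (norm_nonneg _)
    rw [re_mul_ofReal]
    exact (le_abs_self _).trans (by
      rw [abs_mul]; exact mul_le_mul_of_nonneg_right hz (abs_nonneg _))
  | succ N ih =>
    intro f hf hc
    obtain ⟨C, hC, h⟩ := ih (deriv f) (contDiff_infty_iff_deriv.1 hf).2 hc.deriv
    refine ⟨C, hC, fun z hz => le_of_eq_of_le ?_ (h z hz)⟩
    rw [sp_ibp hf hc, norm_mul, norm_neg]
    ring

theorem sp_beta (A : ℝ) (N : ℕ) : ∃ C : ℝ, 0 < C ∧ ∀ z : ℂ, |z.re| ≤ A →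
    (1 + |z.im|) ^ N * ‖spL (fun v => (beta v : ℂ)) z‖ ≤ C := by
  have hf : ContDiff ℝ ∞ fun v => (beta v : ℂ) := ofRealCLM.contDiff.comp contDiff_beta
  have hc : HasCompactSupport fun v => (beta v : ℂ) :=
    hasCompactSupport_beta.comp_left (g := fun x : ℝ => (x : ℂ)) ofReal_zero
  obtain ⟨C0, h0, H0⟩ := sp_decay A 0 _ hf hc
  obtain ⟨C1, h1, H1⟩ := sp_decay A N _ hf hc
  refine ⟨2 ^ (N - 1) * (C0 + C1) + 1, by positivity, fun z hz => ?_⟩
  have a0 := H0 z hz
  have a1 := H1 z hz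
  have a2 := add_pow_le zero_le_one (abs_nonneg z.im) N
  have a3 : |z.im| ^ N ≤ ‖z‖ ^ N := pow_le_pow_left₀ (abs_nonneg _) (abs_im_le_norm z) N
  generalize ‖spL (fun v => (beta v : ℂ)) z‖ = L at *
  have hL : 0 ≤ L → (1 + |z.im|) ^ N * L ≤ 2 ^ (N - 1) * (C0 + C1) + 1 := fun hL => by
    have b1 := mul_le_mul_of_nonneg_right a2 hL
    have b2 := mul_le_mul_of_nonneg_right a3 hL
    rw [pow_zero, one_mul] at a0
    rw [one_pow, mul_assoc, add_mul, one_mul] at b1
    have b3 : 2 ^ (N - 1) * (L + |z.im| ^ N * L) ≤ 2 ^ (N - 1) * (C0 + C1) :=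
      mul_le_mul_of_nonneg_left (by linarith) (by positivity)
    linarith
  rcases le_total 0 L with h | h
  · exact hL h
  · exact (mul_nonpos_of_nonneg_of_nonpos (by positivity) h).trans (by positivity)

theorem sp_norm_exp (τ v : ℝ) : ‖Complex.exp (τ * I * v)‖ = 1 := by
  rw [Complex.norm_exp]; simp

theorem sp_cont {F : ℝ → ℂ} (hF : Integrable F) :
    Continuous fun τ : ℝ => ∫ v : ℝ, F v * Complex.exp (τ * I * v) :=
  continuous_of_dominated (bound := fun v => ‖F v‖)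
    (fun τ => hF.aestronglyMeasurable.mul (Continuous.aestronglyMeasurable (by fun_prop)))
    (fun τ => Eventually.of_forall fun v => by rw [norm_mul, sp_norm_exp, mul_one])
    hF.norm (Eventually.of_forall fun v => by fun_prop)

theorem sp_int_w (D t : ℝ) : Integrable fun τ : ℝ => D * (1 + (τ - t) ^ 2)⁻¹ :=
  (integrable_inv_one_add_sq.comp_sub_right t).const_mul D

theorem sp_integral_w (D t : ℝ) : ∫ τ : ℝ, D * (1 + (τ - t) ^ 2)⁻¹ = D * Real.pi := by
  rw [integral_const_mul, integral_sub_right_eq_self (fun τ : ℝ => (1 + τ ^ 2)⁻¹) t,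
    integral_univ_inv_one_add_sq]

theorem sp_int_of {h : ℝ → ℂ} (hc : Continuous h) {D t : ℝ}
    (hb : ∀ τ, ‖h τ‖ ≤ D * (1 + (τ - t) ^ 2)⁻¹) : Integrable h :=
  (sp_int_w D t).mono' hc.aestronglyMeasurable (Eventually.of_forall hb)

theorem sp_w_le {a D x : ℝ} (ha : 0 ≤ a) (h : (1 + |x|) ^ 2 * a ≤ D) : a ≤ D * (1 + x ^ 2)⁻¹ := by
  rw [← div_eq_mul_inv, le_div_iff₀ (by positivity)]
  refine le_trans ?_ h
  rw [mul_comm]
  refine mul_le_mul_of_nonneg_right ?_ ha
  nlinarith [abs_nonneg x, sq_abs x]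

/-- The inverse transform of the twisted bump. -/
def spK (z : ℂ) (τ : ℝ) : ℂ := ((2 * Real.pi)⁻¹ : ℝ) * spL (fun v => (beta v : ℂ)) (z - τ * I)

theorem sp_K_cont (z : ℂ) : Continuous (spK z) := by
  have h := (sp_cont (integrable_beta_mul (F := fun v => Complex.exp (z * v))
    (by fun_prop))).comp continuous_neg
  refine continuous_const.mul (h.congr fun τ => ?_)
  refine integral_congr_ae (Eventually.of_forall fun v => ?_)
  simp only
  rw [mul_assoc, ← Complex.exp_add]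
  congr 2
  push_cast
  ring

theorem sp_K_le (A : ℝ) (N : ℕ) : ∃ C : ℝ, 0 < C ∧ ∀ (z : ℂ) (τ : ℝ), |z.re| ≤ A →
    (1 + |τ - z.im|) ^ N * ‖spK z τ‖ ≤ C := by
  obtain ⟨C, hC, h⟩ := sp_beta A N
  refine ⟨C, hC, fun z τ hz => le_trans ?_ (h (z - τ * I) (by simpa using hz))⟩
  have e : |(z - τ * I).im| = |τ - z.im| := by rw [abs_sub_comm]; simp
  rw [e, spK, norm_mul]
  refine mul_le_mul_of_nonneg_left (mul_le_of_le_one_left (norm_nonneg _) ?_) (by positivity)
  rw [Complex.norm_real, Real.norm_eq_abs, abs_of_pos (by positivity)]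
  exact inv_le_one_of_one_le₀ (by linarith [Real.pi_gt_three])

theorem sp_K_int (z : ℂ) : Integrable (spK z) := by
  obtain ⟨C, -, h⟩ := sp_K_le |z.re| 2
  exact sp_int_of (sp_K_cont z) fun τ => sp_w_le (norm_nonneg _) (h z τ le_rfl)

theorem sp_inv (z : ℂ) (v : ℝ) :
    (beta v : ℂ) * Complex.exp (z * v) = ∫ τ : ℝ, spK z τ * Complex.exp (τ * I * v) := by
  have hp : (0 : ℝ) < 2 * Real.pi := by positivity
  have hp' : ((2 * Real.pi : ℝ) : ℂ) ≠ 0 := ofReal_ne_zero.2 hp.ne'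
  have hc : Continuous fun v : ℝ => (beta v : ℂ) * Complex.exp (z * v) :=
    (continuous_ofReal.comp contDiff_beta.continuous).mul (by fun_prop)
  have hi := integrable_beta_mul (F := fun v => Complex.exp (z * v)) (by fun_prop)
  have e : 𝓕 (fun v : ℝ => (beta v : ℂ) * Complex.exp (z * v)) =
      fun w => ((2 * Real.pi : ℝ) : ℂ) * spK z (2 * Real.pi * w) := by
    funext w
    rw [Real.fourier_real_eq_integral_exp_smul, spK, ← mul_assoc, ofReal_inv, mul_inv_cancel₀ hp',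
      one_mul, spL]
    refine integral_congr_ae (Eventually.of_forall fun v => ?_)
    simp only [smul_eq_mul]
    rw [mul_left_comm, ← Complex.exp_add]
    congr 2
    push_cast
    ring
  have hi' : Integrable (𝓕 fun v : ℝ => (beta v : ℂ) * Complex.exp (z * v)) := by
    rw [e]; exact ((sp_K_int z).comp_mul_left' hp.ne').const_mul _
  have h := hi.fourierInv_fourier_eq hi' (v := v) hc.continuousAt
  have h2 := Measure.integral_comp_mul_left
    (fun τ : ℝ => spK z τ * Complex.exp (τ * I * v)) (2 * Real.pi)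
  rw [← h, Real.fourierInv_eq', e]
  have e2 : ∫ w : ℝ, Complex.exp (((2 * Real.pi * inner ℝ w v : ℝ) : ℂ) * I) •
      (((2 * Real.pi : ℝ) : ℂ) * spK z (2 * Real.pi * w)) = ((2 * Real.pi : ℝ) : ℂ) *
      ∫ w : ℝ, spK z (2 * Real.pi * w) * Complex.exp (((2 * Real.pi * w : ℝ) : ℂ) * I * v) := by
    rw [← integral_const_mul]
    refine integral_congr_ae (Eventually.of_forall fun w => ?_)
    simp only [smul_eq_mul, RCLike.inner_apply, conj_trivial]
    rw [mul_left_comm, mul_comm (Complex.exp _)]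
    congr 3
    push_cast
    ring
  rw [e2, h2, abs_of_pos (inv_pos.2 hp), real_smul, ← mul_assoc, ofReal_inv, mul_inv_cancel₀ hp',
    one_mul]

theorem sp_repr (A : ℝ) (N : ℕ) : ∃ C : ℝ, 0 < C ∧ ∀ (G : ℝ → ℂ) (σ g : ℝ) (s : ℂ),
    |s.re - σ| ≤ A → Integrable (fun v => G v * (Real.exp (σ * v) : ℝ)) →
    ∫ v, ‖G v‖ * Real.exp (σ * v) ≤ g →
    ∃ h : ℝ → ℂ, Continuous h ∧ (∀ τ, (1 + |τ - s.im|) ^ N * ‖h τ‖ ≤ C * g) ∧
      ∀ l : ℝ, sm s G l = ∫ τ : ℝ, h τ * Complex.exp (-((σ + τ * I) * l)) := by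
  obtain ⟨C, hC, h⟩ := sp_K_le A N
  refine ⟨C, hC, fun G σ g s hs hG hg => ⟨fun τ => spK (s - σ) τ *
    ∫ v : ℝ, G v * (Real.exp (σ * v) : ℝ) * Complex.exp (τ * I * v),
    (sp_K_cont _).mul (sp_cont hG), fun τ => ?_, fun l => ?_⟩⟩
  · have h1 := h (s - σ) τ (by simpa using hs)
    have h2 : ‖∫ v : ℝ, G v * (Real.exp (σ * v) : ℝ) * Complex.exp (τ * I * v)‖ ≤ g := by
      refine (norm_integral_le_integral_norm _).trans (le_of_eq_of_le ?_ hg)
      refine integral_congr_ae (Eventually.of_forall fun v => ?_)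
      simp only
      rw [norm_mul, sp_norm_exp, mul_one, norm_mul, Complex.norm_real, Real.norm_eq_abs,
        abs_of_pos (Real.exp_pos _)]
    rw [sub_im, ofReal_im, sub_zero] at h1
    rw [norm_mul, ← mul_assoc]
    exact mul_le_mul h1 h2 (norm_nonneg _) hC.le
  · have hG' := hG.comp_add_right l
    have hI : Integrable (Function.uncurry fun (v τ : ℝ) =>
        G (v + l) * (Real.exp (σ * (v + l)) : ℝ) * spK (s - σ) τ *
          (Complex.exp (τ * I * v) * Complex.exp (-(σ * l)))) (volume.prod volume) :=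
      (hG'.mul_prod (sp_K_int (s - σ))).mul_bdd (c := ‖Complex.exp (-(σ * l))‖)
        (g := fun p : ℝ × ℝ => Complex.exp (p.2 * I * p.1) * Complex.exp (-(σ * l)))
        (Continuous.aestronglyMeasurable (by fun_prop))
        (Eventually.of_forall fun p => by rw [norm_mul, sp_norm_exp, one_mul])
    have e1 : sm s G l = ∫ v : ℝ, ∫ τ : ℝ, G (v + l) * (Real.exp (σ * (v + l)) : ℝ) *
        spK (s - σ) τ * (Complex.exp (τ * I * v) * Complex.exp (-(σ * l))) := by
      refine integral_congr_ae (Eventually.of_forall fun v => ?_)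
      have e0 : Complex.exp (s * v) = Complex.exp ((s - σ) * v) *
          ((Real.exp (σ * (v + l)) : ℝ) * Complex.exp (-(σ * l))) := by
        rw [ofReal_exp, ← Complex.exp_add, ← Complex.exp_add]
        congr 1
        push_cast
        ring
      simp only
      rw [e0, ← mul_assoc, sp_inv, ← integral_mul_const, ← integral_mul_const]
      exact integral_congr_ae (Eventually.of_forall fun τ => by simp only; ring)
    rw [e1, integral_integral_swap hI]
    refine integral_congr_ae (Eventually.of_forall fun τ => ?_)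
    simp only
    rw [← integral_add_right_eq_self (fun v : ℝ => G v * (Real.exp (σ * v) : ℝ) *
      Complex.exp (τ * I * v)) l, ← integral_const_mul, ← integral_mul_const]
    refine integral_congr_ae (Eventually.of_forall fun v => ?_)
    have e0 : Complex.exp (τ * I * v) * Complex.exp (-(σ * l)) =
        Complex.exp (τ * I * (v + l : ℝ)) * Complex.exp (-((σ + τ * I) * l)) := by
      rw [← Complex.exp_add, ← Complex.exp_add]
      congr 1
      push_cast
      ring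
    simp only
    rw [e0]
    ring

theorem sep_repr (A : ℝ) (B : ℕ) : ∃ C : ℝ, 0 < C ∧ ∀ (G : ℝ → ℂ) (σ g : ℝ) (s : ℂ),
    |s.re - σ| ≤ A → Integrable (fun v => G v * (Real.exp (σ * v) : ℝ)) →
    ∫ v, ‖G v‖ * Real.exp (σ * v) ≤ g →
    ∃ h : ℝ → ℂ, Continuous h ∧ (∀ τ, ‖h τ‖ ≤ C * g * (1 + |τ - s.im|) ^ (-(B + 2 : ℝ))) ∧
      ∀ l : ℝ, sm s G l = ∫ τ : ℝ, h τ * Complex.exp (-((σ + τ * I) * l)) := by
  obtain ⟨C, hC, H⟩ := sp_repr A (B + 2)
  refine ⟨C, hC, fun G σ g s hs hG hg => ?_⟩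
  obtain ⟨h, h1, h2, h3⟩ := H G σ g s hs hG hg
  refine ⟨h, h1, fun τ => ?_, h3⟩
  have e : (B + 2 : ℝ) = ((B + 2 : ℕ) : ℝ) := by push_cast; ring
  rw [Real.rpow_neg (by positivity), e, Real.rpow_natCast, ← div_eq_mul_inv,
    le_div_iff₀ (by positivity), mul_comm]
  exact h2 τ

theorem sp_two (A : ℝ) (B : ℕ) : ∃ C : ℝ, 0 < C ∧ ∀ (G : ℝ → ℂ) (σ g : ℝ) (s : ℂ),
    |s.re - σ| ≤ A → Integrable (fun v => G v * (Real.exp (σ * v) : ℝ)) →
    ∫ v, ‖G v‖ * Real.exp (σ * v) ≤ g →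
    ∃ h : ℝ → ℂ, (∀ l : ℝ, Integrable fun τ : ℝ => h τ * Complex.exp (-((σ + τ * I) * l))) ∧
      (∀ τ, ‖h τ‖ ≤ C * g * (1 + (τ - s.im) ^ 2)⁻¹) ∧
      (∀ τ, ‖h τ‖ * (1 + |τ|) ^ B ≤ C * g * (1 + |s.im|) ^ B * (1 + (τ - s.im) ^ 2)⁻¹) ∧
      ∀ l : ℝ, sm s G l = ∫ τ : ℝ, h τ * Complex.exp (-((σ + τ * I) * l)) := by
  obtain ⟨C, hC, H⟩ := sp_repr A (B + 2)
  refine ⟨C, hC, fun G σ g s hs hG hg => ?_⟩
  obtain ⟨h, h1, h2, h3⟩ := H G σ g s hs hG hg
  have h4 : ∀ τ, ‖h τ‖ ≤ C * g * (1 + (τ - s.im) ^ 2)⁻¹ := fun τ =>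
    sp_w_le (norm_nonneg _) (le_trans (mul_le_mul_of_nonneg_right
      (pow_le_pow_right₀ (by linarith [abs_nonneg (τ - s.im)]) (by omega)) (norm_nonneg _)) (h2 τ))
  refine ⟨h, fun l => (sp_int_of h1 h4).mul_bdd (c := Real.exp (-(σ * l)))
    (Continuous.aestronglyMeasurable (by fun_prop))
    (Eventually.of_forall fun τ => by rw [Complex.norm_exp]; simp), h4,
    fun τ => sp_w_le (by positivity) ?_, h3⟩
  have a1 : 1 + |τ| ≤ (1 + |s.im|) * (1 + |τ - s.im|) := by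
    have := abs_add_le s.im (τ - s.im)
    rw [add_sub_cancel] at this
    nlinarith [abs_nonneg s.im, abs_nonneg (τ - s.im)]
  have a2 := pow_le_pow_left₀ (by positivity) a1 B
  calc (1 + |τ - s.im|) ^ 2 * (‖h τ‖ * (1 + |τ|) ^ B)
      ≤ (1 + |τ - s.im|) ^ 2 * (‖h τ‖ * ((1 + |s.im|) * (1 + |τ - s.im|)) ^ B) := by gcongr
    _ = (1 + |τ - s.im|) ^ (B + 2) * ‖h τ‖ * (1 + |s.im|) ^ B := by rw [mul_pow]; ring
    _ ≤ _ := mul_le_mul_of_nonneg_right (h2 τ) (by positivity)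

theorem sp_tri {ι α : Type} [MeasurableSpace α] {μ : Measure α} (T : Finset ι) {F : ι → α → ℂ}
    (hF : ∀ i ∈ T, Integrable (F i) μ) {b : α → ℝ} (hb : Integrable b μ)
    (h : ∀ᵐ a ∂μ, ∑ i ∈ T, ‖F i a‖ ≤ b a) : ∑ i ∈ T, ‖∫ a, F i a ∂μ‖ ≤ ∫ a, b a ∂μ := by
  refine (Finset.sum_le_sum fun i _ => norm_integral_le_integral_norm _).trans ?_
  rw [← integral_finsetSum T fun i hi => (hF i hi).norm]
  exact integral_mono_ae (integrable_finsetSum T fun i hi => (hF i hi).norm) hb h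

theorem sp_mink {ι α : Type} [MeasurableSpace α] {μ : Measure α} (T : Finset ι) {F : ι → α → ℂ}
    (hF : ∀ i ∈ T, Integrable (F i) μ) {b : α → ℝ} (hb : Integrable b μ) (hb0 : ∀ a, 0 ≤ b a)
    (h : ∀ᵐ a ∂μ, ∑ i ∈ T, ‖F i a‖ ^ 2 ≤ b a ^ 2) :
    ∑ i ∈ T, ‖∫ a, F i a ∂μ‖ ^ 2 ≤ (∫ a, b a ∂μ) ^ 2 := by
  have h0 : 0 ≤ ∑ i ∈ T, ‖∫ a, F i a ∂μ‖ ^ 2 := Finset.sum_nonneg fun _ _ => sq_nonneg _
  have h1 := sp_tri T (F := fun i a => (‖∫ a, F i a ∂μ‖ : ℝ) * F i a)
    (fun i hi => (hF i hi).const_mul _) (hb.const_mul √(∑ i ∈ T, ‖∫ a, F i a ∂μ‖ ^ 2))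
    (h.mono fun a ha => by
      simp only [norm_mul, Complex.norm_real, norm_norm]
      exact (Real.sum_mul_le_sqrt_mul_sqrt _ _ _).trans (mul_le_mul_of_nonneg_left
        (Real.sqrt_le_iff.2 ⟨hb0 a, ha⟩) (Real.sqrt_nonneg _)))
  simp only [integral_const_mul, norm_mul, Complex.norm_real, norm_norm, ← sq] at h1
  have h2 := Real.sq_sqrt h0
  have h3 := Real.sqrt_nonneg (∑ i ∈ T, ‖∫ a, F i a ∂μ‖ ^ 2)
  generalize ∑ i ∈ T, ‖∫ a, F i a ∂μ‖ ^ 2 = Z at *
  nlinarith [sq_nonneg (√Z - ∫ a, b a ∂μ)]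

theorem sp_cpow {a : ℝ} (ha : 0 < a) (w : ℂ) : (a : ℂ) ^ w = Complex.exp (w * Real.log a) := by
  rw [cpow_def_of_ne_zero (ofReal_ne_zero.2 ha.ne'), ofReal_log ha.le, mul_comm]

theorem sp_norm_cpow {a : ℝ} (ha : 0 < a) (σ τ : ℝ) : ‖(a : ℂ) ^ (-(σ + τ * I))‖ = a ^ (-σ) := by
  rw [norm_cpow_eq_rpow_re_of_pos ha]; simp

theorem sepB : SepB := by
  intro A B
  obtain ⟨C, hC, H⟩ := sp_two A B
  refine ⟨C * Real.pi, by positivity, fun ι κ T J J' G σ g K s x x' y a b hs hG hg hy ha hb hK => ?_⟩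
  obtain ⟨h, h1, -, h2, h3⟩ := H G σ g s hs hG hg
  have hK0 : 0 ≤ K := by
    have := (Finset.sum_nonneg fun i hi => by have := hy i hi; positivity).trans (hK 0)
    simpa using this
  have i1 : ∀ i j j', Integrable fun τ : ℝ => x i j * x' i j' *
      (h τ * Complex.exp (-((σ + τ * I) * Real.log (y i / (a i j * b i j'))))) :=
    fun i j j' => (h1 _).const_mul _
  have i2 := fun i j => integrable_finsetSum (J' i) fun j' _ => i1 i j j'
  have e : ∀ i, ∑ j ∈ J i, ∑ j' ∈ J' i, x i j * x' i j' * sm s G (Real.log (y i / (a i j * b i j'))) =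
      ∫ τ : ℝ, ∑ j ∈ J i, ∑ j' ∈ J' i, x i j * x' i j' *
        (h τ * Complex.exp (-((σ + τ * I) * Real.log (y i / (a i j * b i j'))))) := fun i => by
    rw [integral_finsetSum _ fun j _ => i2 i j]
    refine Finset.sum_congr rfl fun j _ => ?_
    rw [integral_finsetSum _ fun j' _ => i1 i j j']
    exact Finset.sum_congr rfl fun j' _ => by rw [integral_const_mul, h3]
  simp only [e]
  refine (sp_tri T (fun i _ => integrable_finsetSum (J i) fun j _ => i2 i j)
    (sp_int_w (K * (C * g * (1 + |s.im|) ^ B)) s.im) (Eventually.of_forall fun τ => ?_)).trans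
    (le_of_eq (by rw [sp_integral_w]; ring))
  have e2 : ∀ i ∈ T, ‖∑ j ∈ J i, ∑ j' ∈ J' i, x i j * x' i j' *
      (h τ * Complex.exp (-((σ + τ * I) * Real.log (y i / (a i j * b i j')))))‖ =
      ‖h τ‖ * (y i ^ (-σ) * ‖∑ j ∈ J i, x i j * (a i j : ℂ) ^ (σ + τ * I)‖ *
        ‖∑ j ∈ J' i, x' i j * (b i j : ℂ) ^ (σ + τ * I)‖) := fun i hi => by
    rw [← sp_norm_cpow (hy i hi) σ τ, ← norm_mul, ← norm_mul, ← norm_mul, mul_assoc,
      Finset.sum_mul_sum, Finset.mul_sum, Finset.mul_sum]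
    congr 1
    refine Finset.sum_congr rfl fun j _ => ?_
    rw [Finset.mul_sum, Finset.mul_sum]
    refine Finset.sum_congr rfl fun j' _ => ?_
    have e3 : Complex.exp (-((σ + τ * I) * Real.log (y i / (a i j * b i j')))) =
        (y i : ℂ) ^ (-(σ + τ * I)) * ((a i j : ℂ) ^ (σ + τ * I) * (b i j' : ℂ) ^ (σ + τ * I)) := by
      rw [sp_cpow (hy i hi), sp_cpow (ha i j), sp_cpow (hb i j'), ← Complex.exp_add,
        ← Complex.exp_add, Real.log_div (hy i hi).ne' (mul_pos (ha i j) (hb i j')).ne',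
        Real.log_mul (ha i j).ne' (hb i j').ne']
      congr 1
      push_cast
      ring
    rw [e3]
    ring
  rw [Finset.sum_congr rfl e2, ← Finset.mul_sum]
  calc _ ≤ ‖h τ‖ * (K * (1 + |τ|) ^ B) := mul_le_mul_of_nonneg_left (hK τ) (norm_nonneg _)
    _ = K * (‖h τ‖ * (1 + |τ|) ^ B) := by ring
    _ ≤ _ := (mul_le_mul_of_nonneg_left (h2 τ) hK0).trans (le_of_eq (by ring))

theorem sepQ : SepQ := by
  intro A
  obtain ⟨C, hC, H⟩ := sp_two A 0
  refine ⟨(C * Real.pi) ^ 2, by positivity, fun ι κ T J G σ g K s x a b hs hG hg ha hb hK => ?_⟩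
  obtain ⟨h, h1, h2, -, h3⟩ := H G σ g s hs hG hg
  have hK0 : 0 ≤ K :=
    (Finset.sum_nonneg fun i hi => by have := hb i hi; positivity).trans (hK 0)
  have hg0 : 0 ≤ g := (integral_nonneg fun v => by positivity).trans hg
  have i1 : ∀ i j, Integrable fun τ : ℝ => x i j *
      (h τ * Complex.exp (-((σ + τ * I) * Real.log (a j * b i)))) :=
    fun i j => (h1 _).const_mul _
  have e : ∀ i, ∑ j ∈ J, x i j * sm s G (Real.log (a j * b i)) = ∫ τ : ℝ, ∑ j ∈ J, x i j *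
      (h τ * Complex.exp (-((σ + τ * I) * Real.log (a j * b i)))) := fun i => by
    rw [integral_finsetSum _ fun j _ => i1 i j]
    exact Finset.sum_congr rfl fun j _ => by rw [integral_const_mul, h3]
  simp only [e]
  refine (sp_mink T (fun i _ => integrable_finsetSum J fun j _ => i1 i j)
    (sp_int_w (√K * (C * g)) s.im) (fun τ => by positivity)
    (Eventually.of_forall fun τ => ?_)).trans
    (le_of_eq (by rw [sp_integral_w, mul_pow, mul_pow, Real.sq_sqrt hK0]; ring))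
  have e2 : ∀ i ∈ T, ‖∑ j ∈ J, x i j *
      (h τ * Complex.exp (-((σ + τ * I) * Real.log (a j * b i))))‖ ^ 2 =
      ‖h τ‖ ^ 2 * (b i ^ (-(2 * σ)) * ‖∑ j ∈ J, x i j * (a j : ℂ) ^ (-(σ + τ * I))‖ ^ 2) :=
    fun i hi => by
    have e4 : b i ^ (-(2 * σ)) = (b i ^ (-σ)) ^ 2 := by
      rw [← Real.rpow_natCast, ← Real.rpow_mul (hb i hi).le]
      congr 1
      push_cast
      ring
    rw [e4, ← sp_norm_cpow (hb i hi) σ τ, ← mul_pow, ← mul_pow, ← norm_mul, ← norm_mul,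
      Finset.mul_sum, Finset.mul_sum]
    congr 2
    refine Finset.sum_congr rfl fun j hj => ?_
    have e3 : Complex.exp (-((σ + τ * I) * Real.log (a j * b i))) =
        (b i : ℂ) ^ (-(σ + τ * I)) * (a j : ℂ) ^ (-(σ + τ * I)) := by
      rw [sp_cpow (hb i hi), sp_cpow (ha j hj), ← Complex.exp_add,
        Real.log_mul (ha j hj).ne' (hb i hi).ne']
      congr 1
      push_cast
      ring
    rw [e3]
    ring
  rw [Finset.sum_congr rfl e2, ← Finset.mul_sum]
  calc _ ≤ (C * g * (1 + (τ - s.im) ^ 2)⁻¹) ^ 2 * K :=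
        (mul_le_mul_of_nonneg_left (hK τ) (sq_nonneg _)).trans (mul_le_mul_of_nonneg_right
          (pow_le_pow_left₀ (norm_nonneg _) (h2 τ) 2) hK0)
    _ = _ := by rw [mul_assoc √K, mul_pow √K, Real.sq_sqrt hK0]; ring

theorem sp_wt (B : ℕ) : ∃ C : ℝ, 0 ≤ C ∧ ∀ s : ℂ, |s.re| ≤ 3 → ∃ h : ℝ → ℂ,
    (∀ l : ℝ, Integrable fun τ : ℝ => h τ * Complex.exp (τ * I * l)) ∧
    (∀ τ, ‖h τ‖ ^ 2 * (1 + |τ|) ^ B ≤ C * (1 + ‖s‖) ^ B * ((1 + (τ - s.im) ^ 2)⁻¹) ^ 2) ∧
    ∀ y : ℝ, 0 < y → wt y s = ∫ τ : ℝ, h τ * Complex.exp (τ * I * Real.log y) := by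
  obtain ⟨C, hC, H⟩ := sp_two 3 B
  have hf : Continuous fun w : ℝ => V1 (Real.exp (-w)) := continuous_V1.comp (by fun_prop)
  have hc : HasCompactSupport fun w : ℝ => V1 (Real.exp (-w)) := by
    refine HasCompactSupport.intro (isCompact_Icc (a := -4) (b := 0)) fun w hw => ?_
    by_contra h
    obtain ⟨h1, h2⟩ := V1_supp h
    have h3 := Real.add_one_le_exp (-w)
    have h4 := Real.one_lt_exp_iff.1 h1
    exact hw ⟨by linarith, by linarith⟩
  have i0 := (sp_int hf hc (F := fun w => (Real.exp (3 * |w|) : ℝ)) (by fun_prop)).norm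
  generalize hg : ∫ w : ℝ, ‖V1 (Real.exp (-w)) * (Real.exp (3 * |w|) : ℝ)‖ = g
  have hg0 : 0 ≤ g := hg ▸ integral_nonneg fun _ => norm_nonneg _
  refine ⟨(C * g) ^ 2, by positivity, fun s hs => ?_⟩
  have i1 := sp_int hf hc (F := fun w => Complex.exp (-(s * w))) (by fun_prop)
  obtain ⟨h, h1, h2, h3, h4⟩ := H (fun w => V1 (Real.exp (-w)) * Complex.exp (-(s * w))) 0 g s
    (by simpa using hs) (by simpa using i1) (by
      rw [← hg]
      simp only [zero_mul, Real.exp_zero, mul_one]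
      refine integral_mono i1.norm i0 fun w => ?_
      simp only
      rw [norm_mul, norm_mul, Complex.norm_exp, Complex.norm_real, Real.norm_eq_abs,
        abs_of_pos (Real.exp_pos _)]
      refine mul_le_mul_of_nonneg_left (Real.exp_le_exp.2 ?_) (norm_nonneg _)
      rw [neg_re, re_mul_ofReal]
      exact (neg_le_abs _).trans (by
        rw [abs_mul]; exact mul_le_mul_of_nonneg_right hs (abs_nonneg _)))
  refine ⟨h, fun l => by simpa using h1 (-l), fun τ => ?_, fun y hy => ?_⟩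
  · have a1 := mul_le_mul (h2 τ) (h3 τ) (by positivity) (by positivity)
    have a2 : (1 + |s.im|) ^ B ≤ (1 + ‖s‖) ^ B :=
      pow_le_pow_left₀ (by positivity) (by linarith [abs_im_le_norm s]) B
    calc _ = ‖h τ‖ * (‖h τ‖ * (1 + |τ|) ^ B) := by ring
      _ ≤ _ := a1
      _ = (C * g) ^ 2 * (1 + |s.im|) ^ B * ((1 + (τ - s.im) ^ 2)⁻¹) ^ 2 := by ring
      _ ≤ _ := by gcongr
  · have e := h4 (-Real.log y)
    simp only [ofReal_zero, zero_add, ofReal_neg, mul_neg, neg_neg] at e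
    rw [← e, wt, V0, sm, sp_cpow hy, ← integral_mul_const]
    refine integral_congr_ae (Eventually.of_forall fun v => ?_)
    have e1 : Real.exp (-(v + -Real.log y)) = y * Real.exp (-v) := by
      rw [neg_add, neg_neg, Real.exp_add, Real.exp_log hy, mul_comm]
    have e2 : Complex.exp (s * Real.log y) =
        Complex.exp (s * v) * Complex.exp (-(s * (v + -Real.log y : ℝ))) := by
      rw [← Complex.exp_add]
      congr 1
      push_cast
      ring
    simp only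
    rw [e1, e2]
    ring

theorem sp_unit {y X Y : ℝ} (hy : 0 < y) (hX : 0 < X) (h1 : X ≤ Y) (h2 : Y ≤ 2 * X) (s : ℂ) :
    (∫ v : ℝ, V0 (Real.exp v)) * wt (y / Y) s =
      ∫ u in Set.Icc (Real.log (1 / 16)) (Real.log 32), V0 (y / (X * Real.exp u)) * wt (y / Y) s := by
  by_cases h : wt (y / Y) s = 0
  · simp [h]
  obtain ⟨h3, h4⟩ := wt_supp h
  have hY := hX.trans_le h1
  rw [lt_div_iff₀ hY] at h3
  rw [div_lt_iff₀ hY] at h4
  rw [integral_mul_const, setIntegral_eq_integral_of_forall_compl_eq_zero, ←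
    integral_sub_left_eq_self (fun v : ℝ => V0 (Real.exp v)) volume (Real.log (y / X))]
  · congr 1
    refine integral_congr_ae (Eventually.of_forall fun u => ?_)
    simp only
    rw [Real.exp_sub, Real.exp_log (div_pos hy hX), div_div]
  · intro u hu
    by_contra h0
    obtain ⟨h5, h6⟩ := V0_supp h0
    have hp := mul_pos hX (Real.exp_pos u)
    rw [lt_div_iff₀ hp] at h5
    rw [div_lt_iff₀ hp] at h6
    refine hu ⟨(Real.log_le_iff_le_exp (by norm_num)).2 ?_,
      (Real.le_log_iff_exp_le (by norm_num)).2 ?_⟩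
    · exact le_of_mul_le_mul_left (by linarith) hX
    · exact le_of_mul_le_mul_left (by linarith) hX

theorem sp_shift {X X' Y : ℝ} (hX' : 0 < X') (hY : 0 < Y) (h : X' ≤ 32 * X) (γ : Finset P → ℂ)
    (a : ℂ) (τ : ℝ) :
    ‖∑ c ∈ sqf (512 * X), γ c * (V0 (Ns c / X') * (a * Complex.exp (τ * I * Real.log (Ns c / Y))))‖
      = ‖a‖ * ‖S γ X' (τ * I)‖ := by
  rw [S_eq_sum hX' (sqf_mono (by linarith : 16 * X' ≤ 512 * X)), ← one_mul ‖a‖,
    ← sp_norm_exp τ (Real.log (X' / Y)), ← norm_mul, ← norm_mul, Finset.mul_sum]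
  congr 1
  refine Finset.sum_congr rfl fun c _ => ?_
  have hc := Ns_pos c
  have e : Complex.exp (τ * I * Real.log (Ns c / Y)) =
      Complex.exp (τ * I * Real.log (X' / Y)) * Complex.exp (τ * I * Real.log (Ns c / X')) := by
    rw [← Complex.exp_add, Real.log_div hc.ne' hY.ne', Real.log_div hX'.ne' hY.ne',
      Real.log_div hc.ne' hX'.ne']
    congr 1
    push_cast
    ring
  rw [e, wt, sp_cpow (div_pos hc hX')]
  ring

theorem resc : Resc := by
  intro B
  obtain ⟨C, hC, H⟩ := sp_wt B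
  have hc0 : 0 < ‖∫ v : ℝ, V0 (Real.exp v)‖ ^ 2 := pow_pos (norm_pos_iff.2 integral_V0_exp_ne) 2
  generalize hm : (volume.restrict (Set.Icc (Real.log (1 / 16)) (Real.log 32))).real Set.univ = m
  refine ⟨(m * Real.pi) ^ 2 * C / ‖∫ v : ℝ, V0 (Real.exp v)‖ ^ 2 + 1, by positivity,
    fun ι J γ Xi X K s hX hs hXi hK => ?_⟩
  obtain ⟨h, h1, h2, h3⟩ := H s hs
  have hK0 : 0 ≤ K := by
    have := (Finset.sum_nonneg fun i _ => sq_nonneg _).trans (hK X 0 (by linarith) (by linarith))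
    simpa using this
  have hD : 0 ≤ K * (C * (1 + ‖s‖) ^ B) := by positivity
  have i1 : ∀ i c, Integrable (fun u : ℝ => γ i c * (V0 (Ns c / (X * Real.exp u)) *
      wt (Ns c / Xi i) s)) (volume.restrict (Set.Icc (Real.log (1 / 16)) (Real.log 32))) :=
    fun i c => Continuous.integrableOn_Icc (continuous_const.mul ((continuous_V0.comp
      (continuous_const.div (by fun_prop) fun u => (mul_pos hX (Real.exp_pos u)).ne')).mul
        continuous_const))
  have e1 : ∀ i ∈ J, ‖∫ v : ℝ, V0 (Real.exp v)‖ ^ 2 * ‖S (γ i) (Xi i) s‖ ^ 2 =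
      ‖∫ u in Set.Icc (Real.log (1 / 16)) (Real.log 32), ∑ c ∈ sqf (512 * X),
        γ i c * (V0 (Ns c / (X * Real.exp u)) * wt (Ns c / Xi i) s)‖ ^ 2 := fun i hi => by
    obtain ⟨a1, a2⟩ := hXi i hi
    rw [← mul_pow, ← norm_mul, integral_finsetSum _ fun c _ => i1 i c,
      S_eq_sum (hX.trans_le a1) (sqf_mono (by linarith : 16 * Xi i ≤ 512 * X)), Finset.mul_sum]
    congr 2
    refine Finset.sum_congr rfl fun c _ => ?_
    rw [integral_const_mul, ← sp_unit (Ns_pos c) hX a1 a2]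
    ring
  have key := sp_mink J (fun i _ => integrable_finsetSum (sqf (512 * X)) fun c _ => i1 i c)
    (integrable_const (√(K * (C * (1 + ‖s‖) ^ B)) * Real.pi)) (fun _ => by positivity)
    ((ae_restrict_mem measurableSet_Icc).mono fun u hu => by
      have b1 := (Real.log_le_iff_le_exp (by norm_num)).1 hu.1
      have b2 := (Real.le_log_iff_exp_le (by norm_num)).1 hu.2
      have b3 : X / 16 ≤ X * Real.exp u := by nlinarith
      have b4 : X * Real.exp u ≤ 32 * X := by nlinarith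
      have hp := mul_pos hX (Real.exp_pos u)
      generalize X * Real.exp u = X' at *
      have i2 : ∀ i c, Integrable fun τ : ℝ => γ i c * (V0 (Ns c / X') *
          (h τ * Complex.exp (τ * I * Real.log (Ns c / Xi i)))) :=
        fun i c => ((h1 _).const_mul _).const_mul _
      have e2 : ∀ i ∈ J, ‖∑ c ∈ sqf (512 * X), γ i c * (V0 (Ns c / X') * wt (Ns c / Xi i) s)‖ ^ 2 =
          ‖∫ τ : ℝ, ∑ c ∈ sqf (512 * X), γ i c * (V0 (Ns c / X') *
            (h τ * Complex.exp (τ * I * Real.log (Ns c / Xi i))))‖ ^ 2 := fun i hi => by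
        rw [integral_finsetSum _ fun c _ => i2 i c]
        congr 2
        refine Finset.sum_congr rfl fun c _ => ?_
        rw [integral_const_mul, integral_const_mul,
          h3 _ (div_pos (Ns_pos c) (hX.trans_le (hXi i hi).1))]
      rw [Finset.sum_congr rfl e2, ← sp_integral_w _ s.im]
      refine sp_mink J (fun i _ => integrable_finsetSum _ fun c _ => i2 i c) (sp_int_w _ _)
        (fun τ => by positivity) (Eventually.of_forall fun τ => ?_)
      rw [Finset.sum_congr rfl fun i hi => by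
        rw [sp_shift hp (hX.trans_le (hXi i hi).1) b4, mul_pow], ← Finset.mul_sum, mul_pow,
        Real.sq_sqrt hD]
      calc _ ≤ ‖h τ‖ ^ 2 * (K * (1 + |τ|) ^ B) :=
            mul_le_mul_of_nonneg_left (hK X' τ b3 b4) (sq_nonneg _)
        _ = K * (‖h τ‖ ^ 2 * (1 + |τ|) ^ B) := by ring
        _ ≤ _ := (mul_le_mul_of_nonneg_left (h2 τ) hK0).trans (le_of_eq (by ring)))
  rw [← Finset.sum_congr rfl e1, ← Finset.mul_sum, integral_const, hm, smul_eq_mul, mul_pow,
    mul_pow, Real.sq_sqrt hD, ← le_div_iff₀' hc0] at key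
  refine key.trans ?_
  have hp : 0 ≤ K * (1 + ‖s‖) ^ B := by positivity
  calc _ = (m * Real.pi) ^ 2 * C / ‖∫ v : ℝ, V0 (Real.exp v)‖ ^ 2 * (K * (1 + ‖s‖) ^ B) := by ring
    _ ≤ _ := by rw [mul_assoc (_ + 1), add_mul]; linarith

end QRH
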