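import Mathlib

/-! Stationary phase in a finite chain ring (abstract part of `SPh`). -/

noncomputable section
namespace QRH.SPha
open scoped Classical
open Finset

theorem sum_inj {α : Type*} {s : Finset α} (g : α → α) (hm : ∀ x ∈ s, g x ∈ s)
    (hi : Set.InjOn g s) (f : α → ℂ) : ∑ x ∈ s, f (g x) = ∑ x ∈ s, f x :=
  sum_nbij g hm hi (surjOn_of_injOn_of_card_le g hm hi le_rfl) fun _ _ => rfl

variable {R : Type*} [CommRing R] [Fintype R]

/-- a primitive additive character -/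
structure Prim (e : R → ℂ) : Prop where
  add : ∀ x y, e (x + y) = e x * e y
  sum : ∀ t, ∑ x, e (x * t) = if t = 0 then (Fintype.card R : ℂ) else 0

theorem Prim.unit {e : R → ℂ} (h : Prim e) {u : R} (hu : IsUnit u) : Prim fun z => e (z * u) :=
  ⟨fun x y => by rw [add_mul, h.add], fun t => by
    simp only [mul_assoc]; rw [h.sum]; simp only [hu.mul_left_eq_zero]⟩

theorem card_ne : (Fintype.card R : ℂ) ≠ 0 := Nat.cast_ne_zero.2 Fintype.card_ne_zero

theorem loc {α : Type*} [Fintype α] {e : R → ℂ} (he : Prim e) (G : α → ℂ) (c d : α → R)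
    (σ : R → R → α → α) (hσ : ∀ s t, Function.Bijective (σ s t))
    (hG : ∀ s t z, G (σ s t z) = G z * (e (s * c z) * e (t * d z))) :
    ∑ z, G z = ∑ z, if c z = 0 ∧ d z = 0 then G z else 0 := by
  refine mul_left_cancel₀ (mul_ne_zero (card_ne (R := R)) (card_ne (R := R))) ?_
  have h1 : ∑ s : R, ∑ t : R, ∑ z, G (σ s t z) =
      (Fintype.card R : ℂ) * Fintype.card R * ∑ z, G z := by
    simp only [(hσ _ _).sum_comp G, sum_const, card_univ, nsmul_eq_mul, mul_assoc]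
  rw [← h1, mul_sum]
  simp only [hG]
  rw [sum_congr rfl fun s _ => sum_comm, sum_comm]
  refine sum_congr rfl fun z _ => ?_
  simp only [← mul_sum, ← sum_mul, he.sum]
  by_cases h1 : c z = 0 <;> by_cases h2 : d z = 0 <;> simp [h1, h2, mul_comm]

/-- the ring data -/
structure Ring' (π ε ω : R) : Prop where
  loc : ∀ x, IsUnit x ↔ ¬ π ∣ x
  eps : ∀ z, ε * z = 0 ↔ π ∣ z
  dvd : π ∣ ε
  ann : ∀ z, π * z = 0 → π ∣ z
  om : ω ^ 2 + ω + 1 = 0
  three : ¬ π ∣ 3

variable {π ε ω : R}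

theorem Ring'.one (h : Ring' π ε ω) : ¬ π ∣ 1 := (h.loc 1).1 isUnit_one

theorem Ring'.unit_add (h : Ring' π ε ω) {x a : R} (hx : ¬ π ∣ x) (ha : π ∣ a) :
    IsUnit (x + a) := (h.loc _).2 fun h' => hx ((dvd_add_left ha).1 h')

theorem fib (π : R) (f : R → ℂ) : ∑ v, f (π * v) =
    (#{z : R | π * z = 0} : ℂ) * ∑ V with π ∣ V, f V := by
  rw [← sum_fiberwise_of_maps_to (s := univ) (t := ({V | π ∣ V} : Finset R))
    (g := fun v => π * v) fun v _ => by simp, mul_sum]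
  refine sum_congr rfl fun V hV => ?_
  obtain ⟨v₀, rfl⟩ : π ∣ V := by simpa using hV
  rw [sum_congr rfl fun v hv => by rw [(mem_filter.1 hv).2], sum_const, nsmul_eq_mul]
  congr 2
  refine card_nbij' (· - v₀) (· + v₀) (fun v hv => ?_) (fun v hv => ?_) (fun v _ => by simp)
    fun v _ => by simp
  · simp only [coe_filter, mem_univ, true_and, Set.mem_ofPred_eq] at hv ⊢
    rw [mul_sub, hv, sub_self]
  · simp only [coe_filter, mem_univ, true_and, Set.mem_ofPred_eq] at hv ⊢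
    rw [mul_add, hv, zero_add]

theorem hyp (h : Ring' π ε ω) {e : R → ℂ} (he : Prim e) :
    ∑ U with π ∣ U, ∑ V with π ∣ V, e (U * V) = Fintype.card R := by
  have h0 : (#{z : R | π * z = 0} : ℂ) ≠ 0 :=
    Nat.cast_ne_zero.2 (card_ne_zero.2 ⟨0, by simp⟩)
  refine mul_left_cancel₀ h0 ?_
  rw [mul_sum, sum_congr rfl fun U _ => (fib π fun V => e (U * V)).symm,
    sum_congr rfl fun U _ => show ∑ v, e (U * (π * v)) = _ from
      (sum_congr rfl fun v _ => by rw [show U * (π * v) = v * (π * U) by ring]).trans (he.sum _),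
    ← sum_filter, sum_const, nsmul_eq_mul, filter_filter]
  congr 3
  exact filter_congr fun z _ => ⟨fun h => h.2, fun h' => ⟨h.ann z h', h'⟩⟩

/-- the sum over the critical class -/
theorem crit (h : Ring' π ε ω) {e : R → ℂ} (he : Prim e) :
    ∑ z ∈ ({a | π ∣ a} : Finset R) ×ˢ ({a | π ∣ a} : Finset R),
      e ((1 + z.1) ^ 3 * Ring.inverse (1 + z.2) + (1 + z.2) + 1 - 3 * (1 + z.1)) =
      Fintype.card R := by
  have h3 : ∀ {a : R}, π ∣ a → IsUnit (3 + a) := fun ha => h.unit_add h.three ha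
  have h1 : ∀ {a : R}, π ∣ a → IsUnit (1 + a) := fun ha => h.unit_add h.one ha
  have hω := h.om
  rw [← hyp h he, ← sum_product', ← sum_inj
    (fun z : R × R => ((1 + z.1) * (1 + z.2) - 1, (1 + z.2) ^ 3 - 1)), ← sum_inj
    (fun z : R × R => (z.1 + ω * z.2, (z.1 + ω ^ 2 * z.2) * (3 + (z.1 + z.2))))
    (f := fun z => e (z.1 * z.2))]
  · refine sum_congr rfl fun z hz => congrArg e ?_
    simp only [mem_product, mem_filter, mem_univ, true_and] at hz
    have := Ring.mul_inverse_cancel _ ((h1 hz.2).pow 3)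
    simp only [add_sub_cancel]
    linear_combination (1 + z.1) ^ 3 * this + (-(z.1 ^ 2 * z.2) - 3 * z.1 * z.2 - z.1 * z.2 ^ 2 -
      (ω - 1) * z.2 ^ 2 * (3 + z.1 + z.2)) * hω
  · rintro ⟨a, b⟩ hz
    simp only [mem_product, mem_filter, mem_univ, true_and] at hz ⊢
    exact ⟨dvd_add hz.1 (hz.2.mul_left _), (dvd_add hz.1 (hz.2.mul_left _)).mul_right _⟩
  · rintro ⟨a, b⟩ hz ⟨a', b'⟩ hz' hh
    simp only [coe_product, Set.mem_prod, coe_filter, mem_univ, true_and, Set.mem_ofPred_eq,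
      Prod.mk.injEq] at hz hz' hh ⊢
    obtain ⟨e1, e2⟩ := hh
    have hu := h3 (a := -(ω * (a + ω * b)) - ω ^ 2 * (a + ω ^ 2 * b + (a' + ω ^ 2 * b')))
      (dvd_sub (dvd_neg.2 ((dvd_add hz.1 (hz.2.mul_left _)).mul_left _))
        ((dvd_add (dvd_add hz.1 (hz.2.mul_left _)) (dvd_add hz'.1 (hz'.2.mul_left _))).mul_left _))
    have e3 : a + ω ^ 2 * b - (a' + ω ^ 2 * b') = 0 := by
      refine hu.mul_left_eq_zero.1 ?_
      linear_combination e2 + ω * (a' + ω ^ 2 * b') * e1 +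
        (-(a + ω ^ 2 * b) * (a + (ω ^ 2 - ω + 1) * b) +
          (a' + ω ^ 2 * b') * (a' + (ω ^ 2 - ω + 1) * b')) * hω
    have e4 : b - b' = 0 := by
      refine ((h.loc 3).2 h.three).mul_left_eq_zero.1 ?_
      linear_combination (ω ^ 2 - ω) * (e1 - e3) + (b - b') * (ω ^ 2 - 3 * ω + 3) * hω
    exact ⟨by linear_combination e1 - ω * e4, by linear_combination e4⟩
  · rintro ⟨a, b⟩ hz
    simp only [mem_product, mem_filter, mem_univ, true_and] at hz ⊢
    refine ⟨?_, ?_⟩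
    · rw [show (1 + a) * (1 + b) - 1 = a + b * (1 + a) by ring]
      exact dvd_add hz.1 (hz.2.mul_right _)
    · rw [show (1 + b) ^ 3 - 1 = b * (3 + 3 * b + b ^ 2) by ring]
      exact hz.2.mul_right _
  · rintro ⟨a, b⟩ hz ⟨a', b'⟩ hz' hh
    simp only [coe_product, Set.mem_prod, coe_filter, mem_univ, true_and, Set.mem_ofPred_eq,
      Prod.mk.injEq] at hz hz' hh ⊢
    obtain ⟨e1, e2⟩ := hh
    have hu := h3 (a := b * (3 + b + b') + b' * (3 + b'))
      (dvd_add (hz.2.mul_right _) (hz'.2.mul_right _))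
    have e4 : b - b' = 0 := hu.mul_left_eq_zero.1 (by linear_combination e2)
    have e3 : a - a' = 0 :=
      (h1 hz.2).mul_left_eq_zero.1 (by linear_combination e1 - (1 + a') * e4)
    exact ⟨by linear_combination e3, by linear_combination e4⟩

/-- the summand -/
def G (π : R) (e χ : R → ℂ) (δ ξ : R) (z : R × R) : ℂ :=
  if ¬ π ∣ z.1 ∧ ¬ π ∣ z.2 then
    χ z.1 * e (z.2 ^ 3 * Ring.inverse z.1 + (z.1 * δ + 3 * z.2 * ξ)) else 0

theorem inv_eq {x y : R} (h : x * y = 1) : Ring.inverse x = y := by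
  have hu : IsUnit x := IsUnit.of_mul_eq_one y h
  rw [← one_mul (Ring.inverse x), ← h, mul_comm x, Ring.mul_inverse_cancel_right _ _ hu]

theorem locG (h : Ring' π ε ω) {e χ : R → ℂ} (he : Prim e)
    (hχ : ∀ y y', π ∣ y - y' → χ y = χ y') (δ ξ : R) :
    ∑ z, G π e χ δ ξ z = ∑ z : R × R, if π ∣ z.1 * δ - z.2 ^ 3 * Ring.inverse z.1 ∧
      π ∣ z.2 ^ 3 * Ring.inverse z.1 + z.2 * ξ then G π e χ δ ξ z else 0 := by
  have hεε : ε * ε = 0 := (h.eps ε).2 h.dvd
  have hu : ∀ s, IsUnit (1 + ε * s) := fun s => h.unit_add h.one (h.dvd.mul_right s)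
  rw [loc he (G π e χ δ ξ) (fun z => ε * (z.1 * δ - z.2 ^ 3 * Ring.inverse z.1))
    (fun z => ε * (3 * (z.2 ^ 3 * Ring.inverse z.1 + z.2 * ξ)))
    (fun s t z => (z.1 * (1 + ε * s), z.2 * (1 + ε * t)))]
  · simp only [h.eps, ((h.loc 3).2 h.three).dvd_mul_left]
  · exact fun s t => (IsUnit.isUnit_iff_mulRight_bijective.1 (hu s)).prodMap
      (IsUnit.isUnit_iff_mulRight_bijective.1 (hu t))
  · rintro s t ⟨y, x⟩
    simp only [G, (hu _).dvd_mul_right]
    split_ifs with hc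
    · have hi : Ring.inverse (1 + ε * s) = 1 - ε * s :=
        inv_eq (by linear_combination -s ^ 2 * hεε)
      rw [hχ (y * (1 + ε * s)) y ⟨y * h.dvd.choose * s, by
        linear_combination y * s * h.dvd.choose_spec⟩,
        mul_assoc (χ y), ← he.add, ← he.add, Ring.mul_inverse_rev, hi]
      congr 2
      linear_combination x ^ 3 * Ring.inverse y * (3 * t ^ 2 + ε * t ^ 3 - 3 * s * t -
        3 * ε * s * t ^ 2 - ε ^ 2 * s * t ^ 3) * hεε
    · rw [zero_mul]

theorem special (h : Ring' π ε ω) {e χ : R → ℂ} (he : Prim e)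
    (hχ : ∀ y y', π ∣ y - y' → χ y = χ y') :
    ∑ z, G π e χ 1 (-1) z = Fintype.card R * (χ 1 * e (-1)) := by
  have hb : Function.Bijective fun z : R × R => (1 + z.2, 1 + z.1) :=
    ((Equiv.addLeft (1 : R)).bijective.prodMap (Equiv.addLeft (1 : R)).bijective).comp
      Prod.swap_bijective
  rw [locG h he hχ, ← crit h he, sum_mul, ← hb.sum_comp, ← filter_product, univ_product_univ,
    sum_filter]
  refine sum_congr rfl ?_
  rintro ⟨a, b⟩ -
  simp only [G]
  by_cases hc : π ∣ a ∧ π ∣ b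
  · have ua := h.unit_add h.one hc.1
    have ub := h.unit_add h.one hc.2
    have hi := Ring.mul_inverse_cancel _ ub
    obtain ⟨⟨a, rfl⟩, ⟨b, rfl⟩⟩ := hc
    rw [if_pos ⟨⟨b + (b - a * (3 + 3 * π * a + π ^ 2 * a ^ 2)) * Ring.inverse (1 + π * b), by
        linear_combination -hi⟩, ⟨(a * (3 + 3 * π * a + π ^ 2 * a ^ 2) - b) *
        Ring.inverse (1 + π * b) - a, by linear_combination hi⟩⟩,
      if_pos ⟨(h.loc _).1 ub, (h.loc _).1 ua⟩, if_pos ⟨dvd_mul_right _ _, dvd_mul_right _ _⟩,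
      hχ _ 1 ⟨b, by ring⟩, mul_left_comm, ← he.add]
    congr 2
    ring
  · rw [if_neg hc]
    split_ifs with h1 h2
    · refine (hc ?_).elim
      have ub := (h.loc _).2 h2.1
      have ua := (h.loc _).2 h2.2
      have hi := Ring.mul_inverse_cancel _ ub
      have e1 : π ∣ b - a := by
        convert dvd_add h1.1 h1.2 using 1
        ring
      have e2 : π ∣ a := by
        refine (ua.pow 2).dvd_mul_right.1 ?_
        rw [show a * (1 + a) ^ 2 = ((1 + a) ^ 3 * Ring.inverse (1 + b) + (1 + a) * -1) * (1 + b) +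
          (b - a) * (1 + a) by linear_combination -(1 + a) ^ 3 * hi]
        exact dvd_add (h1.2.mul_right _) (e1.mul_right _)
      exact ⟨e2, by simpa using dvd_add e1 e2⟩
    · rfl
    · rfl

theorem main (h : Ring' π ε ω) {e χ : R → ℂ} (he : Prim e)
    (hχ : ∀ y y', π ∣ y - y' → χ y = χ y') (hχ3 : ∀ y t, IsUnit t → χ (y * t ^ 3) = χ y)
    (δ ξ : R) : ∑ z, G π e χ δ ξ z = if ¬ π ∣ δ ∧ ¬ π ∣ ξ then
      Fintype.card R * (χ δ * e (ξ ^ 3 * Ring.inverse δ)) else 0 := by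
  split_ifs with hc
  · have uδ := (h.loc _).2 hc.1
    have uξ := (h.loc _).2 hc.2
    obtain ⟨d, hd⟩ := uδ.exists_right_inv
    obtain ⟨k, hk⟩ := uξ.exists_right_inv
    have ud : IsUnit d := IsUnit.of_mul_eq_one δ (by rw [mul_comm, hd])
    have ut : IsUnit (-(ξ * d)) := (uξ.mul ud).neg
    have uy : IsUnit (δ * (-(ξ * d)) ^ 3) := uδ.mul (ut.pow 3)
    have ux : IsUnit (ξ ^ 2 * d) := (uξ.pow 2).mul ud
    have hi : Ring.inverse (δ * (-(ξ * d)) ^ 3) = -(δ ^ 2 * k ^ 3) := inv_eq (by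
      linear_combination (ξ * k) ^ 3 * ((δ * d) ^ 2 + δ * d + 1) * hd +
        ((ξ * k) ^ 2 + ξ * k + 1) * hk)
    have := special h (he.unit ((uξ.pow 3).mul ud).neg) (χ := fun y => χ (δ * (-(ξ * d)) ^ 3 * y))
      fun y y' hy => hχ _ _ (by rw [← mul_sub]; exact hy.mul_left _)
    rw [← ((IsUnit.isUnit_iff_mulLeft_bijective.1 uy).prodMap
      (IsUnit.isUnit_iff_mulLeft_bijective.1 ux)).sum_comp, inv_eq hd]
    simp only [mul_one, hχ3 δ _ ut, neg_mul_neg, one_mul] at this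
    rw [← this]
    refine sum_congr rfl ?_
    rintro ⟨y, x⟩ -
    simp only [G, Prod.map, uy.dvd_mul_left, ux.dvd_mul_left, Ring.mul_inverse_rev _ y, hi]
    congr 3
    linear_combination (-(ξ ^ 6 * d * k ^ 3 * (δ * d + 1) * x ^ 3 * Ring.inverse y) -
      ξ ^ 3 * d * (δ * d + 1) * y) * hd -
      ξ ^ 3 * d * x ^ 3 * Ring.inverse y * ((ξ * k) ^ 2 + ξ * k + 1) * hk
  · rw [locG h he hχ]
    refine sum_eq_zero ?_
    rintro ⟨y, x⟩ -
    simp only [G]
    split_ifs with h1 h2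
    · refine (hc ?_).elim
      have hu : ¬ π ∣ x ^ 3 * Ring.inverse y :=
        (h.loc _).1 ((((h.loc _).2 h2.2).pow 3).mul ((h.loc _).2 h2.1).ringInverse)
      exact ⟨fun h' => hu ((dvd_sub_right (h'.mul_left y)).1 h1.1),
        fun h' => hu ((dvd_add_left (h'.mul_left x)).1 h1.2)⟩
    · rfl
    · rfl

end QRH.SPha
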