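import Vale.Agent.P026.Sym
import Vale.Agent.P026.Rearr
import Vale.Agent.P026.Wt

noncomputable section
namespace QRH
open Complex MeasureTheory Filter
open scoped ComplexConjugate Classical ContDiff Topology

theorem sa_fib {ι : Type} (J : Finset ι) (n : ι → E) (T : Finset E) {μ : ℝ} (G : E → ℝ)
    (hG : ∀ x, 0 ≤ G x) (hn : ∀ i ∈ J, n i ∈ T)
    (hμ : ∀ n0, ((J.filter fun i => n i = n0).card : ℝ) ≤ μ) :
    ∑ i ∈ J, G (n i) ≤ μ * ∑ x ∈ T, G x := by
  rw [← Finset.sum_fiberwise_of_maps_to hn, Finset.mul_sum]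
  refine Finset.sum_le_sum fun x _ => ?_
  rw [Finset.sum_congr rfl fun i hi => congrArg G (Finset.mem_filter.1 hi).2, Finset.sum_const,
    nsmul_eq_mul]
  exact mul_le_mul_of_nonneg_right (hμ x) (hG x)

theorem sa_norm_cA (Q : ℕ) (a ρ n : E) (s : Finset P) : ‖cA Q a ρ n s‖ ≤ 1 := by
  simp only [cA, norm_mul, RCLike.norm_conj, norm_mu, mul_one]
  exact mul_le_one₀ (mul_le_one₀ (norm_cl_le _ _ _) (norm_nonneg _) (norm_xs_le ch_c6 _ _))
    (norm_nonneg _) (norm_xs_le ch_c6 _ _)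

theorem sa_empty (hR : Resc) {Q k : ℕ} (hQ : GoodQ Q k) {η : ℝ} (hη : 0 ≤ η) (h : HA Q η)
    {ε : ℝ} (hε : 0 < ε) : ∃ (B : ℕ) (C : ℝ), 0 < C ∧
    ∀ (ι : Type) (J : Finset ι) (n a : ι → E) (Xi : ι → ℝ) (μ Z X N : ℝ) (s : ℂ) (ρ : E),
      0 < X → X ≤ Z → 1 ≤ N → N ≤ Z → |s.re| ≤ 3 → ρ ≠ 0 → Rr ρ ≤ Z →
      (∀ i ∈ J, n i ∈ ball N ∧ IsCoprime (a i) Q ∧ X ≤ Xi i ∧ Xi i ≤ 2 * X) →
      (∀ n0, ((J.filter fun i => n i = n0).card : ℝ) ≤ μ) →
      ∑ i ∈ J, ‖S (cA Q (a i) ρ (n i)) (Xi i) s‖ ^ 2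
        ≤ C * μ * Z ^ ε * (1 + ‖s‖) ^ B * (X * (N + X ^ (1 + η) * Rr ρ)) := by
  obtain ⟨B, C, hC, hA⟩ := h ε hε
  obtain ⟨C1, hC1, hres⟩ := hR B
  obtain ⟨C2, hC2, hS⟩ := norm_S_le
  have hQ0 : (Q : E) ≠ 0 := fun h0 => hQ.ne_zero (by
    have := nm_natCast Q
    rw [h0, nm_zero] at this
    exact pow_eq_zero_iff two_ne_zero |>.1 this.symm)
  obtain ⟨D, hD, hD1, hD2⟩ : ∃ D : ℝ, 0 < D ∧ 384 * C2 ^ 2 ≤ D ∧
      (reps Q).card * (C * 32 ^ ε * (32 * 32 ^ (1 + η))) ≤ D :=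
    ⟨384 * C2 ^ 2 + (reps Q).card * (C * 32 ^ ε * (32 * 32 ^ (1 + η))), by positivity,
      le_add_of_nonneg_right (by positivity), le_add_of_nonneg_left (by positivity)⟩
  refine ⟨B, C1 * D, by positivity, fun ι J n a Xi μ Z X N s ρ hX hXZ hN hNZ hs hρ hRZ hJ hμ => ?_⟩
  have hμ0 : 0 ≤ μ := (Nat.cast_nonneg _).trans (hμ 0)
  have hZ : 1 ≤ Z := hN.trans hNZ
  have hR1 := one_le_Rr ρ
  refine (hres ι J _ Xi X (D * μ * Z ^ ε * (X * (N + X ^ (1 + η) * Rr ρ))) s hX hs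
    (fun i hi => (hJ i hi).2.2) fun X' τ h1 h2 => ?_).trans (le_of_eq (by ring))
  have hX' : 0 < X' := lt_of_lt_of_le (by positivity) h1
  rcases lt_or_ge X' 1 with h3 | h3
  · have h4 := sa_fib J n (ball N) (fun _ => C2 ^ 2 * (32 * X)) (fun _ => by positivity)
      (fun i hi => (hJ i hi).1) hμ
    refine (Finset.sum_le_sum fun i _ => ?_).trans (h4.trans ?_)
    · have h5 := pow_le_pow_left₀ (norm_nonneg _)
        (hS _ X' (τ * I) hX' (sa_norm_cA Q (a i) ρ (n i)) (by simp)) 2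
      rw [mul_pow] at h5
      exact h5.trans (mul_le_mul_of_nonneg_left (by nlinarith) (sq_nonneg _))
    · rw [Finset.sum_const, nsmul_eq_mul]
      have h5 := card_ball_le (R := N) (by linarith)
      have h6 : 1 ≤ Z ^ ε := Real.one_le_rpow hZ hε.le
      have h7 : 1 ≤ (1 + |τ|) ^ B := one_le_pow₀ (by linarith [abs_nonneg τ])
      calc _ ≤ μ * (12 * N * (C2 ^ 2 * (32 * X))) := by gcongr
        _ = 384 * C2 ^ 2 * μ * 1 * (X * (N + 0)) * 1 := by ring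
        _ ≤ _ := by gcongr; positivity
  · have h4 := sa_fib J n (ball N) (fun x => ∑ r ∈ reps Q with IsCoprime r (Q : E),
      ‖S (cA Q r ρ x) X' (τ * I)‖ ^ 2) (fun _ => by positivity) (fun i hi => (hJ i hi).1) hμ
    refine (Finset.sum_le_sum fun i hi => ?_).trans (h4.trans ?_)
    · obtain ⟨r, hr, c, hc⟩ := exists_rep hQ0 (a i)
      have h5 : cA Q (a i) ρ (n i) = cA Q r ρ (n i) := by
        funext t; simp only [cA, cl_congr ⟨c, hc⟩]
      have h6 : IsCoprime r (Q : E) := by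
        have h7 := (hJ i hi).2.1
        rw [show a i = r + (Q : E) * c by rw [← hc]; ring] at h7
        exact h7.of_add_mul_left_left
      rw [h5]
      exact Finset.single_le_sum (f := fun r => ‖S (cA Q r ρ (n i)) X' (τ * I)‖ ^ 2)
        (fun _ _ => by positivity) (Finset.mem_filter.2 ⟨hr, h6⟩)
    · rw [Finset.sum_comm]
      have h5 := Finset.sum_le_card_nsmul ((reps Q).filter fun r => IsCoprime r (Q : E)) _ _
        fun r hr => hA (32 * Z) X' N τ r ρ h3 (by linarith) hN (by linarith)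
          (Finset.mem_filter.1 hr).2 hρ (by linarith)
      rw [nsmul_eq_mul, Real.mul_rpow (by norm_num) (by linarith)] at h5
      have h6 : (((reps Q).filter fun r => IsCoprime r (Q : E)).card : ℝ) ≤ (reps Q).card := by
        exact_mod_cast Finset.card_filter_le _ _
      have h7 : X' ^ (1 + η) ≤ 32 ^ (1 + η) * X ^ (1 + η) := by
        rw [← Real.mul_rpow (by norm_num) hX.le]
        exact Real.rpow_le_rpow hX'.le h2 (by linarith)
      have h8 : N ≤ 32 ^ (1 + η) * N :=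
        le_mul_of_one_le_left (by linarith) (Real.one_le_rpow (by norm_num) (by linarith))
      calc _ ≤ μ * ((reps Q).card * (C * (32 ^ ε * Z ^ ε) * (1 + |τ|) ^ B *
            (32 * X * (32 ^ (1 + η) * N + 32 ^ (1 + η) * X ^ (1 + η) * Rr ρ)))) := by
            refine mul_le_mul_of_nonneg_left (h5.trans ?_) hμ0
            gcongr
        _ = (reps Q).card * (C * 32 ^ ε * (32 * 32 ^ (1 + η))) * μ * Z ^ ε *
            (X * (N + X ^ (1 + η) * Rr ρ)) * (1 + |τ|) ^ B := by ring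
        _ ≤ _ := by gcongr

theorem sa_split {Q : ℕ} {a : E} (ha : IsCoprime a Q) (ρ n : E) {K : Finset P} {p : P}
    (hp : p ∉ K) (X : ℝ) (s : ℂ) : ∃ (g : ℂ) (a' : E), ‖g‖ ≤ 1 ∧ IsCoprime a' Q ∧
    S (cAK Q a ρ (insert p K) n) X s =
      S (cAK Q a ρ K n) X s + g * S (cAK Q a' ρ (insert p K) n) (X / Ns {p}) s := by
  obtain ⟨g, a', hg, ha', hcl⟩ : ∃ (g : ℂ) (a' : E), ‖g‖ ≤ 1 ∧ IsCoprime a' Q ∧
      ∀ c, Disjoint {p} c → cl Q a ({p} ∪ c) = g * cl Q a' c := by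
    by_cases h : IsCoprime (pr {p}) Q
    · exact ⟨1, _, by simp, coprime_mul_inv ha h, fun c hc => by rw [cl_union h hc, one_mul]⟩
    · exact ⟨0, a, by simp, ha, fun c _ => by rw [cl_union_zero ha h, zero_mul]⟩
  refine ⟨-(g * mu {p} * xs c6 {p} n * conj (xs c6 {p} ρ)), a', ?_, ha', ?_⟩
  · simp only [norm_neg, norm_mul, RCLike.norm_conj, norm_mu, mul_one]
    exact mul_le_one₀ (mul_le_one₀ hg (norm_nonneg _) (norm_xs_le ch_c6 _ _))
      (norm_nonneg _) (norm_xs_le ch_c6 _ _)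
  rw [neg_mul, eq_add_neg_iff_add_eq]
  have h1 := sum_sqf_split (16 * X) {p} fun c => cAK Q a ρ K n c * wt (Ns c / X) s
  rw [← Finset.insert_empty, Finset.sum_powerset_insert (Finset.notMem_empty p),
    Finset.powerset_empty, Finset.sum_singleton, Finset.sum_singleton, Finset.insert_empty,
    Ns_empty, div_one, mul_div_assoc, Finset.sum_filter, Finset.sum_filter] at h1
  rw [S, S, S, h1, Finset.mul_sum]
  congr 1
  · refine Finset.sum_congr rfl fun c _ => ?_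
    by_cases h2 : p ∈ c <;> simp [cAK, h2]
  · refine Finset.sum_congr rfl fun c _ => ?_
    by_cases h2 : p ∈ c
    · simp [cAK, h2]
    have h3 : Disjoint {p} c := Finset.disjoint_singleton_left.2 h2
    rw [if_pos h3.symm, Ns_union h3, show Ns {p} * Ns c / X = Ns c / (X / Ns {p}) by
      rw [div_div_eq_mul_div, mul_comm]]
    by_cases h4 : Disjoint c K
    · have h5 : Disjoint c (insert p K) := Finset.disjoint_insert_right.2 ⟨h2, h4⟩
      have h6 : Disjoint ({p} ∪ c) K :=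
        Finset.disjoint_union_left.2 ⟨Finset.disjoint_singleton_left.2 hp, h4⟩
      simp only [cAK, if_pos h5, if_pos h6, cA, hcl c h3, mu_union h3, xs_union h3, map_mul]
      ring
    · have h5 : ¬ Disjoint c (insert p K) := fun h => h4 (Finset.disjoint_insert_right.1 h).2
      have h6 : ¬ Disjoint ({p} ∪ c) K := fun h => h4 (Finset.disjoint_union_left.1 h).2
      simp only [cAK, if_neg h5, if_neg h6, zero_mul, mul_zero]

theorem sa_tri {ι : Type} (J : Finset ι) (f g : ι → ℂ) :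
    √(∑ i ∈ J, ‖f i + g i‖ ^ 2) ≤ √(∑ i ∈ J, ‖f i‖ ^ 2) + √(∑ i ∈ J, ‖g i‖ ^ 2) := by
  simpa [Fin.sum_univ_two] using minkowski J Finset.univ fun i (j : Fin 2) => ![f i, g i] j

theorem sa_ind {Q : ℕ} {ι : Type} (J : Finset ι) (n : ι → E) (ρ : E) (s : ℂ) {Z c : ℝ}
    (hc : 0 ≤ c) (M : ℝ → ℝ) (hM : ∀ X y : ℝ, 0 < X → 1 ≤ y → M (X / y) ≤ M X / y)
    (h0 : ∀ (X : ℝ) (a : ι → E) (Xi : ι → ℝ), 0 < X → X ≤ Z →
      (∀ i ∈ J, IsCoprime (a i) Q ∧ X ≤ Xi i ∧ Xi i ≤ 2 * X) →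
      √(∑ i ∈ J, ‖S (cA Q (a i) ρ (n i)) (Xi i) s‖ ^ 2) ≤ c * √(M X)) (K : Finset P) :
    ∀ (X : ℝ) (a : ι → E) (Xi : ι → ℝ), 0 < X → X ≤ Z →
      (∀ i ∈ J, IsCoprime (a i) Q ∧ X ≤ Xi i ∧ Xi i ≤ 2 * X) →
      √(∑ i ∈ J, ‖S (cAK Q (a i) ρ K (n i)) (Xi i) s‖ ^ 2) ≤
        c * (∏ p ∈ K, (1 - (nm p.1 : ℝ) ^ (-(1 / 2) : ℝ))⁻¹) * √(M X) := by
  induction K using Finset.induction_on with
  | empty =>
    intro X a Xi hX hXZ hJ
    have : ∀ a n, cAK Q a ρ ∅ n = cA Q a ρ n := fun a n => funext fun t => by simp [cAK]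
    simpa only [this, Finset.prod_empty, mul_one] using h0 X a Xi hX hXZ hJ
  | insert p K hp ih =>
    have hq : ∀ p : P, 0 < 1 - (nm p.1 : ℝ) ^ (-(1 / 2) : ℝ) := fun p => sub_pos.2
      (Real.rpow_lt_one_of_one_lt_of_neg (by linarith [dvs_four_le p]) (by norm_num))
    have hP : 0 ≤ c * ∏ p ∈ K, (1 - (nm p.1 : ℝ) ^ (-(1 / 2) : ℝ))⁻¹ :=
      mul_nonneg hc (Finset.prod_nonneg fun p _ => (inv_pos.2 (hq p)).le)
    have hN : Ns {p} = nm p.1 := by rw [Ns, pr_singleton]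
    have h4 := dvs_four_le p
    rw [Finset.prod_insert hp, mul_left_comm]
    generalize c * ∏ p ∈ K, (1 - (nm p.1 : ℝ) ^ (-(1 / 2) : ℝ))⁻¹ = A at ih hP ⊢
    have key : ∀ (j : ℕ) (X : ℝ) (a : ι → E) (Xi : ι → ℝ), 32 * X < 4 ^ j → 0 < X → X ≤ Z →
        (∀ i ∈ J, IsCoprime (a i) Q ∧ X ≤ Xi i ∧ Xi i ≤ 2 * X) →
        √(∑ i ∈ J, ‖S (cAK Q (a i) ρ (insert p K) (n i)) (Xi i) s‖ ^ 2) ≤
          (1 - (nm p.1 : ℝ) ^ (-(1 / 2) : ℝ))⁻¹ * A * √(M X) := by
      intro j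
      induction j with
      | zero =>
        intro X a Xi hj _ _ hJ
        rw [Finset.sum_eq_zero fun i hi => by
          rw [S_eq_zero (by linarith [(hJ i hi).2.2, pow_zero (4 : ℝ)])]; simp]
        have := hq p
        rw [Real.sqrt_zero]
        positivity
      | succ j ihj =>
        intro X a Xi hj hX hXZ hJ
        have h1 : ∀ i, ∃ (g : ℂ) (a' : E), i ∈ J → ‖g‖ ≤ 1 ∧ IsCoprime a' Q ∧
            S (cAK Q (a i) ρ (insert p K) (n i)) (Xi i) s = S (cAK Q (a i) ρ K (n i)) (Xi i) s +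
              g * S (cAK Q a' ρ (insert p K) (n i)) (Xi i / nm p.1) s := fun i => by
          by_cases hi : i ∈ J
          · obtain ⟨g, a', h⟩ := sa_split (hJ i hi).1 ρ (n i) hp (Xi i) s
            exact ⟨g, a', fun _ => hN ▸ h⟩
          · exact ⟨0, 0, fun h => (hi h).elim⟩
        choose g a' h1 using h1
        have h2 := ihj (X / nm p.1) a' (fun i => Xi i / nm p.1) (by
            rw [← mul_div_assoc, div_lt_iff₀ (by linarith)]
            rw [pow_succ] at hj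
            nlinarith [pow_pos (show (0 : ℝ) < 4 by norm_num) j]) (by positivity)
          ((div_le_self hX.le (by linarith)).trans hXZ) fun i hi => ⟨(h1 i hi).2.1,
            div_le_div_of_nonneg_right (hJ i hi).2.1 (by linarith), by
              rw [← mul_div_assoc]
              exact div_le_div_of_nonneg_right (hJ i hi).2.2 (by linarith)⟩
        have h3 : √(M (X / nm p.1)) ≤ (nm p.1 : ℝ) ^ (-(1 / 2) : ℝ) * √(M X) := by
          refine (Real.sqrt_le_sqrt (hM X _ hX (by linarith))).trans (le_of_eq ?_)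
          rw [Real.sqrt_div' _ (by linarith), Real.rpow_neg (by linarith), ← Real.sqrt_eq_rpow,
            div_eq_inv_mul]
        have h5 : √(∑ i ∈ J, ‖g i * S (cAK Q (a' i) ρ (insert p K) (n i)) (Xi i / nm p.1) s‖ ^ 2) ≤
            √(∑ i ∈ J, ‖S (cAK Q (a' i) ρ (insert p K) (n i)) (Xi i / nm p.1) s‖ ^ 2) := by
          refine Real.sqrt_le_sqrt (Finset.sum_le_sum fun i hi =>
            pow_le_pow_left₀ (norm_nonneg _) ?_ 2)
          rw [norm_mul]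
          exact mul_le_of_le_one_left (norm_nonneg _) (h1 i hi).1
        rw [Finset.sum_congr rfl fun i hi => by rw [(h1 i hi).2.2]]
        refine (sa_tri J _ _).trans ((add_le_add (ih X a Xi hX hXZ hJ) (h5.trans (h2.trans
          (mul_le_mul_of_nonneg_left h3 (mul_nonneg (inv_pos.2 (hq p)).le hP))))).trans
          (le_of_eq ?_))
        have := (hq p).ne'
        field_simp
        ring
    intro X a Xi
    obtain ⟨j, hj⟩ := pow_unbounded_of_one_lt (32 * X) (show (1 : ℝ) < 4 by norm_num)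
    exact key j X a Xi hj

theorem hAs (hR : Resc) {Q k : ℕ} (hQ : GoodQ Q k) {η : ℝ} (hη : 0 ≤ η) (h : HA Q η) :
    HAs Q η := by
  intro ε hε
  obtain ⟨B, C, hC, h0⟩ := sa_empty hR hQ hη h (half_pos hε)
  obtain ⟨C1, hC1, hP⟩ := prod_inv_le (θ := 1 / 2) (ε := ε / 4) (by norm_num) (by positivity)
  refine ⟨B, C * C1 ^ 2, by positivity,
    fun ι J n a Xi μ Z X N s ρ K hX hXZ hN hNZ hs hρ hRZ hK hJ hμ => ?_⟩
  have hμ0 : 0 ≤ μ := (Nat.cast_nonneg _).trans (hμ 0)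
  have hZ : 0 < Z := hX.trans_le hXZ
  have hR1 := one_le_Rr ρ
  have h1 := sa_ind (Q := Q) J n ρ s (Z := Z) (c := √(C * μ * Z ^ (ε / 2) * (1 + ‖s‖) ^ B))
    (Real.sqrt_nonneg _) (fun X => X * (N + X ^ (1 + η) * Rr ρ)) (fun X y hX hy => by
      have : (X / y) ^ (1 + η) ≤ X ^ (1 + η) :=
        Real.rpow_le_rpow (by positivity) (div_le_self hX.le hy) (by linarith)
      rw [div_mul_eq_mul_div]
      gcongr) (fun X a Xi hX hXZ hJ' => by
      rw [← Real.sqrt_mul (by positivity)]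
      exact Real.sqrt_le_sqrt (h0 ι J n a Xi μ Z X N s ρ hX hXZ hN hNZ hs hρ hRZ
        (fun i hi => ⟨(hJ i hi).1, hJ' i hi⟩) hμ)) K X a Xi hX hXZ fun i hi => (hJ i hi).2
  have h2 : ∏ p ∈ K, (1 - (nm p.1 : ℝ) ^ (-(1 / 2) : ℝ))⁻¹ ≤ C1 * Z ^ (ε / 4) :=
    (hP K).trans (mul_le_mul_of_nonneg_left
      (Real.rpow_le_rpow (Ns_pos K).le hK (by positivity)) hC1.le)
  have h3 := pow_le_pow_left₀ (Real.sqrt_nonneg _) (h1.trans (mul_le_mul_of_nonneg_right
    (mul_le_mul_of_nonneg_left h2 (Real.sqrt_nonneg _)) (Real.sqrt_nonneg _))) 2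
  rw [Real.sq_sqrt (by positivity), mul_pow, mul_pow, mul_pow, Real.sq_sqrt (by positivity),
    Real.sq_sqrt (by positivity)] at h3
  refine h3.trans (le_of_eq ?_)
  have h4 : Z ^ ε = Z ^ (ε / 2) * (Z ^ (ε / 4)) ^ 2 := by
    rw [sq, ← Real.rpow_add hZ, ← Real.rpow_add hZ]; congr 1; ring
  rw [h4]
  ring

end QRH
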