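import Vale.Agent.P026.Wt
import Vale.Agent.P026.FtD

noncomputable section
namespace QRH
open Complex MeasureTheory Filter
open scoped ComplexConjugate Classical ContDiff Topology

theorem ar_conj {u : ℂ} (hu : ‖u‖ = 1) : conj u * u = 1 := by
  rw [mul_comm, Complex.mul_conj, Complex.normSq_eq_norm_sq, hu]; simp
theorem ar_ne {u : ℂ} (hu : ‖u‖ = 1) : u ≠ 0 := by
  rintro rfl; simp at hu
theorem ar_conj_eq {u : ℂ} (hu : ‖u‖ = 1) : conj u = u⁻¹ :=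
  eq_inv_of_mul_eq_one_left (ar_conj hu)
theorem ar_b0_supp (z : ℂ) (h : b0 z ≠ 0) : ‖z‖ ≤ 2 := by
  have := b0_supp h; linarith
theorem ar_w_supp {w : ℂ → ℂ} (h : Adm w) (z : ℂ) (hz : w z ≠ 0) : ‖z‖ ≤ 2 := (h.supp z hz).2

theorem Adm.ft_rot {w : ℂ → ℂ} (h : Adm w) {u : ℂ} (hu : ‖u‖ = 1) (η : ℂ) :
    ft w (u * η) = conj u * ft w η := by
  rw [← QRH.ft_rot (k := u) hu (fun z => h.rot u z hu) η, ← mul_assoc, ar_conj hu, one_mul]
theorem ft_b0_rot {u : ℂ} (hu : ‖u‖ = 1) (η : ℂ) : ft b0 (u * η) = ft b0 η := by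
  rw [← QRH.ft_rot (k := 1) hu (fun z => by rw [b0_rot hu, one_mul]) η, one_mul]
theorem ar_decay {w : ℂ → ℂ} (hw : ContDiff ℝ ∞ w) (hs : ∀ z, w z ≠ 0 → ‖z‖ ≤ 2) (A : ℕ) :
    ∃ M : ℝ, 0 < M ∧ ∀ η, ‖ft w η‖ ≤ M * (1 + ‖η‖) ^ (-A : ℝ) := by
  obtain ⟨C, hC, h⟩ := ft_le A
  obtain ⟨W, hW, hD⟩ := exists_DB hw hs A
  exact ⟨C * W, mul_pos hC hW, h w W hw hs hD⟩
theorem Adm.ft_decay {w : ℂ → ℂ} (h : Adm w) (A : ℕ) : ∃ M : ℝ, 0 < M ∧
    ∀ η, ‖ft w η‖ ≤ M * (1 + ‖η‖) ^ (-A : ℝ) := ar_decay h.smooth (ar_w_supp h) A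
theorem ft_b0_decay (A : ℕ) : ∃ M : ℝ, 0 < M ∧ ∀ η, ‖ft b0 η‖ ≤ M * (1 + ‖η‖) ^ (-A : ℝ) :=
  ar_decay contDiff_b0 ar_b0_supp A

theorem ar_Fint_zero (w : ℂ → ℂ) (c : ℂ) {z : ℂ × ℂ} (h : a0 z.1 = 0) : Fint w c z = 0 := by
  simp [Fint, h]

theorem ar_inv {z : ℂ × ℂ} (hz : z.1 ≠ 0) : ContDiffAt ℝ ∞ (fun y : ℂ × ℂ => y.1⁻¹) z :=
  contDiffAt_fst.inv hz

theorem contDiff_Fint {w : ℂ → ℂ} (h : Adm w) (c : ℂ) : ContDiff ℝ ∞ (Fint w c) := by
  rw [contDiff_iff_contDiffAt]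
  intro z
  by_cases hz : z.1 = 0
  · have hev : Fint w c =ᶠ[𝓝 z] fun _ => 0 := by
      have ho : IsOpen {y : ℂ × ℂ | ‖y.1‖ < 1} := isOpen_lt (by fun_prop) continuous_const
      filter_upwards [ho.mem_nhds (show ‖z.1‖ < 1 by rw [hz]; simp)] with y hy
      apply ar_Fint_zero
      by_contra hne
      exact absurd (a0_supp hne).1 (not_lt.mpr (le_of_lt hy))
    exact contDiffAt_const.congr_of_eventuallyEq hev
  · have h1 : ContDiffAt ℝ ∞ (fun y : ℂ × ℂ => ((‖y.1‖ ^ 2 : ℝ) : ℂ)⁻¹) z := by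
      refine ContDiffAt.inv ?_ (by simpa using hz)
      exact (Complex.ofRealCLM.contDiff.comp ((contDiff_norm_sq ℝ).comp contDiff_fst)).contDiffAt
    have h2 : ContDiffAt ℝ ∞ (fun y : ℂ × ℂ => a0 y.1) z :=
      (contDiff_a0.comp contDiff_fst).contDiffAt
    have h3 : ContDiffAt ℝ ∞ (fun y : ℂ × ℂ => ft w (-(c / y.1))) z := by
      refine (contDiff_ft h.smooth (ar_w_supp h)).contDiffAt.comp z ?_
      simp only [div_eq_mul_inv]
      exact (contDiffAt_const.mul (ar_inv hz)).neg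
    have h4 : ContDiffAt ℝ ∞ (fun y : ℂ × ℂ => ft b0 (y.2 / y.1)) z := by
      refine (contDiff_ft contDiff_b0 ar_b0_supp).contDiffAt.comp z ?_
      simp only [div_eq_mul_inv]
      exact contDiffAt_snd.mul (ar_inv hz)
    have h5 : ContDiffAt ℝ ∞ (fun y : ℂ × ℂ => psi (y.2 ^ 3 / (27 * y.1 * c))) z := by
      refine contDiff_psi.contDiffAt.comp z ?_
      simp only [div_eq_mul_inv, mul_inv]
      exact (contDiffAt_snd.pow 3).mul ((contDiffAt_const.mul (ar_inv hz)).mul contDiffAt_const)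
    exact (((h1.mul h2).mul h3).mul h4).mul h5

theorem ar_rpow_le {x y k : ℝ} (hx : 0 < x) (hy : 0 < y) (hk : 0 < k) (h : y ≤ k * x) :
    x ^ (-3 : ℝ) ≤ k ^ 3 * y ^ (-3 : ℝ) := by
  have h1 : (k * x) ^ (-3 : ℝ) ≤ y ^ (-3 : ℝ) := Real.rpow_le_rpow_of_nonpos hy h (by norm_num)
  have h2 : k ^ 3 * (k * x) ^ (-3 : ℝ) = x ^ (-3 : ℝ) := by
    rw [Real.mul_rpow hk.le hx.le, ← mul_assoc, Real.rpow_neg hk.le,
      show (3 : ℝ) = ((3 : ℕ) : ℝ) by norm_num, Real.rpow_natCast, mul_inv_cancel₀ (by positivity),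
      one_mul]
  rw [← h2]
  exact mul_le_mul_of_nonneg_left h1 (by positivity)

theorem norm_Fint_le {w : ℂ → ℂ} (h : Adm w) : ∃ M : ℝ, 0 < M ∧ ∀ (c : ℂ) (z : ℂ × ℂ),
    ‖Fint w c z‖ ≤ M * (1 + ‖z.1‖) ^ (-3 : ℝ) * (1 + ‖z.2‖) ^ (-3 : ℝ) := by
  obtain ⟨M1, hM1, h1⟩ := h.ft_decay 0
  obtain ⟨M2, hM2, h2⟩ := ft_b0_decay 3
  refine ⟨M1 * M2 * 3 ^ 3 * 2 ^ 3, by positivity, fun c z => ?_⟩
  by_cases ha : a0 z.1 = 0
  · rw [ar_Fint_zero w c ha, norm_zero]; positivity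
  obtain ⟨hl, hu⟩ := a0_supp ha
  have hp : 0 < ‖z.1‖ := by linarith
  have e1 : ‖((‖z.1‖ ^ 2 : ℝ) : ℂ)⁻¹‖ ≤ 1 := by
    rw [norm_inv, Complex.norm_real, Real.norm_eq_abs, abs_of_nonneg (by positivity)]
    exact inv_le_one_of_one_le₀ (by nlinarith)
  have e3 : ‖ft w (-(c / z.1))‖ ≤ M1 := by simpa using h1 (-(c / z.1))
  have e4 : ‖ft b0 (z.2 / z.1)‖ ≤ M2 * (2 ^ 3 * (1 + ‖z.2‖) ^ (-3 : ℝ)) := by
    refine (h2 _).trans (mul_le_mul_of_nonneg_left ?_ hM2.le)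
    rw [show (-((3 : ℕ) : ℝ)) = (-3 : ℝ) by norm_num]
    refine ar_rpow_le (by positivity) (by positivity) two_pos ?_
    have : ‖z.2‖ ≤ 2 * ‖z.2 / z.1‖ := by
      rw [norm_div, ← mul_div_assoc, le_div_iff₀ hp]
      nlinarith [norm_nonneg z.2]
    linarith
  have e5 : (1 : ℝ) ≤ 3 ^ 3 * (1 + ‖z.1‖) ^ (-3 : ℝ) := by
    have := ar_rpow_le (x := 1) (y := 1 + ‖z.1‖) (k := 3) one_pos (by positivity) three_pos
      (by linarith)
    rwa [Real.one_rpow] at this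
  unfold Fint
  simp only [norm_mul, norm_psi, mul_one]
  calc _ ≤ 1 * 1 * M1 * (M2 * (2 ^ 3 * (1 + ‖z.2‖) ^ (-3 : ℝ))) := by
        gcongr
        exact norm_a0_le _
    _ = 1 * (M1 * M2 * 2 ^ 3 * (1 + ‖z.2‖) ^ (-3 : ℝ)) := by ring
    _ ≤ (3 ^ 3 * (1 + ‖z.1‖) ^ (-3 : ℝ)) * (M1 * M2 * 2 ^ 3 * (1 + ‖z.2‖) ^ (-3 : ℝ)) :=
        mul_le_mul_of_nonneg_right e5 (by positivity)
    _ = _ := by ring

theorem ar_int_prod {f g : ℂ → ℝ} (hf : Integrable f) (hg : Integrable g) (M : ℝ) :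
    Integrable fun z : ℂ × ℂ => M * f z.1 * g z.2 :=
  (hf.const_mul M).mul_prod hg

theorem ar_Fint_cont {w : ℂ → ℂ} (h : Adm w) (x : ℂ × ℂ) :
    ContinuousOn (fun c : ℂ => Fint w c x) {c | c ≠ 0} := by
  have h3 : Continuous fun c : ℂ => ft w (-(c / x.1)) :=
    (contDiff_ft h.smooth (ar_w_supp h)).continuous.comp (by fun_prop)
  have h5 : ContinuousOn (fun c : ℂ => psi (x.2 ^ 3 / (27 * x.1 * c))) {c | c ≠ 0} := by
    refine continuous_psi.comp_continuousOn ?_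
    simp only [← div_div]
    exact continuousOn_const.div continuousOn_id fun c hc => hc
  exact ((continuousOn_const.mul h3.continuousOn).mul continuousOn_const).mul h5

theorem continuousOn_Ia {w : ℂ → ℂ} (h : Adm w) :
    ContinuousOn (fun y : ℂ × ℂ × ℂ => Ia w y.1 y.2.1 y.2.2) {y | y.1 ≠ 0} := by
  obtain ⟨M, -, hM⟩ := norm_Fint_le h
  unfold Ia ft2
  refine continuousOn_const.mul ?_
  refine continuousOn_of_dominated
    (bound := fun z : ℂ × ℂ => M * (1 + ‖z.1‖) ^ (-3 : ℝ) * (1 + ‖z.2‖) ^ (-3 : ℝ))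
    (fun y _ => ?_) (fun y _ => Eventually.of_forall fun x => ?_)
    (ar_int_prod (integrable_decay (by norm_num)) (integrable_decay (by norm_num)) M)
    (Eventually.of_forall fun x => ?_)
  · exact ((contDiff_Fint h _).continuous.mul
      (continuous_psi.comp (by fun_prop))).aestronglyMeasurable
  · rw [norm_mul, norm_psi, mul_one]; exact hM _ _
  · refine ContinuousOn.mul ((ar_Fint_cont h x).comp continuousOn_fst fun y hy => hy)
      (continuous_psi.comp_continuousOn ?_)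
    have h1 : ContinuousOn (fun y : ℂ × ℂ × ℂ => y.2.1 / y.1) {y | y.1 ≠ 0} :=
      ContinuousOn.div (by fun_prop) (by fun_prop) fun y hy => hy
    have h2 : ContinuousOn (fun y : ℂ × ℂ × ℂ => y.2.2 / y.1) {y | y.1 ≠ 0} :=
      ContinuousOn.div (by fun_prop) (by fun_prop) fun y hy => hy
    exact ((continuousOn_const.mul h1.neg).add (continuousOn_const.mul h2)).neg

theorem ar_Fint_rot {w : ℂ → ℂ} (h : Adm w) {t : ℂ} (ht : ‖t‖ = 1) (c : ℂ) (x : ℂ × ℂ) :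
    Fint w c (conj t ^ 3 * x.1 + 0, conj t * x.2) = conj t ^ 3 * Fint w c x := by
  have h0 := ar_ne ht
  have hc : ‖conj t ^ 3‖ = 1 := by rw [norm_pow, Complex.norm_conj, ht, one_pow]
  have e1 : -(c / (conj t ^ 3 * x.1)) = t ^ 3 * -(c / x.1) := by
    rw [ar_conj_eq ht]; simp only [div_eq_mul_inv, mul_inv, inv_pow, inv_inv]; ring
  have e2 : conj t * x.2 / (conj t ^ 3 * x.1) = t ^ 2 * (x.2 / x.1) := by
    rw [ar_conj_eq ht]; simp only [div_eq_mul_inv, mul_inv, inv_pow, inv_inv]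
    linear_combination (t ^ 2 * x.2 * x.1⁻¹) * mul_inv_cancel₀ h0
  have e3 : (conj t * x.2) ^ 3 / (27 * (conj t ^ 3 * x.1) * c) = x.2 ^ 3 / (27 * x.1 * c) := by
    rw [mul_pow, show 27 * (conj t ^ 3 * x.1) * c = conj t ^ 3 * (27 * x.1 * c) by ring,
      mul_div_mul_left _ _ (ar_ne hc)]
  unfold Fint
  simp only [add_zero]
  rw [e1, e2, e3, a0_rot hc, norm_mul, hc, one_mul,
    h.ft_rot (u := t ^ 3) (by rw [norm_pow, ht, one_pow]),
    ft_b0_rot (u := t ^ 2) (by rw [norm_pow, ht, one_pow]), map_pow]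
  ring

theorem ar_ft2_mul (k : ℂ) (F : ℂ × ℂ → ℂ) (ξ η : ℂ) :
    ft2 (fun z => k * F z) ξ η = k * ft2 F ξ η := by
  unfold ft2
  simp only [mul_assoc k, integral_const_mul]
  ring

theorem Ia_rot {w : ℂ → ℂ} (h : Adm w) {t : ℂ} (ht : ‖t‖ = 1) (c z ζ : ℂ) :
    Ia w c (t ^ 3 * z) (t * ζ) = conj t ^ 3 * Ia w c z ζ := by
  have hc1 : ‖conj t‖ = 1 := by rw [Complex.norm_conj, ht]
  have hc : ‖conj t ^ 3‖ = 1 := by rw [norm_pow, hc1, one_pow]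
  have key := ft2_affine (Fint w c) (ar_ne hc) (ar_ne hc1) 0 (-(z / c)) (ζ / c)
  simp only [ar_Fint_rot h ht, ar_ft2_mul, hc, hc1, zero_mul, zero_div, psi_zero] at key
  unfold Ia
  rw [key, ar_conj_eq ht]
  simp only [one_pow, mul_one, ofReal_one, inv_one, one_mul]
  congr 1
  · simp only [div_eq_mul_inv, inv_pow, inv_inv]; ring
  · simp only [div_eq_mul_inv, inv_inv]; ring

theorem Ia_zero {w : ℂ → ℂ} (h : Adm w) (c : ℂ) : Ia w c 0 0 = 0 := by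
  have := Ia_rot h (t := -1) (by simp) c 0 0
  simp only [mul_zero, map_neg, map_one] at this
  linear_combination (1 / 2 : ℂ) * this

/-- The integrand of the Voronoi transform. -/
def arK (w : ℂ → ℂ) (z : ℂ) (y : ℂ × ℂ) : ℂ :=
  ((‖y.1‖ ^ 2 : ℝ) : ℂ)⁻¹ * psi (y.2 ^ 3 / (y.1 * z)) * Ia w y.1 z y.2
/-- The majorant. -/
def arG (y : ℂ × ℂ) : ℝ := 1 * (‖y.1‖⁻¹ * (1 + ‖y.1‖) ^ (-3 : ℝ)) * (1 + ‖y.2‖) ^ (-3 : ℝ)

theorem ar_G_int : Integrable arG :=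
  ar_int_prod integrable_sing (integrable_decay (by norm_num)) 1
theorem ar_G_nonneg (y : ℂ × ℂ) : 0 ≤ arG y := by unfold arG; positivity

theorem ar_K_le (h : IBd) (A : ℕ) : ∃ (n : ℕ) (C : ℝ), 0 < C ∧ ∀ (w : ℂ → ℂ) (W : ℝ), Adm w →
    DB n w W → ∀ z y, ‖arK w z y‖ ≤ C * W * (1 + ‖z‖) ^ (-A : ℝ) * arG y := by
  obtain ⟨n, C, hC, hI⟩ := h (A + 3)
  refine ⟨n, C, hC, fun w W hw hD z y => ?_⟩
  have hW : 0 ≤ W := (norm_nonneg _).trans (hD 0 (Nat.zero_le n) 0)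
  have hG := ar_G_nonneg y
  by_cases hy : y.1 = 0
  · have : arK w z y = 0 := by simp [arK, hy]
    rw [this, norm_zero]; positivity
  have hp : 0 < ‖y.1‖ := norm_pos_iff.mpr hy
  have mono : ∀ (x : ℂ) (σ : ℝ), σ ≤ ((A + 3 : ℕ) : ℝ) →
      (1 + ‖x‖) ^ (-((A + 3 : ℕ) : ℝ)) ≤ (1 + ‖x‖) ^ (-σ) := fun x σ hσ =>
    Real.rpow_le_rpow_of_exponent_le (by linarith [norm_nonneg x]) (by linarith)
  have hA : (0 : ℝ) ≤ A := Nat.cast_nonneg A
  have m1 := mono y.1 3 (by push_cast; linarith)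
  have m2 := mono z A (by push_cast; linarith)
  have m3 := mono y.2 3 (by push_cast; linarith)
  have hb : ‖Ia w y.1 z y.2‖ ≤ C * W * ‖y.1‖ * (1 + ‖y.1‖) ^ (-3 : ℝ) * (1 + ‖z‖) ^ (-A : ℝ)
      * (1 + ‖y.2‖) ^ (-3 : ℝ) := by
    refine (hI w W hw hD y.1 z y.2 hy).trans ?_
    gcongr
  unfold arK arG
  rw [norm_mul, norm_mul, norm_psi, mul_one, norm_inv, Complex.norm_real, Real.norm_eq_abs,
    abs_of_nonneg (by positivity)]
  refine (mul_le_mul_of_nonneg_left hb (by positivity)).trans (le_of_eq ?_)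
  field_simp

theorem ar_K_rot {w : ℂ → ℂ} (h : Adm w) {t : ℂ} (ht : ‖t‖ = 1) (z : ℂ) (y : ℂ × ℂ) :
    arK w (t ^ 3 * z) (1 * y.1 + 0, t * y.2) = conj t ^ 3 * arK w z y := by
  have e : (t * y.2) ^ 3 / (y.1 * (t ^ 3 * z)) = y.2 ^ 3 / (y.1 * z) := by
    rw [mul_pow, mul_left_comm y.1, mul_div_mul_left _ _ (pow_ne_zero 3 (ar_ne ht))]
  unfold arK
  simp only [one_mul, add_zero]
  rw [e, Ia_rot h ht]
  ring

theorem ar_cube {u : ℂ} (hu : ‖u‖ = 1) : ∃ t : ℂ, ‖t‖ = 1 ∧ t ^ 3 = u := by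
  obtain ⟨t, ht⟩ := IsAlgClosed.exists_pow_nat_eq u (n := 3) (by norm_num)
  refine ⟨t, ?_, ht⟩
  have : ‖t‖ ^ 3 = 1 := by rw [← norm_pow, ht, hu]
  exact (pow_eq_one_iff_of_nonneg (norm_nonneg t) (by norm_num)).mp this

theorem ar_ae : ∀ᵐ y : ℂ × ℂ, y.1 ≠ 0 :=
  Measure.quasiMeasurePreserving_fst.ae (Measure.ae_ne volume (0 : ℂ))

theorem ar_K_meas {w : ℂ → ℂ} (h : Adm w) (z : ℂ) : AEStronglyMeasurable (arK w z) := by
  have h1 : ContinuousOn (fun y : ℂ × ℂ => Ia w y.1 z y.2) {y | y.1 ≠ 0} :=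
    (continuousOn_Ia h).comp (f := fun y : ℂ × ℂ => (y.1, z, y.2)) (by fun_prop) fun y hy => hy
  have h2 := h1.aestronglyMeasurable (μ := volume)
    (isOpen_ne_fun continuous_fst continuous_const).measurableSet
  rw [Measure.restrict_eq_self_of_ae_mem (s := {y : ℂ × ℂ | y.1 ≠ 0}) ar_ae] at h2
  refine AEStronglyMeasurable.mul (Measurable.aestronglyMeasurable ?_) h2
  exact Measurable.mul (by fun_prop) (continuous_psi.measurable.comp (by fun_prop))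

theorem ar_K_cont {w : ℂ → ℂ} (h : Adm w) {y : ℂ × ℂ} (hy : y.1 ≠ 0) :
    ContinuousOn (fun z => arK w z y) {z | z ≠ 0} := by
  have h1 : ContinuousOn (fun z : ℂ => Ia w y.1 z y.2) {z | z ≠ 0} :=
    (continuousOn_Ia h).comp (f := fun z : ℂ => (y.1, z, y.2)) (by fun_prop) fun _ _ => hy
  refine ContinuousOn.mul (continuousOn_const.mul (continuous_psi.comp_continuousOn ?_)) h1
  exact continuousOn_const.div (by fun_prop) fun z hz => mul_ne_zero hy hz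

theorem ar_Ka (w : ℂ → ℂ) (z : ℂ) : Ka w z = ((4 / 3 : ℝ) : ℂ) * ∫ y, arK w z y := rfl

theorem kFacts (h : IBd) : KFacts := by
  refine ⟨fun A => ?_, fun w u z hw hu => ?_, fun w hw => ?_⟩
  · obtain ⟨n, C, hC, hK⟩ := ar_K_le h A
    have hI : 0 ≤ ∫ y, arG y := integral_nonneg ar_G_nonneg
    refine ⟨n, 4 / 3 * C * ((∫ y, arG y) + 1), by positivity, fun w W hw hD z => ?_⟩
    have hW : 0 ≤ W := (norm_nonneg _).trans (hD 0 (Nat.zero_le n) 0)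
    have h1 := norm_integral_le_of_norm_le (ar_G_int.const_mul (C * W * (1 + ‖z‖) ^ (-A : ℝ)))
      (Eventually.of_forall (hK w W hw hD z))
    rw [integral_const_mul] at h1
    rw [ar_Ka, norm_mul, Complex.norm_real, Real.norm_eq_abs, abs_of_pos (by norm_num)]
    have h2 : 0 ≤ C * W * (1 + ‖z‖) ^ (-A : ℝ) := by positivity
    nlinarith
  · obtain ⟨t, ht, rfl⟩ := ar_cube hu
    have key := integral2_comp_mul (arK w (t ^ 3 * z)) one_ne_zero (ar_ne ht) 0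
    simp only [ar_K_rot hw ht, integral_const_mul, ht, norm_one, one_pow, mul_one, ofReal_one,
      inv_one] at key
    rw [ar_Ka, ar_Ka, map_pow]
    linear_combination (-((4 / 3 : ℝ) : ℂ)) * key
  · obtain ⟨n, C, hC, hK⟩ := ar_K_le h 0
    obtain ⟨W, -, hD⟩ := hw.exists_DB n
    simp only [funext (ar_Ka w)]
    refine continuousOn_const.mul (continuousOn_of_dominated (bound := fun y => C * W * arG y)
      (fun z _ => ar_K_meas hw z) (fun z _ => Eventually.of_forall fun y => ?_)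
      (ar_G_int.const_mul _) (ar_ae.mono fun y hy => ar_K_cont hw hy))
    simpa using hK w W hw hD z y

end QRH
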