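import Vale.Agent.P026.Arch

noncomputable section
namespace QRH
open Complex MeasureTheory Filter
open scoped ComplexConjugate Classical ContDiff Topology

/-- Uniform bounds for the derivatives of a family of smooth functions. -/
def ib_BO {T X : Type} [NormedAddCommGroup X] [NormedSpace ℝ X] (n : ℕ) (S : T → X → Prop)
    (F : T → X → ℂ) (K : T → X → ℝ) : Prop :=
  (∀ t, ContDiff ℝ ∞ (F t)) ∧ ∃ C : ℝ, 0 < C ∧
    ∀ t p, S t p → ∀ j ≤ n, ‖iteratedFDeriv ℝ j (F t) p‖ ≤ C * K t p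

section calculus
variable {T X : Type} [NormedAddCommGroup X] [NormedSpace ℝ X] {n : ℕ} {S : T → X → Prop}
  {F G : T → X → ℂ} {K L : T → X → ℝ}

theorem ib_le (j : ℕ) : (j : WithTop ℕ∞) ≤ ∞ := by exact_mod_cast le_top

theorem ib_BO.mul (hF : ib_BO n S F K) (hG : ib_BO n S G L) :
    ib_BO n S (fun t p => F t p * G t p) (fun t p => K t p * L t p) := by
  obtain ⟨h1, C, hC, h2⟩ := hF
  obtain ⟨h3, D, hD, h4⟩ := hG
  refine ⟨fun t => (h1 t).mul (h3 t), 2 ^ n * (C * D), by positivity, fun t p hp j hj => ?_⟩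
  have a0 : 0 ≤ C * K t p := (norm_nonneg _).trans (h2 t p hp 0 (Nat.zero_le _))
  have b0 : 0 ≤ D * L t p := (norm_nonneg _).trans (h4 t p hp 0 (Nat.zero_le _))
  refine (norm_iteratedFDeriv_mul_le (h1 t) (h3 t) p (ib_le j)).trans ?_
  calc _ ≤ ∑ i ∈ Finset.range (j + 1), (j.choose i : ℝ) * (C * K t p * (D * L t p)) := by
        refine Finset.sum_le_sum fun i hi => ?_
        rw [mul_assoc]
        have := Finset.mem_range.1 hi
        exact mul_le_mul_of_nonneg_left (mul_le_mul (h2 t p hp i (by omega))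
          (h4 t p hp _ (by omega)) (norm_nonneg _) a0) (Nat.cast_nonneg _)
    _ = 2 ^ j * (C * K t p * (D * L t p)) := by
        rw [← Finset.sum_mul, ← Nat.cast_sum, Nat.sum_range_choose]
        push_cast
        rfl
    _ ≤ 2 ^ n * (C * K t p * (D * L t p)) :=
        mul_le_mul_of_nonneg_right (pow_le_pow_right₀ one_le_two hj) (mul_nonneg a0 b0)
    _ = _ := by ring

theorem ib_BO.comp {g : T → ℂ → ℂ} {S' : T → ℂ → Prop} {M : T → ℂ → ℝ} (hg : ib_BO n S' g M)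
    (hF : ib_BO n S F K) (hS : ∀ t p, S t p → S' t (F t p)) (hK : ∀ t p, S t p → 1 ≤ K t p) :
    ib_BO n S (fun t p => g t (F t p)) (fun t p => M t (F t p) * K t p ^ n) := by
  obtain ⟨h1, C, hC, h2⟩ := hg
  obtain ⟨h3, D, hD, h4⟩ := hF
  refine ⟨fun t => (h1 t).comp (h3 t), n.factorial * C * (D + 1) ^ n, by positivity,
    fun t p hp j hj => ?_⟩
  have a0 : 0 ≤ C * M t (F t p) := (norm_nonneg _).trans (h2 t _ (hS t p hp) 0 (Nat.zero_le _))
  have k1 := hK t p hp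
  have k2 : 1 ≤ (D + 1) * K t p := by nlinarith
  refine (norm_iteratedFDeriv_comp_le (h1 t) (h3 t) (ib_le j) p (C := C * M t (F t p))
    (D := (D + 1) * K t p) (fun i hi => h2 t _ (hS t p hp) i (hi.trans hj))
    (fun i hi hi' => ?_)).trans ?_
  · refine (h4 t p hp i (hi'.trans hj)).trans (le_trans (by nlinarith) (le_self_pow₀ k2 (by omega)))
  · calc _ ≤ n.factorial * (C * M t (F t p)) * ((D + 1) * K t p) ^ n :=
          mul_le_mul (mul_le_mul_of_nonneg_right (by exact_mod_cast Nat.factorial_le hj) a0)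
            (pow_le_pow_right₀ k2 hj) (by positivity) (by positivity)
      _ = _ := by rw [mul_pow]; ring

theorem ib_BO.mono (hF : ib_BO n S F K) {D : ℝ} (hD : 0 < D)
    (h : ∀ t p, S t p → K t p ≤ D * L t p) : ib_BO n S F L := by
  obtain ⟨h1, C, hC, h2⟩ := hF
  refine ⟨h1, C * D, by positivity, fun t p hp j hj => (h2 t p hp j hj).trans ?_⟩
  rw [mul_assoc]
  exact mul_le_mul_of_nonneg_left (h t p hp) hC.le

theorem ib_const (a : T → ℂ) : ib_BO n S (fun t _ => a t) (fun t _ => ‖a t‖) := by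
  refine ⟨fun _ => contDiff_const, 1, one_pos, fun t p _ j _ => ?_⟩
  rcases eq_or_ne j 0 with rfl | h
  · simp
  · simp [iteratedFDeriv_const_of_ne h]

theorem ib_lin (f : X →L[ℝ] ℂ) (hf : ‖f‖ ≤ 1) :
    ib_BO n S (fun _ p => f p) (fun _ p => 1 + ‖f p‖) := by
  refine ⟨fun _ => f.contDiff, 1, one_pos, fun t p _ j _ => ?_⟩
  have := norm_nonneg (f p)
  rcases j with _ | j
  · simp
  rw [← norm_iteratedFDeriv_fderiv]
  have e : fderiv ℝ (fun p => f p) = fun _ => f := funext fun _ => f.fderiv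
  rw [e]
  rcases eq_or_ne j 0 with rfl | h
  · rw [norm_iteratedFDeriv_zero]
    linarith
  · rw [iteratedFDeriv_const_of_ne h, Pi.zero_apply, norm_zero]
    linarith

theorem ib_unif {p : ℕ → ℝ → Prop} (n : ℕ) (hm : ∀ i C D, C ≤ D → p i C → p i D)
    (h : ∀ i, ∃ C, 0 < C ∧ p i C) : ∃ C, 0 < C ∧ ∀ i ≤ n, p i C := by
  choose C hC hp using h
  refine ⟨∑ i ∈ Finset.range (n + 1), C i, Finset.sum_pos (fun i _ => hC i) (by simp),
    fun i hi => hm i _ _ ?_ (hp i)⟩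
  exact Finset.single_le_sum (fun i _ => (hC i).le) (Finset.mem_range.2 (by omega))

theorem ib_ball {g : ℂ → ℂ} (hg : ContDiff ℝ ∞ g) :
    ib_BO n (fun (_ : T) d => ‖d‖ ≤ 2) (fun _ => g) (fun _ _ => 1) := by
  obtain ⟨C, hC, h⟩ := ib_unif (p := fun i C => ∀ d, ‖d‖ ≤ 2 → ‖iteratedFDeriv ℝ i g d‖ ≤ C) n
    (fun i C D h h' d hd => (h' d hd).trans h) fun i => by
      obtain ⟨C, hC⟩ := (isCompact_closedBall (0 : ℂ) 2).exists_bound_of_continuousOn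
        (hg.continuous_iteratedFDeriv (ib_le i)).continuousOn
      exact ⟨|C| + 1, by positivity, fun d hd =>
        (hC d (by simpa using hd)).trans (by linarith [le_abs_self C])⟩
  exact ⟨fun _ => hg, C, hC, fun _ d hd j hj => by simpa using h j hj d hd⟩

theorem ib_psi : ib_BO n (fun (_ : T) _ => True) (fun _ => psi) (fun _ _ => 1) := by
  obtain ⟨-, C, hC, h⟩ := ib_ball (T := T) (n := n) contDiff_psi
  refine ⟨fun _ => contDiff_psi, C, hC, fun t z _ j hj => le_trans (le_of_eq ?_)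
    (h t 0 (by simp) j hj)⟩
  have h1 := iteratedFDeriv_comp_add_left (𝕜 := ℝ) (f := psi) j z 0
  rw [add_zero] at h1
  rw [← h1]
  simp only [psi_add, ← smul_eq_mul]
  rw [iteratedFDeriv_const_smul_apply' contDiff_psi.contDiffAt, norm_smul, norm_psi, one_mul]

end calculus

/-- Decay factor. -/
def ib_dk (A : ℕ) (x : ℝ) : ℝ := (1 + x) ^ (-A : ℝ)

theorem ib_dk_eq (A : ℕ) {x : ℝ} (hx : 0 ≤ x) : ib_dk A x = ((1 + x) ^ A)⁻¹ := by
  rw [ib_dk, Real.rpow_neg (by linarith), Real.rpow_natCast]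

theorem ib_dk_pos (A : ℕ) {x : ℝ} (hx : 0 ≤ x) : 0 < ib_dk A x := by
  rw [ib_dk_eq A hx]
  positivity

theorem ib_dk_add (A B : ℕ) {x : ℝ} (hx : 0 ≤ x) : ib_dk (A + B) x * (1 + x) ^ B = ib_dk A x := by
  rw [ib_dk_eq _ hx, ib_dk_eq _ hx, pow_add]
  field_simp

theorem ib_dk_le (A : ℕ) {x y k : ℝ} (hx : 0 ≤ x) (hy : 0 ≤ y) (h : 1 + x ≤ k * (1 + y)) :
    ib_dk A y ≤ k ^ A * ib_dk A x := by
  rw [ib_dk_eq _ hx, ib_dk_eq _ hy, ← div_eq_mul_inv, inv_eq_one_div,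
    div_le_div_iff₀ (by positivity) (by positivity), one_mul, ← mul_pow]
  exact pow_le_pow_left₀ (by linarith) h A

theorem ib_ft_unif (A n : ℕ) : ∃ C : ℝ, 0 < C ∧ ∀ i ≤ n, ∀ (w : ℂ → ℂ) (W : ℝ), ContDiff ℝ ∞ w →
    (∀ z, w z ≠ 0 → ‖z‖ ≤ 2) → DB A w W →
    ∀ η, ‖iteratedFDeriv ℝ i (ft w) η‖ ≤ C * W * ib_dk A ‖η‖ :=
  ib_unif n (fun _ _ _ h h' w W h1 h2 h3 η => (h' w W h1 h2 h3 η).trans
    (mul_le_mul_of_nonneg_right (mul_le_mul_of_nonneg_right h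
      ((norm_nonneg _).trans (h3 0 (Nat.zero_le _) 0))) (ib_dk_pos _ (norm_nonneg _)).le))
    (ft_deriv_le A)

theorem ib_ftb {T : Type} (n A : ℕ) :
    ib_BO n (fun (_ : T) _ => True) (fun _ => ft b0) (fun _ η => ib_dk A ‖η‖) := by
  have hs : ∀ z, b0 z ≠ 0 → ‖z‖ ≤ 2 := fun z hz => by linarith [b0_supp hz]
  obtain ⟨C, hC, h⟩ := ib_ft_unif A n
  obtain ⟨W, hW, h'⟩ := exists_DB contDiff_b0 hs A
  exact ⟨fun _ => contDiff_ft contDiff_b0 hs, C * W, by positivity,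
    fun _ η _ j hj => h j hj b0 W contDiff_b0 hs h' η⟩

/-- The parameters. -/
structure ib_Par (N : ℕ) where
  w : ℂ → ℂ
  W : ℝ
  c : ℂ
  adm : Adm w
  db : DB N w W
  hc : c ≠ 0

theorem ib_Par.W_nonneg {N : ℕ} (t : ib_Par N) : 0 ≤ t.W :=
  (norm_nonneg _).trans (t.db 0 (Nat.zero_le _) 0)

theorem ib_ft_zero {w : ℂ → ℂ} (h : Adm w) : ft w 0 = 0 := by
  have := h.ft_rot (u := -1) (by simp) 0
  simp only [mul_zero, map_neg, map_one] at this
  linear_combination this / 2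

theorem ib_ftw (n N : ℕ) : ib_BO n (fun (_ : ib_Par N) y => ‖y‖ ≤ 1)
    (fun t y => ft t.w (-(t.c * y)))
    (fun t y => t.W * ‖t.c‖ * (1 + ‖t.c‖) ^ n * ib_dk N (‖t.c‖ * ‖y‖)) := by
  obtain ⟨C, hC, h⟩ := ib_ft_unif N (n + 1)
  have hs : ∀ t : ib_Par N, ∀ z, t.w z ≠ 0 → ‖z‖ ≤ 2 := fun t z hz => (t.adm.supp z hz).2
  have hd : ∀ t : ib_Par N, ContDiff ℝ ∞ (ft t.w) := fun t => contDiff_ft t.adm.smooth (hs t)
  refine ⟨fun t => (hd t).comp (contDiff_const.mul contDiff_id).neg, C * 2 ^ N, by positivity,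
    fun t y hy j hj => ?_⟩
  have hW := t.W_nonneg
  have hc := norm_nonneg t.c
  have hη : ‖-(t.c * y)‖ = ‖t.c‖ * ‖y‖ := by rw [norm_neg, norm_mul]
  have hk := ib_dk_pos N (mul_nonneg hc (norm_nonneg y))
  have h1 : 1 ≤ (1 + ‖t.c‖) ^ n := one_le_pow₀ (by linarith)
  have h2 : (1 : ℝ) ≤ 2 ^ N := one_le_pow₀ one_le_two
  have hb := fun i hi => h i hi t.w t.W t.adm.smooth (hs t) t.db
  rcases j with _ | j
  · rw [norm_iteratedFDeriv_zero]
    have h3 : ‖t.c‖ * ‖y‖ ≤ ‖t.c‖ * (1 + ‖t.c‖) ^ n := mul_le_mul_of_nonneg_left (hy.trans h1) hc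
    have h4 : ‖ft t.w (-(t.c * y))‖ ≤
        C * t.W * (‖t.c‖ * ‖y‖) * (2 ^ N * ib_dk N (‖t.c‖ * ‖y‖)) := by
      rcases le_total (‖t.c‖ * ‖y‖) 1 with g | g
      · have m := Convex.norm_image_sub_le_of_norm_fderiv_le (𝕜 := ℝ) (f := ft t.w) (s := Set.univ)
          (C := C * t.W) (fun x _ => ((hd t).differentiable (by simp)).differentiableAt)
          (fun x _ => by
            have := hb 1 (by omega) x
            rw [norm_iteratedFDeriv_one] at this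
            refine this.trans (mul_le_of_le_one_right (by positivity) ?_)
            have := ib_dk_le N (x := 0) (y := ‖x‖) (k := 1) le_rfl (norm_nonneg x)
              (by linarith [norm_nonneg x])
            simpa [ib_dk] using this)
          convex_univ (Set.mem_univ 0) (Set.mem_univ (-(t.c * y)))
        rw [ib_ft_zero t.adm, sub_zero, sub_zero, hη] at m
        refine m.trans (le_mul_of_one_le_right (by positivity) ?_)
        have := ib_dk_le N (x := ‖t.c‖ * ‖y‖) (y := 0) (k := 2) (by positivity) le_rfl (by linarith)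
        simpa [ib_dk] using this
      · have := hb 0 (by omega) (-(t.c * y))
        rw [norm_iteratedFDeriv_zero, hη] at this
        exact this.trans (mul_le_mul (le_mul_of_one_le_right (by positivity) g)
          (le_mul_of_one_le_left hk.le h2) hk.le (by positivity))
    calc _ ≤ C * t.W * (‖t.c‖ * (1 + ‖t.c‖) ^ n) * (2 ^ N * ib_dk N (‖t.c‖ * ‖y‖)) :=
          h4.trans (by gcongr)
      _ = _ := by ring
  · let L : ℂ →L[ℝ] ℂ := -ContinuousLinearMap.mul ℝ ℂ t.c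
    have hL : ‖L‖ ≤ ‖t.c‖ := by
      rw [norm_neg]
      exact ContinuousLinearMap.opNorm_mul_apply_le _ _ _
    have e := L.iteratedFDeriv_comp_right (hd t) y (ib_le (j + 1))
    change ‖iteratedFDeriv ℝ (j + 1) (ft t.w ∘ L) y‖ ≤ _
    rw [e]
    refine (ContinuousMultilinearMap.norm_compContinuousLinearMap_le _ _).trans ?_
    rw [Finset.prod_const, Finset.card_univ, Fintype.card_fin]
    have h3 := hb (j + 1) (by omega) (-(t.c * y))
    rw [hη] at h3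
    have h4 : ‖L‖ ^ (j + 1) ≤ (1 + ‖t.c‖) ^ n * ‖t.c‖ := by
      rw [pow_succ]
      exact mul_le_mul ((pow_le_pow_left₀ (norm_nonneg _) (by linarith) j).trans
        (pow_le_pow_right₀ (by linarith) (by omega))) hL (norm_nonneg _) (by positivity)
    calc _ ≤ C * t.W * ib_dk N (‖t.c‖ * ‖y‖) * ((1 + ‖t.c‖) ^ n * ‖t.c‖) :=
          mul_le_mul h3 h4 (by positivity) (by positivity)
      _ = 1 * (C * (t.W * ‖t.c‖ * (1 + ‖t.c‖) ^ n * ib_dk N (‖t.c‖ * ‖y‖))) := by ring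
      _ ≤ 2 ^ N * (C * (t.W * ‖t.c‖ * (1 + ‖t.c‖) ^ n * ib_dk N (‖t.c‖ * ‖y‖))) := by gcongr
      _ = _ := by ring

/-- Auxiliary bump. -/
def ib_ph : ContDiffBump (0 : ℂ) := ⟨1 / 2, 1, by norm_num, by norm_num⟩
/-- Regularised inverse square norm. -/
def ib_r (d : ℂ) : ℂ := ((‖d‖ ^ 2 + ib_ph d : ℝ) : ℂ)⁻¹
/-- Regularised inverse. -/
def ib_io (d : ℂ) : ℂ := conj d * ib_r d

theorem ib_r_smooth : ContDiff ℝ ∞ ib_r := by
  refine ContDiff.inv (Complex.ofRealCLM.contDiff.comp ((contDiff_norm_sq ℝ).add ib_ph.contDiff))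
    fun d => Complex.ofReal_ne_zero.2 (ne_of_gt ?_)
  rcases eq_or_ne d 0 with rfl | h
  · have : ib_ph (0 : ℂ) = 1 := ib_ph.one_of_mem_closedBall (by simp [ib_ph])
    simp [this]
  · exact add_pos_of_pos_of_nonneg (by positivity) ib_ph.nonneg

theorem ib_io_smooth : ContDiff ℝ ∞ ib_io := Complex.conjCLE.contDiff.mul ib_r_smooth

theorem ib_r_eq {d : ℂ} (h : 1 ≤ ‖d‖) : ib_r d = ((‖d‖ ^ 2 : ℝ) : ℂ)⁻¹ := by
  have : ib_ph d = 0 := ib_ph.zero_of_le_dist (by simpa [ib_ph] using h)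
  rw [ib_r, this, add_zero]

theorem ib_io_eq {d : ℂ} (h : 1 ≤ ‖d‖) : ib_io d = d⁻¹ := by
  rw [ib_io, ib_r_eq h, Complex.inv_def d, Complex.normSq_eq_norm_sq, Complex.ofReal_inv]

theorem ib_Fint (w : ℂ → ℂ) (c : ℂ) : Fint w c = fun p => ib_r p.1 * a0 p.1 *
    ft w (-(c * ib_io p.1)) * ft b0 (p.2 * ib_io p.1) *
      psi (p.2 * p.2 * p.2 * ib_io p.1 * (27 * c)⁻¹) := by
  funext p
  by_cases h : a0 p.1 = 0
  · simp [Fint, h]
  have h1 := (a0_supp h).1.le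
  rw [Fint, ib_r_eq h1, ib_io_eq h1, div_eq_mul_inv c, div_eq_mul_inv p.2]
  congr 2
  rw [div_eq_mul_inv, mul_inv, mul_inv, mul_inv]
  ring

/-- The annulus. -/
def ib_S {T : Type} (_ : T) (p : ℂ × ℂ) : Prop := 1 ≤ ‖p.1‖ ∧ ‖p.1‖ ≤ 2

theorem ib_io_norm {T : Type} {t : T} {p : ℂ × ℂ} (h : ib_S t p) :
    1 / 2 ≤ ‖ib_io p.1‖ ∧ ‖ib_io p.1‖ ≤ 1 := by
  rw [ib_io_eq h.1, norm_inv, one_div]
  exact ⟨inv_anti₀ (by linarith [h.1]) h.2, inv_le_one_of_one_le₀ h.1⟩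

theorem ib_fst {T : Type} (n : ℕ) {g : ℂ → ℂ} (hg : ContDiff ℝ ∞ g) :
    ib_BO n (ib_S (T := T)) (fun _ p => g p.1) (fun _ _ => 1) := by
  have h : ib_BO n (ib_S (T := T)) (fun _ p => p.1) (fun _ _ => 1) :=
    (ib_lin (ContinuousLinearMap.fst ℝ ℂ ℂ) (ContinuousLinearMap.norm_fst_le ..)).mono
      (D := 3) (by norm_num) fun t p hp => by
        have := hp.2
        simp only [ContinuousLinearMap.coe_fst']
        linarith
  exact ((ib_ball hg).comp h (fun _ _ hp => hp.2) fun _ _ _ => le_rfl).mono one_pos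
    fun _ _ _ => by simp

theorem ib_snd {T : Type} (n : ℕ) :
    ib_BO n (ib_S (T := T)) (fun _ p => p.2) (fun _ p => 1 + ‖p.2‖) :=
  ib_lin (ContinuousLinearMap.snd ℝ ℂ ℂ) (ContinuousLinearMap.norm_snd_le ..)

theorem ib_h1 (n B : ℕ) : ib_BO n (ib_S (T := ib_Par (B + n)))
    (fun t p => ft t.w (-(t.c * ib_io p.1))) (fun t _ => t.W * ‖t.c‖ * ib_dk B ‖t.c‖) := by
  have h := (ib_ftw n (B + n)).comp (ib_fst n ib_io_smooth) (fun _ _ hp => (ib_io_norm hp).2)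
    fun _ _ _ => le_rfl
  refine h.mono (D := 2 ^ (B + n)) (by positivity) fun t p hp => ?_
  have hW := t.W_nonneg
  have hc := norm_nonneg t.c
  have := ib_dk_le (B + n) (x := ‖t.c‖) (y := ‖t.c‖ * ‖ib_io p.1‖) (k := 2) hc
    (by positivity) (by nlinarith [(ib_io_norm hp).1])
  rw [← ib_dk_add B n hc]
  calc _ = t.W * ‖t.c‖ * (1 + ‖t.c‖) ^ n * ib_dk (B + n) (‖t.c‖ * ‖ib_io p.1‖) := by simp
    _ ≤ t.W * ‖t.c‖ * (1 + ‖t.c‖) ^ n * (2 ^ (B + n) * ib_dk (B + n) ‖t.c‖) := by gcongr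
    _ = _ := by ring

theorem ib_h2 {T : Type} (n B : ℕ) : ib_BO n (ib_S (T := T))
    (fun _ p => ft b0 (p.2 * ib_io p.1)) (fun _ p => ib_dk B ‖p.2‖) := by
  have h := (ib_ftb (T := T) n (B + n)).comp ((ib_snd n).mul (ib_fst n ib_io_smooth))
    (fun _ _ _ => trivial) fun _ p _ => by linarith [norm_nonneg p.2]
  refine h.mono (D := 2 ^ (B + n)) (by positivity) fun t p hp => ?_
  have hc := norm_nonneg p.2
  have := ib_dk_le (B + n) (x := ‖p.2‖) (y := ‖p.2 * ib_io p.1‖) (k := 2) hc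
    (by positivity) (by rw [norm_mul]; nlinarith [(ib_io_norm hp).1])
  rw [← ib_dk_add B n hc, mul_one, ← mul_assoc]
  gcongr

theorem ib_h3 {T : Type} (n : ℕ) (c : T → ℂ) : ib_BO n (ib_S (T := T))
    (fun t p => psi (p.2 * p.2 * p.2 * ib_io p.1 * (27 * c t)⁻¹))
    (fun t p => ((1 + ‖p.2‖) ^ 3 * (1 + ‖c t‖⁻¹)) ^ n) := by
  have hs := ib_snd (T := T) n
  have h1 := (((hs.mul hs).mul hs).mul (ib_fst n ib_io_smooth)).mul
    (ib_const fun t => (27 * c t)⁻¹)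
  have h2 := h1.mono (L := fun t p => (1 + ‖p.2‖) ^ 3 * (1 + ‖c t‖⁻¹)) one_pos fun t p _ => by
    have h : ‖(27 * c t)⁻¹‖ ≤ 1 + ‖c t‖⁻¹ := by
      rw [norm_inv, norm_mul, mul_inv, Complex.norm_ofNat]
      linarith [inv_nonneg.2 (norm_nonneg (c t))]
    calc _ = (1 + ‖p.2‖) ^ 3 * ‖(27 * c t)⁻¹‖ := by ring
      _ ≤ (1 + ‖p.2‖) ^ 3 * (1 + ‖c t‖⁻¹) := by gcongr
      _ = _ := (one_mul _).symm
  exact (ib_psi.comp h2 (fun _ _ _ => trivial) fun t p _ =>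
    one_le_mul_of_one_le_of_one_le (one_le_pow₀ (by linarith [norm_nonneg p.2]))
      (by linarith [inv_nonneg.2 (norm_nonneg (c t))])).mono one_pos fun _ _ _ => le_rfl

theorem ib_main (n B : ℕ) : ib_BO n (ib_S (T := ib_Par (B + n))) (fun t => Fint t.w t.c)
    (fun t p => t.W * ‖t.c‖ * ib_dk B ‖t.c‖ * (1 + ‖t.c‖⁻¹) ^ n * ib_dk 3 ‖p.2‖) := by
  have h := (((ib_fst n (ib_r_smooth.mul contDiff_a0)).mul (ib_h1 n B)).mul
    (ib_h2 n (3 + 3 * n))).mul (ib_h3 n fun t => t.c)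
  simp only [ib_Fint]
  refine h.mono one_pos fun t p _ => le_of_eq ?_
  rw [← ib_dk_add 3 (3 * n) (norm_nonneg p.2), mul_pow, ← pow_mul]
  ring

theorem ib_Ia (n B : ℕ) : ∃ C : ℝ, 0 < C ∧ ∀ (t : ib_Par (B + n)) (z ζ : ℂ),
    ‖Ia t.w t.c z ζ‖ ≤ C * (t.W * ‖t.c‖ * ib_dk B ‖t.c‖) *
      ((1 + ‖t.c‖⁻¹) ^ n * ib_dk n (‖z‖ / ‖t.c‖ + ‖ζ‖ / ‖t.c‖)) := by
  obtain ⟨hsm, C, hC, h⟩ := ib_main n B
  obtain ⟨D, hD, h'⟩ := ft2_decay n
  have hi : Integrable fun p : ℂ × ℂ => ib_dk 3 ‖p.1‖ * ib_dk 3 ‖p.2‖ :=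
    (integrable_decay (σ := (3 : ℕ)) (by norm_num)).mul_prod
      (integrable_decay (σ := (3 : ℕ)) (by norm_num))
  set J := ∫ p : ℂ × ℂ, ib_dk 3 ‖p.1‖ * ib_dk 3 ‖p.2‖ with hJ
  have hJ0 : 0 ≤ J := integral_nonneg fun p =>
    (mul_pos (ib_dk_pos _ (norm_nonneg _)) (ib_dk_pos _ (norm_nonneg _))).le
  refine ⟨D * (C * 27 * (J + 1)), by positivity, fun t z ζ => ?_⟩
  have hW := t.W_nonneg
  have hk := ib_dk_pos B (norm_nonneg t.c)
  set M := t.W * ‖t.c‖ * ib_dk B ‖t.c‖ * (1 + ‖t.c‖⁻¹) ^ n with hM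
  have hM0 : 0 ≤ M := by positivity
  have hb : ∀ j ≤ n, ∀ p, ‖iteratedFDeriv ℝ j (Fint t.w t.c) p‖ ≤
      C * 27 * M * (ib_dk 3 ‖p.1‖ * ib_dk 3 ‖p.2‖) := fun j hj p => by
    have k1 := ib_dk_pos 3 (norm_nonneg p.1)
    have k2 := ib_dk_pos 3 (norm_nonneg p.2)
    by_cases hp : ib_S t p
    · have := ib_dk_le 3 (x := ‖p.1‖) (y := 0) (k := 3) (norm_nonneg _) le_rfl (by linarith [hp.2])
      have e : ib_dk 3 0 = 1 := by simp [ib_dk]
      rw [e] at this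
      calc _ ≤ C * (M * ib_dk 3 ‖p.2‖) * 1 := by simpa using h t p hp j hj
        _ ≤ C * (M * ib_dk 3 ‖p.2‖) * (3 ^ 3 * ib_dk 3 ‖p.1‖) := by gcongr
        _ = _ := by ring
    · have hc : IsClosed {q : ℂ × ℂ | ib_S t q} :=
        (isClosed_le continuous_const continuous_fst.norm).inter
          (isClosed_le continuous_fst.norm continuous_const)
      have he : Fint t.w t.c =ᶠ[𝓝 p] fun _ => 0 := by
        filter_upwards [hc.isOpen_compl.mem_nhds hp] with q hq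
        have : a0 q.1 = 0 := by
          by_contra h0
          exact hq ⟨(a0_supp h0).1.le, (a0_supp h0).2.le⟩
        simp [Fint, this]
      rw [(he.iteratedFDeriv ℝ j).eq_of_nhds, iteratedFDeriv_fun_zero, Pi.zero_apply, norm_zero]
      positivity
  have hint : ∀ j ≤ n, Integrable fun p => ‖iteratedFDeriv ℝ j (Fint t.w t.c) p‖ := fun j hj =>
    (hi.const_mul _).mono' ((hsm t).continuous_iteratedFDeriv (ib_le j)).norm.aestronglyMeasurable
      (Eventually.of_forall fun p => by simpa using hb j hj p)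
  have := h' (Fint t.w t.c) (C * 27 * M * (J + 1)) (hsm t) hint (fun j hj => by
    refine (integral_mono (hint j hj) (hi.const_mul _) (hb j hj)).trans ?_
    rw [integral_const_mul]
    gcongr
    linarith) (-(z / t.c)) (ζ / t.c)
  refine this.trans (le_of_eq ?_)
  rw [norm_neg, norm_div, norm_div, add_assoc, hM]
  unfold ib_dk
  ring

theorem iBd : IBd := by
  intro A
  obtain ⟨C, hC, h⟩ := ib_Ia (2 * A) (A + 2 * A)
  obtain ⟨D, hD, h'⟩ := ib_Ia 0 A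
  refine ⟨A + 2 * A + 2 * A, (C + D) * 4 ^ A, by positivity, fun w W hw hW c z ζ hc => ?_⟩
  have hW0 : 0 ≤ W := (norm_nonneg _).trans (hW 0 (Nat.zero_le _) 0)
  have hc0 : 0 < ‖c‖ := norm_pos_iff.2 hc
  have hz := norm_nonneg z
  have hζ := norm_nonneg ζ
  have k1 := ib_dk_pos A hc0.le
  have k2 := ib_dk_pos A hz
  have k3 := ib_dk_pos A hζ
  change _ ≤ _ * W * ‖c‖ * ib_dk A ‖c‖ * ib_dk A ‖z‖ * ib_dk A ‖ζ‖
  rcases le_total (‖z‖ + ‖ζ‖) 1 with g | g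
  · have a := h' ⟨w, W, c, hw, fun i hi => hW i (by omega), hc⟩ z ζ
    have e : ib_dk A 0 = 1 := by simp [ib_dk]
    have b1 := ib_dk_le A (x := ‖z‖) (y := 0) (k := 2) hz le_rfl (by linarith)
    have b2 := ib_dk_le A (x := ‖ζ‖) (y := 0) (k := 2) hζ le_rfl (by linarith)
    rw [e] at b1 b2
    calc _ ≤ D * (W * ‖c‖ * ib_dk A ‖c‖) * (1 * 1) := by simpa [ib_dk] using a
      _ ≤ (C + D) * (W * ‖c‖ * ib_dk A ‖c‖) * (2 ^ A * ib_dk A ‖z‖ * (2 ^ A * ib_dk A ‖ζ‖)) := by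
          gcongr
          linarith
      _ = _ := by rw [show (4 : ℝ) = 2 * 2 by norm_num, mul_pow]; ring
  · have a := h ⟨w, W, c, hw, hW, hc⟩ z ζ
    have b : (1 + ‖c‖⁻¹) ^ (2 * A) * ib_dk (2 * A) (‖z‖ / ‖c‖ + ‖ζ‖ / ‖c‖) ≤
        (1 + ‖c‖) ^ (2 * A) * (4 ^ A * ib_dk A ‖z‖ * ib_dk A ‖ζ‖) := by
      rw [ib_dk_eq _ (by positivity), ib_dk_eq _ hz, ib_dk_eq _ hζ, pow_mul, pow_mul, pow_mul,
        ← inv_pow _ A, ← inv_pow _ A, ← inv_pow _ A, ← mul_pow _ _ A, ← mul_pow _ _ A,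
        ← mul_pow _ _ A, ← mul_pow _ _ A]
      refine pow_le_pow_left₀ (by positivity) ?_ A
      have e : (1 + ‖c‖⁻¹) ^ 2 * ((1 + (‖z‖ / ‖c‖ + ‖ζ‖ / ‖c‖)) ^ 2)⁻¹ =
          (1 + ‖c‖) ^ 2 * ((‖c‖ + (‖z‖ + ‖ζ‖)) ^ 2)⁻¹ := by
        field_simp
        ring
      rw [e, mul_assoc 4, ← mul_inv, ← div_eq_mul_inv 4, inv_eq_one_div]
      refine mul_le_mul_of_nonneg_left ?_ (by positivity)
      rw [div_le_div_iff₀ (by positivity) (by positivity)]
      nlinarith [mul_nonneg hz hζ, mul_nonneg hc0.le (add_nonneg hz hζ), sq_nonneg ‖c‖,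
        mul_nonneg (sub_nonneg.2 g) hz, mul_nonneg (sub_nonneg.2 g) hζ]
    have k4 := ib_dk_pos (A + 2 * A) hc0.le
    calc _ ≤ (C + D) * (W * ‖c‖ * ib_dk (A + 2 * A) ‖c‖) *
          ((1 + ‖c‖) ^ (2 * A) * (4 ^ A * ib_dk A ‖z‖ * ib_dk A ‖ζ‖)) := by
          refine a.trans (mul_le_mul ?_ b ?_ (by positivity))
          · gcongr
            linarith
          · exact mul_nonneg (by positivity) (ib_dk_pos _ (by positivity)).le
      _ = _ := by rw [← ib_dk_add A (2 * A) hc0.le]; ring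

end QRH
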