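import Vale.Agent.P026.Defs

noncomputable section
namespace QRH
open Complex MeasureTheory
open scoped ComplexConjugate Classical

theorem toC_apply (x : E) : toC x = (x.re : ℂ) + (x.im : ℂ) * omC := rfl
theorem e1_norm (x : E) : QuadraticAlgebra.norm x = x.re ^ 2 - x.re * x.im + x.im ^ 2 := by
  rw [QuadraticAlgebra.norm_def]; ring
theorem e1_three (x : E) : (3 : E) ∣ x ↔ (3 : ℤ) ∣ x.re ∧ (3 : ℤ) ∣ x.im :=
  QuadraticAlgebra.algebraMap_dvd_iff (r := (3 : ℤ))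
theorem e1_prim (x : E) : (3 : E) ∣ x - 1 ↔ (3 : ℤ) ∣ x.re - 1 ∧ (3 : ℤ) ∣ x.im := by
  rw [e1_three]; simp [QuadraticAlgebra.re_one, QuadraticAlgebra.im_one]
theorem nm_int (x : E) : (nm x : ℤ) = x.re ^ 2 - x.re * x.im + x.im ^ 2 := by
  rw [nm, Int.natAbs_of_nonneg, e1_norm]
  rw [e1_norm]; nlinarith [sq_nonneg (x.re - x.im), sq_nonneg x.re, sq_nonneg x.im]
theorem nm_eq (x : E) : (nm x : ℝ) = ‖toC x‖ ^ 2 := by
  have h : √3 * √3 = (3 : ℝ) := Real.mul_self_sqrt (by norm_num)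
  have h1 : (nm x : ℝ) = (x.re : ℝ) ^ 2 - x.re * x.im + (x.im : ℝ) ^ 2 := by
    exact_mod_cast nm_int x
  rw [h1, Complex.sq_norm, Complex.normSq_apply, toC_apply]
  simp [omC]
  linear_combination (-(x.im : ℝ) ^ 2 / 4) * h
theorem nm_mul (x y : E) : nm (x * y) = nm x * nm y := by
  simp [nm, Int.natAbs_mul]
theorem nm_one : nm 1 = 1 := by simp [nm]
theorem nm_zero : nm 0 = 0 := by simp [nm]
theorem nm_pow (x : E) (k : ℕ) : nm (x ^ k) = nm x ^ k := by simp [nm, Int.natAbs_pow]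
theorem nm_prod {ι : Type*} (s : Finset ι) (f : ι → E) :
    nm (∏ i ∈ s, f i) = ∏ i ∈ s, nm (f i) := by
  classical
  induction s using Finset.induction_on with
  | empty => simp [nm_one]
  | insert a s ha ih => rw [Finset.prod_insert ha, Finset.prod_insert ha, nm_mul, ih]
theorem nm_neg (x : E) : nm (-x) = nm x := by simp [nm]
theorem nm_star (x : E) : nm (star x) = nm x := by simp [nm]
theorem nm_natCast (n : ℕ) : nm (n : E) = n ^ 2 := by simp [nm, Int.natAbs_pow]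
theorem nm_eq_zero {x : E} : nm x = 0 ↔ x = 0 := by
  refine ⟨fun h => ?_, fun h => h ▸ nm_zero⟩
  have h1 := nm_int x
  rw [h] at h1
  push_cast at h1
  have h2 : x.re = 0 := by nlinarith [sq_nonneg (x.re - 2 * x.im), sq_nonneg x.re]
  have h3 : x.im = 0 := by nlinarith [sq_nonneg (x.im - 2 * x.re), sq_nonneg x.im]
  exact QuadraticAlgebra.ext h2 h3
theorem one_le_nm {x : E} (hx : x ≠ 0) : 1 ≤ nm x := Nat.one_le_iff_ne_zero.2 fun h => hx (nm_eq_zero.1 h)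
theorem one_le_nmR {x : E} (hx : x ≠ 0) : (1 : ℝ) ≤ nm x := by exact_mod_cast one_le_nm hx
theorem one_le_norm {x : E} (hx : x ≠ 0) : 1 ≤ ‖toC x‖ := by
  have h := one_le_nmR hx
  rw [nm_eq] at h
  nlinarith [norm_nonneg (toC x)]
theorem norm_toC (x : E) : ‖toC x‖ = √(nm x : ℝ) := by rw [nm_eq, Real.sqrt_sq (norm_nonneg _)]
theorem mul_star_eq (x : E) : x * star x = (nm x : E) := by
  have h := nm_int x
  ext
  · simp; linarith
  · simp; ring
theorem nm_dvd {x y : E} (h : x ∣ y) : nm x ∣ nm y := by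
  obtain ⟨z, rfl⟩ := h
  exact ⟨nm z, nm_mul _ _⟩
theorem nm_le_of_dvd {x y : E} (h : x ∣ y) (hy : y ≠ 0) : nm x ≤ nm y := Nat.le_of_dvd (one_le_nm hy) (nm_dvd h)
theorem toC_inj : Function.Injective toC := by
  rw [injective_iff_map_eq_zero]
  intro x hx
  have h := nm_eq x
  rw [hx, norm_zero] at h
  exact nm_eq_zero.1 (by exact_mod_cast (by simpa using h : (nm x : ℝ) = 0))
theorem toC_ne_zero {x : E} (hx : x ≠ 0) : toC x ≠ 0 := fun h => hx (toC_inj (h.trans (map_zero _).symm))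
theorem toC_star (x : E) : toC (star x) = conj (toC x) := by
  apply Complex.ext <;> simp [toC_apply, omC]
  ring
theorem toC_om : toC om = omC := by simp [toC_apply, om]
theorem om_rel : om ^ 2 + om + 1 = 0 := by decide
theorem om_cube : om ^ 3 = 1 := by decide
theorem omC_rel : omC ^ 2 + omC + 1 = 0 := by linear_combination omC_sq
theorem omC_cube : omC ^ 3 = 1 := by linear_combination (omC - 1) * omC_rel
theorem omC_ne_one : omC ≠ 1 := by
  intro h
  have := congrArg Complex.re h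
  norm_num [omC] at this
theorem norm_omC : ‖omC‖ = 1 := by
  have h : ‖omC‖ ^ 3 = 1 := by rw [← norm_pow, omC_cube, norm_one]
  exact (pow_eq_one_iff_of_nonneg (norm_nonneg _) (by norm_num)).1 h
theorem conj_omC : conj omC = omC ^ 2 := by
  have h : omC ^ 2 = -1 - omC := by rw [sq, omC_sq]
  rw [h]
  apply Complex.ext <;> simp [omC]
  norm_num
theorem omC_pow_eq_iff (i j : ℕ) : omC ^ i = omC ^ j ↔ i % 3 = j % 3 := by
  have : Fact (Nat.Prime 3) := ⟨by norm_num⟩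
  have h : orderOf omC = 3 := orderOf_eq_prime omC_cube omC_ne_one
  have h0 : omC ≠ 0 := fun h0 => by simpa [h0] using omC_cube
  have hp : IsPrimitiveRoot omC 3 := h ▸ IsPrimitiveRoot.orderOf omC
  rw [pow_eq_pow_mod i omC_cube, pow_eq_pow_mod j omC_cube]
  exact ⟨fun e => hp.pow_inj (Nat.mod_lt _ (by norm_num)) (Nat.mod_lt _ (by norm_num)) e,
    fun e => by rw [e]⟩
theorem lam_eq : lam = 1 + 2 * om := by decide
theorem lam_sq : lam ^ 2 = -3 := by decide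
theorem nm_lam : nm lam = 3 := by decide
theorem nm_om : nm om = 1 := by decide
theorem natCast_dvd_iff (n : ℕ) (x : E) : (n : E) ∣ x ↔ (n : ℤ) ∣ x.re ∧ (n : ℤ) ∣ x.im := QuadraticAlgebra.algebraMap_dvd_iff (r := (n : ℤ))
theorem natCast_dvd_natCast {m n : ℕ} : (m : E) ∣ (n : E) ↔ m ∣ n := by
  rw [natCast_dvd_iff]; simp [Int.natCast_dvd_natCast]

instance : IsDomain E := toC_inj.isDomain toC
theorem exists_divmod (x : E) {y : E} (hy : y ≠ 0) : ∃ q r, x = y * q + r ∧ nm r < nm y := by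
  have hN : (0 : ℤ) < nm y := by exact_mod_cast one_le_nm hy
  have key : ∀ a : ℤ, ∃ q s : ℤ, a = nm y * q + s ∧ -(nm y : ℤ) ≤ 2 * s ∧ 2 * s ≤ nm y := by
    intro a
    refine ⟨(2 * a + nm y) / (2 * nm y), a - nm y * ((2 * a + nm y) / (2 * nm y)), by ring, ?_⟩
    have h1 := Int.emod_add_mul_ediv (2 * a + nm y) (2 * nm y)
    have h2 := Int.emod_nonneg (2 * a + nm y) (b := 2 * nm y) (by omega)
    have h3 := Int.emod_lt_of_pos (2 * a + nm y) (b := 2 * nm y) (by omega)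
    constructor <;> nlinarith
  obtain ⟨q1, s1, a1, a2, a3⟩ := key (x * star y).re
  obtain ⟨q2, s2, b1, b2, b3⟩ := key (x * star y).im
  refine ⟨⟨q1, q2⟩, x - y * ⟨q1, q2⟩, by ring, ?_⟩
  have h1 : (x - y * ⟨q1, q2⟩) * star y = ⟨s1, s2⟩ := by
    have : (x - y * ⟨q1, q2⟩) * star y = x * star y - (y * star y) * ⟨q1, q2⟩ := by ring
    rw [this, mul_star_eq]
    ext
    · rw [QuadraticAlgebra.re_sub, a1]; simp
    · rw [QuadraticAlgebra.im_sub, b1]; simp
  have h2 := congrArg (fun z => (nm z : ℤ)) h1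
  simp only [nm_mul, nm_star, Nat.cast_mul] at h2
  rw [nm_int ⟨s1, s2⟩] at h2
  simp only at h2
  have h3 : ((nm (x - y * ⟨q1, q2⟩) : ℤ)) * nm y < nm y * nm y := by
    rw [h2]
    nlinarith [mul_nonneg (sub_nonneg.2 a2) (sub_nonneg.2 a3),
      mul_nonneg (sub_nonneg.2 b2) (sub_nonneg.2 b3), sq_nonneg (s1 + s2)]
  exact_mod_cast lt_of_mul_lt_mul_right h3 hN.le
instance : IsPrincipalIdealRing E := ⟨fun I => by
  by_cases h : ∃ n, ∃ x ∈ I, x ≠ 0 ∧ nm x = n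
  · obtain ⟨y, hy, hy0, hn⟩ := Nat.find_spec h
    refine ⟨y, le_antisymm (fun x hx => ?_) ((Ideal.span_singleton_le_iff_mem _).2 hy)⟩
    obtain ⟨q, r, h1, h2⟩ := exists_divmod x hy0
    have hr : r ∈ I := by
      have : r = x - y * q := by rw [h1]; ring
      rw [this]; exact I.sub_mem hx (I.mul_mem_right _ hy)
    by_cases hr0 : r = 0
    · exact Ideal.mem_span_singleton.2 ⟨q, by rw [h1, hr0, add_zero]⟩
    · exact absurd ⟨r, hr, hr0, rfl⟩ (Nat.find_min h (hn ▸ h2))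
  · refine ⟨0, le_antisymm (fun x hx => ?_) (by simp)⟩
    have : x = 0 := by
      by_contra h0
      exact h ⟨_, x, hx, h0, rfl⟩
    simp [this]⟩
instance : Countable E := (QuadraticAlgebra.equivProd (-1 : ℤ) (-1)).injective.countable

theorem isUnit_iff {x : E} : IsUnit x ↔ nm x = 1 := by
  rw [QuadraticAlgebra.isUnit_iff_norm_isUnit, Int.isUnit_iff_natAbs_eq, nm]
theorem isUnit_om : IsUnit om := isUnit_iff.2 nm_om
theorem isUnit_cases {x : E} (h : IsUnit x) : ∃ j < 3, x = om ^ j ∨ x = -om ^ j := by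
  have h1 := nm_int x
  rw [isUnit_iff.1 h] at h1
  obtain ⟨a, b⟩ := x
  simp only [Nat.cast_one] at h1
  have a1 : a ≤ 1 := by nlinarith [sq_nonneg (a - 2 * b)]
  have a2 : -1 ≤ a := by nlinarith [sq_nonneg (a - 2 * b)]
  have b1 : b ≤ 1 := by nlinarith [sq_nonneg (b - 2 * a)]
  have b2 : -1 ≤ b := by nlinarith [sq_nonneg (b - 2 * a)]
  interval_cases a <;> interval_cases b <;> first | decide | (exfalso; revert h1; decide)
theorem prime_of_nm_prime {x : E} (h : (nm x).Prime) : Prime x := by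
  refine Irreducible.prime ⟨fun hu => h.ne_one (isUnit_iff.1 hu), fun a b hab => ?_⟩
  rw [hab, nm_mul] at h
  rw [isUnit_iff, isUnit_iff]
  exact (Nat.prime_mul_iff.1 h).symm.imp (·.2) (·.2)
theorem lam_prime : Prime lam := prime_of_nm_prime (by rw [nm_lam]; norm_num)
theorem lam_dvd_three : lam ∣ 3 := ⟨-lam, by decide⟩
theorem lam_dvd_iff {x : E} : lam ∣ x ↔ 3 ∣ nm x := by
  refine ⟨fun h => nm_lam ▸ nm_dvd h, fun h => ?_⟩
  have h1 : lam ∣ x * star x := by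
    rw [mul_star_eq]
    exact lam_dvd_three.trans (natCast_dvd_natCast (m := 3).2 h)
  rcases lam_prime.dvd_or_dvd h1 with h2 | h2
  · exact h2
  · have : x = star x + lam * (x.im : E) := by
      ext <;> simp [lam]
      ring
    rw [this]
    exact dvd_add h2 (dvd_mul_right _ _)
theorem nm_mod_three {x : E} (h : ¬ lam ∣ x) : nm x % 3 = 1 := by
  rw [lam_dvd_iff] at h
  have h1 := nm_int x
  have h2 : (nm x : ℤ) = (x.re + x.im) ^ 2 - 3 * (x.re * x.im) := by rw [h1]; ring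
  obtain ⟨k, hk⟩ : ∃ k, x.re + x.im = 3 * k ∨ x.re + x.im = 3 * k + 1 ∨ x.re + x.im = 3 * k + 2 :=
    ⟨(x.re + x.im) / 3, by omega⟩
  rcases hk with hk | hk | hk <;> rw [hk] at h2
  · have : (nm x : ℤ) = 3 * (3 * k ^ 2 - x.re * x.im) := by rw [h2]; ring
    omega
  · have : (nm x : ℤ) = 3 * (3 * k ^ 2 + 2 * k - x.re * x.im) + 1 := by rw [h2]; ring
    omega
  · have : (nm x : ℤ) = 3 * (3 * k ^ 2 + 4 * k + 1 - x.re * x.im) + 1 := by rw [h2]; ring
    omega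
theorem not_lam_dvd_of_primary {x : E} (h : (3 : E) ∣ x - 1) : ¬ lam ∣ x := fun h1 =>
  lam_prime.not_dvd_one (by simpa using dvd_sub h1 (lam_dvd_three.trans h))
theorem primary_ne_zero {x : E} (h : (3 : E) ∣ x - 1) : x ≠ 0 := fun h0 => not_lam_dvd_of_primary h (h0 ▸ dvd_zero _)
theorem primary_mul {x y : E} (hx : (3 : E) ∣ x - 1) (hy : (3 : E) ∣ y - 1) :
    (3 : E) ∣ x * y - 1 := by
  have : x * y - 1 = (x - 1) * y + (y - 1) := by ring
  rw [this]; exact dvd_add (hx.mul_right _) hy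
theorem primary_pow {x : E} (hx : (3 : E) ∣ x - 1) (k : ℕ) : (3 : E) ∣ x ^ k - 1 := by
  simpa using hx.trans (sub_dvd_pow_sub_pow x 1 k)
theorem primary_of_mul {x y : E} (hx : (3 : E) ∣ x - 1) (hxy : (3 : E) ∣ x * y - 1) :
    (3 : E) ∣ y - 1 := by
  have : y - 1 = (x * y - 1) - (x - 1) * y := by ring
  rw [this]; exact dvd_sub hxy (hx.mul_right _)
theorem exists_primary {x : E} (h : ¬ lam ∣ x) : ∃ u, IsUnit u ∧ (3 : E) ∣ u * x - 1 := by
  obtain ⟨a, b⟩ := x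
  have h1 : ¬ (3 : ℤ) ∣ a + b := by
    rintro ⟨k, hk⟩
    refine h ⟨⟨2 * k - a, k - a⟩, ?_⟩
    ext <;> simp [lam] <;> omega
  have U : ∀ u : E, nm u = 1 → (3 : ℤ) ∣ (u * ⟨a, b⟩).re - 1 ∧ (3 : ℤ) ∣ (u * ⟨a, b⟩).im →
      ∃ u, IsUnit u ∧ (3 : E) ∣ u * ⟨a, b⟩ - 1 := fun u h1 h2 =>
    ⟨u, isUnit_iff.2 h1, (e1_prim _).2 h2⟩
  have ha : a % 3 = 0 ∨ a % 3 = 1 ∨ a % 3 = 2 := by omega
  have hb : b % 3 = 0 ∨ b % 3 = 1 ∨ b % 3 = 2 := by omega
  rcases ha with ha | ha | ha <;> rcases hb with hb | hb | hb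
  · omega
  · exact U ⟨-1, -1⟩ (by decide) (by simp; omega)
  · exact U ⟨1, 1⟩ (by decide) (by simp; omega)
  · exact U ⟨1, 0⟩ (by decide) (by simp; omega)
  · exact U ⟨0, -1⟩ (by decide) (by simp; omega)
  · omega
  · exact U ⟨-1, 0⟩ (by decide) (by simp; omega)
  · omega
  · exact U ⟨0, 1⟩ (by decide) (by simp; omega)
theorem primary_unique {x y : E} (hx : (3 : E) ∣ x - 1) (hy : (3 : E) ∣ y - 1)
    (h : Associated x y) : x = y := by
  obtain ⟨u, rfl⟩ := h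
  have h1 := (e1_prim _).1 (primary_of_mul hx hy)
  obtain ⟨j, hj, h2⟩ := isUnit_cases u.isUnit
  have h3 : (u : E) = 1 := by
    interval_cases j <;> rcases h2 with h2 | h2 <;> rw [h2] at h1 ⊢ <;>
      first | rfl | (exfalso; revert h1; decide)
  rw [h3, mul_one]
theorem nm_sub_dvd {m x y : E} (k : ℕ) (hm : m = (k : E)) (h : m ∣ x - y) :
    (k : ℤ) ∣ (nm x : ℤ) - nm y := by
  subst hm
  obtain ⟨⟨s, hs⟩, ⟨t, ht⟩⟩ := (natCast_dvd_iff _ _).1 h
  simp only [QuadraticAlgebra.re_sub, QuadraticAlgebra.im_sub] at hs ht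
  rw [nm_int, nm_int, show x.re = y.re + k * s by linarith, show x.im = y.im + k * t by linarith]
  exact ⟨2 * y.re * s + k * s ^ 2 - y.re * t - s * y.im - k * s * t + 2 * y.im * t + k * t ^ 2,
    by ring⟩
theorem prime_cases {q : E} (hq : Prime q) : Associated q lam ∨ ∃ p : P, Associated q p.1 := by
  by_cases h : lam ∣ q
  · exact Or.inl (lam_prime.associated_of_dvd hq h).symm
  · obtain ⟨u, hu, h1⟩ := exists_primary h
    have h2 : Associated q (u * q) := (associated_unit_mul_left q u hu).symm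
    exact Or.inr ⟨⟨u * q, h2.prime hq, h1⟩, h2⟩
theorem isCoprime_iff {a b : E} :
    IsCoprime a b ↔ ¬ (lam ∣ a ∧ lam ∣ b) ∧ ∀ p : P, ¬ (p.1 ∣ a ∧ p.1 ∣ b) := by
  refine ⟨fun h => ⟨fun h1 => lam_prime.not_isUnit (h.isUnit_of_dvd' h1.1 h1.2),
    fun p h1 => p.2.1.not_isUnit (h.isUnit_of_dvd' h1.1 h1.2)⟩, fun h => ?_⟩
  refine isCoprime_of_prime_dvd (fun h0 => h.1 ?_) fun z hz h1 h2 => ?_
  · rw [h0.1, h0.2]; simp
  · rcases prime_cases hz with h3 | ⟨p, h3⟩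
    · exact h.1 ⟨h3.dvd_iff_dvd_left.1 h1, h3.dvd_iff_dvd_left.1 h2⟩
    · exact h.2 p ⟨h3.dvd_iff_dvd_left.1 h1, h3.dvd_iff_dvd_left.1 h2⟩
theorem isCoprime_prime {p x : E} (hp : Prime p) : IsCoprime x p ↔ ¬ p ∣ x := isCoprime_comm.trans hp.coprime_iff_not_dvd
theorem isCoprime_three {x : E} : IsCoprime x 3 ↔ ¬ lam ∣ x := by
  have : (3 : E) = -lam ^ 2 := by rw [lam_sq, neg_neg]
  rw [this, IsCoprime.neg_right_iff, IsCoprime.pow_right_iff (by norm_num),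
    isCoprime_prime lam_prime]

theorem e1_nm_mod (x : E) : nm x % 3 ≠ 2 := by
  by_cases h : lam ∣ x
  · have := lam_dvd_iff.1 h; omega
  · have := nm_mod_three h; omega
theorem e1_inert {l : ℕ} (hl : l.Prime) (h : l % 3 = 2) : Prime (l : E) := by
  refine Irreducible.prime ⟨fun hu => ?_, fun a b hab => ?_⟩
  · have := isUnit_iff.1 hu
    rw [nm_natCast] at this
    exact hl.ne_one (by simpa using this)
  · have h1 := congrArg nm hab
    rw [nm_natCast, nm_mul] at h1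
    rw [isUnit_iff, isUnit_iff]
    obtain ⟨k, hk, h2⟩ := (Nat.dvd_prime_pow hl).1 (⟨_, h1⟩ : nm a ∣ l ^ 2)
    interval_cases k
    · exact Or.inl (by simpa using h2)
    · exact absurd (by rw [h2, pow_one, h]) (e1_nm_mod a)
    · rw [h2] at h1
      exact Or.inr (Nat.eq_of_mul_eq_mul_left (pow_pos hl.pos 2) (by rw [← h1, mul_one]))
theorem e1_split {l : ℕ} (hl : l.Prime) (h : l % 3 = 1) : ¬ Prime (l : E) := by
  intro hp
  have : Fact l.Prime := ⟨hl⟩
  have : Fact (Nat.Prime 3) := ⟨by norm_num⟩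
  obtain ⟨u, hu⟩ := exists_prime_orderOf_dvd_card (G := (ZMod l)ˣ) 3 (by
    rw [ZMod.card_units]; omega)
  have h1 : (u : ZMod l) ^ 3 = 1 := by
    rw [← Units.val_pow_eq_pow_val, ← hu, pow_orderOf_eq_one, Units.val_one]
  have h2 : (u : ZMod l) ≠ 1 := fun h => by
    rw [Units.val_eq_one] at h
    simp [h] at hu
  have h3 : (u : ZMod l) ^ 2 + u + 1 = 0 :=
    mul_left_cancel₀ (sub_ne_zero.2 h2) (by linear_combination h1)
  obtain ⟨n, hn⟩ : ∃ n : ℤ, (n : ZMod l) = u := ⟨((u : ZMod l).val : ℕ), by simp⟩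
  have h4 : (l : ℤ) ∣ n ^ 2 + n + 1 := by
    rw [← ZMod.intCast_zmod_eq_zero_iff_dvd]; push_cast; rw [hn, h3]
  have h5 : (l : E) ∣ (⟨n, -1⟩ : E) * ⟨n + 1, 1⟩ := by
    rw [natCast_dvd_iff]
    refine ⟨?_, by simp⟩
    have : ((⟨n, -1⟩ : E) * ⟨n + 1, 1⟩).re = n ^ 2 + n + 1 := by simp; ring
    rw [this]; exact h4
  rcases hp.dvd_or_dvd h5 with h6 | h6 <;> have h7 := ((natCast_dvd_iff _ _).1 h6).2
  · exact hl.ne_one (by simpa [Int.natCast_dvd] using h7)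
  · exact hl.ne_one (by simpa [Int.natCast_dvd] using h7)
theorem neg_two_prime : Prime (-2 : E) := (e1_inert (l := 2) (by norm_num) (by norm_num)).neg
/-- The prime above 2. -/
def pTwo : P := ⟨-2, neg_two_prime, ⟨-1, by norm_num⟩⟩
theorem P.ne_zero (p : P) : p.1 ≠ 0 := p.2.1.ne_zero
theorem P.not_lam_dvd (p : P) : ¬ lam ∣ p.1 := not_lam_dvd_of_primary p.2.2
theorem P.not_dvd_lam (p : P) : ¬ p.1 ∣ lam := fun h =>
  p.not_lam_dvd (p.2.1.associated_of_dvd lam_prime h).symm.dvd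
theorem P.not_dvd_three (p : P) : ¬ p.1 ∣ 3 := fun h => by
  have h1 : p.1 ∣ lam ^ 2 := by rw [lam_sq]; exact h.neg_right
  exact p.not_dvd_lam (p.2.1.dvd_of_dvd_pow h1)
theorem P.not_dvd_unit (p : P) {u : E} (hu : IsUnit u) : ¬ p.1 ∣ u := fun h => p.2.1.not_isUnit (isUnit_of_dvd_unit h hu)
theorem P.dvd_iff (p q : P) : p.1 ∣ q.1 ↔ p = q := ⟨fun h => Subtype.ext (primary_unique p.2.2 q.2.2
  (p.2.1.associated_of_dvd q.2.1 h)), fun h => h ▸ dvd_rfl⟩
theorem P.coprime {p q : P} (h : p ≠ q) : IsCoprime p.1 q.1 := p.2.1.coprime_iff_not_dvd.2 fun h1 => h ((P.dvd_iff p q).1 h1)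
theorem P.dvd_two_iff (p : P) : p.1 ∣ 2 ↔ p = pTwo := by
  rw [← P.dvd_iff, ← dvd_neg]; rfl
theorem P.four_le_nm (p : P) : 4 ≤ nm p.1 := by
  have h1 := nm_mod_three p.not_lam_dvd
  have h2 : nm p.1 ≠ 1 := fun h => p.2.1.not_isUnit (isUnit_iff.2 h)
  omega
theorem P.nm_mod (p : P) : nm p.1 % 3 = 1 := nm_mod_three p.not_lam_dvd
theorem P.nm_odd (p : P) (h : ¬ p.1 ∣ 2) : nm p.1 % 2 = 1 := by
  by_contra h1
  have h2 : (-2 : E) ∣ p.1 * star p.1 := by
    rw [mul_star_eq, neg_dvd]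
    exact (natCast_dvd_natCast (m := 2)).2 (by omega)
  have h3 : (-2 : E) ∣ p.1 := by
    rcases neg_two_prime.dvd_or_dvd h2 with h3 | ⟨z, h3⟩
    · exact h3
    · exact ⟨star z, by rw [← star_star p.1, h3]; simp [mul_comm]⟩
  exact h ((P.dvd_two_iff p).2 ((P.dvd_iff pTwo p).1 h3).symm)
theorem P.star_mem (p : P) : Prime (star p.1) ∧ (3 : E) ∣ star p.1 - 1 := by
  refine ⟨(MulEquiv.prime_iff (starRingAut (R := E))).2 p.2.1, ?_⟩
  obtain ⟨z, hz⟩ := p.2.2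
  exact ⟨star z, by simpa [mul_comm] using congrArg star hz⟩
/-- The conjugate prime. -/
def P.bar (p : P) : P := ⟨star p.1, p.star_mem⟩
theorem e1_exists (p : P) : ∃ l : ℕ, l.Prime ∧ p.1 ∣ (l : E) := by
  have h1 : p.1 ∣ ((nm p.1).primeFactorsList.map fun n : ℕ => (n : E)).prod := by
    rw [← Nat.cast_list_prod, Nat.prod_primeFactorsList (nm_eq_zero.not.2 p.ne_zero),
      ← mul_star_eq]
    exact dvd_mul_right _ _
  obtain ⟨a, ha, h2⟩ := p.2.1.dvd_prod_iff.1 h1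
  obtain ⟨l, hl, rfl⟩ := List.mem_map.1 ha
  exact ⟨l, Nat.prime_of_mem_primeFactorsList hl, h2⟩
theorem e1_assoc {x : E} {l : ℕ} (hl : l.Prime) (h : x ∣ (l : E)) (h2 : nm x = l ^ 2) :
    Associated x (l : E) := by
  obtain ⟨v, hv⟩ := h
  have h3 := congrArg nm hv
  rw [nm_natCast, nm_mul, h2] at h3
  have h4 : IsUnit v :=
    isUnit_iff.2 (Nat.eq_of_mul_eq_mul_left (pow_pos hl.pos 2) (by rw [← h3, mul_one]))
  rw [hv]
  exact (associated_mul_unit_left x v h4).symm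
theorem e1_neg_prim {l : ℕ} (h : l % 3 = 2) : (3 : E) ∣ -(l : E) - 1 := by
  rw [e1_prim]; simp; omega
/-- The norm of a primary prime is a rational prime or the prime is `-l`, `l % 3 = 2`. -/
theorem P.nm_cases (p : P) :
    ((nm p.1).Prime ∧ p.bar ≠ p) ∨ ∃ l : ℕ, l.Prime ∧ l % 3 = 2 ∧ p.1 = -(l : E) := by
  obtain ⟨l, hl, h1⟩ := e1_exists p
  have h2 := nm_dvd h1
  rw [nm_natCast] at h2
  obtain ⟨k, hk, h3⟩ := (Nat.dvd_prime_pow hl).1 h2
  have h4 := p.four_le_nm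
  interval_cases k
  · rw [pow_zero] at h3; omega
  · rw [pow_one] at h3
    refine Or.inl ⟨h3 ▸ hl, fun h => ?_⟩
    have h5 : p.1.im = 0 := by
      have := congrArg (fun q : P => q.1.im) h
      simp only [P.bar, QuadraticAlgebra.im_star] at this
      omega
    have h6 := nm_int p.1
    rw [h5, h3] at h6
    have h7 : l = p.1.re.natAbs * p.1.re.natAbs := by
      have : (l : ℤ) = p.1.re * p.1.re := by rw [h6]; ring
      rw [← Int.natAbs_mul, ← this, Int.natAbs_natCast]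
    exact hl.prime.irreducible.not_isSquare ⟨_, h7⟩
  · have h5 := e1_assoc hl h1 h3
    have h6 : l % 3 ≠ 1 := fun h => e1_split hl h (h5.prime p.2.1)
    have h7 : l % 3 ≠ 0 := fun h => p.not_lam_dvd (lam_dvd_iff.2 (by
      rw [h3]; exact Dvd.dvd.pow (by omega) (by norm_num)))
    have h8 : l % 3 = 2 := by omega
    exact Or.inr ⟨l, hl, h8, primary_unique p.2.2 (e1_neg_prim h8) h5.neg_right⟩
theorem exists_P_inert {l : ℕ} (hl : l.Prime) (h : l % 3 = 2) : ∃ p : P, p.1 = -(l : E) := ⟨⟨-(l : E), (e1_inert hl h).neg, e1_neg_prim h⟩, rfl⟩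
theorem exists_P_split {l : ℕ} (hl : l.Prime) (h : l % 3 = 1) : ∃ p : P, nm p.1 = l := by
  have h0 : (l : E) ≠ 0 := by exact_mod_cast hl.ne_zero
  obtain ⟨q, hq, h1⟩ := WfDvdMonoid.exists_irreducible_factor (a := (l : E)) (fun hu => by
    have := isUnit_iff.1 hu
    rw [nm_natCast] at this
    exact hl.ne_one (by simpa using this)) h0
  rcases prime_cases hq.prime with h2 | ⟨p, h2⟩
  · have h3 := lam_dvd_iff.1 (h2.dvd_iff_dvd_left.1 h1)
    rw [nm_natCast] at h3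
    have := Nat.prime_three.dvd_of_dvd_pow h3
    omega
  · have h3 := h2.dvd_iff_dvd_left.1 h1
    have h4 := nm_dvd h3
    rw [nm_natCast] at h4
    obtain ⟨k, hk, h5⟩ := (Nat.dvd_prime_pow hl).1 h4
    have h6 := p.four_le_nm
    interval_cases k
    · rw [pow_zero] at h5; omega
    · exact ⟨p, by rw [h5, pow_one]⟩
    · exact absurd ((e1_assoc hl h3 h5).prime p.2.1) (e1_split hl h)
theorem P.eq_or_bar {p q : P} (h : q.1 ∣ (nm p.1 : E)) : q = p ∨ q = p.bar := by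
  rw [← mul_star_eq] at h
  exact (q.2.1.dvd_or_dvd h).imp (P.dvd_iff q p).1 (P.dvd_iff q p.bar).1

theorem mul_dv {x y : E} (h : y ∣ x) : y * dv x y = x := by
  rw [dv, dif_pos h]; exact h.choose_spec.symm
theorem dv_mul {y : E} (hy : y ≠ 0) (x : E) : dv (y * x) y = x := mul_left_cancel₀ hy (mul_dv (dvd_mul_right y x))
theorem inv_spec {m x : E} (h : IsCoprime x m) : m ∣ x * inv m x - 1 := by
  have h1 : ∃ y, m ∣ x * y - 1 := by
    obtain ⟨a, b, hab⟩ := h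
    exact ⟨a, -b, by linear_combination hab⟩
  rw [inv, dif_pos h1]; exact h1.choose_spec

end QRH
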