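import Vale.Agent.P026.VB0a

/-! Separation of variables in the dual sums. -/

noncomputable section
namespace QRH
open Complex MeasureTheory Filter
open scoped ComplexConjugate Classical ContDiff Topology

theorem vb_int {σ : ℝ} (h0 : 0 < σ) (h1 : σ < 3) :
    Integrable fun v : ℝ => (1 + Real.exp (v / 2)) ^ (-6 : ℝ) * Real.exp (σ * v) := by
  have hc : Continuous fun v : ℝ => (1 + Real.exp (v / 2)) ^ (-6 : ℝ) * Real.exp (σ * v) :=
    (Continuous.rpow_const (by fun_prop) fun v => Or.inl (by positivity)).mul (by fun_prop)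
  rw [← integrableOn_univ, ← Set.Iic_union_Ioi (a := (0 : ℝ))]
  refine IntegrableOn.union ?_ ?_
  · refine (integrableOn_exp_mul_Iic h0 0).mono' hc.aestronglyMeasurable
      (Eventually.of_forall fun v => ?_)
    rw [Real.norm_of_nonneg (by positivity)]
    refine mul_le_of_le_one_left (Real.exp_pos _).le ?_
    exact Real.rpow_le_one_of_one_le_of_nonpos (by linarith [Real.exp_pos (v / 2)]) (by norm_num)
  · refine (integrableOn_exp_mul_Ioi (a := σ - 3) (by linarith) 0).mono' hc.aestronglyMeasurable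
      (Eventually.of_forall fun v => ?_)
    rw [Real.norm_of_nonneg (by positivity)]
    have h2 : (1 + Real.exp (v / 2)) ^ (-6 : ℝ) ≤ Real.exp (v / 2) ^ (-6 : ℝ) :=
      Real.rpow_le_rpow_of_nonpos (Real.exp_pos _) (by linarith) (by norm_num)
    calc _ ≤ Real.exp (v / 2) ^ (-6 : ℝ) * Real.exp (σ * v) :=
          mul_le_mul_of_nonneg_right h2 (Real.exp_pos _).le
      _ = _ := by
          rw [← Real.exp_mul, ← Real.exp_add]
          congr 1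
          ring

theorem vb_block (h2 : QLS) (h3 : SepQ) {ε σ : ℝ} (hε : 0 < ε) (h0 : 0 < σ) (h1 : σ ≤ 2) :
    ∃ C : ℝ, 0 < C ∧
    ∀ (Z M U L Δ c W : ℝ) (r : Finset P) (I : Finset (Finset P)) (T : Finset E) (G : ℝ → ℂ) (s : ℂ)
      (x : E → ℂ) (b : Finset P → ℝ), 1 ≤ M → M ≤ Z → 1 ≤ U → Ns r ≤ Z → 0 < L → 0 < Δ → 0 ≤ c →
      I ⊆ sqo M → T ⊆ ball U → (∀ δ ∈ T, L ≤ nm δ) → s.re = 1 / 2 → Continuous G →
      (∀ v, ‖G v‖ ≤ W * (1 + Real.exp (v / 2)) ^ (-6 : ℝ)) → (∀ δ ∈ T, ‖x δ‖ ≤ c * vbphi r δ) →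
      (∀ t ∈ I, Δ⁻¹ ≤ b t) →
      ∑ t ∈ I, ‖∑ δ ∈ T, x δ * xs c2 t δ * sm s G (Real.log (nm δ * b t))‖ ^ 2
        ≤ C * (c * W) ^ 2 * (Δ / L) ^ (2 * σ) * (Z * U) ^ ε * (M + U) := by
  obtain ⟨C1, hC1, hk⟩ := vb_key h2 hε
  obtain ⟨C2, hC2, hs⟩ := h3 2
  have hint := vb_int h0 (by linarith)
  obtain ⟨γ, hγ⟩ : ∃ γ, γ = ∫ v : ℝ, (1 + Real.exp (v / 2)) ^ (-6 : ℝ) * Real.exp (σ * v) :=
    ⟨_, rfl⟩
  refine ⟨C2 * (γ ^ 2 + 1) * C1, by positivity, ?_⟩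
  intro Z M U L Δ c W r I T G s x b hM hMZ hU hr hL hΔ hc hI hT hLT hsre hG hGb hx hb
  have hle : ∀ v, ‖G v‖ * Real.exp (σ * v) ≤
      W * ((1 + Real.exp (v / 2)) ^ (-6 : ℝ) * Real.exp (σ * v)) := fun v => by
    rw [← mul_assoc]
    exact mul_le_mul_of_nonneg_right (hGb v) (Real.exp_pos _).le
  have hi1 : Integrable fun v => G v * (Real.exp (σ * v) : ℝ) := by
    refine (hint.const_mul W).mono' (Continuous.aestronglyMeasurable (by fun_prop))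
      (Eventually.of_forall fun v => ?_)
    rw [norm_mul, Complex.norm_real, Real.norm_of_nonneg (Real.exp_pos _).le]
    exact hle v
  have hi2 : ∫ v, ‖G v‖ * Real.exp (σ * v) ≤ W * γ := by
    rw [hγ, ← integral_const_mul]
    exact integral_mono_of_nonneg (Eventually.of_forall fun v => by positivity)
      (hint.const_mul W) (Eventually.of_forall hle)
  have hpos : ∀ δ ∈ T, (0 : ℝ) < nm δ := fun δ hδ => hL.trans_le (hLT δ hδ)
  have hZU : 0 < Z * U := by nlinarith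
  have key := hs (Finset P) E I T G σ (W * γ)
    (Δ ^ (2 * σ) * (C1 * (c * L ^ (-σ)) ^ 2 * (Z * U) ^ ε * (M + U))) s
    (fun t δ => x δ * xs c2 t δ) (fun δ => nm δ) b
    (by rw [hsre, abs_le]; constructor <;> linarith) hi1 hi2 hpos
    (fun t ht => (inv_pos.2 hΔ).trans_le (hb t ht)) (fun τ => by
      have k1 := hk Z M U (c * L ^ (-σ)) r T
        (fun δ => x δ * ((nm δ : ℝ) : ℂ) ^ (-(σ + τ * Complex.I))) hM hMZ hU hr (by positivity) hT
        (fun δ hδ => by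
          rw [norm_mul, Complex.norm_cpow_eq_rpow_re_of_pos (hpos δ hδ), mul_right_comm]
          have e : (-(σ + τ * Complex.I : ℂ)).re = -σ := by simp
          rw [e]
          exact mul_le_mul (hx δ hδ) (Real.rpow_le_rpow_of_nonpos hL (hLT δ hδ) (by linarith))
            (by positivity) (mul_nonneg hc (vbphi_nonneg _ _)))
      refine le_trans ?_ (mul_le_mul_of_nonneg_left ((Finset.sum_le_sum_of_subset_of_nonneg hI
        fun _ _ _ => sq_nonneg _).trans k1) (by positivity))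
      rw [Finset.mul_sum]
      refine Finset.sum_le_sum fun t ht => mul_le_mul ?_ (le_of_eq ?_) (sq_nonneg _) (by positivity)
      · refine (Real.rpow_le_rpow_of_nonpos (inv_pos.2 hΔ) (hb t ht) (by linarith)).trans
          (le_of_eq ?_)
        rw [Real.inv_rpow hΔ.le, Real.rpow_neg hΔ.le, inv_inv]
      · congr 2
        exact Finset.sum_congr rfl fun δ _ => mul_right_comm _ _ _)
  refine key.trans ?_
  have e1 : (Δ / L) ^ (2 * σ) = Δ ^ (2 * σ) * (L ^ (-σ)) ^ 2 := by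
    rw [Real.div_rpow hΔ.le hL.le, ← Real.rpow_natCast, ← Real.rpow_mul hL.le, div_eq_mul_inv,
      ← Real.rpow_neg hL.le]
    congr 2
    push_cast
    ring
  have e2 : 0 ≤ C2 * C1 * (c * W) ^ 2 * (Δ ^ (2 * σ) * (L ^ (-σ)) ^ 2) * (Z * U) ^ ε * (M + U) := by
    have : 0 < M + U := by linarith
    positivity
  rw [e1]
  calc _ = γ ^ 2 * (C2 * C1 * (c * W) ^ 2 * (Δ ^ (2 * σ) * (L ^ (-σ)) ^ 2) * (Z * U) ^ ε *
        (M + U)) := by ring
    _ ≤ (γ ^ 2 + 1) * (C2 * C1 * (c * W) ^ 2 * (Δ ^ (2 * σ) * (L ^ (-σ)) ^ 2) * (Z * U) ^ ε *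
        (M + U)) := mul_le_mul_of_nonneg_right (by linarith) e2
    _ = _ := by ring

theorem vb_core (h2 : QLS) (h3 : SepQ) {ε : ℝ} (hε : 0 < ε) (hε1 : ε ≤ 1) : ∃ C : ℝ, 0 < C ∧
    ∀ (Z M Δ c W : ℝ) (r : Finset P) (I : Finset (Finset P)) (T : Finset E) (G : ℝ → ℂ) (s : ℂ)
      (x : E → ℂ) (b : Finset P → ℝ), 1 ≤ M → M ≤ Z → Ns r ≤ Z → 1 ≤ Δ → 0 ≤ c →
      I ⊆ sqo M → (∀ δ ∈ T, δ ≠ 0) → s.re = 1 / 2 → Continuous G →
      (∀ v, ‖G v‖ ≤ W * (1 + Real.exp (v / 2)) ^ (-6 : ℝ)) → (∀ δ ∈ T, ‖x δ‖ ≤ c * vbphi r δ) →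
      (∀ t ∈ I, Δ⁻¹ ≤ b t) →
      ∑ t ∈ I, ‖∑ δ ∈ T, x δ * xs c2 t δ * sm s G (Real.log (nm δ * b t))‖ ^ 2
        ≤ C * (c * W) ^ 2 * (Z * Δ) ^ (3 * ε) * (M + Δ) := by
  obtain ⟨C1, hC1, hb1⟩ := vb_block h2 h3 hε hε (by linarith)
  obtain ⟨C2, hC2, hb2⟩ := vb_block h2 h3 hε two_pos le_rfl
  refine ⟨4 * (C1 + 16 * C2), by positivity, ?_⟩
  intro Z M Δ c W r I T G s x b hM hMZ hr hΔ hc hI hT hsre hG hGb hx hb
  have hZ : 1 ≤ Z := hM.trans hMZ
  have hΔ0 : 0 < Δ := by linarith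
  have hZΔ : 1 ≤ Z * Δ := one_le_mul_of_one_le_of_one_le hZ hΔ
  have hex : ∀ δ : E, ∃ i : ℕ, (nm δ : ℝ) ≤ 2 ^ i * Δ := fun δ => by
    obtain ⟨i, hi⟩ := pow_unbounded_of_one_lt (nm δ : ℝ) one_lt_two
    exact ⟨i, hi.le.trans (le_mul_of_one_le_right (by positivity) hΔ)⟩
  obtain ⟨A, hA⟩ : ∃ A, A = (C1 + 16 * C2) * (c * W) ^ 2 * (Z * Δ) ^ (3 * ε) * (M + Δ) := ⟨_, rfl⟩
  have hP : 0 ≤ (c * W) ^ 2 * (Z * Δ) ^ (3 * ε) * (M + Δ) := by
    have : 0 < M + Δ := by linarith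
    positivity
  have hA0 : 0 ≤ A := by
    rw [hA, mul_assoc, mul_assoc, ← mul_assoc ((c * W) ^ 2)]
    positivity
  have hblock : ∀ i : ℕ, √(∑ t ∈ I, ‖∑ δ ∈ T with Nat.find (hex δ) = i,
      x δ * xs c2 t δ * sm s G (Real.log (nm δ * b t))‖ ^ 2) ≤ √A * (1 / 2) ^ i := by
    intro i
    refine Real.sqrt_le_iff.2 ⟨by positivity, ?_⟩
    rw [mul_pow, Real.sq_sqrt hA0]
    have hsub : (T.filter fun δ => Nat.find (hex δ) = i) ⊆ ball (2 ^ i * Δ) := fun δ hδ => by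
      obtain ⟨h1, rfl⟩ := Finset.mem_filter.1 hδ
      exact mem_ball.2 ⟨hT δ h1, Nat.find_spec (hex δ)⟩
    have hx' : ∀ δ ∈ T.filter fun δ => Nat.find (hex δ) = i, ‖x δ‖ ≤ c * vbphi r δ :=
      fun δ hδ => hx δ (Finset.mem_filter.1 hδ).1
    have hU : 1 ≤ 2 ^ i * Δ := one_le_mul_of_one_le_of_one_le (one_le_pow₀ one_le_two) hΔ
    cases i with
    | zero =>
      rw [pow_zero, one_mul] at hsub
      refine (hb1 Z M Δ 1 Δ c W r I _ G s x b hM hMZ hΔ hr one_pos hΔ0 hc hI hsub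
        (fun δ hδ => one_le_nmR (hT δ (Finset.mem_filter.1 hδ).1)) hsre hG hGb hx' hb).trans ?_
      have e1 : (Δ / 1) ^ (2 * ε) * (Z * Δ) ^ ε ≤ (Z * Δ) ^ (3 * ε) := by
        rw [div_one, show 3 * ε = 2 * ε + ε by ring, Real.rpow_add (by linarith)]
        exact mul_le_mul_of_nonneg_right (Real.rpow_le_rpow hΔ0.le
          (le_mul_of_one_le_left hΔ0.le hZ) (by linarith)) (by positivity)
      have : 0 < M + Δ := by linarith
      calc _ = C1 * ((c * W) ^ 2 * ((Δ / 1) ^ (2 * ε) * (Z * Δ) ^ ε) * (M + Δ)) := by ring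
        _ ≤ (C1 + 16 * C2) * ((c * W) ^ 2 * (Z * Δ) ^ (3 * ε) * (M + Δ)) := by
            gcongr
            linarith
        _ = _ := by rw [hA]; ring
    | succ i =>
      have h2i : (1 : ℝ) ≤ 2 ^ i := one_le_pow₀ one_le_two
      refine (hb2 Z M (2 ^ (i + 1) * Δ) (2 ^ i * Δ) Δ c W r I _ G s x b hM hMZ hU hr
        (by positivity) hΔ0 hc hI hsub (fun δ hδ => ?_) hsre hG hGb hx' hb).trans ?_
      · exact (not_le.1 (Nat.find_min (hex δ)
          (by rw [(Finset.mem_filter.1 hδ).2]; exact Nat.lt_succ_self i))).le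
      have e1 : (Δ / (2 ^ i * Δ)) ^ (2 * 2 : ℝ) = ((2 : ℝ) ^ i)⁻¹ ^ 4 := by
        have e0 : Δ / (2 ^ i * Δ) = ((2 : ℝ) ^ i)⁻¹ := by field_simp
        rw [e0, show (2 * 2 : ℝ) = (4 : ℕ) by norm_num, Real.rpow_natCast]
      have e2 : (Z * (2 ^ (i + 1) * Δ)) ^ ε ≤ 2 ^ (i + 1) * (Z * Δ) ^ (3 * ε) := by
        rw [mul_left_comm, Real.mul_rpow (by positivity) (by positivity)]
        refine mul_le_mul ?_ (Real.rpow_le_rpow_of_exponent_le hZΔ (by linarith)) (by positivity)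
          (by positivity)
        exact Real.rpow_le_self_of_one_le (one_le_pow₀ one_le_two) hε1
      have e3 : M + 2 ^ (i + 1) * Δ ≤ 2 ^ (i + 1) * (M + Δ) := by
        have : M ≤ 2 ^ (i + 1) * M := le_mul_of_one_le_left (by linarith) (one_le_pow₀ one_le_two)
        linarith
      rw [e1]
      calc _ ≤ C2 * (c * W) ^ 2 * ((2 : ℝ) ^ i)⁻¹ ^ 4 * (2 ^ (i + 1) * (Z * Δ) ^ (3 * ε)) *
            (2 ^ (i + 1) * (M + Δ)) := by gcongr
        _ = 16 * C2 * ((c * W) ^ 2 * (Z * Δ) ^ (3 * ε) * (M + Δ)) * ((1 / 2) ^ (i + 1)) ^ 2 := by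
            rw [one_div_pow, pow_succ (2 : ℝ) i]
            field_simp
            norm_num
        _ ≤ (C1 + 16 * C2) * ((c * W) ^ 2 * (Z * Δ) ^ (3 * ε) * (M + Δ)) *
            ((1 / 2) ^ (i + 1)) ^ 2 := by
            gcongr
            linarith
        _ = _ := by rw [hA]; ring
  have hre : ∀ t ∈ I, ‖∑ δ ∈ T, x δ * xs c2 t δ * sm s G (Real.log (nm δ * b t))‖ ^ 2 =
      ‖∑ i ∈ Finset.range ((T.sup fun δ => Nat.find (hex δ)) + 1),
        ∑ δ ∈ T with Nat.find (hex δ) = i,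
          x δ * xs c2 t δ * sm s G (Real.log (nm δ * b t))‖ ^ 2 := fun t _ => by
    rw [Finset.sum_fiberwise_of_maps_to fun δ hδ => Finset.mem_range.2
      (Nat.lt_succ_of_le (Finset.le_sup (f := fun δ => Nat.find (hex δ)) hδ))]
  rw [Finset.sum_congr rfl hre]
  have hm := (minkowski I (Finset.range ((T.sup fun δ => Nat.find (hex δ)) + 1))
    fun t i => ∑ δ ∈ T with Nat.find (hex δ) = i,
      x δ * xs c2 t δ * sm s G (Real.log (nm δ * b t))).trans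
    (Finset.sum_le_sum fun i _ => hblock i)
  rw [← Finset.mul_sum] at hm
  have hm2 := hm.trans (mul_le_mul_of_nonneg_left (sum_geometric_two_le _) (Real.sqrt_nonneg _))
  refine (Real.sqrt_le_iff.1 hm2).2.trans (le_of_eq ?_)
  rw [mul_pow, Real.sq_sqrt hA0, hA]
  ring

end QRH
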