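import Vale.Agent.P026.Rsum
import Vale.Agent.P026.Cnt
import Vale.Agent.P026.Stm1

noncomputable section
namespace QRH
open Complex MeasureTheory
open scoped ComplexConjugate Classical

/-- The lattice point whose cell contains `w`. -/
def rm_fl (w : ℂ) : E := ⟨⌊w.re + w.im / √3⌋, ⌊2 * w.im / √3⌋⟩

/-- Lattice coordinates of `S w`, as a real linear map. -/
def rm_T (S : ℂ) : ℂ →ₗ[ℝ] ℂ :=
  Matrix.toLin basisOneI basisOneI
    !![S.re + S.im / √3, -S.im + S.re / √3; 2 * S.im / √3, 2 * S.re / √3]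

theorem rm_T_re (S w : ℂ) : (rm_T S w).re = (S * w).re + (S * w).im / √3 := by
  simp [rm_T, Matrix.toLin_apply, Matrix.mulVec, dotProduct, Fin.sum_univ_two]
  ring

theorem rm_T_im (S w : ℂ) : (rm_T S w).im = 2 * (S * w).im / √3 := by
  simp [rm_T, Matrix.toLin_apply, Matrix.mulVec, dotProduct, Fin.sum_univ_two]
  ring

theorem rm_T_det (S : ℂ) : LinearMap.det (rm_T S) = 2 * ‖S‖ ^ 2 / √3 := by
  rw [rm_T, LinearMap.det_toLin, Matrix.det_fin_two_of, Complex.sq_norm, Complex.normSq_apply]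
  ring

theorem rm_cell_eq (S : ℂ) (x : E) : {z | rm_fl (S * z) = x} =
    rm_T S ⁻¹' (measurableEquivRealProd ⁻¹'
      (Set.Ico (x.re : ℝ) (x.re + 1) ×ˢ Set.Ico (x.im : ℝ) (x.im + 1))) := by
  ext z
  simp only [Set.mem_ofPred_eq, Set.mem_preimage, measurableEquivRealProd_apply, Set.mem_prod,
    Set.mem_Ico, rm_T_re, rm_T_im, ← Int.floor_eq_iff, rm_fl]
  constructor
  · rintro rfl
    exact ⟨rfl, rfl⟩
  · rintro ⟨h1, h2⟩
    exact QuadraticAlgebra.ext h1 h2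

theorem rm_cell_meas (S : ℂ) (x : E) : MeasurableSet {z | rm_fl (S * z) = x} := by
  rw [rm_cell_eq]
  exact (rm_T S).continuous_of_finiteDimensional.measurable
    (measurableEquivRealProd.measurable (measurableSet_Ico.prod measurableSet_Ico))

theorem rm_cell_vol {S : ℂ} (hS : S ≠ 0) (x : E) :
    volume {z | rm_fl (S * z) = x} = ENNReal.ofReal (√3 / (2 * ‖S‖ ^ 2)) := by
  have h3 : (0 : ℝ) < √3 := by positivity
  have hS' : 0 < ‖S‖ := norm_pos_iff.2 hS
  have hd : 0 < LinearMap.det (rm_T S) := by rw [rm_T_det]; positivity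
  rw [rm_cell_eq, Measure.addHaar_preimage_linearMap _ hd.ne',
    volume_preserving_equiv_real_prod.measure_preimage
      (measurableSet_Ico.prod measurableSet_Ico).nullMeasurableSet,
    Measure.volume_eq_prod, Measure.prod_prod, Real.volume_Ico, Real.volume_Ico,
    abs_of_pos (inv_pos.2 hd), rm_T_det, inv_div]
  simp

theorem rm_close (w : ℂ) : ‖toC (rm_fl w) - w‖ ≤ 2 := by
  have h3 : (0 : ℝ) < √3 := by positivity
  set a := w.re + w.im / √3 with ha
  set b := 2 * w.im / √3 with hb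
  have hw : w = (a : ℂ) + (b : ℂ) * omC := by
    apply Complex.ext
    · simp only [omC, add_re, mul_re, ofReal_re, ofReal_im, ha, hb]
      ring
    · simp only [omC, add_im, mul_im, ofReal_re, ofReal_im, ha, hb]
      field_simp
      ring
  have h1 : toC (rm_fl w) - w = ((⌊a⌋ - a : ℝ) : ℂ) + ((⌊b⌋ - b : ℝ) : ℂ) * omC := by
    rw [toC_apply]
    conv_lhs => rw [hw]
    rw [← hw]
    simp only [rm_fl, ← ha, ← hb]
    conv_lhs => rw [hw]
    push_cast
    ring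
  have h2 : ∀ t : ℝ, |(⌊t⌋ : ℝ) - t| ≤ 1 := fun t => by
    rw [abs_le]
    constructor <;> linarith [Int.floor_le t, Int.lt_floor_add_one t]
  rw [h1]
  refine (norm_add_le _ _).trans ?_
  rw [norm_mul, norm_omC, mul_one, Complex.norm_real, Complex.norm_real, Real.norm_eq_abs,
    Real.norm_eq_abs]
  linarith [h2 a, h2 b]

/-- The floor map in two variables. -/
def rm_fl2 (S1 S2 : ℂ) (z : ℂ × ℂ) : E × E := (rm_fl (S1 * z.1), rm_fl (S2 * z.2))

theorem rm_cell2_eq (S1 S2 : ℂ) (x : E × E) : rm_fl2 S1 S2 ⁻¹' {x} =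
    {z | rm_fl (S1 * z) = x.1} ×ˢ {z | rm_fl (S2 * z) = x.2} := by
  ext z
  simp [rm_fl2, Prod.ext_iff]

theorem rm_cell2_meas (S1 S2 : ℂ) (x : E × E) : MeasurableSet (rm_fl2 S1 S2 ⁻¹' {x}) := by
  rw [rm_cell2_eq]
  exact (rm_cell_meas _ _).prod (rm_cell_meas _ _)

theorem rm_meas (S1 S2 : ℂ) (G : E × E → ℂ) : Measurable fun z => G (rm_fl2 S1 S2 z) := by
  let _ : MeasurableSpace (E × E) := ⊤
  exact (measurable_from_top (f := G)).comp (measurable_to_countable' (rm_cell2_meas S1 S2))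

theorem rm_sum {S1 S2 : ℂ} (h1 : S1 ≠ 0) (h2 : S2 ≠ 0) (G : E × E → ℂ)
    (hG : Integrable fun z => G (rm_fl2 S1 S2 z)) :
    (((‖S1‖ ^ 2 * ‖S2‖ ^ 2)⁻¹ : ℝ) : ℂ) * ∑' x, G x =
      ((4 / 3 : ℝ) : ℂ) * ∫ z, G (rm_fl2 S1 S2 z) := by
  have hS1 : 0 < ‖S1‖ := norm_pos_iff.2 h1
  have hS2 : 0 < ‖S2‖ := norm_pos_iff.2 h2
  have hU : ⋃ x, rm_fl2 S1 S2 ⁻¹' {x} = Set.univ := by
    ext z
    simp
  have hs := hasSum_integral_iUnion (μ := volume) (f := fun z => G (rm_fl2 S1 S2 z))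
    (rm_cell2_meas S1 S2) (fun x y hxy => (Set.disjoint_singleton.2 hxy).preimage _)
    hG.integrableOn
  rw [hU, Measure.restrict_univ] at hs
  have hc : ∀ x, ∫ z in rm_fl2 S1 S2 ⁻¹' {x}, G (rm_fl2 S1 S2 z) =
      ((3 / 4 * (‖S1‖ ^ 2 * ‖S2‖ ^ 2)⁻¹ : ℝ) : ℂ) * G x := by
    intro x
    rw [setIntegral_congr_fun (g := fun _ => G x) (rm_cell2_meas S1 S2 x)
      (fun z hz => by rw [show rm_fl2 S1 S2 z = x from hz]), setIntegral_const, Measure.real,
      rm_cell2_eq, Measure.volume_eq_prod, Measure.prod_prod, rm_cell_vol h1, rm_cell_vol h2,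
      ← ENNReal.ofReal_mul (by positivity), ENNReal.toReal_ofReal (by positivity),
      Complex.real_smul]
    congr 2
    have h3 : √3 * √3 = (3 : ℝ) := Real.mul_self_sqrt (by norm_num)
    field_simp
    linear_combination 4 * h3
  simp only [hc] at hs
  rw [← hs.tsum_eq, tsum_mul_left, ← mul_assoc, ← Complex.ofReal_mul]
  congr 2
  ring

theorem rm_int1 : Integrable fun z : ℂ => ‖z‖⁻¹ * (1 + ‖z‖) ^ (-3 : ℝ) := by
  refine (integrable_fun_norm_addHaar (μ := (volume : Measure ℂ))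
    (f := fun y : ℝ => y⁻¹ * (1 + y) ^ (-3 : ℝ))).2 ?_
  have h : Integrable fun y : ℝ => (1 + ‖y‖) ^ (-3 : ℝ) :=
    integrable_one_add_norm (by simp)
  refine h.integrableOn.congr_fun (fun y hy => ?_) measurableSet_Ioi
  have hy' : 0 < y := hy
  simp only [Complex.finrank_real_complex, smul_eq_mul, Real.norm_eq_abs, abs_of_pos hy']
  field_simp
  norm_num

theorem rm_int2 : Integrable fun z : ℂ => (1 + ‖z‖) ^ (-3 : ℝ) :=
  integrable_one_add_norm (by simp; norm_num)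

theorem rm_near {S : ℂ} (hS : 0 < ‖S‖) (r : E) (z : ℂ) :
    ‖toC (rm_fl (S * z) + r) / S - z‖ ≤ (2 + ‖toC r‖) / ‖S‖ := by
  have hS0 : S ≠ 0 := norm_pos_iff.1 hS
  have h1 : toC (rm_fl (S * z) + r) / S - z = (toC (rm_fl (S * z)) - S * z + toC r) / S := by
    rw [map_add]
    field_simp
    ring
  rw [h1, norm_div]
  exact div_le_div_of_nonneg_right
    ((norm_add_le _ _).trans (add_le_add_left (rm_close _) _)) hS.le

theorem rm_tend {S : ℝ → ℂ} (hS : Filter.Tendsto (fun X => ‖S X‖) Filter.atTop Filter.atTop)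
    (r : E) (z : ℂ) :
    Filter.Tendsto (fun X => toC (rm_fl (S X * z) + r) / S X) Filter.atTop (nhds z) := by
  rw [tendsto_iff_norm_sub_tendsto_zero]
  refine squeeze_zero' (Filter.Eventually.of_forall fun _ => norm_nonneg _) ?_
    (hS.const_div_atTop (2 + ‖toC r‖))
  filter_upwards [hS.eventually_gt_atTop 0] with X hX
  exact rm_near hX r z

theorem rm_decay {K : ℝ} {w z : ℂ} (hK : 0 ≤ K) (h : ‖w - z‖ ≤ K) :
    (1 + ‖w‖) ^ (-3 : ℝ) ≤ (1 + K) ^ (3 : ℝ) * (1 + ‖z‖) ^ (-3 : ℝ) := by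
  have h1 : ‖z‖ ≤ ‖w‖ + K := by
    have := norm_sub_norm_le z w
    rw [norm_sub_rev] at this
    linarith
  have hw := norm_nonneg w
  have hz := norm_nonneg z
  have h2 : (1 + ‖z‖) / (1 + K) ≤ 1 + ‖w‖ := by
    rw [div_le_iff₀ (by positivity)]
    nlinarith
  refine (Real.rpow_le_rpow_of_nonpos (by positivity) h2 (by norm_num)).trans (le_of_eq ?_)
  rw [Real.div_rpow (by positivity) (by positivity), Real.rpow_neg (x := 1 + K) (by positivity),
    div_inv_eq_mul, mul_comm]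

theorem rm_inv {S z : ℂ} {r : E} (hS : 0 < ‖S‖) (hz : z ≠ 0) (hx : rm_fl (S * z) + r ≠ 0) :
    ‖toC (rm_fl (S * z) + r) / S‖⁻¹ ≤ (3 + ‖toC r‖) * ‖z‖⁻¹ := by
  have h1 := rm_near hS r z
  have h2 := one_le_norm hx
  set w := toC (rm_fl (S * z) + r) / S with hw
  have h3 : 1 / ‖S‖ ≤ ‖w‖ := by
    rw [hw, norm_div]
    exact div_le_div_of_nonneg_right h2 hS.le
  have hr := norm_nonneg (toC r)
  have h4 : (2 + ‖toC r‖) / ‖S‖ ≤ (2 + ‖toC r‖) * ‖w‖ := by
    rw [div_eq_mul_one_div]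
    exact mul_le_mul_of_nonneg_left h3 (by positivity)
  have h5 : ‖z‖ ≤ (3 + ‖toC r‖) * ‖w‖ := by
    have := norm_sub_norm_le z w
    rw [norm_sub_rev] at this
    linarith
  have hw0 : 0 < ‖w‖ := lt_of_lt_of_le (by positivity) h3
  have hz0 : 0 < ‖z‖ := norm_pos_iff.2 hz
  rw [← div_eq_mul_inv, le_div_iff₀ hz0, inv_mul_le_iff₀ hw0]
  linarith

theorem rm_ae : ∀ᵐ z : ℂ × ℂ, z.1 ≠ 0 := by
  rw [ae_iff]
  have : {z : ℂ × ℂ | ¬ z.1 ≠ 0} = {0} ×ˢ Set.univ := by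
    ext z
    simp
  rw [this, Measure.volume_eq_prod, Measure.prod_prod]
  simp

theorem riemL : RiemL := by
  intro m A Φ M S1 S2 hm hA hΦ hM h1 h2
  obtain ⟨B, hB0, hB⟩ : ∃ B : ℝ, 0 ≤ B ∧ ∀ x y, ‖A x y‖ ≤ B := by
    refine ⟨∑ r ∈ reps m ×ˢ reps m, ‖A r.1 r.2‖, Finset.sum_nonneg fun _ _ => norm_nonneg _,
      fun x y => ?_⟩
    obtain ⟨r, hr, hxr⟩ := exists_rep hm x
    obtain ⟨s, hs, hys⟩ := exists_rep hm y
    rw [hA x r y s hxr hys]
    exact Finset.single_le_sum (f := fun r : E × E => ‖A r.1 r.2‖) (a := (r, s))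
      (fun _ _ => norm_nonneg _) (Finset.mem_product.2 ⟨hr, hs⟩)
  have hM0 : 0 ≤ M := by
    have h := (norm_nonneg _).trans (hM (1, 0) one_ne_zero)
    have h' : 0 < (‖(1 : ℂ)‖⁻¹ * (1 + ‖(1 : ℂ)‖) ^ (-3 : ℝ)) * (1 + ‖(0 : ℂ)‖) ^ (-3 : ℝ) := by
      rw [norm_one]
      positivity
    rw [mul_assoc] at h
    exact nonneg_of_mul_nonneg_left h h'
  set F : ℝ → E × E → ℂ := fun X x =>
    if x.1 = 0 then 0 else A x.1 x.2 * Φ (toC x.1 / S1 X, toC x.2 / S2 X) with hF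
  set g : ℂ × ℂ → ℝ := fun z => (‖z.1‖⁻¹ * (1 + ‖z.1‖) ^ (-3 : ℝ)) * (1 + ‖z.2‖) ^ (-3 : ℝ)
    with hg
  have hgi : Integrable g := rm_int1.mul_prod rm_int2
  set c : E × E → ℝ := fun r => B * M * ((3 + ‖toC r.1‖) * (1 + (2 + ‖toC r.1‖)) ^ (3 : ℝ) *
    (1 + (2 + ‖toC r.2‖)) ^ (3 : ℝ)) with hc
  have hbd : ∀ X, 1 ≤ ‖S1 X‖ → 1 ≤ ‖S2 X‖ → ∀ (r : E × E) (z : ℂ × ℂ), z.1 ≠ 0 →
      ‖F X (rm_fl2 (S1 X) (S2 X) z + r)‖ ≤ c r * g z := by
    intro X hX1 hX2 r z hz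
    have hX1' : 0 < ‖S1 X‖ := by linarith
    have hX2' : 0 < ‖S2 X‖ := by linarith
    simp only [hF, hc, hg, rm_fl2, Prod.fst_add, Prod.snd_add]
    split_ifs with hx
    · rw [norm_zero]
      positivity
    · have hw : toC (rm_fl (S1 X * z.1) + r.1) / S1 X ≠ 0 :=
        div_ne_zero (toC_ne_zero hx) (norm_pos_iff.1 hX1')
      have e0 := hM (toC (rm_fl (S1 X * z.1) + r.1) / S1 X,
        toC (rm_fl (S2 X * z.2) + r.2) / S2 X) hw
      have e1 := rm_inv hX1' hz hx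
      have e2 := rm_decay (K := 2 + ‖toC r.1‖) (by positivity)
        ((rm_near hX1' r.1 z.1).trans (div_le_self (by positivity) hX1))
      have e3 := rm_decay (K := 2 + ‖toC r.2‖) (by positivity)
        ((rm_near hX2' r.2 z.2).trans (div_le_self (by positivity) hX2))
      rw [norm_mul]
      refine (mul_le_mul (hB _ _) e0 (norm_nonneg _) hB0).trans ?_
      refine (mul_le_mul_of_nonneg_left (mul_le_mul (mul_le_mul_of_nonneg_left
        (mul_le_mul e1 e2 (by positivity) (by positivity)) hM0) e3 (by positivity)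
        (by positivity)) hB0).trans (le_of_eq ?_)
      ring
  have hint : ∀ X, 1 ≤ ‖S1 X‖ → 1 ≤ ‖S2 X‖ → ∀ r : E × E,
      Integrable fun z => F X (rm_fl2 (S1 X) (S2 X) z + r) := by
    intro X hX1 hX2 r
    refine (hgi.const_mul (c r)).mono'
      (rm_meas (S1 X) (S2 X) fun x => F X (x + r)).aestronglyMeasurable ?_
    filter_upwards [rm_ae] with z hz
    exact hbd X hX1 hX2 r z hz
  have hN : (nm m : ℂ) ≠ 0 := Nat.cast_ne_zero.2 fun h => hm (nm_eq_zero.1 h)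
  have hshift : ∀ x : E × E, ∑ r ∈ reps m ×ˢ reps m, A (x + r).1 (x + r).2 = rsum2 m A := by
    intro x
    rw [← rsum2_bij hm hA (fun a _ => x.1 + a) (fun _ b => x.2 + b) fun a b a' b' e1 e2 =>
      ⟨by simpa using e1, by simpa using e2⟩, Finset.sum_product]
    rfl
  have hlim : Filter.Tendsto (fun X => ∫ z, ∑ r ∈ reps m ×ˢ reps m,
      F X (rm_fl2 (S1 X) (S2 X) z + r)) Filter.atTop (nhds (∫ z, rsum2 m A * Φ z)) := by
    refine tendsto_integral_filter_of_dominated_convergence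
      (fun z => ∑ r ∈ reps m ×ˢ reps m, c r * g z) ?_ ?_
      (integrable_finsetSum _ fun r _ => hgi.const_mul (c r)) ?_
    · exact Filter.Eventually.of_forall fun X => (rm_meas (S1 X) (S2 X)
        fun x => ∑ r ∈ reps m ×ˢ reps m, F X (x + r)).aestronglyMeasurable
    · filter_upwards [h1.eventually_ge_atTop 1, h2.eventually_ge_atTop 1] with X hX1 hX2
      filter_upwards [rm_ae] with z hz
      exact norm_sum_le_of_le _ fun r _ => hbd X hX1 hX2 r z hz
    · filter_upwards [rm_ae] with z hz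
      have hca : ContinuousAt Φ z :=
        hΦ.continuousAt ((isOpen_ne_fun continuous_fst continuous_const).mem_nhds hz)
      have hr : ∀ r : E × E, Filter.Tendsto (fun X => F X (rm_fl2 (S1 X) (S2 X) z + r) -
          A (rm_fl2 (S1 X) (S2 X) z + r).1 (rm_fl2 (S1 X) (S2 X) z + r).2 * Φ z)
          Filter.atTop (nhds 0) := by
        intro r
        have t1 := rm_tend h1 r.1 z.1
        have t2 := rm_tend h2 r.2 z.2
        have t3 := hca.tendsto.comp (t1.prodMk_nhds t2)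
        rw [tendsto_iff_norm_sub_tendsto_zero] at t3
        have t4 := t3.const_mul B
        rw [mul_zero] at t4
        refine squeeze_zero_norm' ?_ t4
        filter_upwards [t1.eventually_ne hz] with X hX
        have hx : rm_fl (S1 X * z.1) + r.1 ≠ 0 := by
          intro h0
          rw [h0, map_zero, zero_div] at hX
          exact hX rfl
        simp only [hF, rm_fl2, Prod.fst_add, Prod.snd_add, if_neg hx, Function.comp_apply]
        rw [← mul_sub, norm_mul]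
        exact mul_le_mul_of_nonneg_right (hB _ _) (norm_nonneg _)
      have hs := (tendsto_finsetSum (reps m ×ˢ reps m) fun r _ => hr r).add_const
        (rsum2 m A * Φ z)
      rw [Finset.sum_const_zero, zero_add] at hs
      refine hs.congr fun X => ?_
      rw [Finset.sum_sub_distrib, ← Finset.sum_mul, hshift, sub_add_cancel]
  have hfin := hlim.const_mul (((nm m : ℂ) ^ 2)⁻¹ * ((4 / 3 : ℝ) : ℂ))
  rw [integral_const_mul] at hfin
  have he : ((nm m : ℂ) ^ 2)⁻¹ * ((4 / 3 : ℝ) : ℂ) * (rsum2 m A * ∫ z, Φ z) =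
      rsum2 m A / (nm m : ℂ) ^ 2 * (((4 / 3 : ℝ) : ℂ) * ∫ z, Φ z) := by ring
  rw [he] at hfin
  refine hfin.congr' ?_
  filter_upwards [h1.eventually_ge_atTop 1, h2.eventually_ge_atTop 1] with X hX1 hX2
  have hS1 : S1 X ≠ 0 := norm_pos_iff.1 (by linarith)
  have hS2 : S2 X ≠ 0 := norm_pos_iff.1 (by linarith)
  rw [integral_finsetSum _ fun r _ => hint X hX1 hX2 r, mul_assoc, Finset.mul_sum]
  have hr : ∀ r ∈ reps m ×ˢ reps m, ((4 / 3 : ℝ) : ℂ) * ∫ z, F X (rm_fl2 (S1 X) (S2 X) z + r) =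
      (((‖S1 X‖ ^ 2 * ‖S2 X‖ ^ 2)⁻¹ : ℝ) : ℂ) * ∑' x, F X x := by
    intro r _
    rw [← rm_sum hS1 hS2 (fun x => F X (x + r)) (hint X hX1 hX2 r)]
    congr 1
    exact (Equiv.addRight r).tsum_eq (F X)
  rw [Finset.sum_congr rfl hr, Finset.sum_const, Finset.card_product, card_reps hm, nsmul_eq_mul]
  rw [Nat.cast_mul, ← sq, inv_mul_cancel_left₀ (pow_ne_zero 2 hN)]

end QRH
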