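import Vale.Agent.P026.Sym
import Vale.Agent.P026.Psq

noncomputable section
namespace QRH
open Complex MeasureTheory
open scoped ComplexConjugate Classical

variable {χ : P → E → ℂ}

theorem ga_half {a b b' : E} (ha : a ≠ 0) (hab : IsCoprime b a) (hb' : a ∣ b * b' - 1)
    {f : E → ℂ} (hf : Per a f) (fm : ∀ x y, f (x * y) = f x * f y) (m : E) :
    rsum a (fun y => f y * psf (y * (m * b')) a) =
      f b * rsum a fun y => f y * psf (y * m) a := by
  rw [← rsum_mul_unit ha (hf.mul (per_psf (m * b') a)) hab, ← rsum_mul_left]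
  congr 1
  funext y
  have h1 : a ∣ b * y * (m * b') - y * m := by
    have h2 : b * y * (m * b') - y * m = y * m * (b * b' - 1) := by ring
    rw [h2]
    exact hb'.mul_left _
  rw [fm, psf_congr h1, mul_assoc]

/-- Splitting of a twisted sum along a coprime factorisation of the modulus. -/
theorem ga_split {a b : E} (ha : a ≠ 0) (hb : b ≠ 0) (hab : IsCoprime a b) {f g : E → ℂ}
    (hf : Per a f) (hg : Per b g) (fm : ∀ x y, f (x * y) = f x * f y)
    (gm : ∀ x y, g (x * y) = g x * g y) (m : E) :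
    rsum (a * b) (fun y => f y * g y * psf (y * m) (a * b)) =
      f b * g a * (rsum a fun y => f y * psf (y * m) a) *
        rsum b fun y => g y * psf (y * m) b := by
  have h1 := inv_spec hab
  have h2 := inv_spec hab.symm
  have h3 : (fun y => f y * g y * psf (y * m) (a * b)) = fun y =>
      (f y * psf (y * (m * inv a b)) a) * (g y * psf (y * (m * inv b a)) b) := by
    funext y
    rw [psf_crt ha hb hab h1 h2, mul_assoc y, mul_assoc y]
    ring
  rw [h3, rsum_crt ha hb hab (hf.mul (per_psf _ a)) (hg.mul (per_psf _ b)),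
    ga_half ha hab.symm h2 hf fm, ga_half hb hab h1 hg gm]
  ring

theorem ga_xs_singleton (p : P) (n : E) : xs χ {p} n = χ p n := Finset.prod_singleton _ _

theorem ga_xs_insert {p : P} {s : Finset P} (hp : p ∉ s) (n : E) :
    xs χ (insert p s) n = χ p n * xs χ s n := Finset.prod_insert hp

theorem ga_gs_eq (s : Finset P) :
    gs χ s = rsum (pr s) fun y => xs χ s y * psf (y * 1) (pr s) := by
  simp only [mul_one, gs]

theorem ga_empty (m : E) :
    rsum (pr ∅) (fun y => xs χ ∅ y * psf (y * m) (pr ∅)) = 1 := by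
  have h : (fun y => xs χ ∅ y * psf (y * m) (pr ∅)) = fun _ => 1 := by
    funext y
    rw [xs_empty, pr_empty, psf_of_dvd (one_dvd _), mul_one]
  rw [h, rsum_const (pr_ne_zero _), pr_empty, nm_one, Nat.cast_one, mul_one]

theorem ga_union (h : Ch χ) {s t : Finset P} (hst : Disjoint s t) (m : E) :
    rsum (pr (s ∪ t)) (fun y => xs χ (s ∪ t) y * psf (y * m) (pr (s ∪ t))) =
      xs χ s (pr t) * xs χ t (pr s) * (rsum (pr s) fun y => xs χ s y * psf (y * m) (pr s)) *
        rsum (pr t) fun y => xs χ t y * psf (y * m) (pr t) := by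
  simp only [pr_union hst, xs_union hst]
  exact ga_split (pr_ne_zero s) (pr_ne_zero t) (coprime_pr.2 hst) (xs_per h s) (xs_per h t)
    (xs_mul h s) (xs_mul h t) m

theorem gs_empty : gs χ ∅ = 1 := by rw [ga_gs_eq, ga_empty]

theorem gam_empty : gam χ ∅ = 1 := by
  rw [gam, gs_empty, pr_empty, map_one, norm_one, Complex.ofReal_one, div_one]

theorem gs_singleton (p : P) : gs χ {p} = rsum p.1 fun y => χ p y * psf y p.1 := by
  simp only [gs, pr_singleton, ga_xs_singleton]

theorem gs_union (h : Ch χ) {s t : Finset P} (hst : Disjoint s t) :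
    gs χ (s ∪ t) = xs χ s (pr t) * xs χ t (pr s) * gs χ s * gs χ t := by
  rw [ga_gs_eq, ga_gs_eq, ga_gs_eq, ga_union h hst]

theorem gam_union (h : Ch χ) {s t : Finset P} (hst : Disjoint s t) :
    gam χ (s ∪ t) = xs χ s (pr t) * xs χ t (pr s) * gam χ s * gam χ t := by
  rw [gam, gam, gam, gs_union h hst, pr_union hst, map_mul, norm_mul, Complex.ofReal_mul]
  ring

theorem ga_gs_insert (h : Ch χ) {p : P} {s : Finset P} (hp : p ∉ s) :
    gs χ (insert p s) = χ p (pr s) * xs χ s p.1 * gs χ {p} * gs χ s := by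
  rw [Finset.insert_eq, gs_union h (Finset.disjoint_singleton_left.2 hp), ga_xs_singleton,
    pr_singleton]

theorem gs_eq_prod (h : Ch χ) (s : Finset P) :
    gs χ s = ∏ p ∈ s, χ p (pr (s.erase p)) * gs χ {p} := by
  induction s using Finset.induction_on with
  | empty => rw [gs_empty, Finset.prod_empty]
  | insert p s hp ih =>
    have h1 : ∏ q ∈ s, χ q (pr ((insert p s).erase q)) * gs χ {q} =
        xs χ s p.1 * ∏ q ∈ s, χ q (pr (s.erase q)) * gs χ {q} := by
      rw [xs, ← Finset.prod_mul_distrib]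
      refine Finset.prod_congr rfl fun q hq => ?_
      have h2 : p ≠ q := fun e => hp (e ▸ hq)
      rw [Finset.erase_insert_of_ne h2, pr_insert fun e => hp (Finset.mem_of_mem_erase e),
        (h.mc q).mul, mul_assoc]
    rw [Finset.prod_insert hp, Finset.erase_insert hp, h1, ← ih, ga_gs_insert h hp]
    ring

theorem gs_twist (h : Ch χ) {s : Finset P} (hs : ∀ p ∈ s, Nt p (χ p)) (m : E) :
    rsum (pr s) (fun y => xs χ s y * psf (y * m) (pr s)) = conj (xs χ s m) * gs χ s := by
  induction s using Finset.induction_on with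
  | empty => rw [ga_empty, xs_empty, gs_empty, map_one, mul_one]
  | insert p s hp ih =>
    have h1 := (h.mc p).gauss_twist (hs p (Finset.mem_insert_self p s)) m
    rw [← gs_singleton] at h1
    rw [ga_gs_insert h hp, ga_xs_insert hp m, Finset.insert_eq,
      ga_union h (Finset.disjoint_singleton_left.2 hp),
      ih fun q hq => hs q (Finset.mem_insert_of_mem hq)]
    simp only [ga_xs_singleton, pr_singleton]
    rw [h1, map_mul]
    ring

theorem ga_norm_singleton {p : P} (h : Mc p (χ p)) (hn : Nt p (χ p)) :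
    ‖gs χ {p}‖ = ‖toC p.1‖ := by
  rw [← sq_eq_sq₀ (norm_nonneg _) (norm_nonneg _), gs_singleton, h.gauss_norm hn, nm_eq]

theorem norm_gs (h : Ch χ) {s : Finset P} (hs : ∀ p ∈ s, Nt p (χ p)) :
    ‖gs χ s‖ = ‖toC (pr s)‖ := by
  induction s using Finset.induction_on with
  | empty => rw [gs_empty, pr_empty, map_one]
  | insert p s hp ih =>
    have h1 : ‖χ p (pr s)‖ = 1 := (h.mc p).norm _ fun e => hp (dvd_pr_iff.1 e)
    have h2 : ‖xs χ s p.1‖ = 1 := norm_xs h fun q hq e => hp ((P.dvd_iff q p).1 e ▸ hq)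
    rw [ga_gs_insert h hp, norm_mul, norm_mul, norm_mul, h1, h2,
      ga_norm_singleton (h.mc p) (hs p (Finset.mem_insert_self p s)),
      ih fun q hq => hs q (Finset.mem_insert_of_mem hq), pr_insert hp, map_mul, norm_mul,
      one_mul, one_mul]

theorem ga_norm_ne (s : Finset P) : ‖toC (pr s)‖ ≠ 0 :=
  norm_ne_zero_iff.2 (toC_ne_zero (pr_ne_zero s))

theorem norm_gam (h : Ch χ) {s : Finset P} (hs : ∀ p ∈ s, Nt p (χ p)) : ‖gam χ s‖ = 1 := by
  rw [gam, norm_div, norm_gs h hs, Complex.norm_real, norm_norm, div_self (ga_norm_ne s)]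

theorem norm_gam_c6 (s : Finset P) : ‖gam c6 s‖ = 1 := norm_gam ch_c6 fun p _ => c6_nt p

theorem norm_gam_c3 (s : Finset P) : ‖gam c3 s‖ = 1 := norm_gam ch_c3 fun p _ => c3_nt p

theorem gs_cj (h : Ch χ) (s : Finset P) : gs (cj χ) s = xs χ s (-1) * conj (gs χ s) := by
  have h1 : xs χ s (-1) * conj (xs χ s (-1)) = 1 := by
    rw [xs_mul_conj h, if_pos fun p _ => p.not_dvd_unit isUnit_one.neg]
  have h2 : IsCoprime (-1 : E) (pr s) := isCoprime_one_left.neg_left
  rw [ga_gs_eq (χ := χ),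
    ← rsum_mul_unit (pr_ne_zero s) ((xs_per h s).mul (per_psf 1 (pr s))) h2, conj_rsum,
    ← rsum_mul_left, gs]
  congr 1
  funext y
  rw [xs_mul h, mul_one, neg_one_mul, psf_neg, map_mul, map_mul, Complex.conj_conj, xs_cj,
    ← mul_assoc, ← mul_assoc, h1, one_mul]

theorem gam_mul_cj (h : Ch χ) {s : Finset P} (hs : ∀ p ∈ s, Nt p (χ p)) :
    gam χ s * gam (cj χ) s = xs χ s (-1) := by
  have h1 : gs χ s * conj (gs χ s) = ((‖toC (pr s)‖ : ℝ) : ℂ) ^ 2 := by
    rw [Complex.mul_conj', norm_gs h hs]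
  have h2 : ((‖toC (pr s)‖ : ℝ) : ℂ) ≠ 0 := Complex.ofReal_ne_zero.2 (ga_norm_ne s)
  rw [gam, gam, gs_cj h, div_mul_div_comm, mul_left_comm, h1, ← sq, mul_div_assoc,
    div_self (pow_ne_zero 2 h2), mul_one]

/-- The coefficient that appears in Poisson summation for a coprime pair. -/
theorem gs_pair (h : Ch χ) (hr : Rec χ) {c c' : Finset P} (hd : Disjoint c c') (hc : Odd' c)
    (hc' : Odd' c') (h4 : (4 : E) ∣ pr c - pr c') (m : E) :
    rsum (pr c * pr c') (fun y => xs χ c y * conj (xs χ c' y) * psf (y * m) (pr c * pr c'))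
      = conj (xs χ c m) * gs χ c * conj (conj (xs χ c' m) * gs χ c') := by
  have h1 := ga_split (pr_ne_zero c) (pr_ne_zero c') (coprime_pr.2 hd) (xs_per h c)
    (xs_per h.cj c') (xs_mul h c) (xs_mul h.cj c') m
  rw [gs_twist h fun p hp => h.nt p (hc p hp), gs_twist h.cj fun p hp => h.cj.nt p (hc' p hp),
    gs_cj h] at h1
  simp only [xs_cj] at h1
  rw [h1, map_mul]
  linear_combination (conj (xs χ c m) * gs χ c * conj (conj (xs χ c' m)) * conj (gs χ c')) *
    hr c c' hd hc hc' h4

theorem Rec.cj (hr : Rec χ) : Rec (cj χ) := by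
  intro c c' hd hc hc' h4
  rw [xs_cj, xs_cj, xs_cj, ← map_mul, ← map_mul, hr c c' hd hc hc' h4, map_one]

theorem G3_eq (p : P) : G3 p = conj (gs c3 {p}) := by
  rw [G3, (c3_mc p).gauss_conj, c3_neg_one, one_mul, gs_singleton]

theorem norm_G3 (p : P) : ‖G3 p‖ ^ 2 = nm p.1 := by
  rw [G3_eq, Complex.norm_conj, gs_singleton, (c3_mc p).gauss_norm (c3_nt p)]

end QRH
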