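import Vale.Agent.P026.Hs
import Vale.Agent.P026.Gauss

noncomputable section
namespace QRH
open Complex MeasureTheory
open scoped ComplexConjugate Classical

theorem ph_le_rpow {a b : ℝ} (hb : 0 ≤ b) (h : a ^ 3 ≤ b ^ 2) :
    a ≤ b ^ (2 / 3 : ℝ) := by
  have h1 : (b ^ (2 / 3 : ℝ)) ^ 3 = b ^ 2 := by
    rw [← Real.rpow_natCast, ← Real.rpow_mul hb, ← Real.rpow_natCast]
    norm_num
  exact le_of_pow_le_pow_left₀ (n := 3) (by norm_num) (Real.rpow_nonneg hb _) (h1 ▸ h)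

theorem ph_ne_zero {p : P} {s : E} (h : ¬ p.1 ∣ s) : s ≠ 0 := fun h0 => h (h0 ▸ dvd_zero _)

theorem ph_vp_unit_mul {p : P} {s c : E} (hs : ¬ p.1 ∣ s) (hc : c ≠ 0) :
    vp p.1 (s * c) = vp p.1 c := by
  rw [vp_mul p.2.1 (ph_ne_zero hs) hc, vp_of_not_dvd hs, zero_add]

theorem ph_pow_vp_dvd (p x : E) : p ^ vp p x ∣ x := ⟨_, (pow_vp_mul_up p x).symm⟩

theorem ph_not_dvd_pow {p : P} {s : E} (hs : ¬ p.1 ∣ s) (k : ℕ) : ¬ p.1 ∣ s ^ k :=
  fun h => hs (p.2.1.dvd_of_dvd_pow h)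

theorem Tp_of_not_dvd {p : P} {c : E} (h : ¬ p.1 ∣ c) (x : E) : Tp p c x = 1 := by
  simp [Tp, vp_of_not_dvd h]

theorem ph_Tp_iff {p : P} {c x x' : E}
    (h : p.1 ^ (2 * (vp p.1 c / 3) + vp p.1 c % 3) ∣ x ↔
      p.1 ^ (2 * (vp p.1 c / 3) + vp p.1 c % 3) ∣ x') : Tp p c x = Tp p c x' := by
  simp only [Tp, h]

theorem Tp_congr {p : P} {c x x' : E} (h : p.1 ^ vp p.1 c ∣ x - x') : Tp p c x = Tp p c x' :=
  ph_Tp_iff (dvd_iff_dvd_of_dvd_sub ((pow_dvd_pow _ (by omega)).trans h))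

theorem Tp_neg (p : P) (c x : E) : Tp p c (-x) = Tp p c x := ph_Tp_iff dvd_neg

theorem ph_Tp_unit {p : P} {s : E} (hs : ¬ p.1 ∣ s) (c x : E) : Tp p c (s * x) = Tp p c x :=
  ph_Tp_iff ⟨fun h => p.2.1.pow_dvd_of_dvd_mul_left _ hs h, fun h => h.mul_left s⟩

/-- Change of the first argument inside a valuation class. -/
theorem Tp_change {p : P} {e e' : E} (he : e ≠ 0) (he' : e' ≠ 0) (h : vp p.1 e' = vp p.1 e)
    (x : E) : Tp p e' x = hs p e' e * Tp p e x := by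
  have h1 := not_dvd_up p.2.1 he
  have h2 := not_dvd_up p.2.1 he'
  simp only [Tp, hs, h]
  rw [← map_pow, c3_pow_mod h1, c3_pow_mod h2]
  split_ifs with ha hb
  · simp
  · simp [hb]
  · have h3 : vp p.1 e % 3 = 1 := by omega
    have h4 := (c3_mc p).mul_conj h1
    rw [h3, pow_one, pow_one]
    linear_combination (-((nm p.1 : ℂ) ^ (2 * (vp p.1 e / 3)) * conj (c3 p (up p.1 e')) * G3 p)) * h4

theorem ph_Tp_ne {p : P} {c x : E} (h : Tp p c x ≠ 0) :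
    vp p.1 c % 3 ≠ 2 ∧ p.1 ^ (2 * (vp p.1 c / 3) + vp p.1 c % 3) ∣ x := by
  by_contra hc
  apply h
  rw [Tp, if_pos (by tauto)]

theorem Tp_supp {p : P} {c x : E} (h : Tp p c x ≠ 0) : p.1 ^ (2 * vp p.1 c) ∣ x ^ 3 := by
  have h1 := pow_dvd_pow_of_dvd (ph_Tp_ne h).2 3
  rw [← pow_mul] at h1
  exact (pow_dvd_pow _ (by omega)).trans h1

theorem Tp_supp' {p : P} {c x : E} (h : Tp p c x ≠ 0) : p.1 ^ vp p.1 c ∣ x ^ 2 := by
  have h1 := pow_dvd_pow_of_dvd (ph_Tp_ne h).2 2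
  rw [← pow_mul] at h1
  exact (pow_dvd_pow _ (by omega)).trans h1

theorem norm_Tp_le (p : P) (c x : E) :
    ‖Tp p c x‖ ≤ ((nm p.1 : ℝ) ^ vp p.1 c) ^ (2 / 3 : ℝ) := by
  have hN : (1 : ℝ) ≤ nm p.1 := one_le_nmR p.ne_zero
  refine ph_le_rpow (by positivity) ?_
  rw [Tp]
  split_ifs with ha hb
  · simp only [norm_zero]
    norm_num
  · rw [mul_one, norm_pow, Complex.norm_natCast, ← pow_mul, ← pow_mul]
    exact pow_le_pow_right₀ hN (by omega)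
  · have h3 : vp p.1 c * 2 = 2 * (vp p.1 c / 3) * 3 + 2 := by omega
    have h4 := norm_G3 p
    have h5 : ‖conj (c3 p (up p.1 c)) * G3 p‖ ≤ ‖G3 p‖ := by
      rw [norm_mul, RCLike.norm_conj]
      exact mul_le_of_le_one_left (norm_nonneg _) ((c3_mc p).norm_le _)
    have h6 : 1 ≤ ‖G3 p‖ := by
      by_contra hh
      have := norm_nonneg (G3 p)
      nlinarith
    have h7 : ‖conj (c3 p (up p.1 c)) * G3 p‖ ^ 3 ≤ (nm p.1 : ℝ) ^ 2 := by
      rw [← h4, ← pow_mul]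
      exact (pow_le_pow_left₀ (norm_nonneg _) h5 3).trans (pow_le_pow_right₀ h6 (by norm_num))
    rw [norm_mul, norm_pow, Complex.norm_natCast, mul_pow, ← pow_mul, ← pow_mul, h3, pow_add]
    exact mul_le_mul_of_nonneg_left h7 (by positivity)

theorem phip_of_not_dvd {p : P} {c : E} (h : ¬ p.1 ∣ c) (d x : E) : phip p c d x = 1 := by
  rw [phip, if_pos (Or.inr (by rw [vp_of_not_dvd h]; exact Nat.zero_le _)), Tp_of_not_dvd h]

theorem phip_of_dvd {p : P} {c d : E} (h : p.1 ^ vp p.1 c ∣ d) (x : E) :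
    phip p c d x = Tp p c x := by
  rw [phip, if_pos]
  by_cases hd : d = 0
  · exact Or.inl hd
  · exact Or.inr ((pow_dvd_iff p.2.1 hd _).1 h)

theorem phip_of_le {p : P} {c d : E} (hc : c ≠ 0) (hd : d ≠ 0) (h : vp p.1 d ≤ vp p.1 c) (x : E) :
    phip p c d x = hs p c d * psq p.1 (x ^ 3) (c * d) * Tp p d x := by
  rw [phip]
  split_ifs with h1
  · have h2 : vp p.1 c = vp p.1 d := le_antisymm (h1.resolve_left hd) h
    rw [Tp_change hd hc h2]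
    by_cases h3 : Tp p d x = 0
    · simp [h3]
    · rw [psq_of_dvd, mul_one]
      rw [vp_mul p.2.1 hc hd, h2, ← two_mul]
      exact Tp_supp h3
  · rfl

theorem ph_lt {p : P} {c d : E} (h : ¬ p.1 ^ vp p.1 c ∣ d) : d ≠ 0 ∧ vp p.1 d < vp p.1 c := by
  have hd : d ≠ 0 := fun h0 => h (h0 ▸ dvd_zero _)
  exact ⟨hd, not_le.1 fun h1 => h ((pow_dvd_iff p.2.1 hd _).2 h1)⟩

theorem phip_per (p : P) {c : E} (hc : c ≠ 0) : Per2 (p.1 ^ vp p.1 c) (phip p c) := by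
  intro d d' x x' hd hx
  by_cases h : p.1 ^ vp p.1 c ∣ d
  · rw [phip_of_dvd h, phip_of_dvd ((dvd_iff_dvd_of_dvd_sub hd).1 h), Tp_congr hx]
  · obtain ⟨hd0, hlt⟩ := ph_lt h
    have h1 : p.1 ^ (vp p.1 d + 1) ∣ d' - d := (pow_dvd_pow _ hlt).trans (dvd_sub_comm.1 hd)
    obtain ⟨hd0', hv, -⟩ := vp_up_congr p.2.1 hd0 0 h1
    have hx1 : p.1 ^ vp p.1 d ∣ x - x' := (pow_dvd_pow _ hlt.le).trans hx
    rw [phip_of_le hc hd0 hlt.le, phip_of_le hc hd0' (hv ▸ hlt.le), hs_congr_right p hd0 h1,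
      Tp_change hd0 hd0' hv, hs_congr_left p hd0 h1, hs_self p hd0, one_mul, ← Tp_congr hx1]
    by_cases h3 : Tp p d x = 0
    · simp [h3]
    · congr 2
      refine psq_eq_of p.2.1 (mul_ne_zero hc hd0) (mul_ne_zero hc hd0') ?_
      rw [vp_mul p.2.1 hc hd0, vp_mul p.2.1 hc hd0', hv]
      have a1 := Tp_supp h3
      have a2 := Tp_supp' h3
      have a3 : p.1 ^ vp p.1 d ∣ x' ^ 2 := Tp_supp' (Tp_congr hx1 ▸ h3)
      have a4 : p.1 ^ vp p.1 d ∣ x ^ 2 + x * x' + x' ^ 2 := by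
        have e : x ^ 2 + x * x' + x' ^ 2 = 2 * x ^ 2 - x * (x - x') + x' ^ 2 := by ring
        rw [e]
        exact ((a2.mul_left _).sub (hx1.mul_left _)).add a3
      have b1 := mul_dvd_mul (mul_dvd_mul (ph_pow_vp_dvd p.1 c) a1) hd
      have b2 := mul_dvd_mul (mul_dvd_mul (ph_pow_vp_dvd p.1 c) (mul_dvd_mul a4
        (ph_pow_vp_dvd p.1 d))) hx
      have e1 : x ^ 3 * (c * d') - x' ^ 3 * (c * d) =
          c * ((x ^ 2 + x * x' + x' ^ 2) * d) * (x - x') - c * x ^ 3 * (d - d') := by ring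
      have e2 : p.1 ^ (vp p.1 c + vp p.1 d + (vp p.1 c + vp p.1 d)) =
          p.1 ^ vp p.1 c * p.1 ^ (2 * vp p.1 d) * p.1 ^ vp p.1 c := by ring
      have e3 : p.1 ^ vp p.1 c * (p.1 ^ vp p.1 d * p.1 ^ vp p.1 d) * p.1 ^ vp p.1 c =
          p.1 ^ vp p.1 c * p.1 ^ (2 * vp p.1 d) * p.1 ^ vp p.1 c := by ring
      rw [e1, e2]
      exact (e3 ▸ b2).sub b1

theorem phip_neg (p : P) {c : E} (hc : c ≠ 0) (d x : E) :
    phip p c (-d) (-x) = phip p c d x := by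
  by_cases h : p.1 ^ vp p.1 c ∣ d
  · rw [phip_of_dvd h, phip_of_dvd (dvd_neg.2 h), Tp_neg]
  · obtain ⟨hd0, hlt⟩ := ph_lt h
    have hv := vp_neg p.2.1 hd0
    rw [phip_of_le hc hd0 hlt.le, phip_of_le hc (neg_ne_zero.2 hd0) (hv ▸ hlt.le),
      hs_neg_right p hd0, Tp_change hd0 (neg_ne_zero.2 hd0) hv, hs_neg_left p hd0, hs_self p hd0,
      one_mul, Tp_neg, ← psq_scale p.2.1 (neg_ne_zero.2 one_ne_zero) (mul_ne_zero hc hd0) (x ^ 3)]
    congr 3 <;> ring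

theorem ph_Tp_cube {p : P} {c s : E} (hc : c ≠ 0) (hs : ¬ p.1 ∣ s) (x : E) :
    Tp p (s ^ 3 * c) x = Tp p c x := by
  have h0 := ph_ne_zero hs
  rw [Tp_change hc (mul_ne_zero (pow_ne_zero _ h0) hc) (ph_vp_unit_mul (ph_not_dvd_pow hs 3) hc),
    hs_cube_left p hc hc h0, hs_self p hc, one_mul]

theorem phip_scale {p : P} {c s t : E} (hc : c ≠ 0) (hs : ¬ p.1 ∣ s) (ht : ¬ p.1 ∣ t) (d x : E) :
    phip p (s ^ 3 * c) (t ^ 3 * d) (s * t * x) = phip p c d x := by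
  have hst : ¬ p.1 ∣ s * t := fun h => (p.2.1.dvd_or_dvd h).elim hs ht
  have h0 := ph_ne_zero hs
  have h0' := ph_ne_zero ht
  have hv := ph_vp_unit_mul (ph_not_dvd_pow hs 3) hc
  have hc' := mul_ne_zero (pow_ne_zero 3 h0) hc
  by_cases h : p.1 ^ vp p.1 c ∣ d
  · rw [phip_of_dvd h, phip_of_dvd (hv ▸ h.mul_left _), ph_Tp_cube hc hs, ph_Tp_unit hst]
  · obtain ⟨hd0, hlt⟩ := ph_lt h
    have hv' := ph_vp_unit_mul (ph_not_dvd_pow ht 3) hd0
    have hd' := mul_ne_zero (pow_ne_zero 3 h0') hd0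
    rw [phip_of_le hc hd0 hlt.le, phip_of_le hc' hd' (by rw [hv, hv']; exact hlt.le),
      hs_cube_left p hc hd' h0, hs_cube_right p hc hd0 h0', ph_Tp_cube hd0 ht, ph_Tp_unit hst,
      ← psq_scale p.2.1 (pow_ne_zero 3 (mul_ne_zero h0 h0')) (mul_ne_zero hc hd0) (x ^ 3)]
    congr 3 <;> ring

theorem norm_phip_le (p : P) {c : E} (hc : c ≠ 0) (d x : E) :
    ‖phip p c d x‖ ≤ ((nm p.1 : ℝ) ^ vp p.1 c) ^ (2 / 3 : ℝ) := by
  by_cases h : p.1 ^ vp p.1 c ∣ d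
  · rw [phip_of_dvd h]
    exact norm_Tp_le p c x
  · obtain ⟨hd0, hlt⟩ := ph_lt h
    rw [phip_of_le hc hd0 hlt.le, norm_mul, norm_mul, norm_hs p hc hd0, norm_psq, one_mul, one_mul]
    exact (norm_Tp_le p d x).trans (Real.rpow_le_rpow (by positivity)
      (pow_le_pow_right₀ (one_le_nmR p.ne_zero) hlt.le) (by norm_num))

theorem phig_eq_prod {c : E} (hc : c ≠ 0) {S : Finset P} (hS : fac c ⊆ S) (d x : E) :
    phig c d x = ∏ p ∈ S, phip p c d x :=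
  Finset.prod_subset hS fun _ _ hp => phip_of_not_dvd (fun h => hp ((mem_fac hc).2 h)) d x

theorem ph_dvd_up_lam {c : E} (hc : c ≠ 0) (p : P) : p.1 ^ vp p.1 c ∣ up lam c := by
  rw [← vp_up_lam hc]
  exact ph_pow_vp_dvd _ _

theorem phig_per {c : E} (hc : c ≠ 0) : Per2 (up lam c) (phig c) := fun _ _ _ _ h h' =>
  Finset.prod_congr rfl fun p _ =>
    phip_per p hc _ _ _ _ ((ph_dvd_up_lam hc p).trans h) ((ph_dvd_up_lam hc p).trans h')

theorem phig_neg {c : E} (hc : c ≠ 0) (d x : E) : phig c (-d) (-x) = phig c d x :=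
  Finset.prod_congr rfl fun p _ => phip_neg p hc d x

theorem ph_27 (i : ℕ) : (27 : E) ^ i = (3 ^ i) ^ 3 := by
  rw [← pow_mul, mul_comm, pow_mul]
  norm_num

theorem ph_27_ne (i : ℕ) : (27 : E) ^ i ≠ 0 := by
  rw [ph_27]
  exact pow_ne_zero _ (ph_ne_zero (ph_not_dvd_pow pTwo.not_dvd_three i))

theorem phig_scale {c : E} (hc : c ≠ 0) (i j : ℕ) (d x : E) :
    phig (27 ^ i * c) (27 ^ j * d) (3 ^ (i + j) * x) = phig c d x := by
  rw [phig_eq_prod hc (fac_mono (mul_ne_zero (ph_27_ne i) hc) (Dvd.intro_left _ rfl)), phig]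
  refine Finset.prod_congr rfl fun p _ => ?_
  rw [ph_27, ph_27, pow_add]
  exact phip_scale hc (ph_not_dvd_pow p.not_dvd_three i) (ph_not_dvd_pow p.not_dvd_three j) d x

theorem phig_move {c : E} (hc : c ≠ 0) (i : ℕ) (d x : E) :
    phig (27 ^ i * c) d x = phig c (27 ^ i * d) x := by
  rw [← phig_scale hc i 0, ← phig_scale (mul_ne_zero (ph_27_ne i) hc) 0 i d x]
  simp

theorem norm_phig_le {c : E} (hc : c ≠ 0) (d x : E) :
    ‖phig c d x‖ ≤ (nm (up lam c) : ℝ) ^ (2 / 3 : ℝ) := by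
  rw [phig, norm_prod, nm_up_lam hc]
  push_cast
  rw [← Real.finsetProd_rpow _ _ fun p _ => by positivity]
  exact Finset.prod_le_prod (fun _ _ => norm_nonneg _) fun p _ => norm_phip_le p hc d x

theorem phig_zero_supp {c x : E} (hc : c ≠ 0) (h : phig c 0 x ≠ 0) : up lam c ∣ x ^ 2 := by
  rw [dvd_iff_forall (up_ne_zero hc), vp_of_not_dvd (not_dvd_up lam_prime hc), fac_up_lam hc]
  refine ⟨by simp, fun p hp => ?_⟩
  have h1 := Finset.prod_ne_zero_iff.1 h p hp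
  rw [phip_of_dvd (dvd_zero _)] at h1
  rw [vp_up_lam hc]
  exact Tp_supp' h1

theorem Tg_eq (c : E) : Tg c = ∏ p ∈ fac c, Tp p c 0 :=
  Finset.prod_congr rfl fun _ _ => phip_of_dvd (dvd_zero _) 0

theorem ph_Tg_prod {c : E} (hc : c ≠ 0) {S : Finset P} (hS : fac c ⊆ S) :
    Tg c = ∏ p ∈ S, Tp p c 0 :=
  (phig_eq_prod hc hS 0 0).trans (Finset.prod_congr rfl fun _ _ => phip_of_dvd (dvd_zero _) 0)

theorem Tg_cube {c d : E} (hc : c ≠ 0) (hd : (3 : E) ∣ d - 1) :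
    Tg (c * d ^ 3) = (nm d : ℂ) ^ 2 * Tg c := by
  have hd0 := primary_ne_zero hd
  have hd3 := pow_ne_zero 3 hd0
  have hcd := mul_ne_zero hc hd3
  have h1 : (nm d : ℂ) = ∏ p ∈ fac (c * d ^ 3), (nm p.1 : ℂ) ^ vp p.1 d := by
    have h2 := nm_up_lam hd0
    rw [up_of_not_dvd (not_lam_dvd_of_primary hd)] at h2
    rw [h2]
    push_cast
    refine Finset.prod_subset (fac_mono hcd ((dvd_pow_self d (by norm_num)).mul_left c))
      fun p _ hp => ?_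
    rw [vp_of_not_dvd fun h => hp ((mem_fac hd0).2 h), pow_zero]
  rw [h1, ph_Tg_prod hc (fac_mono hcd (Dvd.intro _ rfl)), Tg_eq, ← Finset.prod_pow,
    ← Finset.prod_mul_distrib]
  refine Finset.prod_congr rfl fun p _ => ?_
  have e1 : (vp p.1 c + 3 * vp p.1 d) % 3 = vp p.1 c % 3 := by omega
  have e2 : (vp p.1 c + 3 * vp p.1 d) / 3 = vp p.1 c / 3 + vp p.1 d := by omega
  simp only [Tp, vp_mul p.2.1 hc hd3, vp_pow p.2.1 hd0, up_mul p.2.1 hc hd3, up_pow p.2.1 hd0, e1,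
    e2, dvd_zero, not_true_eq_false, or_false, (c3_mc p).mul, (c3_mc p).map_pow,
    c3_cube (not_dvd_up p.2.1 hd0), mul_one]
  split_ifs <;> ring

theorem Tg_pr (s : Finset P) : Tg (pr s) = conj (gs c3 s) := by
  rw [Tg_eq, fac_pr, gs_eq_prod ch_c3, map_prod]
  refine Finset.prod_congr rfl fun p hp => ?_
  simp [Tp, vp_pr, hp, up_pr hp, G3_eq]

theorem norm_Tg_pr (s : Finset P) : ‖Tg (pr s)‖ = √(Ns s) := by
  rw [Tg_pr, RCLike.norm_conj, norm_gs ch_c3 fun p _ => c3_nt p, norm_toC, Ns]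

theorem Tg_eq_zero {c : E} (hc : c ≠ 0) {p : P} (h : vp p.1 c % 3 = 2) : Tg c = 0 := by
  rw [Tg_eq]
  refine Finset.prod_eq_zero ((mem_fac hc).2 ((dvd_iff_vp p.2.1 hc).2 (by omega))) ?_
  rw [Tp, if_pos (Or.inl h)]

theorem Tg_mul_free {c u : E} (hc : c ≠ 0) (hu : ∀ p : P, ¬ p.1 ∣ u) :
    Tg (u * c) = conj (xv c3 c u) * Tg c := by
  have hu0 := ph_ne_zero (hu pTwo)
  have huc := mul_ne_zero hu0 hc
  have hS : fac c ⊆ fac (u * c) := fac_mono huc (Dvd.intro_left _ rfl)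
  rw [ph_Tg_prod hc hS, xv_eq_prod hc hS, Tg_eq, map_prod, ← Finset.prod_mul_distrib]
  refine Finset.prod_congr rfl fun p _ => ?_
  rw [Tp_change hc huc (ph_vp_unit_mul (hu p) hc), hs_mul_left p hu0 hc hc, hs_self p hc, mul_one,
    hs_unit_left (hu p), map_pow]

theorem norm_Tg_mul_free {c u : E} (hc : c ≠ 0) (hu : ∀ p : P, ¬ p.1 ∣ u) :
    ‖Tg (u * c)‖ = ‖Tg c‖ := by
  rw [Tg_mul_free hc hu, norm_mul, RCLike.norm_conj, norm_xv ch_c3 hc fun p h => hu p h.2, one_mul]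

theorem ph_vp_decomp (f : Finset P) {d : E} (hd : (3 : E) ∣ d - 1) (p : P) :
    vp p.1 (pr f * d ^ 3) = (if p ∈ f then 1 else 0) + 3 * vp p.1 d := by
  rw [vp_mul p.2.1 (pr_ne_zero f) (pow_ne_zero _ (primary_ne_zero hd)), vp_pr,
    vp_pow p.2.1 (primary_ne_zero hd)]

theorem Tg_decomp {c : E} (hc : (3 : E) ∣ c - 1) (h : Tg c ≠ 0) :
    ∃ (f : Finset P) (d : E), (3 : E) ∣ d - 1 ∧ c = pr f * d ^ 3 := by
  have hc0 := primary_ne_zero hc
  have hd := primary_prod_pow (fac c) fun p => vp p.1 c / 3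
  refine ⟨(fac c).filter fun p => vp p.1 c % 3 = 1, _, hd,
    primary_ext hc (primary_mul (pr_primary _) (primary_pow hd 3)) fun p => ?_⟩
  rw [ph_vp_decomp _ hd, vp_prod_pow]
  have h2 : vp p.1 c % 3 ≠ 2 := fun h2 => h (Tg_eq_zero hc0 h2)
  by_cases hp : p ∈ fac c
  · simp only [Finset.mem_filter, hp, true_and, if_true]
    split_ifs <;> omega
  · simp only [Finset.mem_filter, hp, false_and, if_false]
    exact vp_of_not_dvd fun h => hp ((mem_fac hc0).2 h)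

theorem decomp_unique {f f' : Finset P} {d d' : E} (hd : (3 : E) ∣ d - 1) (hd' : (3 : E) ∣ d' - 1)
    (h : pr f * d ^ 3 = pr f' * d' ^ 3) : f = f' ∧ d = d' := by
  have key : ∀ p : P, (p ∈ f ↔ p ∈ f') ∧ vp p.1 d = vp p.1 d' := by
    intro p
    have h1 := ph_vp_decomp f hd p
    rw [h, ph_vp_decomp f' hd' p] at h1
    by_cases h2 : p ∈ f <;> by_cases h3 : p ∈ f' <;>
      simp only [h2, h3, if_true, if_false, iff_self, true_and] at h1 ⊢ <;> omega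
  exact ⟨Finset.ext fun p => (key p).1, primary_ext hd hd' fun p => (key p).2⟩

theorem exists_unit_lam_primary {c : E} (hc : c ≠ 0) :
    ∃ (u c' : E), IsUnit u ∧ (3 : E) ∣ c' - 1 ∧ c = u * lam ^ vp lam c * c' := by
  obtain ⟨u, hu, h⟩ := exists_factor hc
  exact ⟨u, _, hu, primary_prod_pow _ _, h⟩

theorem unit_lam_primary_unique {u u' c c' : E} {k k' : ℕ} (hu : IsUnit u) (hu' : IsUnit u')
    (hc : (3 : E) ∣ c - 1) (hc' : (3 : E) ∣ c' - 1) (h : u * lam ^ k * c = u' * lam ^ k' * c') :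
    u = u' ∧ k = k' ∧ c = c' := by
  have h1 := vp_up_eq lam_prime (u := u * c)
    (fun h => not_lam_dvd_of_primary hc (hu.dvd_mul_left.1 h)) k
  have h2 := vp_up_eq lam_prime (u := u' * c')
    (fun h => not_lam_dvd_of_primary hc' (hu'.dvd_mul_left.1 h)) k'
  have e : lam ^ k * (u * c) = lam ^ k' * (u' * c') := by linear_combination h
  rw [e] at h1
  have h3 : u * c = u' * c' := h1.2.symm.trans h2.2
  have h4 : c = c' := primary_unique hc hc'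
    (((associated_unit_mul_left c u hu).symm.trans (h3 ▸ Associated.refl _)).trans
      (associated_unit_mul_left c' u' hu'))
  refine ⟨?_, h1.1.symm.trans h2.1, h4⟩
  rw [h4] at h3
  exact mul_right_cancel₀ (primary_ne_zero hc') h3

theorem norm_Tg_le {c : E} (hc : c ≠ 0) : ‖Tg c‖ ≤ (nm (up lam c) : ℝ) ^ (2 / 3 : ℝ) :=
  norm_phig_le hc 0 0

end QRH
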