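import Vale.Agent.P026.Phi1
import Vale.Agent.P026.Stm2

noncomputable section
namespace QRH
open Complex MeasureTheory Filter
open scoped ComplexConjugate Classical ContDiff Topology

theorem Lam_ne_zero (a : ℕ) : Lam a ≠ 0 := ph_27_ne a
theorem vl_eq (a : ℕ) : Lam a = lam ^ (6 * a) * (-1) ^ a := by
  rw [Lam, pow_mul, ← mul_pow, show 6 = 2 * 3 from rfl, pow_mul, lam_sq]
  norm_num
theorem vl_unit (a : ℕ) : IsUnit ((-1 : E) ^ a) := isUnit_one.neg.pow a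
theorem vl_nd (a : ℕ) : ¬ lam ∣ (-1) ^ a := fun h =>
  lam_prime.not_unit (isUnit_of_dvd_unit h (vl_unit a))
theorem vl_pow (a k : ℕ) : Lam a ^ k = 27 ^ (a * k) := by rw [Lam, pow_mul]
theorem vl_nm_assoc {x y : E} (h : Associated x y) : nm x = nm y :=
  Nat.dvd_antisymm (nm_dvd h.dvd) (nm_dvd h.symm.dvd)
theorem vl_rsum2_assoc {c c' : E} (h : Associated c c') (F : E → E → ℂ) :
    rsum2 c F = rsum2 c' F := by
  simp only [rsum2, rsum_assoc h]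
theorem vl_psq {A A' B B' : E} (hB : B ≠ 0) (hB' : B' ≠ 0) {n : ℕ}
    (hn : vp lam B + vp lam B' ≤ n) (h : lam ^ n ∣ A * B' - A' * B) :
    psq lam A B = psq lam A' B' := psq_eq_of lam_prime hB hB' ((pow_dvd_pow _ hn).trans h)
theorem Lam_assoc (a : ℕ) : Associated (Lam a) (lam ^ (6 * a)) :=
  vl_eq a ▸ associated_mul_unit_left _ _ (vl_unit a)
theorem Lam_cube (a : ℕ) : Lam a = (3 ^ a) ^ 3 := ph_27 a
theorem vp_Lam (a : ℕ) : vp lam (Lam a) = 6 * a :=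
  vl_eq a ▸ (vp_up_eq lam_prime (vl_nd a) _).1
theorem not_dvd_Lam (p : P) (a : ℕ) : ¬ p.1 ∣ Lam a :=
  Lam_cube a ▸ ph_not_dvd_pow (ph_not_dvd_pow p.not_dvd_three a) 3
theorem nine_dvd_Lam {a : ℕ} (ha : 1 ≤ a) : (9 : E) ∣ Lam a :=
  Dvd.dvd.trans ⟨3, by norm_num⟩ (dvd_pow_self (27 : E) (by omega))
theorem coprime_Lam {q : E} (hq : ¬ lam ∣ q) (a : ℕ) : IsCoprime q (Lam a) :=
  Lam_cube a ▸ (isCoprime_three.2 hq).pow_right.pow_right
theorem vp_lt_of_not_dvd {a : ℕ} {C : E} (h : ¬ Lam a ∣ C) : C ≠ 0 ∧ vp lam C < 6 * a := by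
  have hC : C ≠ 0 := fun h0 => h (h0 ▸ dvd_zero _)
  exact ⟨hC, not_le.1 fun h1 => h ((Lam_assoc a).dvd.trans ((pow_dvd_iff lam_prime hC _).2 h1))⟩
theorem xv_Lam {q : E} (hq : q ≠ 0) (a : ℕ) (u : E) : xv c3 q (Lam a * u) = xv c3 q u := by
  rw [xv_mul ch_c3, Lam_cube, xv_pow ch_c3,
    xv_c3_cube hq fun p h => ph_not_dvd_pow p.not_dvd_three a h.2, one_mul]
theorem Tg_Lam {δ : E} (hδ : δ ≠ 0) (a k : ℕ) : Tg (Lam a ^ k * δ) = Tg δ := by
  simpa only [mul_zero, vl_pow, Tg] using phig_scale hδ (a * k) 0 0 0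
theorem up_Lam_assoc {δ : E} (hδ : δ ≠ 0) (a k : ℕ) :
    Associated (up lam (Lam a ^ k * δ)) (up lam δ) := by
  rw [up_mul lam_prime (pow_ne_zero _ (Lam_ne_zero a)) hδ, up_pow lam_prime (Lam_ne_zero a), vl_eq,
    (vp_up_eq lam_prime (vl_nd a) _).2]
  exact associated_unit_mul_left _ _ ((vl_unit a).pow k)
theorem rh_per (a : ℕ) (ρ : E → ℂ) : Per (Lam a) (rh a ρ) := fun x y h =>
  congrArg (rsum _) (funext fun c => by
    rw [psf_congr (A' := c * y) (by rw [← mul_sub]; exact h.mul_left c)])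
theorem norm_rh_le {a : ℕ} {ρ : E → ℂ} (h : ∀ c, ‖ρ c‖ ≤ 1) (δ : E) :
    ‖rh a ρ δ‖ ≤ nm (Lam a) :=
  (norm_rsum_le (Lam_ne_zero a) (M := 1) fun c => by
    rw [norm_mul, norm_psf, mul_one]; exact h c).trans_eq (mul_one _)
theorem rh_of_dvd {a : ℕ} {ρ : E → ℂ} (h : rsum (Lam a) ρ = 0) {δ : E} (hδ : Lam a ∣ δ) :
    rh a ρ δ = 0 := by
  simp only [rh, psf_of_dvd (hδ.mul_left _), mul_one, h]
theorem vl_ne (a v : ℕ) : Lam a * lam ^ v ≠ 0 :=
  mul_ne_zero (Lam_ne_zero a) (pow_ne_zero _ lam_prime.ne_zero)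
theorem vl_div_le {c : E} (hc : c ≠ 0) {F : E → E → ℂ} {M : ℝ} (h : ∀ x y, ‖F x y‖ ≤ M) :
    ‖rsum2 c F / (nm c : ℂ) ^ 2‖ ≤ M := by
  have := one_le_nmR hc
  rw [norm_div, norm_pow, Complex.norm_natCast, div_le_iff₀' (by positivity)]
  exact norm_rsum2_le hc h
theorem norm_Lt_le (a : ℕ) (q C δ ζ : E) : ‖Lt a q C δ ζ‖ ≤ 1 :=
  vl_div_le (vl_ne a _) fun d ξ => by
    rw [norm_mul, norm_psq, mul_one]
    split_ifs
    · rw [RCLike.norm_conj, norm_psq]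
    · simp
theorem norm_Al_le {a : ℕ} {ρ : E → ℂ} (h : ∀ c, ‖ρ c‖ ≤ 1) {q δ : E} (hq : q ≠ 0) (hδ : δ ≠ 0)
    (β C ζ : E) : ‖Al a ρ q β δ C ζ‖ ≤ (nm (Lam a) : ℝ) ^ 2 := by
  rw [Al]
  split_ifs with hC
  · simp
  · obtain ⟨h0, hv⟩ := vp_lt_of_not_dvd hC
    have h1 : (3 : ℝ) ^ vp lam C ≤ nm (Lam a) := by
      rw [vl_nm_assoc (Lam_assoc a), nm_pow, nm_lam]
      exact_mod_cast Nat.pow_le_pow_right (by norm_num) hv.le
    simp only [norm_mul, norm_pow, RCLike.norm_conj, norm_psq, norm_H h0 hq, mul_one,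
      norm_H h0 (mul_ne_zero (pow_ne_zero 3 (Lam_ne_zero a)) hδ), Complex.norm_ofNat]
    rw [sq]
    exact (mul_le_of_le_one_right (by positivity) (norm_Lt_le ..)).trans
      (mul_le_mul h1 (norm_rh_le h _) (norm_nonneg _) (Nat.cast_nonneg _))
theorem Al_per (hH : HCongr) (a : ℕ) (ρ : E → ℂ) {q δ : E} (hq : q ≠ 0) (hδ : δ ≠ 0) (β : E) :
    Per2 (lam ^ (30 * a + 4 + vp lam δ)) (Al a ρ q β δ) := by
  intro C C' ζ ζ' hC hζ
  have hL := Lam_ne_zero a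
  have hLC : Lam a ∣ C - C' := (Lam_assoc a).dvd.trans ((pow_dvd_pow _ (by omega)).trans hC)
  by_cases h : Lam a ∣ C'
  · rw [Al, Al, if_pos h, if_pos ((dvd_iff_dvd_of_dvd_sub hLC).2 h)]
  obtain ⟨h0, hv⟩ := vp_lt_of_not_dvd h
  obtain ⟨h1, h2, -⟩ := vp_up_congr lam_prime h0 0 ((pow_dvd_pow _ (by omega)).trans hC)
  have h9 : 9 * lam ^ vp lam C' ∣ C - C' := by
    rw [show (9 : E) = lam ^ (2 * 2) by rw [pow_mul, lam_sq]; norm_num, ← pow_add]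
    exact (pow_dvd_pow _ (by omega)).trans hC
  have h3 := mul_ne_zero (pow_ne_zero 3 hL) hδ
  have h4 : vp lam (Lam a ^ 3 * δ) = 18 * a + vp lam δ := by
    rw [vp_mul lam_prime (pow_ne_zero 3 hL) hδ, vp_pow lam_prime hL, vp_Lam]; ring
  have e1 : Lt a q C δ ζ = Lt a q C' δ ζ' := by
    rw [Lt, Lt, h2]
    congr 2
    funext d ξ
    rw [vl_psq h1 h0 (A' := (3 ^ (a - 1) * ξ) ^ 3 * q) (n := 30 * a + 4 + vp lam δ) (by omega)
        (by rw [← mul_sub]; exact (dvd_sub_comm.1 hC).mul_left _),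
      vl_psq (mul_ne_zero hL h1) (mul_ne_zero hL h0) (A' := d * δ + ξ * ζ')
        (n := 30 * a + 4 + vp lam δ)
        (by rw [vp_mul lam_prime hL h1, vp_mul lam_prime hL h0, vp_Lam]; omega)
        (by
          rw [show (d * δ + ξ * ζ) * (Lam a * C') - (d * δ + ξ * ζ') * (Lam a * C) =
            ξ * Lam a * C * (ζ - ζ') - (d * δ + ξ * ζ) * Lam a * (C - C') by ring]
          exact dvd_sub (hζ.mul_left _) (hC.mul_left _))]
  have e2 : psq lam (ζ ^ 3) (C * (Lam a ^ 3 * δ)) = psq lam (ζ' ^ 3) (C' * (Lam a ^ 3 * δ)) := by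
    refine vl_psq (mul_ne_zero h1 h3) (mul_ne_zero h0 h3)
      (n := 30 * a + 4 + vp lam δ + vp lam (Lam a ^ 3 * δ))
      (by rw [vp_mul lam_prime h1 h3, vp_mul lam_prime h0 h3]; omega) ?_
    rw [pow_add, show ζ ^ 3 * (C' * (Lam a ^ 3 * δ)) - ζ' ^ 3 * (C * (Lam a ^ 3 * δ)) =
      ((ζ ^ 2 + ζ * ζ' + ζ' ^ 2) * C * (ζ - ζ') - ζ ^ 3 * (C - C')) * (Lam a ^ 3 * δ) by ring]
    exact mul_dvd_mul (dvd_sub (hζ.mul_left _) (hC.mul_left _)) (ph_pow_vp_dvd _ _)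
  rw [Al, Al, if_neg h, if_neg fun h' => h ((dvd_iff_dvd_of_dvd_sub hLC).1 h'), h2, e1, e2,
    (hH C' C q h0 hq h9).1, (hH C' C _ h0 h3 h9).1,
    rh_per a ρ (β * C) (β * C') (by rw [← mul_sub]; exact hLC.mul_left _)]
theorem norm_bb_le {a : ℕ} {ρ : E → ℂ} (h : ∀ c, ‖ρ c‖ ≤ 1) {q δ : E} (hq : q ≠ 0) (hδ : δ ≠ 0)
    (β : E) : ‖bb a ρ q β δ‖ ≤ (nm (Lam a) : ℝ) ^ 2 * ‖Tg δ‖ / nm (up lam δ) := by
  rw [bb, norm_div, norm_mul, Complex.norm_natCast]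
  exact div_le_div_of_nonneg_right (mul_le_mul_of_nonneg_right
    (vl_div_le (pow_ne_zero _ lam_prime.ne_zero) (norm_Al_le h hq hδ β)) (norm_nonneg _))
    (Nat.cast_nonneg _)
theorem bb_congr (hH : HCongr) {a : ℕ} (ha : 1 ≤ a) (ρ : E → ℂ) {q q1 δ : E} (hq : ¬ lam ∣ q)
    (h : Lam a ∣ q1 - q) (hδ : δ ≠ 0) (β : E) : bb a ρ q1 β δ = bb a ρ q β δ := by
  have : Al a ρ q1 β δ = Al a ρ q β δ := by
    funext C ζ
    rw [Al, Al]
    split_ifs with hC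
    · rfl
    obtain ⟨h0, hv⟩ := vp_lt_of_not_dvd hC
    have e1 : Lt a q1 C δ ζ = Lt a q C δ ζ := by
      rw [Lt, Lt]
      congr 2
      funext d ξ
      rw [psq_congr (A' := (3 ^ (a - 1) * ξ) ^ 3 * q) (by
        rw [← mul_sub]
        exact ((pow_dvd_pow _ hv.le).trans ((Lam_assoc a).symm.dvd.trans h)).mul_left _),
        if_congr (dvd_iff_dvd_of_dvd_sub (c := q * d + 1) (by
          rw [add_sub_add_right_eq_sub, ← sub_mul]; exact h.mul_right d)) rfl rfl]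
    rw [e1, (hH q q1 C (fun h0 => hq (h0 ▸ dvd_zero _)) h0
      (by rw [vp_of_not_dvd hq, pow_zero, mul_one]; exact (nine_dvd_Lam ha).trans h)).2]
  rw [bb, bb, this]
theorem vl_per {B c : E} (hB : B ≠ 0) (h : up lam B ∣ c) (s t : E) :
    Per2 c fun x y => psg (x * s + y * t) B := fun x x' y y' hx hy =>
  psg_congr hB (h.trans (by
    rw [show x * s + y * t - (x' * s + y' * t) = (x - x') * s + (y - y') * t by ring]
    exact dvd_add (hx.mul_right _) (hy.mul_right _)))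
theorem vl_three {c : E} (hc : ¬ lam ∣ c) (k : ℕ) {x y : E} (h : c ∣ 3 ^ k * x - 3 ^ k * y) :
    c ∣ x - y :=
  (isCoprime_three.2 hc).pow_right.dvd_of_dvd_mul_left (by rwa [← mul_sub] at h)
theorem vl_gls (hS : GlS) {c c0 : E} (hc : c ≠ 0) (h : Associated (up lam c) c0) (δ ξ : E)
    (k : ℕ) (s : E) (hs : IsUnit s) :
    rsum2 c0 (fun y x => phig c (s * y) (3 ^ k * x) * psg (s * y * δ + 3 ^ k * x * (3 * ξ)) c)
      = nm c0 * phig c δ ξ := by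
  have h0 : ¬ lam ∣ c0 := fun h' => not_dvd_up lam_prime hc (h'.trans h.symm.dvd)
  have := hS c δ ξ hc
  rw [vl_rsum2_assoc h, vl_nm_assoc h] at this
  rw [← this]
  simp only [show ∀ x : E, 3 * x * ξ = x * (3 * ξ) from fun x => by ring]
  exact rsum2_bij (fun h' : c0 = 0 => h0 (h' ▸ dvd_zero _))
    (((phig_per hc).mono h.dvd).mul (vl_per hc h.dvd δ (3 * ξ))) (fun y _ => s * y)
    (fun _ x => 3 ^ k * x) fun _ _ _ _ h1 h2 =>
      ⟨hs.dvd_mul_left.1 (by rwa [← mul_sub] at h1), vl_three h0 k h2⟩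
/-- The arithmetic coefficient of the first Poisson summation. -/
theorem coef1 (hS : GlS) {a : ℕ} (ha : 1 ≤ a) {ρ : E → ℂ} (hρ : Per (Lam a) ρ) {d : E}
    (hd : Lam a ∣ d - 1) (δ ξ : E) :
    rsum2 (Lam a * d) (fun c x => ρ c * phig d (-c) x * psf (c * (-δ) + x * ξ) (Lam a * d))
      = if Lam a ∣ ξ then
          nm (Lam a) * rh a ρ (-δ) * (nm d * phig d δ (3 ^ (a - 1) * dv ξ (Lam a))) else 0 := by
  have hL := Lam_ne_zero a
  have h1 : ¬ lam ∣ d := not_lam_dvd_of_primary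
    (Dvd.dvd.trans ⟨3, by norm_num⟩ ((nine_dvd_Lam ha).trans hd))
  have h0 : d ≠ 0 := fun h => h1 (h ▸ dvd_zero _)
  have hLd := mul_ne_zero hL h0
  have hu : Associated (up lam (Lam a * d)) d := by
    simpa only [pow_one, up_of_not_dvd h1] using up_Lam_assoc h0 a 1
  have e1 : ∀ A, psf A (Lam a * d) = psf A (Lam a) * psg A (Lam a * d) := fun A => by
    rw [psf_eq_prod hLd, psf_eq_psq lam_prime (Lam_assoc a),
      vl_psq hLd hL (A' := A) (n := 6 * a + 6 * a)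
        (by rw [vp_mul lam_prime hL h0, vp_of_not_dvd h1, vp_Lam]; omega)
        (by
          rw [pow_add, show A * Lam a - A * (Lam a * d) = Lam a * ((d - 1) * -A) by ring]
          exact mul_dvd_mul (Lam_assoc a).symm.dvd
            (((Lam_assoc a).symm.dvd.trans hd).mul_right _))]
  have e2 := rsum2_crt hL h0 (coprime_Lam h1 a).symm
    (F := fun c x => ρ c * psf (c * (-δ)) (Lam a) * psf (x * ξ) (Lam a))
    (G := fun c x => phig d (-c) x * psg (c * (-δ) + x * ξ) (Lam a * d))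
    (fun c c' x x' hc hx => by
      exact congrArg₂ _ (congrArg₂ _ (hρ c c' hc) (per_psf (-δ) _ c c' hc)) (per_psf ξ _ x x' hx))
    (Per2.mul (fun c c' x x' hc hx => phig_per h0 _ _ _ _
      (by rw [up_of_not_dvd h1, neg_sub_neg]; exact dvd_sub_comm.1 hc)
      (by rwa [up_of_not_dvd h1])) (vl_per hLd hu.dvd _ _))
  refine Eq.trans (congrArg (rsum2 _) (funext fun c => funext fun x => ?_)) (e2.trans ?_)
  · rw [e1, psf_add]; ring
  simp only [rsum2, rsum_mul_left, rsum_mul_right, rsum_psf hL]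
  split_ifs with hξ
  · obtain ⟨ξ, rfl⟩ := hξ
    obtain ⟨b, rfl⟩ : ∃ b, a = b + 1 := ⟨a - 1, by omega⟩
    have e3 := vl_gls hS hLd hu δ (3 ^ (b + 1 + 0) * (3 ^ b * ξ)) (b + 1 + 0) (-1) isUnit_one.neg
    have e4 := phig_scale h0 (b + 1) 0
    simp only [pow_zero, one_mul] at e4
    simp only [Lam, e4] at e3
    rw [dv_mul hL, Nat.add_sub_cancel, ← e3, mul_comm (nm _ : ℂ)]
    refine congrArg₂ _ rfl (congrArg (rsum _) (funext fun c => congrArg (rsum _)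
      (funext fun x => ?_)))
    simp only [neg_one_mul, Lam]
    congr 2
    rw [ph_27]
    ring
  · rw [mul_zero, zero_mul]
theorem vl_per1 {a : ℕ} (q C : E) :
    Per2 (Lam a * lam ^ vp lam C) fun d ξ =>
      (if Lam a ∣ q * d + 1 then conj (psq lam ((3 ^ (a - 1) * ξ) ^ 3 * q) C) else 0) := by
  intro d d' ξ ξ' hd hξ
  simp only
  rw [psq_congr (A' := (3 ^ (a - 1) * ξ') ^ 3 * q) (by
      rw [← sub_mul, mul_pow, mul_pow, ← mul_sub]
      exact ((((dvd_mul_left _ _).trans hξ).trans (sub_dvd_pow_sub_pow _ _ 3)).mul_left _).mul_right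
        _),
    if_congr (dvd_iff_dvd_of_dvd_sub (c := q * d' + 1) (by
      rw [add_sub_add_right_eq_sub, ← mul_sub]
      exact ((dvd_mul_right _ _).trans hd).mul_left q)) rfl rfl]
theorem vl_per2 {C : E} (hC : C ≠ 0) (t : E) : Per2 (up lam C) fun d ξ => phig C d (t * ξ) :=
  fun _ _ _ _ hd hξ => phig_per hC _ _ _ _ hd (by rw [← mul_sub]; exact hξ.mul_left t)
/-- The arithmetic coefficient of the second Poisson summation. -/
theorem coef2 (hS : GlS) {a : ℕ} (ha : 1 ≤ a) (q : E) {C : E} (hC : ¬ Lam a ∣ C) (δ ζ : E) :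
    rsum2 (Lam a * C) (fun d ξ =>
      (if Lam a ∣ q * d + 1 then conj (psq lam ((3 ^ (a - 1) * ξ) ^ 3 * q) C) else 0)
        * phig C d (3 ^ (a - 1) * ξ) * psf (d * δ + ξ * ζ) (Lam a * C))
      = (nm (Lam a * C) : ℂ) ^ 2 * (Lt a q C δ ζ * phig C (Lam a ^ 3 * δ) ζ / (nm (up lam C) : ℂ)) := by
  have hL := Lam_ne_zero a
  obtain ⟨h0, -⟩ := vp_lt_of_not_dvd hC
  have hLC := mul_ne_zero hL h0
  have h1 := not_dvd_up lam_prime h0
  have h2 : up lam C ≠ 0 := up_ne_zero h0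
  have h3 : Lam a * lam ^ vp lam C * up lam C = Lam a * C := by rw [mul_assoc, pow_vp_mul_up]
  have e2 := rsum2_crt (vl_ne a (vp lam C)) h2
    ((coprime_Lam h1 a).mul_right ((isCoprime_prime lam_prime).2 h1).pow_right).symm
    (F := fun d ξ =>
      (if Lam a ∣ q * d + 1 then conj (psq lam ((3 ^ (a - 1) * ξ) ^ 3 * q) C) else 0)
      * psq lam (d * δ + ξ * ζ) (Lam a * C))
    (G := fun d ξ => phig C d (3 ^ (a - 1) * ξ) * psg (d * δ + ξ * ζ) (Lam a * C))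
    ((vl_per1 q C).mul fun d d' ξ ξ' hd hξ => psq_congr (by
      rw [vp_mul lam_prime hL h0, vp_Lam, pow_add,
        show d * δ + ξ * ζ - (d' * δ + ξ' * ζ) = (d - d') * δ + (ξ - ξ') * ζ by ring]
      exact (mul_dvd_mul_right (Lam_assoc a).symm.dvd _).trans
        (dvd_add (hd.mul_right _) (hξ.mul_right _))))
    ((vl_per2 h0 _).mul (vl_per hLC (by simpa only [pow_one] using (up_Lam_assoc h0 a 1).dvd) _ _))
  rw [h3] at e2
  refine Eq.trans (congrArg (rsum2 _) (funext fun c => funext fun x => ?_)) (e2.trans ?_)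
  · rw [psf_eq_prod hLC]; ring
  obtain ⟨b, rfl⟩ : ∃ b, a = b + 1 := ⟨a - 1, by omega⟩
  have e3 := vl_gls hS (mul_ne_zero (pow_ne_zero 2 hL) h0) (up_Lam_assoc h0 _ 2) (Lam (b + 1) * δ) ζ
    ((b + 1) * 2 + 0 + b) 1 isUnit_one
  have e4 := phig_scale h0 ((b + 1) * 2) 0
  simp only [pow_zero, one_mul] at e4
  simp only [pow_add _ _ b, mul_assoc (3 ^ ((b + 1) * 2 + 0) : E), vl_pow, one_mul, e4] at e3
  rw [phig_move h0, ← vl_pow, ← mul_assoc, ← pow_succ] at e3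
  have e5 : rsum2 (up lam C) (fun d ξ => phig C d (3 ^ (b + 1 - 1) * ξ) *
      psg (d * δ + ξ * ζ) (Lam (b + 1) * C)) = _ :=
    Eq.trans (congrArg (rsum2 _) (funext fun d => funext fun ξ => by
      rw [Nat.add_sub_cancel, ← psg_scale hL hLC, ← mul_assoc, ← sq]
      congr 2
      rw [Lam_cube]
      ring)) e3
  have n1 : (nm (Lam (b + 1) * lam ^ vp lam C) : ℂ) ≠ 0 :=
    Nat.cast_ne_zero.2 (nm_eq_zero.not.2 (vl_ne _ _))
  have n2 : (nm (up lam C) : ℂ) ≠ 0 := Nat.cast_ne_zero.2 (nm_eq_zero.not.2 h2)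
  have n3 : (nm (Lam (b + 1) * C) : ℂ) = nm (Lam (b + 1) * lam ^ vp lam C) * nm (up lam C) := by
    rw [← Nat.cast_mul, ← nm_mul, h3]
  rw [e5, Lt, n3]
  field_simp
theorem coef2_per {a : ℕ} (q : E) {C : E} (hC : ¬ Lam a ∣ C) :
    Per2 (Lam a * C) fun d ξ =>
      (if Lam a ∣ q * d + 1 then conj (psq lam ((3 ^ (a - 1) * ξ) ^ 3 * q) C) else 0)
        * phig C d (3 ^ (a - 1) * ξ) :=
  ((vl_per1 q C).mono (mul_dvd_mul_left _ (ph_pow_vp_dvd _ _))).mul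
    ((vl_per2 (vp_lt_of_not_dvd hC).1 _).mono
      (Dvd.dvd.mul_left (Dvd.intro_left _ (pow_vp_mul_up lam C)) _))

end QRH
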