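import Vale.Agent.P026.VorL
import Vale.Agent.P026.Wt

noncomputable section
namespace QRH
open Complex MeasureTheory Filter
open scoped ComplexConjugate Classical ContDiff Topology

theorem va_decay {x r : ℝ} (h0 : 0 ≤ x) (h : 1 + x ≤ r) : (r ^ 3)⁻¹ ≤ (1 + x) ^ (-3 : ℝ) := by
  rw [Real.rpow_neg (by linarith), show (3 : ℝ) = (3 : ℕ) by norm_num, Real.rpow_natCast]
  exact inv_anti₀ (by positivity) (pow_le_pow_left₀ (by linarith) h 3)

theorem va_bound (z : ℂ × ℂ) (t : ℂ) : ‖a0 z.1 * b0 z.2 * psi t‖ ≤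
    432 * (‖z.1‖⁻¹ * (1 + ‖z.1‖) ^ (-3 : ℝ)) * (1 + ‖z.2‖) ^ (-3 : ℝ) := by
  by_cases h1 : a0 z.1 = 0
  · rw [h1, zero_mul, zero_mul, norm_zero]
    positivity
  by_cases h2 : b0 z.2 = 0
  · rw [h2, mul_zero, zero_mul, norm_zero]
    positivity
  obtain ⟨k1, k2⟩ := a0_supp h1
  have k3 := b0_supp h2
  have e1 : (2 : ℝ)⁻¹ ≤ ‖z.1‖⁻¹ := inv_anti₀ (by linarith) k2.le
  have e2 := va_decay (r := 3) (norm_nonneg z.1) (by linarith)
  have e3 := va_decay (r := 2) (norm_nonneg z.2) (by linarith)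
  rw [norm_mul, norm_mul, norm_psi, mul_one]
  calc _ ≤ (1 : ℝ) := mul_le_one₀ (norm_a0_le _) (norm_nonneg _) (norm_b0_le _)
    _ = 432 * (2⁻¹ * (3 ^ 3)⁻¹) * (2 ^ 3)⁻¹ := by norm_num
    _ ≤ _ := by gcongr

theorem va_per (L : E) : Per2 L fun x _ => if L ∣ x - 1 then (1 : ℂ) else 0 := by
  intro x x' _ _ h _
  have : L ∣ x - 1 ↔ L ∣ x' - 1 := by
    have e : x - 1 = x - x' + (x' - 1) := by ring
    rw [e]
    exact dvd_add_right h
  simp only [this]

theorem va_coef (h2 : GlS) (a : ℕ) {c : E} (hc : c ≠ 0) (hl : ¬ lam ∣ c) :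
    rsum2 (Lam a * c) (fun x y => (if Lam a ∣ x - 1 then 1 else 0) * phig c x y) =
      nm (Lam a) * (nm c * Tg c) := by
  have hL := Lam_ne_zero a
  have hp := phig_per hc
  have h3 := h2 c 0 0 hc
  rw [up_of_not_dvd hl] at hp h3
  have h4 : psg 0 c = 1 := Finset.prod_eq_one fun p _ => psq_zero _ _
  simp only [mul_zero, add_zero, h4, mul_one] at h3
  rw [rsum2_crt hL hc (coprime_Lam hl a).symm (va_per _) hp, h3, Tg]
  congr 1
  simp only [rsum2, rsum_const hL]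
  rw [rsum_mul_left, rsum_single hL (fun x y h => va_per _ x y 0 0 h (by simp)) 1
    fun x hx => if_neg hx]
  simp

theorem va_term (h1 : RiemL) (h2 : GlS) (a : ℕ) {c : E} (hc : c ≠ 0) (hl : ¬ lam ∣ c) {Y : ℝ}
    (hY : 0 < Y) :
    Tendsto (fun X : ℝ => (∑' x : E × E, (if Lam a ∣ x.1 - 1 then phig c x.1 x.2 else 0) *
      (a0 (toC x.1 / ((X ^ 3 / Y : ℝ) : ℂ)) * b0 (toC x.2 / X)
        * psi (-(toC x.2 ^ 3 / (toC c * toC x.1))))) / (((X ^ 3 / Y) ^ 2 * X ^ 2 : ℝ) : ℂ)) atTop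
      (𝓝 (kk (toC c / Y) * Tg c / (nm c : ℂ) / (nm (Lam a) : ℂ))) := by
  have hL := Lam_ne_zero a
  have hc' := toC_ne_zero hc
  have hY' : (Y : ℂ) ≠ 0 := ofReal_ne_zero.2 hY.ne'
  have hp := phig_per hc
  rw [up_of_not_dvd hl] at hp
  have t1 : Tendsto (fun X : ℝ => ‖((X ^ 3 / Y : ℝ) : ℂ)‖) atTop atTop := by
    simp only [Complex.norm_real, Real.norm_eq_abs]
    exact tendsto_abs_atTop_atTop.comp ((tendsto_pow_atTop three_ne_zero).atTop_div_const hY)
  have t2 : Tendsto (fun X : ℝ => ‖(X : ℂ)‖) atTop atTop := by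
    simp only [Complex.norm_real, Real.norm_eq_abs]
    exact tendsto_abs_atTop_atTop
  have h := h1 (Lam a * c) (fun x y => (if Lam a ∣ x - 1 then 1 else 0) * phig c x y)
    (fun z => a0 z.1 * b0 z.2 * psi (-(z.2 ^ 3 / (toC c / Y * z.1)))) 432
    (fun X => ((X ^ 3 / Y : ℝ) : ℂ)) (fun X => (X : ℂ)) (mul_ne_zero hL hc)
    (((va_per _).mono (dvd_mul_right _ _)).mul (hp.mono (dvd_mul_left _ _)))
    (((contDiff_a0.continuous.comp continuous_fst).mul
      (contDiff_b0.continuous.comp continuous_snd)).continuousOn.mul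
      (continuous_psi.comp_continuousOn (((continuous_snd.pow 3).continuousOn.div
        (continuous_const.mul continuous_fst).continuousOn
        fun z hz => mul_ne_zero (div_ne_zero hc' hY') hz).neg)))
    (fun z _ => va_bound z _) t1 t2
  have n1 : (nm c : ℂ) ≠ 0 := Nat.cast_ne_zero.2 (nm_eq_zero.not.2 hc)
  have n2 : (nm (Lam a) : ℂ) ≠ 0 := Nat.cast_ne_zero.2 (nm_eq_zero.not.2 hL)
  have e1 : nm (Lam a) * (nm c * Tg c) / (nm (Lam a * c) : ℂ) ^ 2 * kk (toC c / Y) =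
      kk (toC c / Y) * Tg c / (nm c : ℂ) / (nm (Lam a) : ℂ) := by
    rw [nm_mul]
    push_cast
    field_simp
  rw [va_coef h2 a hc hl] at h
  rw [← e1]
  refine h.congr' ?_
  filter_upwards [eventually_gt_atTop 0] with X hX
  have hX' : (X : ℂ) ≠ 0 := ofReal_ne_zero.2 hX.ne'
  rw [div_eq_inv_mul (∑' x : E × E, _), Complex.norm_real, Complex.norm_real, Real.norm_eq_abs,
    Real.norm_eq_abs, sq_abs, sq_abs, ofReal_inv]
  congr 1
  refine tsum_congr fun x => ?_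
  by_cases hx : x.1 = 0
  · have : a0 0 = 0 := by
      by_contra h0
      have := (a0_supp h0).1
      rw [norm_zero] at this
      linarith
    rw [if_pos hx, hx, map_zero, zero_div, this, zero_mul, zero_mul, mul_zero]
  · have hx' := toC_ne_zero hx
    have e2 : (toC x.2 / X) ^ 3 / (toC c / Y * (toC x.1 / ((X ^ 3 / Y : ℝ) : ℂ))) =
        toC x.2 ^ 3 / (toC c * toC x.1) := by
      push_cast
      field_simp
    rw [if_neg hx, e2, ite_mul, one_mul, zero_mul]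

theorem vorA (h1 : RiemL) (h2 : GlS) : VorA := by
  intro a ρ q u η β w Y hV
  simp only [Sig, VL, Finset.sum_div]
  refine tendsto_finsetSum _ fun c hc => ?_
  by_cases hl : lam ∣ c
  · simp only [hV.supp c hl, zero_mul, zero_div]
    exact tendsto_const_nhds
  have h := (va_term h1 h2 a (mem_ball.1 hc).1 hl hV.hY).const_mul
    (ρ c * psf (c * u) q * w (toC c / Y))
  simp only [← mul_div_assoc] at h
  convert h using 2
  ring

end QRH
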