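import Vale.Agent.P026.VorL
import Vale.Agent.P026.Arch

noncomputable section
namespace QRH
open Complex MeasureTheory Filter
open scoped ComplexConjugate Classical ContDiff Topology

/-- Cubic decay. -/
def vb_D (g : ℂ → ℂ) : Prop := ∃ M : ℝ, 0 ≤ M ∧ ∀ x, ‖g x‖ ≤ M * (1 + ‖x‖) ^ (-3 : ℝ)

theorem vb_D.aff {g : ℂ → ℂ} (h : vb_D g) {s : ℂ} (hs : s ≠ 0) (c k : ℂ) :
    vb_D fun x => k * g (s * x + c) := by
  obtain ⟨M, hM, H⟩ := h
  obtain ⟨C, hC, HC⟩ := decay_affine hs c (σ := 3) (by norm_num)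
  refine ⟨‖k‖ * (M * C), by positivity, fun x => ?_⟩
  rw [norm_mul, mul_assoc, mul_assoc]
  gcongr
  refine (H _).trans ?_
  gcongr
  exact HC x

theorem vb_D_supp {g : ℂ → ℂ} {B R : ℝ} (hB : 0 ≤ B) (hR : 0 ≤ R) (h1 : ∀ x, ‖g x‖ ≤ B)
    (h2 : ∀ x, g x ≠ 0 → ‖x‖ ≤ R) : vb_D g := by
  refine ⟨B * (1 + R) ^ (3 : ℝ), by positivity, fun x => ?_⟩
  by_cases hx : g x = 0
  · rw [hx, norm_zero]
    positivity
  have h3 : (1 + R) ^ (-3 : ℝ) ≤ (1 + ‖x‖) ^ (-3 : ℝ) :=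
    Real.rpow_le_rpow_of_nonpos (by positivity) (by linarith [h2 x hx]) (by norm_num)
  calc ‖g x‖ ≤ B * ((1 + R) ^ (3 : ℝ) * (1 + R) ^ (-3 : ℝ)) := by
        rw [← Real.rpow_add (by positivity)]
        simpa using h1 x
    _ ≤ B * ((1 + R) ^ (3 : ℝ) * (1 + ‖x‖) ^ (-3 : ℝ)) := by gcongr
    _ = _ := by ring

theorem vb_D.summable {g : ℂ → ℂ} (h : vb_D g) : Summable fun x : E => ‖g (toC x)‖ := by
  obtain ⟨M, hM, H⟩ := h
  have := (summable_shift_decay (σ := 3) (by norm_num) one_ne_zero 0).mul_left M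
  simp only [one_mul, add_zero] at this
  exact this.of_nonneg_of_le (fun _ => norm_nonneg _) fun x => H _

theorem vb_D_ftw {w : ℂ → ℂ} (h : Adm w) : vb_D (ft w) := by
  obtain ⟨M, hM, H⟩ := h.ft_decay 3
  exact ⟨M, hM.le, fun x => by simpa using H x⟩

theorem vb_D_ftb : vb_D (ft b0) := by
  obtain ⟨M, hM, H⟩ := ft_b0_decay 3
  exact ⟨M, hM.le, fun x => by simpa using H x⟩

theorem vb_ps (h1 : PS2) {m : E} (hm : m ≠ 0) {A : E → E → ℂ} (hA : Per2 m A) {f g : ℂ → ℂ}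
    (cf : Continuous f) (cg : Continuous g) (d1 : vb_D f) (d2 : vb_D g) (d3 : vb_D (ft f))
    (d4 : vb_D (ft g)) :
    ∑' x : E × E, A x.1 x.2 * (f (toC x.1) * g (toC x.2))
      = ((nm m : ℂ) ^ 2)⁻¹ * ∑' ξ : E × E, rsum2 m (fun y z => A y z * psf (y * ξ.1 + z * ξ.2) m)
        * (ft f (toC ξ.1 / toC m) * ft g (toC ξ.2 / toC m)) := by
  obtain ⟨M1, p1, H1⟩ := d1
  obtain ⟨M2, p2, H2⟩ := d2
  obtain ⟨M3, p3, H3⟩ := d3
  obtain ⟨M4, p4, H4⟩ := d4
  have aux : ∀ {s t M M' K : ℝ} {x y : ℂ}, 0 ≤ M → 0 ≤ t → s ≤ M * (1 + ‖x‖) ^ (-3 : ℝ) →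
      t ≤ M' * (1 + ‖y‖) ^ (-3 : ℝ) → M * M' ≤ K →
      s * t ≤ K * (1 + ‖x‖) ^ (-3 : ℝ) * (1 + ‖y‖) ^ (-3 : ℝ) := by
    intro s t M M' K x y hM ht a1 a2 a3
    calc s * t ≤ M * (1 + ‖x‖) ^ (-3 : ℝ) * (M' * (1 + ‖y‖) ^ (-3 : ℝ)) :=
          mul_le_mul a1 a2 ht (by positivity)
      _ = M * M' * (1 + ‖x‖) ^ (-3 : ℝ) * (1 + ‖y‖) ^ (-3 : ℝ) := by ring
      _ ≤ _ := by gcongr
  have key := h1 m A (fun z => f z.1 * g z.2) (max (M1 * M2) (M3 * M4)) hm hA (by fun_prop)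
    (fun z => by
      rw [norm_mul]
      exact aux p1 (norm_nonneg _) (H1 _) (H2 _) (le_max_left _ _))
    (fun x y => by
      rw [ft2_prod, norm_mul]
      exact aux p3 (norm_nonneg _) (H3 _) (H4 _) (le_max_right _ _))
  simpa only [ft2_prod] using key

variable {a : ℕ} {ρ : E → ℂ} {q u η β : E} {w : ℂ → ℂ} {Y X : ℝ}

theorem vb_prim (ha : 1 ≤ a) {d : E} (hd : Lam a ∣ d - 1) : (3 : E) ∣ d - 1 :=
  (Dvd.intro 3 (by norm_num) : (3 : E) ∣ 9).trans ((nine_dvd_Lam ha).trans hd)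

theorem vb_ball {x : E} {S R : ℝ} (hS : 0 < S) (h1 : toC x / (S : ℂ) ≠ 0)
    (h2 : ‖toC x / (S : ℂ)‖ ≤ R) : x ∈ ball (R ^ 2 * S ^ 2) := by
  refine mem_ball.2 ⟨fun h => h1 (by simp [h]), ?_⟩
  rw [norm_div, Complex.norm_real, Real.norm_of_nonneg hS.le, div_le_iff₀ hS] at h2
  rw [nm_eq, ← mul_pow]
  gcongr

theorem vb_a0 {d : E} {S : ℝ} (hS : 0 < S) (h : d ∉ ball (2 ^ 2 * S ^ 2)) :
    a0 (toC d / (S : ℂ)) = 0 := by
  by_contra h0
  have := a0_supp h0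
  exact h (vb_ball hS (norm_pos_iff.1 (by linarith)) this.2.le)

theorem vb_w (hw : Adm w) {c : E} (hY : 0 < Y) (h : c ∉ ball (4 * Y ^ 2)) :
    w (toC c / (Y : ℂ)) = 0 := by
  by_contra h0
  have := hw.supp _ h0
  have h2 := vb_ball hY (norm_pos_iff.1 (by linarith)) this.2
  rw [show (2 : ℝ) ^ 2 = 4 by norm_num] at h2
  exact h h2

theorem vb_b0 {x : E} (hX : 0 < X) (h : x ∉ insert 0 (ball (1 ^ 2 * X ^ 2))) :
    b0 (toC x / (X : ℂ)) = 0 := by
  by_contra h0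
  have := b0_supp h0
  rw [Finset.mem_insert, not_or] at h
  exact h.2 (vb_ball hX (div_ne_zero (toC_ne_zero h.1) (ofReal_ne_zero.2 hX.ne')) (by linarith))

theorem vb_arg (hq : q ≠ 0) {d : E} (hd : d ≠ 0) (δ : E) :
    -(Y * toC (Lam a * u * d + q * δ) / toC (Lam a * d * q))
      = -(Y / toC (Lam a * d)) * toC δ + -(Y * (toC u / toC q)) := by
  have hL := toC_ne_zero (Lam_ne_zero a)
  have hd' := toC_ne_zero hd
  have hq' := toC_ne_zero hq
  rw [map_add, map_mul, map_mul, map_mul, map_mul, map_mul]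
  generalize toC (Lam a) = L at hL
  generalize toC d = d at hd'
  generalize toC q = q at hq'
  field_simp
  ring

theorem vb_summable (h : VP a ρ q u η β w Y) (hX : 0 < X) :
    Summable fun x : E × E × E => ‖G1 a ρ q u w Y X x.1 x.2.1 x.2.2‖ := by
  have hY := h.hY
  have hq : q ≠ 0 := fun hq => h.hq (hq ▸ dvd_zero _)
  rw [summable_prod_of_nonneg fun _ => norm_nonneg _]
  constructor
  · intro d
    by_cases hd : Lam a ∣ d - 1
    swap
    · simp only [G1, if_neg hd, norm_zero, summable_zero]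
    have hd0 := primary_ne_zero (vb_prim h.ha hd)
    have n1 : -((Y : ℂ) / toC (Lam a * d)) ≠ 0 := neg_ne_zero.2 (div_ne_zero
      (ofReal_ne_zero.2 hY.ne') (toC_ne_zero (mul_ne_zero (Lam_ne_zero a) hd0)))
    have n2 : (X : ℂ) / toC d ≠ 0 := div_ne_zero (ofReal_ne_zero.2 hX.ne') (toC_ne_zero hd0)
    have s1 := ((vb_D_ftw h.adm).aff n1 (-(Y * (toC u / toC q))) 1).summable
    have s2 := (vb_D_ftb.aff n2 0 1).summable
    have s3 := (s1.mul_of_nonneg s2 (fun _ => norm_nonneg _) (fun _ => norm_nonneg _)).mul_left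
      (‖(nm d : ℂ)⁻¹ * a0 (toC d / ((X ^ 3 / Y : ℝ) : ℂ))‖ * nm (Lam a)
        * (nm (up lam d) : ℝ) ^ (2 / 3 : ℝ))
    refine s3.of_nonneg_of_le (fun _ => norm_nonneg _) fun x => ?_
    dsimp only
    unfold G1
    rw [if_pos hd, vb_arg hq hd0, one_mul, one_mul, add_zero, div_mul_eq_mul_div (X : ℂ),
      norm_mul, norm_mul, norm_mul, norm_mul, mul_assoc]
    have b1 := norm_rh_le (a := a) h.bd (-x.1)
    have b2 := norm_phig_le hd0 x.1 (3 ^ (a - 1) * x.2)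
    gcongr
  · apply summable_of_ne_finset_zero (s := ball (2 ^ 2 * (X ^ 3 / Y) ^ 2))
    intro d hd
    simp only [G1, vb_a0 (by positivity) hd, mul_zero, zero_mul, ite_self, norm_zero, tsum_zero]

def vb_S (a : ℕ) (ρ : E → ℂ) (q u : E) (w : ℂ → ℂ) (Y X : ℝ) (c d x : E) : ℂ :=
  ρ c * psf (c * u) q * w (toC c / Y) *
    ((if Lam a ∣ d - 1 then phig c d x else 0) *
      (a0 (toC d / ((X ^ 3 / Y : ℝ) : ℂ)) * b0 (toC x / X)
        * psi (-(toC x ^ 3 / (toC c * toC d)))))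

theorem vb_S_summable (h : VP a ρ q u η β w Y) (hX : 0 < X) :
    Summable fun x : E × E × E => vb_S a ρ q u w Y X x.1 x.2.1 x.2.2 := by
  have hY := h.hY
  apply summable_of_ne_finset_zero (s := ball (4 * Y ^ 2) ×ˢ ball (2 ^ 2 * (X ^ 3 / Y) ^ 2)
    ×ˢ insert 0 (ball (1 ^ 2 * X ^ 2)))
  intro x hx
  unfold vb_S
  rw [Finset.mem_product, Finset.mem_product, not_and_or, not_and_or] at hx
  rcases hx with hx | hx | hx
  · rw [vb_w h.adm hY hx, mul_zero, zero_mul]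
  · rw [vb_a0 (by positivity) hx, zero_mul, zero_mul, mul_zero, mul_zero]
  · rw [vb_b0 hX hx, mul_zero, zero_mul, mul_zero, mul_zero]

theorem vb_S_eq (h3 : Asw) (h4 : HOne) (h : VP a ρ q u η β w Y) {d : E} (hd : Lam a ∣ d - 1)
    (c x : E) : vb_S a ρ q u w Y X c d x = a0 (toC d / ((X ^ 3 / Y : ℝ) : ℂ))
      * (ρ c * phig d (-c) x
        * (psi (toC c * (toC u / toC q)) * w (toC c / Y) * b0 (toC x / X))) := by
  unfold vb_S
  by_cases hc : lam ∣ c
  · rw [h.supp c hc]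
    ring
  have hc0 : c ≠ 0 := fun h0 => hc (h0 ▸ dvd_zero _)
  have hd3 := vb_prim h.ha hd
  have hd0 := primary_ne_zero hd3
  have hcd : ¬ lam ∣ c * d := fun h0 =>
    (lam_prime.dvd_or_dvd h0).elim hc (not_lam_dvd_of_primary hd3)
  have e1 : psf (c * u) q = psi (toC c * (toC u / toC q)) := by
    unfold psf
    rw [map_mul, mul_div_assoc]
  have e2 : psf (x ^ 3) (c * d) * psi (-(toC x ^ 3 / (toC c * toC d))) = 1 := by
    unfold psf
    rw [map_mul, map_pow, ← psi_add, add_neg_cancel, psi_zero]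
  rw [if_pos hd, h3 c d x hc0 hd0, H_swap d c, h4 d c ((nine_dvd_Lam h.ha).trans hd) hc0, map_one,
    psg_eq (mul_ne_zero hc0 hd0), psq_of_not_dvd hcd, map_one, e1]
  generalize psf _ _ = t1 at e2 ⊢
  generalize psi (-_) = t2 at e2 ⊢
  generalize psi _ = t3
  generalize a0 _ = t4
  generalize b0 _ = t5
  generalize w _ = t6
  generalize phig _ _ _ = t7
  linear_combination (ρ c * t3 * t4 * t5 * t6 * t7) * e2

theorem vb_inner (h1 : PS2) (h2 : GlS) (h3 : Asw) (h4 : HOne) (h : VP a ρ q u η β w Y)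
    (hX : 0 < X) (d : E) :
    ∑' x : E × E, vb_S a ρ q u w Y X x.1 d x.2 = ((X ^ 2 * Y ^ 2 : ℝ) : ℂ) / (nm (Lam a) : ℂ)
      * ∑' x : E × E, G1 a ρ q u w Y X d x.1 x.2 := by
  by_cases hd : Lam a ∣ d - 1
  swap
  · simp only [vb_S, G1, if_neg hd, zero_mul, mul_zero, tsum_zero]
  have hY := h.hY
  have hq : q ≠ 0 := fun hq => h.hq (hq ▸ dvd_zero _)
  have hd0 := primary_ne_zero (vb_prim h.ha hd)
  have hL := Lam_ne_zero a
  have hXc : (X : ℂ) ≠ 0 := ofReal_ne_zero.2 hX.ne'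
  have hYc : (Y : ℂ) ≠ 0 := ofReal_ne_zero.2 hY.ne'
  have hper : Per2 (Lam a * d) fun c x => ρ c * phig d (-c) x := by
    intro x x' y y' hx hy
    have hu : up lam d ∣ Lam a * d := (Dvd.intro_left _ (pow_vp_mul_up lam d)).mul_left _
    dsimp only
    rw [h.per x x' ((dvd_mul_right _ _).trans hx), phig_per hd0 (-x) (-x') y y'
      (by rw [neg_sub_neg, dvd_sub_comm]; exact hu.trans hx) (hu.trans hy)]
  have f1 : ∀ ξ, ft (fun z => psi (z * (toC u / toC q)) * w (z / Y)) ξ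
      = (Y : ℂ) ^ 2 * ft w (Y * ξ + -(Y * (toC u / toC q))) := by
    intro ξ
    rw [ft_mod (fun z => w (z / Y)), ft_scale w hYc, Complex.norm_real, Real.norm_eq_abs, sq_abs,
      ofReal_pow, mul_sub, sub_eq_add_neg]
  have f2 : ∀ ξ, ft (fun z => b0 (z / X)) ξ = (X : ℂ) ^ 2 * ft b0 (X * ξ + 0) := by
    intro ξ
    rw [ft_scale b0 hXc, Complex.norm_real, Real.norm_eq_abs, sq_abs, ofReal_pow, add_zero]
  obtain ⟨W, hW, HW⟩ := h.adm.exists_DB 0
  have cw := h.adm.smooth.continuous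
  have cb := contDiff_b0.continuous
  have cp := continuous_psi
  have key := vb_ps h1 (mul_ne_zero hL hd0) hper
    (f := fun z => psi (z * (toC u / toC q)) * w (z / Y)) (g := fun z => b0 (z / X))
    (by fun_prop) (by fun_prop)
    (vb_D_supp hW.le (R := 2 * Y) (by positivity)
      (fun z => by
        rw [norm_mul, norm_psi, one_mul]
        simpa using HW 0 le_rfl (z / Y))
      (fun z hz => by
        have := (h.adm.supp _ (right_ne_zero_of_mul hz)).2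
        rwa [norm_div, Complex.norm_real, Real.norm_of_nonneg hY.le, div_le_iff₀ hY] at this))
    (vb_D_supp zero_le_one (R := 1 / 4 * X) (by positivity) (fun z => norm_b0_le _)
      (fun z hz => by
        have := (b0_supp hz).le
        rwa [norm_div, Complex.norm_real, Real.norm_of_nonneg hX.le, div_le_iff₀ hX] at this))
    (by rw [funext f1]; exact (vb_D_ftw h.adm).aff hYc _ _)
    (by rw [funext f2]; exact vb_D_ftb.aff hXc _ _)
  simp only [vb_S_eq h3 h4 h hd]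
  rw [tsum_mul_left, key]
  have hinj : Function.Injective fun x : E × E => (-x.1, Lam a * x.2) := by
    intro x y hxy
    obtain ⟨e1, e2⟩ := Prod.mk.inj hxy
    exact Prod.ext (neg_injective e1) (mul_left_cancel₀ hL e2)
  rw [← hinj.tsum_eq]
  swap
  · intro x hx
    by_contra hr
    apply hx
    have hx2 : ¬ Lam a ∣ x.2 := by
      rintro ⟨t, ht⟩
      exact hr ⟨(-x.1, t), Prod.ext (neg_neg _) ht.symm⟩
    have e := coef1 h2 h.ha h.per hd (-x.1) x.2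
    rw [neg_neg, if_neg hx2] at e
    dsimp only
    rw [e, zero_mul]
  rw [← tsum_mul_left, ← tsum_mul_left, ← tsum_mul_left]
  refine tsum_congr fun x => ?_
  have e := coef1 h2 h.ha h.per hd x.1 (Lam a * x.2)
  rw [if_pos (dvd_mul_right _ _), dv_mul hL] at e
  dsimp only
  have e1 : (Y : ℂ) * (toC (-x.1) / toC (Lam a * d)) = -(Y / toC (Lam a * d)) * toC x.1 := by
    rw [map_neg]
    ring
  have e2 : (X : ℂ) * (toC (Lam a * x.2) / toC (Lam a * d)) + 0 = X * toC x.2 / toC d := by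
    rw [map_mul, map_mul, mul_div_mul_left _ _ (toC_ne_zero hL), add_zero, mul_div_assoc]
  rw [e, f1, f2, e1, e2]
  unfold G1
  rw [if_pos hd, vb_arg hq hd0, nm_mul]
  have n1 : (nm (Lam a) : ℂ) ≠ 0 := Nat.cast_ne_zero.2 (mt nm_eq_zero.1 hL)
  have n2 : (nm d : ℂ) ≠ 0 := Nat.cast_ne_zero.2 (mt nm_eq_zero.1 hd0)
  generalize a0 _ = t1
  generalize ft w _ = t2
  generalize ft b0 _ = t3
  generalize rh _ _ _ = t4
  generalize phig _ _ _ = t5
  push_cast
  generalize (nm (Lam a) : ℂ) = l at n1 ⊢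
  generalize (nm d : ℂ) = n at n2 ⊢
  field_simp

/-- Exchange of the first two variables. -/
def vb_swap : (E × E × E) ≃ (E × E × E) where
  toFun x := (x.2.1, x.1, x.2.2)
  invFun x := (x.2.1, x.1, x.2.2)
  left_inv _ := rfl
  right_inv _ := rfl

theorem vorB (h1 : PS2) (h2 : GlS) (h3 : Asw) (h4 : HOne) : VorB := by
  intro a ρ q u η β w Y h X hX
  have s1 := (vb_summable h hX).of_norm
  have s2 := vb_S_summable h hX
  refine ⟨s1, ?_⟩
  have e0 : Sig a ρ q u w Y X = ∑' c, ∑' x : E × E, vb_S a ρ q u w Y X c x.1 x.2 := by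
    rw [tsum_eq_sum (s := ball (4 * Y ^ 2))]
    · unfold Sig vb_S
      exact Finset.sum_congr rfl fun c _ => tsum_mul_left.symm
    · intro c hc
      simp only [vb_S, vb_w h.adm h.hY hc, mul_zero, zero_mul, tsum_zero]
  have e1 := vb_swap.tsum_eq (fun x : E × E × E => vb_S a ρ q u w Y X x.1 x.2.1 x.2.2)
  have e2 := (vb_swap.summable_iff.2 s2).tsum_prod
  rw [e0, s1.tsum_prod, ← tsum_mul_left]
  refine s2.tsum_prod.symm.trans (e1.symm.trans (e2.trans ?_))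
  exact tsum_congr fun d => vb_inner h1 h2 h3 h4 h hX d

end QRH
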