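import Vale.Agent.P026.VorL
import Vale.Agent.P026.Wt

noncomputable section
namespace QRH
open Complex MeasureTheory Filter
open scoped ComplexConjugate Classical ContDiff Topology

theorem v2_ne_zero {q : E} (hq : ¬ lam ∣ q) : q ≠ 0 := fun h => hq (h ▸ dvd_zero _)

theorem v2_nm_ne {q : E} (hq : q ≠ 0) : (nm q : ℂ) ≠ 0 :=
  Nat.cast_ne_zero.2 fun h => hq (nm_eq_zero.1 h)

theorem vor0 (hA : VorA) (hB : VorB) (hC : VorC) (hD : VorD) (hE : VorE) : Vor0 := by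
  intro a ρ q u η β w Y h
  obtain ⟨hE0, g, hg, hg'⟩ := hE a ρ q u η β w Y h
  have hN := v2_nm_ne (Lam_ne_zero a)
  have hq := v2_nm_ne (v2_ne_zero h.hq)
  have hY : (Y : ℂ) ≠ 0 := ofReal_ne_zero.2 h.hY.ne'
  obtain ⟨T, hT⟩ : ∃ T : ℝ → E → ℂ, ∀ X δ, T X δ = ((Y ^ 2 / X ^ 2 : ℝ) : ℂ) / (nm (Lam a * q) : ℂ)
      * ∑' x : E × E, G2 a ρ q β w Y X δ x.1 x.2 := ⟨_, fun _ _ => rfl⟩
  simp only [← hT] at hE0 hg'
  have h1 : Tendsto (fun X : ℝ => ∑' δ : E, psf (-(η * δ)) q * T X δ) atTop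
      (𝓝 (∑' δ : E, nm (Lam a) *
        if δ = 0 then 0 else bb a ρ q β δ * psf (-(η * δ)) q * Ka w (zd a q Y δ))) := by
    refine tendsto_tsum_of_dominated_convergence (hg.update 0 1) (fun δ => ?_) ?_
    · split_ifs with h0
      · subst h0
        simpa using hE0.const_mul (psf (-(η * 0)) q)
      · have h2 := (hD a ρ q u η β w Y h δ h0).const_mul (psf (-(η * δ)) q)
        simp only [← hT] at h2
        exact h2.trans (le_of_eq (congrArg 𝓝 (by ring)))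
    · have h2 : ∀ᶠ X : ℝ in atTop, ‖T X 0‖ ≤ 1 :=
        hE0.norm.eventually_le_const (by rw [norm_zero]; exact one_pos)
      filter_upwards [h2, eventually_ge_atTop 1] with X hX hX1 δ
      rw [norm_mul, norm_psf, one_mul]
      by_cases h0 : δ = 0
      · rw [h0, Function.update_self]
        exact hX
      · rw [Function.update_of_ne h0]
        exact hg' X hX1 δ h0
  have h3 : (fun X : ℝ => xv c3 q u * ∑' δ : E, psf (-(η * δ)) q * T X δ) =ᶠ[atTop]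
      fun X : ℝ => Sig a ρ q u w Y X / (((X ^ 3 / Y) ^ 2 * X ^ 2 : ℝ) : ℂ) := by
    filter_upwards [eventually_gt_atTop 0] with X hX
    obtain ⟨s1, e1⟩ := hB a ρ q u η β w Y h X hX
    obtain ⟨s2, e2⟩ := hC a ρ q u η β w Y h X hX s1
    have s3 : Summable fun x : E × E × E =>
        psf (-(η * x.1)) q * G2 a ρ q β w Y X x.1 x.2.1 x.2.2 :=
      Summable.of_norm (s2.norm.congr fun x => by rw [norm_mul, norm_psf, one_mul])
    have e3 : ∑' δ : E, psf (-(η * δ)) q * T X δ =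
        ((Y ^ 2 / X ^ 2 : ℝ) : ℂ) / (nm (Lam a * q) : ℂ) *
          ∑' x : E × E × E, psf (-(η * x.1)) q * G2 a ρ q β w Y X x.1 x.2.1 x.2.2 := by
      rw [s3.tsum_prod, ← tsum_mul_left]
      refine tsum_congr fun δ => ?_
      rw [hT, mul_left_comm, ← tsum_mul_left]
    have hX' : (X : ℂ) ≠ 0 := ofReal_ne_zero.2 hX.ne'
    rw [e1, e2, e3, nm_mul]
    push_cast
    field_simp
  have h4 := tendsto_nhds_unique (hA a ρ q u η β w Y h) ((h1.const_mul (xv c3 q u)).congr' h3)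
  rw [div_eq_iff hN, tsum_mul_left] at h4
  rw [h4]
  ring

/-- Absolute convergence of the dual sums. -/
theorem summable_dual (hK : KFacts) {b : E → ℂ} {C : ℝ}
    (hb : ∀ δ, δ ≠ 0 → ‖b δ‖ ≤ C * ‖Tg δ‖ / nm (up lam δ)) {D : E → ℂ} {M : ℝ}
    (hD : ∀ δ, ‖D δ‖ ≤ M) {w : ℂ → ℂ} (hw : Adm w) (a : ℕ) {q : E} (hq : q ≠ 0) {Y : ℝ}
    (hY : 0 < Y) : Summable fun δ : E => b δ * D δ * Ka w (zd a q Y δ) := by
  obtain ⟨n, C1, -, h1⟩ := hK.1 3
  obtain ⟨W, -, hW⟩ := hw.exists_DB n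
  have hb' : ∀ δ, ‖b δ‖ ≤ |C| + ‖b 0‖ := fun δ => by
    by_cases h0 : δ = 0
    · rw [h0]
      exact le_add_of_nonneg_left (abs_nonneg _)
    have h2 := one_le_nmR (up_ne_zero (p := lam) h0)
    have h3 : ‖Tg δ‖ ≤ nm (up lam δ) :=
      (norm_Tg_le h0).trans (Real.rpow_le_self_of_one_le h2 (by norm_num))
    refine (hb δ h0).trans (le_trans ?_ (le_add_of_nonneg_right (norm_nonneg _)))
    rw [div_le_iff₀ (by linarith)]
    exact mul_le_mul (le_abs_self C) h3 (norm_nonneg _) (abs_nonneg _)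
  have h4 : (Y : ℂ) / toC (Lam a ^ 2 * q ^ 2) ≠ 0 := div_ne_zero (ofReal_ne_zero.2 hY.ne')
    (toC_ne_zero (mul_ne_zero (pow_ne_zero _ (Lam_ne_zero a)) (pow_ne_zero _ hq)))
  have h5 := summable_shift_decay (σ := 3) (by norm_num) h4 0
  refine Summable.of_norm_bounded (h5.mul_left ((|C| + ‖b 0‖) * M * (C1 * W))) fun δ => ?_
  have h6 := h1 w W hw hW (zd a q Y δ)
  have e : zd a q Y δ = Y / toC (Lam a ^ 2 * q ^ 2) * toC δ + 0 := by
    rw [zd]
    ring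
  rw [norm_mul, norm_mul, ← e, mul_assoc _ (C1 * W)]
  exact mul_le_mul (mul_le_mul (hb' δ) (hD δ) (norm_nonneg _) (by positivity))
    (by exact_mod_cast h6) (norm_nonneg _)
    (mul_nonneg (by positivity) ((norm_nonneg _).trans (hD 0)))

theorem v2_three_dvd {a : ℕ} (ha : 1 ≤ a) : (3 : E) ∣ Lam a :=
  (show (3 : E) ∣ 9 from ⟨3, by norm_num⟩).trans (nine_dvd_Lam ha)

theorem v2_dvd_iff {m x y : E} (h : m ∣ x - y) : m ∣ x ↔ m ∣ y := dvd_iff_dvd_of_dvd_sub h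

theorem v2_nm_three : nm 3 = 9 := nm_natCast 3

theorem v2_nine_le {a : ℕ} (ha : 1 ≤ a) : (9 : ℝ) ≤ nm (Lam a) := by
  have h := nm_le_of_dvd (v2_three_dvd ha) (Lam_ne_zero a)
  rw [v2_nm_three] at h
  exact_mod_cast h

theorem v2_xv_congr (hH : HCongr) {c c' u : E} (hc : ¬ lam ∣ c) (h : (9 : E) ∣ c' - c)
    (hu : IsUnit u) : xv c3 c' u = xv c3 c u := by
  have hc' : ¬ lam ∣ c' := fun h' => hc ((v2_dvd_iff (lam_dvd_three.trans
    ((show (3 : E) ∣ 9 from ⟨3, by norm_num⟩).trans h))).1 h')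
  have h1 := (hH c c' u (v2_ne_zero hc) hu.ne_zero
    (by rwa [vp_of_not_dvd hc, pow_zero, mul_one])).1
  rwa [H_coprime (v2_ne_zero hc) hu.ne_zero fun p hp => p.not_dvd_unit hu hp.2,
    H_coprime (v2_ne_zero hc') hu.ne_zero fun p hp => p.not_dvd_unit hu hp.2,
    xv_unit hu, xv_unit hu, map_one, mul_one, mul_one] at h1

/-- The indicator of a class minus its mean on the primary elements. -/
def v2r1 (a : ℕ) (a0 c : E) : ℂ :=
  (if Lam a ∣ c - a0 then 1 else 0) - 9 / (nm (Lam a) : ℂ) * if (3 : E) ∣ c - 1 then 1 else 0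

/-- A mean zero function supported on the rotated primary elements. -/
def v2r2 (c : E) : ℂ := if (3 : E) ∣ om ^ 2 * c - 1 then xv c3 (om ^ 2 * c) om else 0

theorem v2_per_ind (m a0 : E) : Per m fun c => if m ∣ c - a0 then (1 : ℂ) else 0 :=
  fun x y h => if_congr (v2_dvd_iff (by rwa [sub_sub_sub_cancel_right])) rfl rfl

theorem v2_rsum_ind {m : E} (hm : m ≠ 0) (a0 : E) :
    rsum m (fun c => if m ∣ c - a0 then (1 : ℂ) else 0) = 1 := by
  rw [rsum_single hm (v2_per_ind m a0) a0 fun x hx => if_neg hx, sub_self, if_pos (dvd_zero _)]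

theorem v2_primary {a : ℕ} (ha : 1 ≤ a) {a0 c : E} (h0 : (3 : E) ∣ a0 - 1)
    (h : Lam a ∣ c - a0) : (3 : E) ∣ c - 1 := by
  have h1 := dvd_add ((v2_three_dvd ha).trans h) h0
  rwa [sub_add_sub_cancel] at h1

theorem v2_norm_nine {a : ℕ} (ha : 1 ≤ a) : ‖9 / (nm (Lam a) : ℂ)‖ ≤ 1 := by
  have h := v2_nine_le ha
  rw [norm_div, Complex.norm_natCast, Complex.norm_ofNat, div_le_one (by linarith)]
  exact h

theorem v2r1_bd {a : ℕ} (ha : 1 ≤ a) (a0 c : E) : ‖v2r1 a a0 c‖ ≤ 1 := by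
  have h := v2_nine_le ha
  unfold v2r1
  split_ifs
  · have e : (1 : ℂ) - 9 / (nm (Lam a) : ℂ) * 1 = ((1 - 9 / (nm (Lam a) : ℝ) : ℝ) : ℂ) := by
      push_cast
      ring
    have h1 : 9 / (nm (Lam a) : ℝ) ≤ 1 := by rwa [div_le_one (by linarith)]
    have h2 : 0 ≤ 9 / (nm (Lam a) : ℝ) := by positivity
    rw [e, norm_real, Real.norm_eq_abs, abs_le]
    constructor <;> linarith
  · simp
  · rw [mul_one, zero_sub, norm_neg]
    exact v2_norm_nine ha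
  · simp

theorem v2r2_bd (c : E) : ‖v2r2 c‖ ≤ 1 := by
  unfold v2r2
  split_ifs
  · exact norm_xv_le ch_c3 _ _
  · simp

theorem v2_vp1 {a : ℕ} (ha : 1 ≤ a) {a0 q u η β : E} (h0 : (3 : E) ∣ a0 - 1) (hq : ¬ lam ∣ q)
    (hη : q ∣ Lam a ^ 2 * u * η - 1) (hβ : Lam a ∣ β * q + 1) {w : ℂ → ℂ} (hw : Adm w) {Y : ℝ}
    (hY : 0 < Y) : VP a (v2r1 a a0) q u η β w Y := by
  have p3 := (v2_per_ind 3 1).mono (v2_three_dvd ha)
  refine ⟨ha, fun x y h => ?_, fun c hc => ?_, ?_, v2r1_bd ha a0, hq, hη, hβ, hw, hY⟩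
  · have h1 := v2_per_ind (Lam a) a0 x y h
    have h2 := p3 x y h
    beta_reduce at h1 h2
    rw [v2r1, v2r1, h1, h2]
  · have h1 : ¬ (3 : E) ∣ c - 1 := fun h => not_lam_dvd_of_primary h hc
    rw [v2r1, if_neg h1, if_neg fun h => h1 (v2_primary ha h0 h), mul_zero, sub_zero]
  · obtain ⟨L, hL⟩ := v2_three_dvd ha
    have hL0 : L ≠ 0 := fun h => Lam_ne_zero a (by rw [hL, h, mul_zero])
    have h3 : (3 : E) ≠ 0 := fun h => Lam_ne_zero a (by rw [hL, h, zero_mul])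
    have h1 : rsum (Lam a) (fun c => if (3 : E) ∣ c - 1 then (1 : ℂ) else 0) = nm L := by
      rw [hL, rsum_of_per h3 hL0 (v2_per_ind 3 1), v2_rsum_ind h3, mul_one]
    have h2 : (nm (Lam a) : ℂ) = 9 * nm L := by
      rw [hL, nm_mul, v2_nm_three]
      push_cast
      rfl
    have h4 := v2_nm_ne hL0
    unfold v2r1
    rw [rsum_sub, rsum_mul_left, v2_rsum_ind (Lam_ne_zero a), h1, h2]
    field_simp
    ring

theorem v2r2_per (hH : HCongr) : Per 9 v2r2 := fun x y h => by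
  have h1 : (9 : E) ∣ om ^ 2 * x - om ^ 2 * y := by
    rw [← mul_sub]
    exact h.mul_left _
  have h2 : (3 : E) ∣ om ^ 2 * x - 1 ↔ (3 : E) ∣ om ^ 2 * y - 1 := v2_dvd_iff (by
    rw [sub_sub_sub_cancel_right]
    exact (show (3 : E) ∣ 9 from ⟨3, by norm_num⟩).trans h1)
  by_cases h3 : (3 : E) ∣ om ^ 2 * y - 1
  · rw [v2r2, v2r2, if_pos h3, if_pos (h2.2 h3),
      v2_xv_congr hH (not_lam_dvd_of_primary h3) h1 isUnit_om]
  · rw [v2r2, v2r2, if_neg h3, if_neg fun h => h3 (h2.1 h)]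

theorem v2r2_two (c : E) : v2r2 (-2 * c) = omC * v2r2 c := by
  have h2 : (3 : E) ∣ om ^ 2 * (-2 * c) - 1 ↔ (3 : E) ∣ om ^ 2 * c - 1 :=
    v2_dvd_iff ⟨-(om ^ 2 * c), by ring⟩
  by_cases h3 : (3 : E) ∣ om ^ 2 * c - 1
  · have h4 : nm pTwo.1 = 4 := (nm_neg 2).trans (nm_natCast 2)
    have h5 : xv c3 (-2) om = omC := by
      have h6 := (xv_prime (χ := c3) pTwo om).trans (c3_om pTwo)
      rwa [h4, pow_one] at h6
    rw [v2r2, v2r2, if_pos h3, if_pos (h2.2 h3), mul_left_comm,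
      xv_mul_left neg_two_prime.ne_zero (primary_ne_zero h3), h5]
  · rw [v2r2, v2r2, if_neg h3, if_neg fun h => h3 (h2.1 h), mul_zero]

theorem v2_vp2 (hH : HCongr) {a : ℕ} (ha : 1 ≤ a) {q u η β : E} (hq : ¬ lam ∣ q)
    (hη : q ∣ Lam a ^ 2 * u * η - 1) (hβ : Lam a ∣ β * q + 1) {w : ℂ → ℂ} (hw : Adm w) {Y : ℝ}
    (hY : 0 < Y) : VP a v2r2 q u η β w Y := by
  have hp := (v2r2_per hH).mono (nine_dvd_Lam ha)
  refine ⟨ha, hp, fun c hc => if_neg fun h => not_lam_dvd_of_primary h (hc.mul_left _), ?_,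
    v2r2_bd, hq, hη, hβ, hw, hY⟩
  have h1 := rsum_mul_unit (Lam_ne_zero a) hp (coprime_Lam pTwo.not_lam_dvd a)
  have h2 : (fun x => v2r2 (pTwo.1 * x)) = fun x => omC * v2r2 x := funext v2r2_two
  rw [h2, rsum_mul_left] at h1
  have h3 : (omC - 1) * rsum (Lam a) v2r2 = 0 := by linear_combination h1
  exact (mul_eq_zero.1 h3).resolve_left (sub_ne_zero.2 omC_ne_one)

theorem v2_om3 (c : E) : om ^ 2 * (om * c) = c := by linear_combination c * om_cube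

theorem v2_rot {w : ℂ → ℂ} (hw : Adm w) (Y : ℝ) (u q : E) :
    VL (fun c => v2r2 c * psf (c * (om ^ 2 * u)) q) w Y =
      omC * VL (fun c => (if (3 : E) ∣ c - 1 then 1 else 0) * psf (c * u) q) w Y := by
  rw [VL, VL, Finset.mul_sum]
  symm
  have hm : ∀ {v c : E}, IsUnit v → c ∈ ball (4 * Y ^ 2) → v * c ∈ ball (4 * Y ^ 2) := by
    intro v c hv hc
    rw [mem_ball] at hc ⊢
    exact ⟨mul_ne_zero hv.ne_zero hc.1, by rw [nm_mul, isUnit_iff.1 hv, one_mul]; exact hc.2⟩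
  refine Finset.sum_nbij' (fun c => om * c) (fun c => om ^ 2 * c) (fun c hc => hm isUnit_om hc)
    (fun c hc => hm (isUnit_om.pow 2) hc) (fun c _ => v2_om3 c)
    (fun c _ => by rw [mul_left_comm, v2_om3]) fun c hc => ?_
  have hc0 := (mem_ball.1 hc).1
  have e1 : om * c * (om ^ 2 * u) = c * u := by linear_combination c * u * om_cube
  have e2 := (Complex.mul_conj (xv c3 c om)).trans (by
    rw [Complex.normSq_eq_norm_sq,
      norm_xv ch_c3 hc0 fun p hp => p.not_dvd_unit isUnit_om hp.2, one_pow, ofReal_one])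
  rw [v2r2, v2_om3, e1, map_mul, toC_om, mul_div_assoc omC, hw.rot _ _ norm_omC, kk_rot norm_omC,
    Tg_mul_free hc0 fun p => p.not_dvd_unit isUnit_om, nm_mul, nm_om, one_mul]
  split_ifs
  · linear_combination (-(omC * psf (c * u) q * (w (toC c / Y) * kk (toC c / Y) * Tg c / nm c))) * e2
  · ring

theorem v2_bb_om {a : ℕ} {ρ : E → ℂ} (h : ∀ c, ‖ρ c‖ ≤ 1) {q v δ : E} (hq : q ≠ 0)
    (hv : IsUnit v) (hδ : δ ≠ 0) (β : E) :
    ‖bb a ρ q β (v * δ)‖ ≤ (nm (Lam a) : ℝ) ^ 2 * ‖Tg δ‖ / nm (up lam δ) := by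
  have h1 := norm_bb_le (a := a) h hq (mul_ne_zero hv.ne_zero hδ) β
  rwa [norm_Tg_mul_free hδ fun p => p.not_dvd_unit hv, up_mul lam_prime hv.ne_zero hδ,
    up_of_not_dvd fun h => lam_prime.not_isUnit (isUnit_of_dvd_unit h hv), nm_mul,
    isUnit_iff.1 hv, one_mul] at h1

theorem v2_dual (h0 : Vor0) (hH : HCongr) (hK : KFacts) {a : ℕ} {ρ : E → ℂ} {q q0 u η β v : E}
    {w : ℂ → ℂ} {Y : ℝ} (h : VP a ρ q u η β w Y) (hq0 : ¬ lam ∣ q0) (hq : Lam a ∣ q - q0)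
    (hv : IsUnit v) :
    VL (fun c => ρ c * psf (c * u) q) w Y = (nm (Lam a) : ℂ) ^ 2 * xv c3 q u * conj (toC v) *
      ∑' δ : E, (if δ = 0 then 0 else bb a ρ q0 β (v * δ)) * psf (-(η * (v * δ))) q
        * Ka w (zd a q Y δ) := by
  have hn : ‖toC v‖ = 1 := by rw [norm_toC, isUnit_iff.1 hv, Nat.cast_one, Real.sqrt_one]
  rw [h0 a ρ q u η β w Y h, mul_assoc _ (conj (toC v))]
  congr 1
  rw [← tsum_mul_left]
  refine (hv.unit.mulLeft.tsum_eq _).symm.trans (tsum_congr fun δ => ?_)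
  have e : hv.unit.mulLeft δ = v * δ := rfl
  have e2 : zd a q Y (v * δ) = toC v * zd a q Y δ := by
    rw [zd, zd, map_mul]
    ring
  rw [e]
  by_cases hδ : δ = 0
  · rw [if_pos hδ, if_pos (by rw [hδ, mul_zero])]
    ring
  · rw [if_neg hδ, if_neg (mul_ne_zero hv.ne_zero hδ), e2, hK.2.1 w _ _ h.adm hn,
      bb_congr hH h.ha ρ hq0 hq (mul_ne_zero hv.ne_zero hδ)]
    ring

theorem vor2 (h0 : Vor0) (hH : HCongr) (hK : KFacts) : Vor2 := by
  intro a ha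
  have hN9 := v2_nine_le ha
  refine ⟨2 * (nm (Lam a) : ℝ) ^ 4, by positivity, fun a0 q0 ha0 hq0 => ?_⟩
  have hq00 := v2_ne_zero hq0
  have hom := isUnit_om.pow 2
  obtain ⟨β, hβ0⟩ : ∃ β, Lam a ∣ β * q0 + 1 := ⟨-inv (Lam a) q0, by
    rw [← dvd_neg, show -(-inv (Lam a) q0 * q0 + 1) = q0 * inv (Lam a) q0 - 1 by ring]
    exact inv_spec (coprime_Lam hq0 a)⟩
  obtain ⟨b1, hb1⟩ : ∃ b1 : E → ℂ, ∀ δ,
    b1 δ = if δ = 0 then 0 else bb a (v2r1 a a0) q0 β (1 * δ) := ⟨_, fun _ => rfl⟩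
  obtain ⟨b2, hb2⟩ : ∃ b2 : E → ℂ, ∀ δ,
    b2 δ = if δ = 0 then 0 else bb a v2r2 q0 β (om ^ 2 * δ) := ⟨_, fun _ => rfl⟩
  have n1 : ∀ δ, δ ≠ 0 → ‖b1 δ‖ ≤ (nm (Lam a) : ℝ) ^ 2 * ‖Tg δ‖ / nm (up lam δ) := fun δ hδ => by
    rw [hb1, if_neg hδ]
    exact v2_bb_om (v2r1_bd ha a0) hq00 isUnit_one hδ β
  have n2 : ∀ δ, δ ≠ 0 → ‖b2 δ‖ ≤ (nm (Lam a) : ℝ) ^ 2 * ‖Tg δ‖ / nm (up lam δ) := fun δ hδ => by
    rw [hb2, if_neg hδ]
    exact v2_bb_om v2r2_bd hq00 hom hδ β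
  obtain ⟨κ, hκ⟩ : ∃ κ : ℂ, κ = 9 / (nm (Lam a) : ℂ) * xv c3 q0 (om ^ 2) := ⟨_, rfl⟩
  have hκ1 : ‖κ‖ ≤ 1 := by
    rw [hκ, norm_mul]
    exact mul_le_one₀ (v2_norm_nine ha) (norm_nonneg _) (norm_xv_le ch_c3 _ _)
  have nb : ∀ δ, δ ≠ 0 → ‖(nm (Lam a) : ℂ) ^ 2 * (b1 δ + κ * b2 δ)‖ ≤
      2 * (nm (Lam a) : ℝ) ^ 4 * ‖Tg δ‖ / nm (up lam δ) := fun δ hδ => by
    have h1 : ‖b1 δ + κ * b2 δ‖ ≤ 2 * ((nm (Lam a) : ℝ) ^ 2 * ‖Tg δ‖ / nm (up lam δ)) := by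
      refine (norm_add_le _ _).trans ?_
      rw [norm_mul]
      linarith [n1 δ hδ, n2 δ hδ, mul_le_of_le_one_left (norm_nonneg (b2 δ)) hκ1]
    rw [norm_mul, norm_pow, Complex.norm_natCast]
    exact (mul_le_mul_of_nonneg_left h1 (by positivity)).trans_eq (by ring)
  refine ⟨fun δ => (nm (Lam a) : ℂ) ^ 2 * (b1 δ + κ * b2 δ), by simp [hb1, hb2], nb,
    fun q f w Y hq hf hw hY => ?_⟩
  have hql : ¬ lam ∣ q := fun h =>
    hq0 ((v2_dvd_iff (lam_dvd_three.trans ((v2_three_dvd ha).trans hq))).1 h)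
  have hq1 := v2_ne_zero hql
  have hβ : Lam a ∣ β * q + 1 := by
    rw [show β * q + 1 = β * (q - q0) + (β * q0 + 1) by ring]
    exact dvd_add (hq.mul_left β) hβ0
  have key : ∀ u, IsCoprime u q →
      VL (fun c => (if Lam a ∣ c - a0 then 1 else 0) * psf (c * u) q) w Y =
        xv c3 q u * ∑' δ : E, (nm (Lam a) : ℂ) ^ 2 * (b1 δ + κ * b2 δ) *
          psf (-(inv q (Lam a ^ 2 * u) * δ)) q * Ka w (zd a q Y δ) := by
    intro u hu
    have hη := inv_spec (((coprime_Lam hql a).symm.pow_left (m := 2)).mul_left hu)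
    generalize inv q (Lam a ^ 2 * u) = η at hη ⊢
    have d1 := v2_dual h0 hH hK (v2_vp1 ha ha0 hql hη hβ hw hY) hq0 hq isUnit_one
    have d2 := v2_dual h0 hH hK (v2_vp2 hH ha (u := om ^ 2 * u) (η := om * η) hql (by
      rwa [show Lam a ^ 2 * (om ^ 2 * u) * (om * η) = Lam a ^ 2 * u * η by
        linear_combination Lam a ^ 2 * u * η * om_cube]) hβ hw hY) hq0 hq hom
    have e0 : ∀ δ, om * η * (om ^ 2 * δ) = η * δ := fun δ => by
      linear_combination η * δ * om_cube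
    simp only [← hb1] at d1
    simp only [← hb2, e0] at d2
    simp only [one_mul, map_one, mul_one] at d1
    rw [v2_rot hw, xv_mul ch_c3, v2_xv_congr hH hq0 ((nine_dvd_Lam ha).trans hq) hom, map_pow,
      toC_om, map_pow, conj_omC] at d2
    have s1 := summable_dual hK n1 (fun δ => (norm_psf (-(η * δ)) q).le) hw a hq1 hY
    have s2 := summable_dual hK n2 (fun δ => (norm_psf (-(η * δ)) q).le) hw a hq1 hY
    have e1 : VL (fun c => (if Lam a ∣ c - a0 then 1 else 0) * psf (c * u) q) w Y =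
        VL (fun c => v2r1 a a0 c * psf (c * u) q) w Y + 9 / (nm (Lam a) : ℂ) *
          VL (fun c => (if (3 : E) ∣ c - 1 then 1 else 0) * psf (c * u) q) w Y := by
      rw [VL, VL, VL, Finset.mul_sum, ← Finset.sum_add_distrib]
      refine Finset.sum_congr rfl fun c _ => ?_
      rw [v2r1]
      ring
    have e2 : ∑' δ : E, (nm (Lam a) : ℂ) ^ 2 * (b1 δ + κ * b2 δ) * psf (-(η * δ)) q *
        Ka w (zd a q Y δ) = (nm (Lam a) : ℂ) ^ 2 *
          (∑' δ : E, b1 δ * psf (-(η * δ)) q * Ka w (zd a q Y δ) +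
            κ * ∑' δ : E, b2 δ * psf (-(η * δ)) q * Ka w (zd a q Y δ)) := by
      rw [← tsum_mul_left, ← s1.tsum_add (s2.mul_left κ), ← tsum_mul_left]
      exact tsum_congr fun δ => by ring
    rw [e1, e2, d1, hκ]
    generalize (∑' δ : E, b2 δ * psf (-(η * δ)) q * Ka w (zd a q Y δ)) = S2 at d2 ⊢
    generalize VL (fun c => (if (3 : E) ∣ c - 1 then 1 else 0) * psf (c * u) q) w Y = V at d2 ⊢
    linear_combination 9 / (nm (Lam a) : ℂ) * omC ^ 2 * d2 + 9 / (nm (Lam a) : ℂ) *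
      ((nm (Lam a) : ℂ) ^ 2 * xv c3 q0 (om ^ 2) * xv c3 q u * S2 * (omC ^ 3 + 1) - V) * omC_cube
  have e3 : VL (fun c => if Lam a ∣ c - a0 then f c else 0) w Y = ∑ u ∈ reps q, fh q f u *
      VL (fun c => (if Lam a ∣ c - a0 then 1 else 0) * psf (c * u) q) w Y := by
    simp only [VL, Finset.mul_sum]
    rw [Finset.sum_comm]
    refine Finset.sum_congr rfl fun c _ => ?_
    have h1 : f c = ∑ u ∈ reps q, fh q f u * psf (c * u) q := by
      refine mul_left_cancel₀ (v2_nm_ne hq1) ?_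
      rw [fourier_inv hq1 hf.1, rsum, Finset.mul_sum]
      refine Finset.sum_congr rfl fun u _ => ?_
      rw [fh, ← mul_assoc, mul_inv_cancel_left₀ (v2_nm_ne hq1)]
    split_ifs
    · rw [h1, Finset.sum_mul]
      exact Finset.sum_congr rfl fun u _ => by ring
    · simp
  have s3 := fun u => summable_dual hK nb
    (D := fun δ => fh q f u * xv c3 q u * psf (-(inv q (Lam a ^ 2 * u) * δ)) q)
    (fun δ => (by rw [norm_mul, norm_psf, mul_one] : _ = ‖fh q f u * xv c3 q u‖).le) hw a hq1 hY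
  rw [e3]
  calc _ = ∑ u ∈ reps q, ∑' δ : E, (nm (Lam a) : ℂ) ^ 2 * (b1 δ + κ * b2 δ) *
        (fh q f u * xv c3 q u * psf (-(inv q (Lam a ^ 2 * u) * δ)) q) * Ka w (zd a q Y δ) := by
        refine Finset.sum_congr rfl fun u _ => ?_
        by_cases hu : IsCoprime u q
        · rw [key u hu, ← mul_assoc, ← tsum_mul_left]
          exact tsum_congr fun δ => by ring
        · simp [hf.2 u hu]
    _ = _ := by
        rw [← Summable.tsum_finsetSum fun u _ => s3 u]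
        refine tsum_congr fun δ => ?_
        rw [Dq, rsum, Finset.mul_sum, Finset.sum_mul]

end QRH
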