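import Vale.Agent.P026.VorL
import Vale.Agent.P026.Arch

noncomputable section
namespace QRH
open Complex MeasureTheory Filter
open scoped ComplexConjugate Classical ContDiff Topology

theorem vd_avg (h2 : GlS) (h4 : HCongr) (a : ℕ) (ρ : E → ℂ) {q δ : E} (hq : q ≠ 0) (hδ : δ ≠ 0)
    (β : E) :
    rsum2 (lam ^ (30 * a + 4 + vp lam δ) * up lam (Lam a ^ 3 * δ))
      (fun C ζ => Al a ρ q β δ C ζ * phig (Lam a ^ 3 * δ) (-C) ζ)
      / (nm (lam ^ (30 * a + 4 + vp lam δ) * up lam (Lam a ^ 3 * δ)) : ℂ) ^ 2 = bb a ρ q β δ := by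
  have hδ' : Lam a ^ 3 * δ ≠ 0 := mul_ne_zero (pow_ne_zero _ (Lam_ne_zero a)) hδ
  have hu : up lam (Lam a ^ 3 * δ) ≠ 0 := up_ne_zero hδ'
  have hper := phig_per hδ'
  have hper' : Per2 (up lam (Lam a ^ 3 * δ)) fun C ζ => phig (Lam a ^ 3 * δ) (-C) ζ :=
    fun x x' y y' hx hy => hper _ _ _ _ (by rw [neg_sub_neg]; exact dvd_sub_comm.1 hx) hy
  have hco : IsCoprime (lam ^ (30 * a + 4 + vp lam δ)) (up lam (Lam a ^ 3 * δ)) :=
    (((isCoprime_prime lam_prime).2 (not_dvd_up lam_prime hδ')).symm).pow_left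
  rw [rsum2_crt (pow_ne_zero _ lam_prime.ne_zero) hu hco (Al_per h4 a ρ hq hδ β) hper']
  have e1 : rsum2 (up lam (Lam a ^ 3 * δ)) (fun C ζ => phig (Lam a ^ 3 * δ) (-C) ζ)
      = nm (up lam δ) * Tg δ := by
    rw [rsum2_bij hu hper (fun C _ => -C) (fun _ ζ => ζ)
      fun x y x' y' hx hy => ⟨by rw [neg_sub_neg] at hx; exact dvd_sub_comm.1 hx, hy⟩]
    have := h2 (Lam a ^ 3 * δ) 0 0 hδ'
    have e0 : psg 0 (Lam a ^ 3 * δ) = 1 := by simp [psg, psq_zero]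
    simp only [mul_zero, add_zero, e0, mul_one] at this
    rw [show phig (Lam a ^ 3 * δ) = fun y x => phig (Lam a ^ 3 * δ) y x from rfl, this,
      ← Tg_Lam hδ a 3]
    congr 2
    exact Nat.dvd_antisymm (nm_dvd (up_Lam_assoc hδ a 3).dvd) (nm_dvd (up_Lam_assoc hδ a 3).symm.dvd)
  have e2 : nm (up lam (Lam a ^ 3 * δ)) = nm (up lam δ) :=
    Nat.dvd_antisymm (nm_dvd (up_Lam_assoc hδ a 3).dvd) (nm_dvd (up_Lam_assoc hδ a 3).symm.dvd)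
  have h0 : (nm (up lam δ) : ℂ) ≠ 0 := by
    exact_mod_cast mt nm_eq_zero.1 (up_ne_zero hδ)
  have h1 : (nm (lam ^ (30 * a + 4 + vp lam δ)) : ℂ) ≠ 0 := by
    exact_mod_cast mt nm_eq_zero.1 (pow_ne_zero _ lam_prime.ne_zero)
  rw [e1, nm_mul, e2, bb]
  push_cast
  field_simp

theorem vd_pt (h3 : Asw) (a : ℕ) (ρ : E → ℂ) {q δ : E} (hq : q ≠ 0) (hδ : δ ≠ 0) (β : E)
    (w : ℂ → ℂ) {Y X : ℝ} (hY : 0 < Y) (hX : 0 < X) (C ζ : E) :
    ((Y ^ 2 / X ^ 2 : ℝ) : ℂ) / (nm (Lam a * q) : ℂ) * G2 a ρ q β w Y X δ C ζ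
      = nm (Lam a) * ((((‖toC (Lam a * q) * ((X ^ 3 / Y ^ 2 : ℝ) : ℂ)‖ ^ 2
          * ‖toC (Lam a ^ 2 * q) * ((X / Y : ℝ) : ℂ)‖ ^ 2)⁻¹ : ℝ) : ℂ) *
        if C = 0 then 0 else Al a ρ q β δ C ζ * phig (Lam a ^ 3 * δ) (-C) ζ *
          (((‖toC C / (toC (Lam a * q) * ((X ^ 3 / Y ^ 2 : ℝ) : ℂ))‖ ^ 2 : ℝ) : ℂ)⁻¹
            * psi ((toC ζ / (toC (Lam a ^ 2 * q) * ((X / Y : ℝ) : ℂ))) ^ 3
              / (toC C / (toC (Lam a * q) * ((X ^ 3 / Y ^ 2 : ℝ) : ℂ)) * zd a q Y δ))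
            * Ia w (toC C / (toC (Lam a * q) * ((X ^ 3 / Y ^ 2 : ℝ) : ℂ))) (zd a q Y δ)
              (toC ζ / (toC (Lam a ^ 2 * q) * ((X / Y : ℝ) : ℂ))))) := by
  by_cases hC : Lam a ∣ C
  · simp [G2, Al, hC]
  have hC0 := (vp_lt_of_not_dvd hC).1
  have hL := Lam_ne_zero a
  have hδ' : Lam a ^ 3 * δ ≠ 0 := mul_ne_zero (pow_ne_zero _ hL) hδ
  have hL' := toC_ne_zero hL
  have hq' := toC_ne_zero hq
  have hC' := toC_ne_zero hC0
  have hδ'' := toC_ne_zero hδ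
  have hX' : (X : ℂ) ≠ 0 := by exact_mod_cast hX.ne'
  have hY' : (Y : ℂ) ≠ 0 := by exact_mod_cast hY.ne'
  have e1 : psi ((toC ζ / (toC (Lam a ^ 2 * q) * ((X / Y : ℝ) : ℂ))) ^ 3
      / (toC C / (toC (Lam a * q) * ((X ^ 3 / Y ^ 2 : ℝ) : ℂ)) * zd a q Y δ))
      = psf (ζ ^ 3) (C * (Lam a ^ 3 * δ)) := by
    unfold psf zd
    congr 1
    simp only [map_mul, map_pow]
    push_cast
    field_simp
  have e2 : (nm C : ℂ) = 3 ^ vp lam C * nm (up lam C) := by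
    conv_lhs => rw [← pow_vp_mul_up lam C, nm_mul, nm_pow, nm_lam]
    push_cast; rfl
  have e3 : ‖toC (Lam a ^ 2 * q) * ((X / Y : ℝ) : ℂ)‖ ^ 2
      = nm (Lam a) * (nm (Lam a) * nm q) * (X ^ 2 / Y ^ 2) := by
    rw [norm_mul, mul_pow, ← nm_eq, Complex.norm_real, Real.norm_eq_abs, sq_abs, nm_mul, nm_pow]
    push_cast; ring
  have hS : ‖toC (Lam a * q) * ((X ^ 3 / Y ^ 2 : ℝ) : ℂ)‖ ≠ 0 := by
    rw [norm_ne_zero_iff]
    refine mul_ne_zero (toC_ne_zero (mul_ne_zero hL hq)) ?_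
    exact_mod_cast (by positivity : X ^ 3 / Y ^ 2 ≠ 0)
  have hn : ∀ x : E, x ≠ 0 → (nm x : ℂ) ≠ 0 := fun x hx => by
    exact_mod_cast mt nm_eq_zero.1 hx
  have n1 := hn _ hL
  have n2 := hn _ hq
  have n3 := hn _ (up_ne_zero (p := lam) hC0)
  rw [G2, Al, if_neg hC, if_neg hC, if_neg hC0, e1, e3, norm_div, div_pow, ← nm_eq,
    h3 C (Lam a ^ 3 * δ) ζ hC0 hδ', psg_eq (mul_ne_zero hC0 hδ'), nm_mul]
  generalize ‖toC (Lam a * q) * ((X ^ 3 / Y ^ 2 : ℝ) : ℂ)‖ = r at hS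
  have hr : (r : ℂ) ≠ 0 := by exact_mod_cast hS
  push_cast
  rw [e2]
  field_simp

theorem vorD (h1 : RiemL) (h2 : GlS) (h3 : Asw) (h4 : HCongr) (h5 : IBd) : VorD := by
  intro a ρ q u η β w Y hp δ hδ
  have hq : q ≠ 0 := fun h => hp.hq (h ▸ dvd_zero _)
  have hY := hp.hY
  have hL := Lam_ne_zero a
  have hδ' : Lam a ^ 3 * δ ≠ 0 := mul_ne_zero (pow_ne_zero _ hL) hδ
  obtain ⟨n, C, hC, hI⟩ := h5 3
  obtain ⟨W, hW, hD⟩ := hp.adm.exists_DB n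
  have hz : zd a q Y δ ≠ 0 := by
    unfold zd
    refine div_ne_zero (mul_ne_zero (toC_ne_zero hδ) (by exact_mod_cast hY.ne')) (toC_ne_zero ?_)
    exact mul_ne_zero (pow_ne_zero _ hL) (pow_ne_zero _ hq)
  have hper' : Per2 (up lam (Lam a ^ 3 * δ)) fun C ζ => phig (Lam a ^ 3 * δ) (-C) ζ :=
    fun x x' y y' hx hy =>
      phig_per hδ' _ _ _ _ (by rw [neg_sub_neg]; exact dvd_sub_comm.1 hx) hy
  have hS : ∀ (x : E) (f : ℝ → ℝ), x ≠ 0 → Tendsto f atTop atTop →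
      Tendsto (fun X => ‖toC x * ((f X : ℝ) : ℂ)‖) atTop atTop := by
    intro x f hx hf
    simp only [norm_mul, Complex.norm_real, Real.norm_eq_abs]
    exact (tendsto_abs_atTop_atTop.comp hf).const_mul_atTop (norm_pos_iff.2 (toC_ne_zero hx))
  have key := h1 (lam ^ (30 * a + 4 + vp lam δ) * up lam (Lam a ^ 3 * δ))
    (fun C ζ => Al a ρ q β δ C ζ * phig (Lam a ^ 3 * δ) (-C) ζ)
    (fun y => ((‖y.1‖ ^ 2 : ℝ) : ℂ)⁻¹ * psi (y.2 ^ 3 / (y.1 * zd a q Y δ))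
      * Ia w y.1 (zd a q Y δ) y.2) (C * W)
    (fun X => toC (Lam a * q) * ((X ^ 3 / Y ^ 2 : ℝ) : ℂ))
    (fun X => toC (Lam a ^ 2 * q) * ((X / Y : ℝ) : ℂ))
    (mul_ne_zero (pow_ne_zero _ lam_prime.ne_zero) (up_ne_zero hδ'))
    (((Al_per h4 a ρ hq hδ β).mono (dvd_mul_right _ _)).mul (hper'.mono (dvd_mul_left _ _)))
    ?_ ?_
    (hS _ _ (mul_ne_zero hL hq)
      ((tendsto_pow_atTop (by norm_num)).atTop_div_const (by positivity)))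
    (hS _ _ (mul_ne_zero (pow_ne_zero _ hL) hq) (tendsto_id.atTop_div_const hY))
  · rw [vd_avg h2 h4 a ρ hq hδ β] at key
    have key2 := key.const_mul (nm (Lam a) : ℂ)
    rw [← mul_assoc] at key2
    refine key2.congr' ?_
    filter_upwards [eventually_gt_atTop 0] with X hX
    rw [← tsum_mul_left, ← tsum_mul_left, ← tsum_mul_left]
    exact tsum_congr fun x => (vd_pt h3 a ρ hq hδ β w hY hX x.1 x.2).symm
  · refine ContinuousOn.mul (ContinuousOn.mul (ContinuousOn.inv₀ (by fun_prop) ?_)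
      (continuous_psi.comp_continuousOn (ContinuousOn.div (by fun_prop) (by fun_prop) ?_))) ?_
    · intro y hy
      exact_mod_cast pow_ne_zero 2 (norm_ne_zero_iff.2 hy)
    · exact fun y hy => mul_ne_zero hy hz
    · exact (continuousOn_Ia hp.adm).comp (f := fun y : ℂ × ℂ => (y.1, zd a q Y δ, y.2))
        (by fun_prop) fun y hy => hy
  · intro y hy
    have hb := hI w W hp.adm hD y.1 (zd a q Y δ) y.2 hy
    have hy0 : 0 < ‖y.1‖ := norm_pos_iff.2 hy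
    have e3 : (-((3 : ℕ) : ℝ)) = -3 := by norm_num
    rw [e3] at hb
    have hz1 : (1 + ‖zd a q Y δ‖) ^ (-3 : ℝ) ≤ 1 :=
      Real.rpow_le_one_of_one_le_of_nonpos (by linarith [norm_nonneg (zd a q Y δ)]) (by norm_num)
    rw [norm_mul, norm_mul, norm_psi, norm_inv, Complex.norm_real, Real.norm_eq_abs,
      abs_of_nonneg (by positivity), mul_one]
    calc _ ≤ (‖y.1‖ ^ 2)⁻¹ * (C * W * ‖y.1‖ * (1 + ‖y.1‖) ^ (-3 : ℝ) * 1
          * (1 + ‖y.2‖) ^ (-3 : ℝ)) := by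
          gcongr
          refine hb.trans ?_
          gcongr
      _ = _ := by field_simp

end QRH
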