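import Vale.Agent.P026.VorL
import Vale.Agent.P026.Arch
import Vale.Agent.P026.Dvs

noncomputable section
namespace QRH
open Complex MeasureTheory Filter
open scoped ComplexConjugate Classical ContDiff Topology

theorem ve_tsum {G : E × E → ℂ} {h : E → ℝ} (hs : Summable h) (h0 : ∀ ζ, 0 ≤ h ζ)
    (hb : ∀ (ζ : E) (T : Finset E), ∑ C ∈ T, ‖G (C, ζ)‖ ≤ h ζ) : ‖∑' x, G x‖ ≤ ∑' ζ, h ζ := by
  have h1 : ∀ T : Finset (E × E), ∑ x ∈ T, ‖G x‖ ≤ ∑' ζ, h ζ := by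
    intro T
    refine (Finset.sum_le_sum_of_subset_of_nonneg Finset.subset_product
      fun _ _ _ => norm_nonneg _).trans ?_
    rw [Finset.sum_product_right]
    exact (Finset.sum_le_sum fun ζ _ => hb ζ _).trans (hs.sum_le_tsum _ fun ζ _ => h0 ζ)
  have h2 : Summable fun x => ‖G x‖ := summable_of_sum_le (fun _ => norm_nonneg _) h1
  exact (norm_tsum_le_tsum_norm h2).trans (h2.tsum_le_of_sum_le h1)

theorem ve_pos {t : ℝ} (ht : 0 ≤ t) (σ : ℝ) : 0 < (1 + t) ^ σ :=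
  Real.rpow_pos_of_pos (by linarith) σ

theorem ve_mono {t σ τ : ℝ} (ht : 0 ≤ t) (h : σ ≤ τ) : (1 + t) ^ σ ≤ (1 + t) ^ τ :=
  Real.rpow_le_rpow_of_exponent_le (by linarith) h

theorem ve_sq {r S : ℝ} (hr : 0 ≤ r) (hS : 0 < S) :
    r ^ 2 * (1 + r / S) ^ (-6 : ℝ) ≤ S ^ 2 * (1 + r / S) ^ (-4 : ℝ) := by
  have ht : 0 ≤ r / S := by positivity
  have h1 : (1 + r / S) ^ (-4 : ℝ) = (1 + r / S) ^ 2 * (1 + r / S) ^ (-6 : ℝ) := by
    rw [← Real.rpow_two, ← Real.rpow_add (by linarith)]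
    norm_num
  have h2 : r ≤ S * (1 + r / S) := by
    rw [mul_add, mul_div_cancel₀ _ hS.ne']
    linarith
  rw [h1, ← mul_assoc, ← mul_pow]
  exact mul_le_mul_of_nonneg_right (pow_le_pow_left₀ hr h2 2) (ve_pos ht _).le

theorem ve_lam_dvd {a : ℕ} {C : E} (hC : ¬ Lam a ∣ C) : lam ^ vp lam C ∣ Lam a :=
  (pow_dvd_pow _ (vp_lt_of_not_dvd hC).2.le).trans (Lam_assoc a).symm.dvd

theorem ve_nm {a : ℕ} {C : E} (hC : ¬ Lam a ∣ C) :
    (nm C : ℝ) ≤ nm (Lam a) * nm (up lam C) := by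
  have h1 : nm C = nm (lam ^ vp lam C) * nm (up lam C) := by rw [← nm_mul, pow_vp_mul_up]
  have h2 := Nat.mul_le_mul_right (nm (up lam C)) (nm_le_of_dvd (ve_lam_dvd hC) (Lam_ne_zero a))
  exact_mod_cast h1.le.trans h2

theorem ve_G2 {a : ℕ} {ρ : E → ℂ} {q : E} (β : E) {w : ℂ → ℂ} {Y X K s1 s2 : ℝ}
    (hρ : ∀ c, ‖ρ c‖ ≤ 1) (hq : q ≠ 0)
    (hK : ∀ c z ζ : ℂ, c ≠ 0 → ‖Ia w c z ζ‖ ≤
      K * ‖c‖ * (1 + ‖c‖) ^ (-6 : ℝ) * (1 + ‖z‖) ^ (-6 : ℝ) * (1 + ‖ζ‖) ^ (-6 : ℝ))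
    (hX : 0 < X) (hY : 0 < Y) (h1 : s1 = ‖toC (Lam a * q)‖ * (X ^ 3 / Y ^ 2))
    (h2 : s2 = ‖toC (Lam a ^ 2 * q)‖ * (X / Y)) (δ : E) {C : E} (hC : ¬ Lam a ∣ C) (ζ : E) :
    ‖G2 a ρ q β w Y X δ C ζ‖ ≤ nm (Lam a) * ‖phig C (Lam a ^ 3 * δ) ζ‖ / nm (up lam C) *
      (K * (‖toC C‖ / s1) * (1 + ‖toC C‖ / s1) ^ (-6 : ℝ) * (1 + ‖zd a q Y δ‖) ^ (-6 : ℝ) *
        (1 + ‖toC ζ‖ / s2) ^ (-6 : ℝ)) := by
  have hC0 := (vp_lt_of_not_dvd hC).1
  have e1 : ‖toC C / (toC (Lam a * q) * ((X ^ 3 / Y ^ 2 : ℝ) : ℂ))‖ = ‖toC C‖ / s1 := by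
    rw [norm_div, norm_mul, Complex.norm_real, Real.norm_of_nonneg (by positivity), h1]
  have e2 : ‖toC ζ / (toC (Lam a ^ 2 * q) * ((X / Y : ℝ) : ℂ))‖ = ‖toC ζ‖ / s2 := by
    rw [norm_div, norm_mul, Complex.norm_real, Real.norm_of_nonneg (by positivity), h2]
  have h3 := hK (toC C / (toC (Lam a * q) * ((X ^ 3 / Y ^ 2 : ℝ) : ℂ))) (zd a q Y δ)
    (toC ζ / (toC (Lam a ^ 2 * q) * ((X / Y : ℝ) : ℂ)))
    (div_ne_zero (toC_ne_zero hC0) (mul_ne_zero (toC_ne_zero (mul_ne_zero (Lam_ne_zero a) hq))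
      (Complex.ofReal_ne_zero.2 (by positivity))))
  rw [e1, e2] at h3
  rw [G2, if_neg hC, norm_mul, norm_div, norm_mul, norm_mul, norm_mul, norm_H hC0 hq, one_mul,
    Complex.norm_natCast]
  refine mul_le_mul ?_ h3 (norm_nonneg _) (by positivity)
  refine div_le_div_of_nonneg_right (mul_le_mul_of_nonneg_right ?_ (norm_nonneg _))
    (Nat.cast_nonneg _)
  exact (mul_le_of_le_one_right (norm_nonneg _) (norm_Lt_le _ _ _ _ _)).trans (norm_rh_le hρ _)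

theorem ve_phig (h1 : Asw) (a : ℕ) {δ C : E} (hδ : δ ≠ 0) (hC : C ≠ 0) (ζ : E) :
    ‖phig C (Lam a ^ 3 * δ) ζ‖ ≤ ‖toC δ‖ ^ 2 := by
  have hd : Lam a ^ 3 * δ ≠ 0 := mul_ne_zero (pow_ne_zero _ (Lam_ne_zero a)) hδ
  rw [h1 C _ ζ hC hd, norm_mul, norm_mul, norm_H hC hd, norm_psg, one_mul, one_mul, ← nm_eq]
  refine (norm_phig_le hd _ _).trans ((Real.rpow_le_self_of_one_le
    (one_le_nmR (up_ne_zero hd)) (by norm_num)).trans ?_)
  have h2 : up lam δ ∣ δ := Dvd.intro_left _ (pow_vp_mul_up lam δ)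
  exact_mod_cast nm_le_of_dvd ((up_Lam_assoc hδ a 3).dvd.trans h2) hδ

theorem ve_zero {a : ℕ} {C ζ : E} (hC : ¬ Lam a ∣ C) (hζ : ζ ≠ 0) (h : up lam C ∣ ζ ^ 2) :
    ‖phig C 0 ζ‖ / nm (up lam C) * ‖toC C‖ ≤ ‖toC (Lam a)‖ * ‖toC ζ‖ := by
  have hC0 := (vp_lt_of_not_dvd hC).1
  have h1 := norm_phig_le hC0 0 ζ
  have h2 := one_le_nmR (up_ne_zero (p := lam) hC0)
  have h3 : (nm (up lam C) : ℝ) ≤ ‖toC ζ‖ ^ 4 := by
    have a1 : (nm (up lam C) : ℝ) ≤ nm (ζ ^ 2) := by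
      exact_mod_cast nm_le_of_dvd h (pow_ne_zero 2 hζ)
    rw [nm_pow, Nat.cast_pow, nm_eq ζ, ← pow_mul] at a1
    exact a1
  have h4 : ‖toC C‖ ≤ ‖toC (Lam a)‖ * (nm (up lam C) : ℝ) ^ (1 / 2 : ℝ) := by
    rw [← Real.sqrt_eq_rpow, norm_toC C, norm_toC (Lam a), ← Real.sqrt_mul (Nat.cast_nonneg _)]
    exact Real.sqrt_le_sqrt (ve_nm hC)
  generalize (nm (up lam C) : ℝ) = n at h1 h2 h3 h4 ⊢
  have hn : 0 < n := by linarith
  have h5 : n ^ (1 / 4 : ℝ) ≤ ‖toC ζ‖ := by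
    refine (Real.rpow_le_rpow hn.le h3 (by norm_num)).trans (le_of_eq ?_)
    rw [← Real.rpow_natCast, ← Real.rpow_mul (norm_nonneg _)]
    norm_num
  have h6 : n ^ (2 / 3 : ℝ) * n ^ (1 / 2 : ℝ) ≤ n * n ^ (1 / 4 : ℝ) := by
    rw [← Real.rpow_add hn, ← Real.rpow_one_add' hn.le (by norm_num)]
    exact Real.rpow_le_rpow_of_exponent_le h2 (by norm_num)
  rw [div_mul_eq_mul_div, div_le_iff₀ hn]
  calc _ ≤ n ^ (2 / 3 : ℝ) * (‖toC (Lam a)‖ * n ^ (1 / 2 : ℝ)) :=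
        mul_le_mul h1 h4 (norm_nonneg _) (by positivity)
    _ = ‖toC (Lam a)‖ * (n ^ (2 / 3 : ℝ) * n ^ (1 / 2 : ℝ)) := by ring
    _ ≤ ‖toC (Lam a)‖ * (n * ‖toC ζ‖) :=
        mul_le_mul_of_nonneg_left (h6.trans (mul_le_mul_of_nonneg_left h5 hn.le)) (norm_nonneg _)
    _ = _ := by ring

theorem ve_card : ∃ D : ℝ, 0 < D ∧ ∀ (L ζ : E), L ≠ 0 → ζ ≠ 0 → ∀ T : Finset E,
    (∀ y ∈ T, y ∣ L * ζ ^ 2) → (T.card : ℝ) ≤ D * nm L * ‖toC ζ‖ := by
  obtain ⟨D, hD, h⟩ := card_dvd_le (ε := 1 / 4) (by norm_num)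
  refine ⟨D, hD, fun L ζ hL hζ T hT => (h _ (mul_ne_zero hL (pow_ne_zero 2 hζ)) T hT).trans ?_⟩
  rw [mul_assoc, nm_mul, nm_pow, Nat.cast_mul, Nat.cast_pow, nm_eq ζ, ← pow_mul,
    Real.mul_rpow (Nat.cast_nonneg _) (by positivity), ← Real.rpow_natCast,
    ← Real.rpow_mul (norm_nonneg _)]
  refine mul_le_mul_of_nonneg_left (mul_le_mul
    (Real.rpow_le_self_of_one_le (one_le_nmR hL) (by norm_num)) (le_of_eq ?_) (by positivity)
    (Nat.cast_nonneg _)) hD.le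
  norm_num

theorem ve_pref (a : ℕ) (q : E) (Y X : ℝ) (z : ℂ) :
    ‖((Y ^ 2 / X ^ 2 : ℝ) : ℂ) / (nm (Lam a * q) : ℂ) * z‖
      = Y ^ 2 / X ^ 2 / ‖toC (Lam a * q)‖ ^ 2 * ‖z‖ := by
  rw [norm_mul, norm_div, Complex.norm_real, Real.norm_of_nonneg (by positivity),
    Complex.norm_natCast, nm_eq]

theorem vorE (h1 : Asw) (h2 : IBd) : VorE := by
  intro a ρ q u η β w Y hV
  have hY := hV.hY
  have hq : q ≠ 0 := fun h => hV.hq (h ▸ dvd_zero _)
  have hL := Lam_ne_zero a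
  obtain ⟨K, hK0, hK⟩ : ∃ K : ℝ, 0 < K ∧ ∀ c z ζ : ℂ, c ≠ 0 → ‖Ia w c z ζ‖ ≤
      K * ‖c‖ * (1 + ‖c‖) ^ (-6 : ℝ) * (1 + ‖z‖) ^ (-6 : ℝ) * (1 + ‖ζ‖) ^ (-6 : ℝ) := by
    obtain ⟨n, C, hC, h⟩ := h2 6
    obtain ⟨W, hW, hD⟩ := hV.adm.exists_DB n
    refine ⟨C * W, mul_pos hC hW, fun c z ζ hc => ?_⟩
    simpa only [Nat.cast_ofNat] using h w W hV.adm hD c z ζ hc
  obtain ⟨C1, hC1, hs1⟩ := lattice_sing
  obtain ⟨C2, hC2, hs2⟩ := lattice_decay (σ := 4) (by norm_num)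
  obtain ⟨D, hD0, hD⟩ := ve_card
  obtain ⟨m1, hm1⟩ : ∃ m, m = ‖toC (Lam a * q)‖ := ⟨_, rfl⟩
  obtain ⟨m2, hm2⟩ : ∃ m, m = ‖toC (Lam a ^ 2 * q)‖ := ⟨_, rfl⟩
  have hm1' : 0 < m1 := hm1 ▸ norm_pos_iff.2 (toC_ne_zero (mul_ne_zero hL hq))
  have hm2' : 0 < m2 := hm2 ▸ norm_pos_iff.2 (toC_ne_zero (mul_ne_zero (pow_ne_zero 2 hL) hq))
  have hN : (0 : ℝ) < nm (Lam a) := one_pos.trans_le (one_le_nmR hL)
  constructor
  · obtain ⟨M, hM⟩ : ∃ M, M = D * nm (Lam a) * (nm (Lam a) * K * ‖toC (Lam a)‖) := ⟨_, rfl⟩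
    have hM0 : 0 ≤ M := by
      rw [hM]
      positivity
    refine squeeze_zero_norm' (a := fun X : ℝ =>
      (M * m2 ^ 2 * (Y ^ 2 + C2 * m2 ^ 2) / m1 ^ 3) / X) ?_
      (tendsto_const_nhds.div_atTop tendsto_id)
    filter_upwards [eventually_ge_atTop 1] with X hX
    have hX0 : 0 < X := by linarith
    obtain ⟨s1, hs1'⟩ : ∃ s, s = m1 * (X ^ 3 / Y ^ 2) := ⟨_, rfl⟩
    obtain ⟨s2, hs2'⟩ : ∃ s, s = m2 * (X / Y) := ⟨_, rfl⟩
    have p1 : 0 < s1 := by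
      rw [hs1']
      positivity
    have p2 : 0 < s2 := by
      rw [hs2']
      positivity
    have h3 := ve_tsum (G := fun x => G2 a ρ q β w Y X 0 x.1 x.2)
      (((hs2 s2 p2).1).mul_left (M / s1 * s2 ^ 2)) (fun ζ => by positivity) (by
        intro ζ T
        have hz : zd a q Y 0 = 0 := by simp [zd]
        by_cases hζ : ζ = 0
        · refine le_trans (le_of_eq (Finset.sum_eq_zero fun C _ => ?_)) (by positivity)
          simp only [G2, hζ, hz, map_zero, zero_div, Ia_zero hV.adm, mul_zero, ite_self, norm_zero]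
        have b1 : ∀ C ∈ T, ‖G2 a ρ q β w Y X 0 C ζ‖ ≤ if C ∣ Lam a * ζ ^ 2 then
            nm (Lam a) * K * ‖toC (Lam a)‖ / s1 * ‖toC ζ‖ * (1 + ‖toC ζ‖ / s2) ^ (-6 : ℝ)
            else 0 := by
          intro C _
          by_cases hC : Lam a ∣ C
          · rw [G2, if_pos hC, norm_zero]
            split_ifs
            · positivity
            · exact le_rfl
          have c1 := ve_G2 β hV.bd hq hK hX0 hY (hm1 ▸ hs1') (hm2 ▸ hs2') 0 hC ζ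
          rw [mul_zero, hz, norm_zero, add_zero, Real.one_rpow, mul_one] at c1
          by_cases hp : phig C 0 ζ = 0
          · rw [hp, norm_zero, mul_zero, zero_div, zero_mul] at c1
            refine c1.trans ?_
            split_ifs
            · positivity
            · exact le_rfl
          have c2 := phig_zero_supp (vp_lt_of_not_dvd hC).1 hp
          have c3 : C ∣ Lam a * ζ ^ 2 := by
            have := mul_dvd_mul (ve_lam_dvd hC) c2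
            rwa [pow_vp_mul_up] at this
          have c4 : (1 + ‖toC C‖ / s1) ^ (-6 : ℝ) ≤ 1 :=
            Real.rpow_le_one_of_one_le_of_nonpos (le_add_of_nonneg_right (by positivity))
              (by norm_num)
          have c5 := mul_le_mul_of_nonneg_left (mul_le_mul (ve_zero hC hζ c2) c4 (by positivity)
            (by positivity))
            (by positivity : 0 ≤ nm (Lam a) * K / s1 * (1 + ‖toC ζ‖ / s2) ^ (-6 : ℝ))
          rw [if_pos c3]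
          refine c1.trans (le_trans (le_of_eq ?_) (c5.trans (le_of_eq ?_))) <;> ring
        refine (Finset.sum_le_sum b1).trans ?_
        rw [← Finset.sum_filter, Finset.sum_const, nsmul_eq_mul]
        refine (mul_le_mul_of_nonneg_right (hD _ ζ hL hζ _ fun y hy =>
          (Finset.mem_filter.1 hy).2) (by positivity)).trans ?_
        have b2 := mul_le_mul_of_nonneg_left (ve_sq (norm_nonneg (toC ζ)) p2)
          (by positivity : 0 ≤ M / s1)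
        refine le_trans (le_of_eq ?_) (b2.trans (le_of_eq ?_))
        · rw [hM]
          ring
        · ring)
    rw [tsum_mul_left] at h3
    have h4 := h3.trans (mul_le_mul_of_nonneg_left (hs2 s2 p2).2 (by positivity))
    rw [ve_pref, ← hm1]
    refine (mul_le_mul_of_nonneg_left h4 (by positivity)).trans ?_
    have h5 : 1 + C2 * s2 ^ 2 ≤ (Y ^ 2 + C2 * m2 ^ 2) * (X / Y) ^ 2 := by
      have a1 : Y ^ 2 * (X / Y) ^ 2 = X ^ 2 := by field_simp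
      rw [hs2', add_mul, a1, mul_pow, mul_assoc]
      exact add_le_add (one_le_pow₀ hX) le_rfl
    refine (mul_le_mul_of_nonneg_left (mul_le_mul_of_nonneg_left h5 (by positivity))
      (by positivity)).trans (le_of_eq ?_)
    rw [hs1', hs2']
    field_simp
  · obtain ⟨S, hS⟩ : ∃ S, S = ‖toC (Lam a ^ 2 * q ^ 2)‖ / Y := ⟨_, rfl⟩
    have hS0 : 0 < S := hS ▸ div_pos (norm_pos_iff.2
      (toC_ne_zero (mul_ne_zero (pow_ne_zero 2 hL) (pow_ne_zero 2 hq)))) hY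
    refine ⟨_, ((hs2 S hS0).1).mul_left
      (nm (Lam a) ^ 2 * K * C1 * (Y ^ 2 + C2 * m2 ^ 2) / m1 ^ 2 * S ^ 2), fun X hX δ hδ => ?_⟩
    have hX0 : 0 < X := by linarith
    obtain ⟨s1, hs1'⟩ : ∃ s, s = m1 * (X ^ 3 / Y ^ 2) := ⟨_, rfl⟩
    obtain ⟨s2, hs2'⟩ : ∃ s, s = m2 * (X / Y) := ⟨_, rfl⟩
    have p1 : 0 < s1 := by
      rw [hs1']
      positivity
    have p2 : 0 < s2 := by
      rw [hs2']
      positivity
    have hz : ‖zd a q Y δ‖ = ‖toC δ‖ / S := by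
      rw [zd, norm_div, norm_mul, Complex.norm_real, Real.norm_of_nonneg hY.le, hS,
        div_div_eq_mul_div]
    obtain ⟨M, hM⟩ : ∃ M, M = (nm (Lam a) : ℝ) ^ 2 * K *
      (S ^ 2 * (1 + ‖toC δ‖ / S) ^ (-4 : ℝ)) := ⟨_, rfl⟩
    have hM0 : 0 ≤ M := by
      rw [hM]
      positivity
    have h3 := ve_tsum (G := fun x => G2 a ρ q β w Y X δ x.1 x.2)
      (((hs2 s2 p2).1).mul_left (M * C1)) (fun ζ => by positivity) (by
        intro ζ T
        have b1 : ∀ C ∈ T, ‖G2 a ρ q β w Y X δ C ζ‖ ≤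
            M / s1 ^ 2 * (1 + ‖toC ζ‖ / s2) ^ (-4 : ℝ) *
              ((‖toC C‖ / s1)⁻¹ * (1 + ‖toC C‖ / s1) ^ (-3 : ℝ)) := by
          intro C _
          by_cases hC : Lam a ∣ C
          · rw [G2, if_pos hC, norm_zero]
            positivity
          have hC0 := (vp_lt_of_not_dvd hC).1
          have c1 := ve_G2 β hV.bd hq hK hX0 hY (hm1 ▸ hs1') (hm2 ▸ hs2') δ hC ζ
          rw [hz] at c1
          have c0 : 0 < ‖toC C‖ := norm_pos_iff.2 (toC_ne_zero hC0)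
          have c2 : ((nm (up lam C) : ℝ))⁻¹ ≤ nm (Lam a) / ‖toC C‖ ^ 2 := by
            rw [le_div_iff₀ (by positivity),
              inv_mul_le_iff₀ (one_pos.trans_le (one_le_nmR (up_ne_zero hC0))), ← nm_eq, mul_comm]
            exact ve_nm hC
          have c3 := (mul_le_mul_of_nonneg_right (ve_phig h1 a hδ hC0 ζ)
            (ve_pos (by positivity : 0 ≤ ‖toC δ‖ / S) (-6)).le).trans (ve_sq (norm_nonneg _) hS0)
          have c4 := mul_le_mul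
            (ve_mono (by positivity : 0 ≤ ‖toC C‖ / s1) (by norm_num : (-6 : ℝ) ≤ -3))
            (ve_mono (by positivity : 0 ≤ ‖toC ζ‖ / s2) (by norm_num : (-6 : ℝ) ≤ -4))
            (by positivity) (by positivity)
          have c5 := mul_le_mul_of_nonneg_left (mul_le_mul (mul_le_mul c2 c3 (by positivity)
            (by positivity)) c4 (by positivity) (by positivity))
            (by positivity : 0 ≤ nm (Lam a) * K * (‖toC C‖ / s1))
          refine c1.trans (le_trans (le_of_eq ?_) (c5.trans (le_of_eq ?_)))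
          · ring
          · rw [hM]
            field_simp
        refine (Finset.sum_le_sum b1).trans ?_
        rw [← Finset.mul_sum]
        have b2 := ((hs1 s1 p1).1.sum_le_tsum T fun C _ => by positivity).trans (hs1 s1 p1).2
        refine (mul_le_mul_of_nonneg_left b2 (by positivity)).trans (le_of_eq ?_)
        field_simp)
    rw [tsum_mul_left] at h3
    have h4 := h3.trans (mul_le_mul_of_nonneg_left (hs2 s2 p2).2 (by positivity))
    rw [ve_pref, ← hm1]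
    refine (mul_le_mul_of_nonneg_left h4 (by positivity)).trans ?_
    have h5 : 1 + C2 * s2 ^ 2 ≤ (Y ^ 2 + C2 * m2 ^ 2) * (X / Y) ^ 2 := by
      have a1 : Y ^ 2 * (X / Y) ^ 2 = X ^ 2 := by field_simp
      rw [hs2', add_mul, a1, mul_pow, mul_assoc]
      exact add_le_add (one_le_pow₀ hX) le_rfl
    refine (mul_le_mul_of_nonneg_left (mul_le_mul_of_nonneg_left h5 (by positivity))
      (by positivity)).trans (le_of_eq ?_)
    rw [hM]
    field_simp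

end QRH
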