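import Vale.Agent.P026.Gauss
import Vale.Agent.P026.Rearr

noncomputable section
namespace QRH
open Complex MeasureTheory Filter
open scoped ComplexConjugate Classical ContDiff Topology

/-- Coefficient of `HA` without the character in `n`. -/
def bA (Q : ℕ) (a ρ : E) (s : Finset P) : ℂ := cl Q a s * mu s * conj (xs c6 s ρ)
/-- Coefficient of `HB` without the character in `m`. -/
def bB (Q : ℕ) (a ρ : E) (K : Finset P) (t : E) (s : Finset P) : ℂ :=
  if Disjoint s K then cl Q a s * mu s * gam c6 s * conj (xs c6 s ρ) * xs c6 s t else 0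

theorem dc_pr_iff {c d : Finset P} : (∀ p ∈ c, ¬ p.1 ∣ pr d) ↔ Disjoint c d := by
  simp only [dvd_pr_iff, Finset.disjoint_left]

theorem dc_zero {c d : Finset P} (h : ¬ Disjoint c d) : xs c6 c (pr d) = 0 := by
  rw [xs_eq_zero_iff ch_c6]
  simpa only [← dc_pr_iff, not_forall, not_not, exists_prop] using h

theorem dc_one {c d : Finset P} (h : Disjoint c d) :
    xs c6 c (pr d) * conj (xs c6 c (pr d)) = 1 := by
  rw [xs_mul_conj ch_c6, if_pos (dc_pr_iff.2 h)]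

theorem dc_four (s : Finset P) (n : E) : conj (xs c6 s n) ^ 4 = xs c6 s n ^ 2 := by
  have h := xs_six s n
  rw [xs_pow ch_c6] at h
  rw [conj_xs_c6, xs_pow ch_c6]
  split_ifs at h with h1
  · linear_combination (xs c6 s n ^ 14 + xs c6 s n ^ 8 + xs c6 s n ^ 2) * h
  · rw [pow_eq_zero_iff (by norm_num)] at h
    simp [h]

theorem dc_norm_mul {x y : ℂ} (hx : ‖x‖ ≤ 1) (hy : ‖y‖ ≤ 1) : ‖x * y‖ ≤ 1 := by
  rw [norm_mul]
  exact mul_le_one₀ hx (norm_nonneg _) hy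

theorem dc_norm_conj (s : Finset P) (n : E) : ‖conj (xs c6 s n)‖ ≤ 1 := by
  rw [Complex.norm_conj]
  exact norm_xs_le ch_c6 s n

theorem dc_norm_sg {x : ℂ} (h : x = 1 ∨ x = -1) : ‖x‖ ≤ 1 := by
  rcases h with rfl | rfl <;> simp

/-- Reciprocity inside a class. -/
theorem dc_rec {sg : E → E → ℂ} (h1 : Per2 4 sg)
    (h2 : ∀ c n : E, (3 : E) ∣ c - 1 → (3 : E) ∣ n - 1 → IsCoprime c 2 → IsCoprime n 2 →
      xv c6 c n = sg c n * xv c6 n c) {Q k : ℕ} (hQ : GoodQ Q k) {a : E} (ha : IsCoprime a Q)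
    {g e c : Finset P} (hg : IsCoprime (pr g) Q) (he : e ⊆ g) (hc : cl Q a c ≠ 0) :
    xs c6 e (pr c) = sg (pr e) a * xs c6 c (pr e) := by
  obtain ⟨k1, k2, -, -⟩ := cl_ne_zero hQ ha hc
  have h3 : IsCoprime (pr e) 2 :=
    (hg.of_isCoprime_of_dvd_left (pr_dvd_pr.2 he)).of_isCoprime_of_dvd_right
      (Dvd.dvd.trans ⟨2, by norm_num⟩ hQ.four_dvd)
  have h4 := h2 (pr e) (pr c) (pr_primary e) (pr_primary c) h3 (odd_iff_coprime.1 k1).symm
  rw [xv_pr, xv_pr, h1 (pr e) (pr e) (pr c) a (by simp) k2] at h4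
  exact h4

theorem cA_eq (Q : ℕ) (a ρ n : E) : cA Q a ρ n = fun s => bA Q a ρ s * xs c6 s n := by
  funext s
  simp only [cA, bA]
  ring
theorem cB_eq (Q : ℕ) (a ρ : E) (K : Finset P) (t m : E) :
    cB Q a ρ K t m = fun s => bB Q a ρ K t s * xs (cj c6) s m := by
  funext s
  simp only [cB, bB, cH, xs_cj]
  split_ifs
  · ring
  · rw [zero_mul]
theorem cB_triv (Q : ℕ) (a ρ m : E) : cB Q a ρ ∅ 1 m = cH Q a ρ m := by
  funext s
  rw [cB, if_pos (Finset.disjoint_empty_right s), xs_one ch_c6, mul_one]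
theorem cAK_empty (Q : ℕ) (a ρ n : E) : cAK Q a ρ ∅ n = cA Q a ρ n := by
  funext s
  rw [cAK, if_pos (Finset.disjoint_empty_right s)]
theorem cls_bA {Q k : ℕ} (hQ : GoodQ Q k) {a : E} (ha : IsCoprime a Q) (ρ : E) :
    Cls (bA Q a ρ) := by
  refine ⟨fun s => dc_norm_mul (dc_norm_mul (norm_cl_le _ _ _) (norm_mu s).le) (dc_norm_conj _ _),
    a, fun s hs => ?_⟩
  have h := cl_ne_zero hQ ha (s := s) fun h => hs (by rw [bA, h, zero_mul, zero_mul])
  exact ⟨h.1, h.2.1⟩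
theorem cls_bB {Q k : ℕ} (hQ : GoodQ Q k) {a : E} (ha : IsCoprime a Q) (ρ : E) (K : Finset P)
    (t : E) : Cls (bB Q a ρ K t) := by
  refine ⟨fun s => ?_, a, fun s hs => ?_⟩
  · rw [bB]
    split_ifs
    · exact dc_norm_mul (dc_norm_mul (dc_norm_mul (dc_norm_mul (norm_cl_le _ _ _) (norm_mu s).le)
        (norm_gam_c6 s).le) (dc_norm_conj _ _)) (norm_xs_le ch_c6 _ _)
    · simp
  · have h := cl_ne_zero hQ ha (s := s) fun h => hs (by simp [bB, h])
    exact ⟨h.1, h.2.1⟩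
theorem norm_dual_le {β : Finset P → ℂ} (hβ : ∀ s, ‖β s‖ ≤ 1) (d f e : Finset P) (m : E)
    (c : Finset P) : ‖dual c6 β d f e m c‖ ≤ 1 := by
  rw [dual]
  split_ifs
  · exact dc_norm_mul (dc_norm_mul (dc_norm_mul (dc_norm_mul (dc_norm_mul (hβ _)
      (norm_xs_le ch_c6 _ _)) (norm_gam_c6 c).le) (norm_xs_le ch_c6 _ _)) (norm_xs_le ch_c6 _ _))
      (dc_norm_conj _ _)
  · simp
theorem cB_eq_cH (Q : ℕ) (a ρ m : E) (d f e : Finset P) :
    cB Q a ρ d (pr f * pr e ^ 2) m = cH Q a (ρ * (pr f ^ 5 * pr e ^ 4 * pr d ^ 6)) m := by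
  funext s
  simp only [cB, cH, xs_mul ch_c6, ← conj_xs_c6, xs_six, dc_pr_iff, map_mul, Complex.conj_conj]
  rw [xs_pow ch_c6 s (pr e) 4, xs_pow ch_c6 s (pr e) 2, map_pow, dc_four]
  split_ifs
  · rw [map_one]
    ring
  · simp
theorem dual_bA (hR : Rec6) {Q k : ℕ} (hQ : GoodQ Q k) {a : E} (ha : IsCoprime a Q) (ρ : E)
    (d f e : Finset P) (hde : Disjoint d e) : ∃ (κ : ℂ) (a1 : E), ‖κ‖ ≤ 1 ∧ IsCoprime a1 Q ∧
      ∀ m, dual c6 (bA Q a ρ) d f e m = fun c => κ * cB Q a1 ρ d (pr f * pr e ^ 2) m c := by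
  obtain ⟨sg, s1, s2, s3⟩ := hR
  by_cases hg : IsCoprime (pr (d ∪ e)) Q
  swap
  · refine ⟨0, a, by simp, ha, fun m => funext fun c => ?_⟩
    simp only [dual, bA, cl_union_zero ha hg, zero_mul, ite_self]
  have ha1 := coprime_mul_inv ha hg
  refine ⟨mu (d ∪ e) * conj (xs c6 (d ∪ e) ρ) * sg (pr e) (a * inv Q (pr (d ∪ e))), _,
    dc_norm_mul (dc_norm_mul (norm_mu _).le (dc_norm_conj _ _)) (dc_norm_sg (s2 _ _)), ha1,
    fun m => funext fun c => ?_⟩
  simp only [dual, cB, cH, bA, xs_mul ch_c6, xs_pow ch_c6]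
  by_cases h1 : Disjoint c (d ∪ e)
  · rw [if_pos h1, if_pos (Finset.disjoint_union_right.1 h1).1, cl_union hg h1.symm,
      mu_union h1.symm, xs_union h1.symm, map_mul]
    by_cases h2 : cl Q (a * inv Q (pr (d ∪ e))) c = 0
    · simp [h2]
    · rw [dc_rec s1 s3 hQ ha1 hg Finset.subset_union_right h2]
      ring
  · rw [if_neg h1]
    split_ifs with h2
    · rw [dc_zero (d := e) fun h => h1 (Finset.disjoint_union_right.2 ⟨h2, h⟩)]
      simp
    · simp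
theorem dual_bB (hR : Rec6) (hN : Neg6) {Q k : ℕ} (hQ : GoodQ Q k) {a : E} (ha : IsCoprime a Q)
    (ρ : E) (K : Finset P) (t : E) {d f e : Finset P} (hf : f ⊆ d) (hde : Disjoint d e) :
    ∃ (κ : ℂ) (a1 : E), ‖κ‖ ≤ 1 ∧ IsCoprime a1 Q ∧
      ∀ n, dual (cj c6) (bB Q a ρ K t) d f e n
        = fun c => κ * cAK Q a1 ρ (K ∪ e) (n * t * pr d * pr (d \ f)) c := by
  obtain ⟨sg, s1, s2, s3⟩ := hR
  by_cases hg : IsCoprime (pr (d ∪ e)) Q
  swap
  · refine ⟨0, a, by simp, ha, fun m => funext fun c => ?_⟩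
    simp only [dual, bB, cl_union_zero ha hg, zero_mul, ite_self]
  by_cases hK : Disjoint (d ∪ e) K
  swap
  · refine ⟨0, a, by simp, ha, fun m => funext fun c => ?_⟩
    have : ¬ Disjoint (d ∪ e ∪ c) K := fun h => hK (Finset.disjoint_union_left.1 h).1
    simp only [dual, bB, if_neg this, zero_mul, ite_self]
  have ha1 := coprime_mul_inv ha hg
  obtain ⟨ν, hν1, hν⟩ : ∃ ν : ℂ, ‖ν‖ ≤ 1 ∧
      ∀ c, cl Q (a * inv Q (pr (d ∪ e))) c ≠ 0 → xs c6 c (-1) = ν := by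
    by_cases h : ∃ c0, cl Q (a * inv Q (pr (d ∪ e))) c0 ≠ 0
    · obtain ⟨c0, h0⟩ := h
      refine ⟨_, norm_xs_le ch_c6 c0 (-1), fun c hc => ?_⟩
      obtain ⟨k1, k2, -⟩ := cl_ne_zero hQ ha1 h0
      obtain ⟨k3, k4, -⟩ := cl_ne_zero hQ ha1 hc
      exact hN c c0 k3 k1 (by simpa using dvd_sub k4 k2)
    · exact ⟨0, by simp, fun c hc => absurd ⟨c, hc⟩ h⟩
  refine ⟨mu (d ∪ e) * gam c6 (d ∪ e) * conj (xs c6 (d ∪ e) ρ) * xs c6 (d ∪ e) t *
    sg (pr d) (a * inv Q (pr (d ∪ e))) * ν, _, dc_norm_mul (dc_norm_mul (dc_norm_mul (dc_norm_mul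
      (dc_norm_mul (norm_mu _).le (norm_gam_c6 _).le) (dc_norm_conj _ _)) (norm_xs_le ch_c6 _ _))
      (dc_norm_sg (s2 _ _))) hν1, ha1, fun n => funext fun c => ?_⟩
  simp only [dual, cAK, cA, bB, xs_mul ch_c6, xs_cj, Complex.conj_conj]
  by_cases h1 : Disjoint c (d ∪ e)
  · obtain ⟨hcd, hce⟩ := Finset.disjoint_union_right.1 h1
    rw [if_pos h1]
    by_cases h3 : Disjoint c K
    · rw [if_pos (Finset.disjoint_union_left.2 ⟨hK, h3⟩),
        if_pos (Finset.disjoint_union_right.2 ⟨h3, hce⟩), cl_union hg h1.symm, mu_union h1.symm,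
        gam_union ch_c6 h1.symm, xs_union h1.symm ρ, xs_union h1.symm t, map_mul,
        xs_union hde (pr c)]
      by_cases h2 : cl Q (a * inv Q (pr (d ∪ e))) c = 0
      · simp [h2]
      have e1 := dc_rec s1 s3 hQ ha1 hg Finset.subset_union_left h2
      have e2 := gam_mul_cj ch_c6 (s := c) fun p _ => c6_nt p
      have e3 := dc_one hce
      have e4 := dc_one hce.symm
      have e5 := dc_one (Finset.disjoint_of_subset_right hf hcd)
      have e6 : xs c6 c (pr d) = xs c6 c (pr f) * xs c6 c (pr (d \ f)) := by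
        rw [← xs_mul ch_c6, ← pr_union Finset.disjoint_sdiff, Finset.union_sdiff_of_subset hf]
      have e7 : xs c6 c (pr (d ∪ e)) = xs c6 c (pr d) * xs c6 c (pr e) := by
        rw [pr_union hde, xs_mul ch_c6]
      rw [hν c h2] at e2
      rw [e7, e1, ← e2]
      nth_rewrite 2 [e6]
      generalize xs c6 c (pr f) = x1 at e5 ⊢
      generalize xs c6 c (pr e) = x2 at e3 ⊢
      generalize xs c6 e (pr c) = x3 at e4 ⊢
      trans (x1 * conj x1) * (x2 * conj x2) * (x3 * conj x3) * (mu (d ∪ e) * gam c6 (d ∪ e) *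
        conj (xs c6 (d ∪ e) ρ) * xs c6 (d ∪ e) t * sg (pr d) (a * inv Q (pr (d ∪ e))) *
        (gam c6 c * gam (cj c6) c) * (cl Q (a * inv Q (pr (d ∪ e))) c * mu c *
          (xs c6 c n * xs c6 c t * xs c6 c (pr d) * xs c6 c (pr (d \ f))) * conj (xs c6 c ρ)))
      · ring
      · rw [e3, e4, e5, one_mul, one_mul, one_mul]
    · rw [if_neg fun h => h3 (Finset.disjoint_union_left.1 h).2,
        if_neg fun h => h3 (Finset.disjoint_union_right.1 h).1]
      simp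
  · rw [if_neg h1]
    split_ifs with h2
    · rw [dc_zero (d := d) fun h =>
        h1 (Finset.disjoint_union_right.2 ⟨h, (Finset.disjoint_union_right.1 h2).2⟩)]
      simp
    · simp

end QRH
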