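import Vale.Agent.P026.VorL

noncomputable section
namespace QRH
open Complex MeasureTheory Filter
open scoped ComplexConjugate Classical ContDiff Topology

theorem Dq_per (a : ℕ) (q : E) (f : E → ℂ) : Per q (Dq a q f) := fun x y h => by
  refine Finset.sum_congr rfl fun u _ => ?_
  beta_reduce
  rw [psf_congr (A' := -(inv q (Lam a ^ 2 * u) * y))]
  convert (h.mul_left (inv q (Lam a ^ 2 * u))).neg_right using 1
  ring
theorem fh_per (q : E) (f : E → ℂ) : Per q (fh q f) := fun x y h => by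
  simp only [fh]
  refine congrArg _ (Finset.sum_congr rfl fun u _ => ?_)
  beta_reduce
  rw [psf_congr (A' := -(u * y))]
  convert (h.mul_left u).neg_right using 1
  ring
theorem good_one : Good 1 fun _ => 1 :=
  ⟨fun _ _ _ => rfl, fun _ h => absurd isCoprime_one_right h⟩
theorem Dq_one (a : ℕ) (δ : E) : Dq a 1 (fun _ => 1) δ = 1 := by
  simp only [Dq, fh, psf_of_dvd (one_dvd _), xv_unit isUnit_one, rsum_const one_ne_zero, nm_one]
  simp

theorem du_xv_per {q : E} (hq : q ≠ 0) : Per q (xv c3 q) := (xv_per ch_c3 hq).mono (pr_fac_dvd hq)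

theorem du_ne {q : E} (h : ¬ lam ∣ q) : q ≠ 0 := fun h0 => h (h0 ▸ dvd_zero _)

theorem du_lam (a : ℕ) {q : E} (h : ¬ lam ∣ q) : IsCoprime (Lam a ^ 2) q := by
  have h3 : IsCoprime (3 : E) q := (isCoprime_three.2 h).symm
  rw [Lam, ph_27]
  exact h3.pow_left.pow_left.pow_left

theorem du_cop {x y q : E} (h : q ∣ x * y - 1) : IsCoprime x q := by
  obtain ⟨k, hk⟩ := h
  exact ⟨y, -k, by linear_combination hk⟩

theorem du_cop_congr {x y q : E} (h : q ∣ x - y) (hx : IsCoprime x q) : IsCoprime y q := by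
  obtain ⟨k, hk⟩ := h
  obtain ⟨u, v, huv⟩ := hx
  exact ⟨u, v + u * k, by linear_combination huv - u * hk⟩

theorem du_fh_mul {q1 q2 a' b' : E} (h1 : q1 ≠ 0) (h2 : q2 ≠ 0) (h : IsCoprime q1 q2)
    (ha : q2 ∣ q1 * a' - 1) (hb : q1 ∣ q2 * b' - 1) {f1 f2 : E → ℂ} (g1 : Per q1 f1)
    (g2 : Per q2 f2) (u : E) :
    fh (q1 * q2) (fun c => f1 c * f2 c) u = fh q1 f1 (b' * u) * fh q2 f2 (a' * u) := by
  have p : ∀ {q : E} {f : E → ℂ} (t : E), Per q f → Per q fun y => f y * psf (-(y * t)) q :=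
    fun {q f} t hf => hf.mul (by simpa only [mul_neg] using per_psf (-t) q)
  have e := rsum_crt h1 h2 h (p (b' * u) g1) (p (a' * u) g2)
  simp only [fh]
  rw [mul_mul_mul_comm, ← e, nm_mul, Nat.cast_mul, mul_inv]
  refine congrArg _ (Finset.sum_congr rfl fun y _ => ?_)
  beta_reduce
  rw [psf_crt h1 h2 h ha hb, show -(y * u) * b' = -(y * (b' * u)) by ring,
    show -(y * u) * a' = -(y * (a' * u)) by ring]
  ring

/-- The summand of `Dq`. -/
def duT (a : ℕ) (q : E) (f : E → ℂ) (δ u : E) : ℂ :=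
  fh q f u * xv c3 q u * psf (-(inv q (Lam a ^ 2 * u) * δ)) q

theorem duT_eq {a : ℕ} {q u y : E} (h : q ∣ Lam a ^ 2 * u * y - 1) (f : E → ℂ) (δ : E) :
    duT a q f δ u = fh q f u * xv c3 q u * psf (-(y * δ)) q := by
  have h1 := inv_spec (du_cop h)
  rw [duT, psf_congr (A' := -(y * δ))]
  convert dvd_sub (h.mul_left (inv q (Lam a ^ 2 * u) * δ)) (h1.mul_left (y * δ)) using 1
  ring

theorem duT_zero {a : ℕ} {q u : E} {f : E → ℂ} (g : Good q f) (h : ¬ IsCoprime u q) (δ : E) :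
    duT a q f δ u = 0 := by
  rw [duT, g.2 u h, zero_mul, zero_mul]

theorem duT_per (a : ℕ) {q : E} (hq : ¬ lam ∣ q) {f : E → ℂ} (g : Good q f) (δ : E) :
    Per q (duT a q f δ) := fun x y h => by
  by_cases hx : IsCoprime x q
  · have h1 := inv_spec ((du_lam a hq).mul_left hx)
    have h2 : q ∣ Lam a ^ 2 * y * inv q (Lam a ^ 2 * x) - 1 := by
      convert dvd_sub h1 (h.mul_left (Lam a ^ 2 * inv q (Lam a ^ 2 * x))) using 1
      ring
    rw [duT_eq h1, duT_eq h2, fh_per q f x y h, du_xv_per (du_ne hq) x y h]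
  · rw [duT_zero g hx, duT_zero g fun hy => hx (du_cop_congr (dvd_sub_comm.1 h) hy)]

theorem Good.mul {q1 q2 : E} (h1 : q1 ≠ 0) (h2 : q2 ≠ 0) (h : IsCoprime q1 q2) {f1 f2 : E → ℂ}
    (g1 : Good q1 f1) (g2 : Good q2 f2) : Good (q1 * q2) fun c => f1 c * f2 c := by
  refine ⟨(g1.1.mono (dvd_mul_right _ _)).mul (g2.1.mono (dvd_mul_left _ _)), fun u hu => ?_⟩
  rw [du_fh_mul h1 h2 h (inv_spec h) (inv_spec h.symm) g1.1 g2.1]
  by_cases h3 : IsCoprime u q1
  · rw [g2.2 _ fun h4 => hu (h3.mul_right h4.of_mul_left_right), mul_zero]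
  · rw [g1.2 _ fun h4 => h3 h4.of_mul_left_right, zero_mul]

theorem du_half {a : ℕ} {q1 q2 b' u y δ δ1 : E} (h1 : q1 ≠ 0) (hb : q1 ∣ q2 * b' - 1)
    (hy : q1 ∣ Lam a ^ 2 * u * y - 1) (hδ : q1 ∣ q2 ^ 2 * δ1 - δ) (f1 : E → ℂ) :
    xv c3 q1 q2 * duT a q1 f1 δ1 (b' * u) =
      fh q1 f1 (b' * u) * xv c3 q1 u * psf (-(y * δ) * b') q1 := by
  have e1 : q1 ∣ Lam a ^ 2 * (b' * u) * (y * q2) - 1 := by
    convert dvd_add (hb.mul_left (Lam a ^ 2 * u * y)) hy using 1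
    ring
  have e2 : xv c3 q1 q2 * xv c3 q1 (b' * u) = xv c3 q1 u := by
    rw [← xv_mul ch_c3]
    refine du_xv_per h1 _ _ ?_
    convert hb.mul_left u using 1
    ring
  have e3 : psf (-(y * q2 * δ1)) q1 = psf (-(y * δ) * b') q1 := by
    refine psf_congr ?_
    convert dvd_sub (hb.mul_left (y * q2 * δ1)) (hδ.mul_left (y * b')) using 1
    ring
  rw [duT_eq e1, e3, ← e2]
  ring

theorem Dq_mul (a : ℕ) {q1 q2 : E} (h1 : ¬ lam ∣ q1) (h2 : ¬ lam ∣ q2) (h : IsCoprime q1 q2)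
    {f1 f2 : E → ℂ} (g1 : Good q1 f1) (g2 : Good q2 f2) {δ δ1 δ2 : E}
    (hδ1 : q1 ∣ q2 ^ 2 * δ1 - δ) (hδ2 : q2 ∣ q1 ^ 2 * δ2 - δ) :
    Dq a (q1 * q2) (fun c => f1 c * f2 c) δ
      = xv c3 q1 q2 * xv c3 q2 q1 * Dq a q1 f1 δ1 * Dq a q2 f2 δ2 := by
  have n1 := du_ne h1
  have n2 := du_ne h2
  have ha := inv_spec h
  have hb := inv_spec h.symm
  generalize inv q2 q1 = a' at ha
  generalize inv q1 q2 = b' at hb
  have p : ∀ {q : E} {F : E → ℂ} (k : ℂ) (t : E), Per q F → Per q fun u => k * F (t * u) :=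
    fun {q F} k t hF x y hxy => congrArg _ (hF _ _ (by rw [← mul_sub]; exact hxy.mul_left t))
  have e := rsum_crt n1 n2 h (p (xv c3 q1 q2) b' (duT_per a h1 g1 δ1))
    (p (xv c3 q2 q1) a' (duT_per a h2 g2 δ2))
  rw [rsum_mul_left, rsum_mul_left,
    rsum_mul_unit n1 (duT_per a h1 g1 δ1) (du_cop (y := q2) (by rwa [mul_comm])),
    rsum_mul_unit n2 (duT_per a h2 g2 δ2) (du_cop (y := q1) (by rwa [mul_comm]))] at e
  refine Eq.trans (Finset.sum_congr rfl fun u _ => ?_) (e.trans (by unfold Dq duT; ring))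
  change duT a (q1 * q2) (fun c => f1 c * f2 c) δ u = _
  beta_reduce
  by_cases hu : IsCoprime u (q1 * q2)
  · have hl : ¬ lam ∣ q1 * q2 := fun h0 => (lam_prime.dvd_or_dvd h0).elim h1 h2
    have hy := inv_spec ((du_lam a hl).mul_left hu)
    rw [duT_eq hy, du_half n1 hb ((dvd_mul_right _ _).trans hy) hδ1,
      du_half n2 ha ((dvd_mul_left _ _).trans hy) hδ2, du_fh_mul n1 n2 h ha hb g1.1 g2.1,
      xv_mul_left n1 n2, psf_crt n1 n2 h ha hb]
    ring
  · rw [duT_zero (Good.mul n1 n2 h g1 g2) hu]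
    by_cases h3 : IsCoprime u q1
    · rw [duT_zero g2 fun h4 => hu (h3.mul_right h4.of_mul_left_right)]
      simp
    · rw [duT_zero g1 fun h4 => h3 h4.of_mul_left_right]
      simp
/-- The mean value of `f` modulo `p`. -/
def mv (p : P) (f : E → ℂ) : ℂ := rsum p.1 f / (nm p.1 : ℂ)
theorem norm_mv_le {p : P} {f : E → ℂ} (h : Mc p f) : ‖mv p f‖ ≤ 1 := by
  have h0 : (0 : ℝ) < nm p.1 := lt_of_lt_of_le one_pos (one_le_nmR p.ne_zero)
  rw [mv, norm_div, Complex.norm_natCast, div_le_one h0]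
  simpa using norm_rsum_le p.ne_zero h.norm_le

theorem du_nm_ne {q : E} (hq : q ≠ 0) : (nm q : ℂ) ≠ 0 :=
  Nat.cast_ne_zero.2 fun h => hq (nm_eq_zero.1 h)

theorem du_mul_mv (p : P) (f : E → ℂ) : (nm p.1 : ℂ) * mv p f = rsum p.1 f :=
  mul_div_cancel₀ _ (du_nm_ne p.ne_zero)

theorem good_sub_mv {p : P} {f : E → ℂ} (h : Mc p f) : Good p.1 fun c => f c - mv p f := by
  refine ⟨fun x y hxy => by beta_reduce; rw [h.per x y hxy], fun u hu => ?_⟩
  have hu' : p.1 ∣ u := by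
    by_contra h0
    exact hu ((isCoprime_prime p.2.1).2 h0)
  have e : ∀ y, psf (-(y * u)) p.1 = 1 := fun y => psf_of_dvd (hu'.mul_left y).neg_right
  simp only [fh, e, mul_one]
  rw [rsum_sub, rsum_const p.ne_zero, du_mul_mv, sub_self, mul_zero]

theorem du_fh_cov {p : P} {f : E → ℂ} (h : Mc p f) {t : E} (ht : ¬ p.1 ∣ t) (v : E) :
    fh p.1 (fun c => f c - mv p f) (t * v) = conj (f t) * fh p.1 (fun c => f c - mv p f) v := by
  have hc := (isCoprime_prime p.2.1).2 ht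
  have hm : f t * mv p f = mv p f := by
    have := rsum_mul_unit p.ne_zero h.per hc
    simp only [h.mul, rsum_mul_left] at this
    rw [mv, ← mul_div_assoc, this]
  have hp : Per p.1 fun y => (f y - mv p f) * psf (-(y * v)) p.1 :=
    (good_sub_mv h).1.mul (by simpa only [mul_neg] using per_psf (-v) p.1)
  simp only [fh]
  rw [← rsum_mul_unit p.ne_zero hp hc, mul_left_comm, ← rsum_mul_left p.1 (conj (f t))]
  refine congrArg _ (Finset.sum_congr rfl fun y _ => ?_)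
  beta_reduce
  rw [h.mul, show y * (t * v) = t * y * v by ring]
  linear_combination (-psf (-(t * y * v)) p.1 * (f y - mv p f)) * h.mul_conj ht -
    (conj (f t) * psf (-(t * y * v)) p.1) * hm

theorem Dq_prime_cov (a : ℕ) {p : P} {f : E → ℂ} (h : Mc p f) {t : E} (ht : ¬ p.1 ∣ t) (δ : E) :
    Dq a p.1 (fun c => f c - mv p f) (t * δ)
      = conj (f t) * c3 p t * Dq a p.1 (fun c => f c - mv p f) δ := by
  have hc := (isCoprime_prime p.2.1).2 ht
  have g := good_sub_mv h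
  change rsum p.1 (duT a p.1 _ (t * δ)) = _ * rsum p.1 (duT a p.1 _ δ)
  rw [← rsum_mul_unit p.ne_zero (duT_per a p.not_lam_dvd g (t * δ)) hc, ← rsum_mul_left]
  refine Finset.sum_congr rfl fun v _ => ?_
  beta_reduce
  by_cases hv : IsCoprime v p.1
  · have hy := inv_spec ((du_lam a p.not_lam_dvd).mul_left (hc.mul_left hv))
    have hy' : p.1 ∣ Lam a ^ 2 * v * (inv p.1 (Lam a ^ 2 * (t * v)) * t) - 1 := by
      convert hy using 1
      ring
    rw [duT_eq hy, duT_eq hy', du_fh_cov h ht, xv_prime, xv_prime, (c3_mc p).mul,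
      mul_assoc (inv _ _) t δ]
    ring
  · rw [duT_zero g hv, duT_zero g fun h0 => hv h0.of_mul_left_right, mul_zero]

theorem du_count (p : P) : ∑ y ∈ reps p.1, (if p.1 ∣ y then (0 : ℝ) else 1) = nm p.1 - 1 := by
  have h1 : rsum p.1 (fun y => if p.1 ∣ y then 1 else 0) = 1 := by
    rw [rsum_single p.ne_zero (fun x y hxy => ?_) 0 fun x hx => if_neg (by simpa using hx)]
    · simp
    · simp only [(dvd_iff_dvd_of_dvd_sub hxy)]
  have h2 : ∑ y ∈ reps p.1, (if p.1 ∣ y then (1 : ℝ) else 0) = 1 := by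
    apply Complex.ofReal_injective
    rw [Complex.ofReal_one, ← h1, Complex.ofReal_sum]
    exact Finset.sum_congr rfl fun y _ => by beta_reduce; split_ifs <;> simp
  have h3 : ∑ _y ∈ reps p.1, (1 : ℝ) = nm p.1 := by simp [card_reps p.ne_zero]
  have h4 : ∑ y ∈ reps p.1, (if p.1 ∣ y then (0 : ℝ) else 1) +
      ∑ y ∈ reps p.1, (if p.1 ∣ y then (1 : ℝ) else 0) = ∑ _y ∈ reps p.1, (1 : ℝ) := by
    rw [← Finset.sum_add_distrib]
    exact Finset.sum_congr rfl fun y _ => by split_ifs <;> simp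
  linarith

theorem du_var {p : P} {f : E → ℂ} (h : Mc p f) :
    ∑ y ∈ reps p.1, ‖f y - mv p f‖ ^ 2 ≤ nm p.1 - 1 := by
  have h1 : ∑ y ∈ reps p.1, ‖f y‖ ^ 2 = nm p.1 - 1 := by
    rw [← du_count]
    refine Finset.sum_congr rfl fun y _ => ?_
    split_ifs with hy
    · simp [h.zero y hy]
    · simp [h.norm y hy]
  have h2 : ∑ y ∈ reps p.1, (f y * conj (mv p f)).re = nm p.1 * ‖mv p f‖ ^ 2 := by
    rw [← Complex.re_sum, ← Finset.sum_mul]
    change (rsum p.1 f * _).re = _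
    rw [← du_mul_mv, mul_assoc, Complex.mul_conj, Complex.normSq_eq_norm_sq, ← Complex.ofReal_natCast,
      ← Complex.ofReal_mul, Complex.ofReal_re]
  simp only [← Complex.normSq_eq_norm_sq, Complex.normSq_sub] at h1 h2 ⊢
  rw [Finset.sum_sub_distrib, Finset.sum_add_distrib, ← Finset.mul_sum, h1, h2, Finset.sum_const,
    card_reps p.ne_zero, nsmul_eq_mul]
  have : 0 ≤ (nm p.1 : ℝ) * Complex.normSq (mv p f) :=
    mul_nonneg (Nat.cast_nonneg _) (Complex.normSq_nonneg _)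
  linarith

theorem du_inv_zero (a : ℕ) {p : P} {y : E} (hy : p.1 ∣ y) : inv p.1 (Lam a ^ 2 * y) = 0 := by
  refine dif_neg fun ⟨z, hz⟩ => p.not_dvd_unit isUnit_one ?_
  convert dvd_sub ((hy.mul_left (Lam a ^ 2)).mul_right z) hz using 1
  ring

theorem du_inv_spec (a : ℕ) {p : P} {y : E} (hy : ¬ p.1 ∣ y) :
    p.1 ∣ Lam a ^ 2 * y * inv p.1 (Lam a ^ 2 * y) - 1 :=
  inv_spec ((du_lam a p.not_lam_dvd).mul_left ((isCoprime_prime p.2.1).2 hy))

theorem du_inv_inj (a : ℕ) (p : P) (x y : E)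
    (h : p.1 ∣ inv p.1 (Lam a ^ 2 * x) - inv p.1 (Lam a ^ 2 * y)) : p.1 ∣ x - y := by
  have k : ∀ {x y : E}, ¬ p.1 ∣ x → p.1 ∣ y →
      ¬ p.1 ∣ inv p.1 (Lam a ^ 2 * x) - inv p.1 (Lam a ^ 2 * y) := fun {x y} hx hy h => by
    rw [du_inv_zero a hy, sub_zero] at h
    refine p.not_dvd_unit isUnit_one ?_
    convert dvd_sub (h.mul_left (Lam a ^ 2 * x)) (du_inv_spec a hx) using 1
    ring
  by_cases hx : p.1 ∣ x <;> by_cases hy : p.1 ∣ y
  · exact dvd_sub hx hy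
  · exact absurd (dvd_sub_comm.1 h) (k hy hx)
  · exact absurd h (k hx hy)
  · convert dvd_sub (dvd_sub ((du_inv_spec a hx).mul_left y) ((du_inv_spec a hy).mul_left x))
      (h.mul_left (Lam a ^ 2 * x * y)) using 1
    ring

theorem du_parseval (a : ℕ) {p : P} {g : E → ℂ} (hg : Good p.1 g) :
    ∑ δ ∈ reps p.1, ‖Dq a p.1 g δ‖ ^ 2 ≤ ∑ y ∈ reps p.1, ‖g y‖ ^ 2 := by
  have h0 : (0 : ℝ) < nm p.1 := lt_of_lt_of_le one_pos (one_le_nmR p.ne_zero)
  have e1 : ∀ δ, Dq a p.1 g δ = rsum p.1 fun y => (fh p.1 g (-inv p.1 (Lam a ^ 2 * y)) *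
      c3 p (-inv p.1 (Lam a ^ 2 * y))) * psf (y * δ) p.1 := fun δ => by
    refine (rsum_bij p.ne_zero (duT_per a p.not_lam_dvd hg δ) (fun y => -inv p.1 (Lam a ^ 2 * y))
      fun x y h => du_inv_inj a p x y ?_).symm.trans (Finset.sum_congr rfl fun y _ => ?_)
    · convert h.neg_right using 1
      ring
    · beta_reduce
      by_cases hy : p.1 ∣ y
      · rw [du_inv_zero a hy, neg_zero, duT, xv_prime, (c3_mc p).zero 0 (dvd_zero _)]
        simp
      · rw [duT_eq (y := -y) (by convert du_inv_spec a hy using 1; ring), xv_prime, neg_mul, neg_neg]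
  have hR : Per p.1 fun u => ((‖rsum p.1 fun y => g y * psf (y * u) p.1‖ ^ 2 : ℝ) : ℂ) :=
    fun x y h => by
      have : ∀ z, psf (z * x) p.1 = psf (z * y) p.1 := fun z =>
        psf_congr (by rw [← mul_sub]; exact h.mul_left z)
      simp only [this]
  have e2 : ∑ y ∈ reps p.1, ‖rsum p.1 fun z => g z * psf (z * inv p.1 (Lam a ^ 2 * y)) p.1‖ ^ 2 =
      nm p.1 * ∑ y ∈ reps p.1, ‖g y‖ ^ 2 := by
    rw [← parseval p.ne_zero]
    apply Complex.ofReal_injective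
    rw [Complex.ofReal_sum, Complex.ofReal_sum]
    exact rsum_bij p.ne_zero hR (fun y => inv p.1 (Lam a ^ 2 * y)) (du_inv_inj a p)
  simp only [e1]
  rw [parseval p.ne_zero]
  refine le_of_mul_le_mul_left ?_ h0
  rw [← e2, ← mul_assoc, Finset.mul_sum]
  refine Finset.sum_le_sum fun y _ => ?_
  have k := (c3_mc p).norm_le (-inv p.1 (Lam a ^ 2 * y))
  simp only [fh, mul_neg, neg_neg, norm_mul, norm_inv, Complex.norm_natCast]
  generalize ‖rsum p.1 fun z => g z * psf (z * inv p.1 (Lam a ^ 2 * y)) p.1‖ = R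
  have k2 := pow_le_one₀ (n := 2) (norm_nonneg _) k
  refine le_trans (le_of_eq ?_) (mul_le_of_le_one_right (sq_nonneg R) k2)
  field_simp

theorem norm_Dq_prime (a : ℕ) {p : P} {f : E → ℂ} (h : Mc p f) (δ : E) :
    ‖Dq a p.1 (fun c => f c - mv p f) δ‖ ≤ if p.1 ∣ δ then √(nm p.1 : ℝ) else 1 := by
  have h1 := (du_parseval a (good_sub_mv h)).trans (du_var h)
  split_ifs with hδ
  · obtain ⟨r, hr, hr'⟩ := exists_rep p.ne_zero δ
    have h2 := Finset.single_le_sum (f := fun δ => ‖Dq a p.1 (fun c => f c - mv p f) δ‖ ^ 2)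
      (fun _ _ => sq_nonneg _) hr
    rw [Dq_per a _ _ δ r hr']
    exact Real.le_sqrt_of_sq_le (by linarith)
  · have k : ∀ t, ¬ p.1 ∣ t → ‖Dq a p.1 (fun c => f c - mv p f) t‖ =
        ‖Dq a p.1 (fun c => f c - mv p f) 1‖ := fun t ht => by
      have := Dq_prime_cov a h ht 1
      rw [mul_one] at this
      rw [this, norm_mul, norm_mul, RCLike.norm_conj, h.norm t ht, (c3_mc p).norm t ht, one_mul,
        one_mul]
    have h2 : ∑ t ∈ reps p.1, (if p.1 ∣ t then (0 : ℝ) else 1) *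
        ‖Dq a p.1 (fun c => f c - mv p f) 1‖ ^ 2 ≤
        ∑ t ∈ reps p.1, ‖Dq a p.1 (fun c => f c - mv p f) t‖ ^ 2 :=
      Finset.sum_le_sum fun t _ => by
        split_ifs with ht
        · rw [zero_mul]; positivity
        · rw [one_mul, k t ht]
    rw [← Finset.sum_mul, du_count] at h2
    have h4 : (4 : ℝ) ≤ nm p.1 := by exact_mod_cast p.four_le_nm
    rw [k δ hδ]
    refine (sq_le_one_iff₀ (norm_nonneg _)).1 (le_of_mul_le_mul_left ?_
      (by linarith : (0 : ℝ) < nm p.1 - 1))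
    linarith
theorem mv_c6 (p : P) : mv p (fun c => conj (c6 p c)) = 0 := by
  rw [mv, (c6_mc p).conj.rsum_eq_zero (c6_nt p).conj, zero_div]
theorem Dq_c6 (a : ℕ) {p : P} (hp : ¬ p.1 ∣ 2) (δ : E) :
    Dq a p.1 (fun c => conj (c6 p c) - mv p fun c => conj (c6 p c)) δ
      = c2 p δ * Dq a p.1 (fun c => conj (c6 p c) - mv p fun c => conj (c6 p c)) 1 := by
  have k : ∀ t, ¬ p.1 ∣ t → ∀ x,
      Dq a p.1 (fun c => conj (c6 p c) - mv p fun c => conj (c6 p c)) (t * x) =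
        c2 p t * Dq a p.1 (fun c => conj (c6 p c) - mv p fun c => conj (c6 p c)) x := by
    intro t ht x
    rw [Dq_prime_cov a (c6_mc p).conj ht, Complex.conj_conj, ← c6_sq, ← c6_cube]
    ring
  by_cases hδ : p.1 ∣ δ
  · obtain ⟨t, ht, ht'⟩ := c2_nt hp
    have h0 := k t ht 0
    rw [mul_zero] at h0
    rw [Dq_per a _ _ δ 0 (by simpa using hδ), (c2_mc p).zero δ hδ, zero_mul]
    by_contra h1
    exact ht' (mul_right_cancel₀ h1 (h0.symm.trans (one_mul _).symm))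
  · simpa using k δ hδ 1

theorem du_fh_psf {q : E} (hq : q ≠ 0) (u v : E) :
    fh q (fun c => psf (c * u) q) v = if q ∣ u - v then 1 else 0 := by
  have e : ∀ y, psf (y * u) q * psf (-(y * v)) q = psf (y * (u - v)) q := fun y => by
    rw [← psf_add, mul_sub, sub_eq_add_neg]
  simp only [fh, e, rsum_psf hq]
  split_ifs
  · exact inv_mul_cancel₀ (du_nm_ne hq)
  · exact mul_zero _

theorem good_psf {q u : E} (hq : q ≠ 0) (h : IsCoprime u q) : Good q fun c => psf (c * u) q :=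
  ⟨per_psf u q, fun v hv => by rw [du_fh_psf hq, if_neg fun h0 => hv (du_cop_congr h0 h)]⟩
theorem norm_Dq_psf (a : ℕ) {q : E} (hq : q ≠ 0) (u δ : E) :
    ‖Dq a q (fun c => psf (c * u) q) δ‖ ≤ 1 := by
  obtain ⟨r, hr, hr'⟩ := exists_rep hq u
  rw [Dq, rsum, Finset.sum_eq_single_of_mem r hr fun v hv hne => ?_]
  · rw [du_fh_psf hq, if_pos hr', one_mul, norm_mul, norm_psf, mul_one]
    exact norm_xv_le ch_c3 _ _
  · rw [du_fh_psf hq, if_neg fun h0 => hne (rep_unique hq hv hr ?_), zero_mul, zero_mul]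
    convert dvd_sub hr' h0 using 1
    ring
theorem exists_reduced {Q : E} (hQ : Q ≠ 0) (u : E) :
    ∃ q1 u1, q1 ∣ Q ∧ IsCoprime u1 q1 ∧ ∀ c, psf (c * u) Q = psf (c * u1) q1 := by
  obtain ⟨u1, q1, g, h1, rfl, rfl⟩ := UniqueFactorizationMonoid.exists_reduced_factors' u Q hQ
  refine ⟨q1, u1, dvd_mul_left _ _, h1.isCoprime, fun c => ?_⟩
  rw [mul_left_comm, psf_scale (left_ne_zero_of_mul hQ)]
/-- The dual of a product of local functions. -/
theorem Dq_prod (a : ℕ) (r : Finset P) (f : P → E → ℂ) (hf : ∀ p ∈ r, Mc p (f p)) {q1 : E}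
    (hq1 : ¬ lam ∣ q1) (hc : IsCoprime q1 (pr r)) {f1 : E → ℂ} (g1 : Good q1 f1) :
    Good (pr r * q1) (fun c => (∏ p ∈ r, (f p c - mv p (f p))) * f1 c) ∧
    ∃ e : ℂ, ‖e‖ ≤ 1 ∧ ∀ δ δ1, q1 ∣ pr r ^ 2 * δ1 - δ →
      Dq a (pr r * q1) (fun c => (∏ p ∈ r, (f p c - mv p (f p))) * f1 c) δ
        = e * (∏ p ∈ r, Dq a p.1 (fun c => f p c - mv p (f p)) δ) * Dq a q1 f1 δ1 := by
  induction r using Finset.induction_on with
  | empty =>
    simp only [pr_empty, one_mul, Finset.prod_empty, one_pow]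
    exact ⟨g1, 1, by simp, fun δ δ1 h => by
      rw [one_mul, one_mul, Dq_per a q1 f1 δ1 δ h]⟩
  | insert p r hp ih =>
    rw [pr_insert hp] at hc
    obtain ⟨G, e, he, hD⟩ := ih (fun s hs => hf s (Finset.mem_insert_of_mem hs))
      hc.of_mul_right_right
    have hm := hf p (Finset.mem_insert_self _ _)
    have hl : ¬ lam ∣ pr r * q1 := fun h0 =>
      (lam_prime.dvd_or_dvd h0).elim (not_lam_dvd_of_primary (pr_primary r)) hq1
    have hpQ : IsCoprime p.1 (pr r * q1) :=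
      ((isCoprime_prime p.2.1).2 fun h0 => hp (dvd_pr_iff.1 h0)).symm.mul_right
        hc.of_mul_right_left.symm
    simp only [pr_insert hp, Finset.prod_insert hp, mul_assoc]
    refine ⟨Good.mul p.ne_zero (du_ne hl) hpQ (good_sub_mv hm) G, ?_⟩
    have ht := inv_spec (hpQ.symm.pow_left (m := 2))
    have hs := inv_spec (hpQ.pow_left (m := 2))
    generalize inv p.1 ((pr r * q1) ^ 2) = t at ht
    generalize inv (pr r * q1) (p.1 ^ 2) = s at hs
    have nd : ∀ {π : P} {x y : E}, π.1 ∣ x * y - 1 → ¬ π.1 ∣ y := fun {π x y} h1 h2 =>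
      π.not_dvd_unit isUnit_one (by convert dvd_sub (h2.mul_left x) h1 using 1; ring)
    refine ⟨xv c3 p.1 (pr r * q1) * xv c3 (pr r * q1) p.1 * (conj (f p t) * c3 p t) *
      (e * ∏ π ∈ r, conj (f π s) * c3 π s), ?_, fun δ δ1 h => ?_⟩
    · have k : ∀ π ∈ insert p r, ∀ x, ‖conj (f π x) * c3 π x‖ ≤ 1 := fun π hπ x => by
        rw [norm_mul, RCLike.norm_conj]
        exact mul_le_one₀ ((hf π hπ).norm_le x) (norm_nonneg _) ((c3_mc π).norm_le x)
      have k2 : ‖∏ π ∈ r, conj (f π s) * c3 π s‖ ≤ 1 := by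
        rw [norm_prod]
        exact Finset.prod_le_one (fun _ _ => norm_nonneg _)
          fun π hπ => k π (Finset.mem_insert_of_mem hπ) s
      rw [norm_mul, norm_mul, norm_mul, norm_mul e]
      exact mul_le_one₀ (mul_le_one₀ (mul_le_one₀ (norm_xv_le ch_c3 _ _) (norm_nonneg _)
        (norm_xv_le ch_c3 _ _)) (norm_nonneg _) (k p (Finset.mem_insert_self _ _) t))
        (by positivity) (mul_le_one₀ he (norm_nonneg _) k2)
    · rw [Dq_mul a p.not_lam_dvd hl hpQ (good_sub_mv hm) G (δ1 := t * δ) (δ2 := s * δ)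
        (by convert ht.mul_left δ using 1; ring) (by convert hs.mul_left δ using 1; ring),
        Dq_prime_cov a hm (nd ht), hD (s * δ) δ1 (by
          convert dvd_sub (h.mul_left s)
            (((dvd_mul_left q1 (pr r)).trans hs).mul_left (pr r ^ 2 * δ1)) using 1
          ring),
        Finset.prod_congr rfl fun π hπ => Dq_prime_cov a (hf π (Finset.mem_insert_of_mem hπ))
          (nd (((dvd_pr_iff.2 hπ).mul_right q1).trans hs)) δ, Finset.prod_mul_distrib]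
      ring

end QRH
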