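import Vale.Agent.P026.Rearr
import Vale.Agent.P026.Phi1

/-! The large sieve bound for theta coefficients. -/

noncomputable section
namespace QRH
open Complex MeasureTheory Filter
open scoped ComplexConjugate Classical ContDiff Topology

/-- The size of the dual coefficients. -/
def vbphi (r : Finset P) (δ : E) : ℝ := ‖Tg δ‖ / nm (up lam δ) * √(Ns (fac δ ∩ r))

/-- The parametrisation of the support of `Tg`. -/
def vbel (x : (E × ℕ × E) × Finset P) : E := x.1.1 * lam ^ x.1.2.1 * (pr x.2 * x.1.2.2 ^ 3)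

theorem vb_unit {u : E} (hu : u ∈ ball 1) : IsUnit u := by
  obtain ⟨h0, h1⟩ := mem_ball.1 hu
  have h2 := one_le_nm h0
  have h3 : nm u ≤ 1 := by exact_mod_cast h1
  exact isUnit_iff.2 (le_antisymm h3 h2)

theorem vb_free {u : E} (hu : IsUnit u) (k : ℕ) (p : P) : ¬ p.1 ∣ u * lam ^ k := fun h =>
  (p.2.1.dvd_or_dvd h).elim (p.not_dvd_unit hu) fun h' => p.not_dvd_lam (p.2.1.dvd_of_dvd_pow h')

theorem vbphi_nonneg (r : Finset P) (δ : E) : 0 ≤ vbphi r δ := by unfold vbphi; positivity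

theorem vbphi_sq (r : Finset P) {u d : E} (hu : IsUnit u) (hd : (3 : E) ∣ d - 1) (k : ℕ)
    (f : Finset P) :
    vbphi r (vbel ((u, k, d), f)) ^ 2 ≤ (Ns (fac d ∩ r) / nm d) ^ 2 * (Ns (f ∩ r) / Ns f) := by
  have hd0 := primary_ne_zero hd
  have hp : (3 : E) ∣ pr f * d ^ 3 - 1 := primary_mul (pr_primary f) (primary_pow hd 3)
  have hc := primary_ne_zero hp
  have hN : (0 : ℝ) < nm d := lt_of_lt_of_le one_pos (one_le_nmR hd0)
  have hF := Ns_pos f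
  have h1 : ‖Tg (vbel ((u, k, d), f))‖ = (nm d : ℝ) ^ 2 * √(Ns f) := by
    change ‖Tg (u * lam ^ k * (pr f * d ^ 3))‖ = _
    rw [norm_Tg_mul_free hc (vb_free hu k), Tg_cube (pr_ne_zero f) hd, norm_mul, norm_Tg_pr,
      norm_pow, Complex.norm_natCast]
  have h2 : (nm (up lam (vbel ((u, k, d), f))) : ℝ) = Ns f * (nm d : ℝ) ^ 3 := by
    have e : vbel ((u, k, d), f) = lam ^ k * (u * (pr f * d ^ 3)) := by
      change u * lam ^ k * (pr f * d ^ 3) = _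
      ring
    have hl : ¬ lam ∣ u * (pr f * d ^ 3) := fun h =>
      not_lam_dvd_of_primary hp (hu.dvd_mul_left.1 h)
    rw [e, (vp_up_eq lam_prime hl k).2, nm_mul, nm_mul, nm_pow, isUnit_iff.1 hu, Ns]
    push_cast
    ring
  have h3 : fac (vbel ((u, k, d), f)) ∩ r ⊆ (f ∩ r) ∪ (fac d ∩ r) := by
    intro p hp'
    obtain ⟨hp1, hp2⟩ := Finset.mem_inter.1 hp'
    have hne : vbel ((u, k, d), f) ≠ 0 :=
      mul_ne_zero (mul_ne_zero hu.ne_zero (pow_ne_zero _ lam_prime.ne_zero)) hc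
    have hdv : p.1 ∣ u * lam ^ k * (pr f * d ^ 3) := (mem_fac hne).1 hp1
    rcases p.2.1.dvd_or_dvd ((p.2.1.dvd_or_dvd hdv).resolve_left (vb_free hu k p)) with h | h
    · exact Finset.mem_union_left _ (Finset.mem_inter.2 ⟨dvd_pr_iff.1 h, hp2⟩)
    · exact Finset.mem_union_right _
        (Finset.mem_inter.2 ⟨(mem_fac hd0).2 (p.2.1.dvd_of_dvd_pow h), hp2⟩)
  have h4 : Ns (fac (vbel ((u, k, d), f)) ∩ r) ≤ Ns (f ∩ r) * Ns (fac d ∩ r) ^ 2 := by
    refine ((Ns_mono h3).trans (Ns_union_le _ _)).trans ?_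
    exact mul_le_mul_of_nonneg_left (le_self_pow₀ (one_le_Ns _) two_ne_zero) (Ns_pos _).le
  rw [vbphi, h1, h2, mul_pow, div_pow, mul_pow, Real.sq_sqrt hF.le, Real.sq_sqrt (Ns_pos _).le]
  calc _ ≤ ((nm d : ℝ) ^ 2) ^ 2 * Ns f / (Ns f * (nm d : ℝ) ^ 3) ^ 2 *
        (Ns (f ∩ r) * Ns (fac d ∩ r) ^ 2) := mul_le_mul_of_nonneg_left h4 (by positivity)
    _ = _ := by field_simp

/-- The index set of the non-squarefree parts. -/
def vbidx (U : ℝ) (J : ℕ) : Finset (E × ℕ × E) :=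
  ball 1 ×ˢ Finset.range (J + 1) ×ˢ (ball U).filter fun d => (3 : E) ∣ d - 1

theorem vb_mem_idx {U : ℝ} {J : ℕ} {i : E × ℕ × E} (h : i ∈ vbidx U J) :
    IsUnit i.1 ∧ (3 : E) ∣ i.2.2 - 1 := by
  obtain ⟨h1, h2⟩ := Finset.mem_product.1 h
  exact ⟨vb_unit h1, (Finset.mem_filter.1 (Finset.mem_product.1 h2).2).2⟩

theorem vb_exists {U : ℝ} {J : ℕ} (hJ : U < 2 ^ (J + 1)) {δ : E} (hδ : δ ∈ ball U)
    (hT : Tg δ ≠ 0) : ∃ x ∈ vbidx U J ×ˢ sqf U, vbel x = δ := by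
  obtain ⟨h0, hU⟩ := mem_ball.1 hδ
  obtain ⟨u, c, hu, hc, e⟩ := exists_unit_lam_primary h0
  have hc' : Tg c ≠ 0 := by
    intro h
    apply hT
    rw [← norm_eq_zero, e, norm_Tg_mul_free (primary_ne_zero hc) (vb_free hu _), h, norm_zero]
  obtain ⟨f, d, hd, rfl⟩ := Tg_decomp hc hc'
  have hle : ∀ y : E, y ∣ δ → (nm y : ℝ) ≤ U := fun y hy =>
    le_trans (by exact_mod_cast nm_le_of_dvd hy h0) hU
  refine ⟨((u, vp lam δ, d), f), Finset.mem_product.2 ⟨Finset.mem_product.2 ⟨?_,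
    Finset.mem_product.2 ⟨?_, Finset.mem_filter.2 ⟨mem_ball.2 ⟨primary_ne_zero hd, hle d ?_⟩, hd⟩⟩⟩,
    mem_sqf.2 (hle (pr f) ?_)⟩, e.symm⟩
  · exact mem_ball.2 ⟨hu.ne_zero, by rw [isUnit_iff.1 hu]; simp⟩
  · have h1 := pow_vp_le_nm (p := lam) h0
    rw [nm_lam] at h1
    have h2 : (2 : ℝ) ^ vp lam δ ≤ nm δ := by
      have h3 : 2 ^ vp lam δ ≤ nm δ := (Nat.pow_le_pow_left (by norm_num) _).trans h1
      exact_mod_cast h3
    exact Finset.mem_range.2 ((pow_lt_pow_iff_right₀ one_lt_two).1 ((h2.trans hU).trans_lt hJ))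
  · rw [e]
    exact ⟨u * lam ^ vp lam δ * (pr f * d ^ 2), by ring⟩
  · rw [e]
    exact ⟨u * lam ^ vp lam δ * d ^ 3, by ring⟩

theorem vb_inj {U : ℝ} {J : ℕ} {x y : (E × ℕ × E) × Finset P} (hx : x.1 ∈ vbidx U J)
    (hy : y.1 ∈ vbidx U J) (h : vbel x = vbel y) : x = y := by
  obtain ⟨h1, h2⟩ := vb_mem_idx hx
  obtain ⟨h3, h4⟩ := vb_mem_idx hy
  obtain ⟨e1, e2, e3⟩ := unit_lam_primary_unique h1 h3
    (primary_mul (pr_primary _) (primary_pow h2 3)) (primary_mul (pr_primary _) (primary_pow h4 3)) h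
  obtain ⟨e4, e5⟩ := decomp_unique h2 h4 e3
  exact Prod.ext (Prod.ext e1 (Prod.ext e2 e5)) e4

theorem vb_reindex {U : ℝ} {J : ℕ} (hJ : U < 2 ^ (J + 1)) {T : Finset E} (hT : T ⊆ ball U)
    {F : E → ℂ} (hF : ∀ δ ∈ T, Tg δ = 0 → F δ = 0) :
    ∑ δ ∈ T, F δ = ∑ i ∈ vbidx U J, ∑ f ∈ sqf U,
      if vbel (i, f) ∈ T then F (vbel (i, f)) else 0 := by
  rw [← Finset.sum_product' (f := fun i f => if vbel (i, f) ∈ T then F (vbel (i, f)) else 0),
    ← Finset.sum_filter]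
  refine (Finset.sum_of_injOn vbel (fun x hx y hy h => ?_) (fun x hx => ?_) (fun δ hδ h => ?_)
    fun _ _ => rfl).symm
  · exact vb_inj (Finset.mem_product.1 (Finset.mem_filter.1 hx).1).1
      (Finset.mem_product.1 (Finset.mem_filter.1 hy).1).1 h
  · exact (Finset.mem_filter.1 hx).2
  · refine hF δ hδ (by_contra fun h0 => h ?_)
    obtain ⟨x, hx, e⟩ := vb_exists hJ (hT hδ) h0
    exact ⟨x, Finset.mem_coe.2 (Finset.mem_filter.2 ⟨hx, by rw [e]; exact hδ⟩), e⟩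

theorem vb_key (h2 : QLS) {ε : ℝ} (hε : 0 < ε) : ∃ C : ℝ, 0 < C ∧
    ∀ (Z M U c : ℝ) (r : Finset P) (T : Finset E) (x : E → ℂ), 1 ≤ M → M ≤ Z → 1 ≤ U → Ns r ≤ Z →
      0 ≤ c → T ⊆ ball U → (∀ δ ∈ T, ‖x δ‖ ≤ c * vbphi r δ) →
      ∑ t ∈ sqo M, ‖∑ δ ∈ T, x δ * xs c2 t δ‖ ^ 2 ≤ C * c ^ 2 * (Z * U) ^ ε * (M + U) := by
  have hη : 0 < ε / 6 := by positivity
  obtain ⟨C1, hC1, hq⟩ := h2 _ hη
  obtain ⟨C2, hC2, hg1⟩ := gcd_sum_sqf hη
  obtain ⟨C3, hC3, hg2⟩ := gcd_sum_ball hη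
  obtain ⟨C4, hC4, hl⟩ := log_le_rpow hη
  refine ⟨(12 * C4 * C3) ^ 2 * (C1 * C2), by positivity, ?_⟩
  intro Z M U c r T x hM hMZ hU hr hc hT hx
  have hZ : 1 ≤ Z := hM.trans hMZ
  have hZU : 1 ≤ Z * U := one_le_mul_of_one_le_of_one_le hZ hU
  have hUZ : U ≤ Z * U := le_mul_of_one_le_left (by linarith) hZ
  have hrZ : Ns r ≤ Z * U := hr.trans (le_mul_of_one_le_right (by linarith) hU)
  obtain ⟨J, hJ1, hJ2⟩ := exists_dyadic hU
  obtain ⟨Y, hY⟩ : ∃ Y, Y = (Z * U) ^ (ε / 6) := ⟨_, rfl⟩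
  have hY0 : 0 < Y := by rw [hY]; positivity
  obtain ⟨A, hA⟩ : ∃ A, A = C1 * Y * (M + U) * (c ^ 2 * (C2 * Y)) := ⟨_, rfl⟩
  have hA0 : 0 ≤ A := by rw [hA]; positivity
  have hblock : ∀ i ∈ vbidx U J, √(∑ t ∈ sqo M, ‖∑ f ∈ sqf U,
      if vbel (i, f) ∈ T then x (vbel (i, f)) * xs c2 t (vbel (i, f)) else 0‖ ^ 2) ≤
      √A * (Ns (fac i.2.2 ∩ r) / nm i.2.2) := by
    rintro ⟨u, k, d⟩ hi
    obtain ⟨hu, hd⟩ := vb_mem_idx hi
    have hw : 0 ≤ Ns (fac d ∩ r) / nm d := div_nonneg (Ns_pos _).le (Nat.cast_nonneg _)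
    refine Real.sqrt_le_iff.2 ⟨mul_nonneg (Real.sqrt_nonneg _) hw, ?_⟩
    rw [mul_pow, Real.sq_sqrt hA0]
    obtain ⟨α, hα⟩ : ∃ α : Finset P → ℂ, α = fun f =>
      if vbel ((u, k, d), f) ∈ T then x (vbel ((u, k, d), f)) else 0 := ⟨_, rfl⟩
    have e1 : ∀ t ∈ sqo M, ‖∑ f ∈ sqf U, if vbel ((u, k, d), f) ∈ T then
        x (vbel ((u, k, d), f)) * xs c2 t (vbel ((u, k, d), f)) else 0‖ ^ 2 ≤
        ‖∑ f ∈ sqf U, α f * xs c2 t (pr f)‖ ^ 2 := fun t _ => by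
      have e2 : ∑ f ∈ sqf U, (if vbel ((u, k, d), f) ∈ T then
          x (vbel ((u, k, d), f)) * xs c2 t (vbel ((u, k, d), f)) else 0) =
          xs c2 t (u * lam ^ k * d ^ 3) * ∑ f ∈ sqf U, α f * xs c2 t (pr f) := by
        rw [Finset.mul_sum]
        refine Finset.sum_congr rfl fun f _ => ?_
        have e3 : vbel ((u, k, d), f) = u * lam ^ k * d ^ 3 * pr f := by
          change u * lam ^ k * (pr f * d ^ 3) = _
          ring
        have e4 : xs c2 t (vbel ((u, k, d), f)) =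
            xs c2 t (u * lam ^ k * d ^ 3) * xs c2 t (pr f) := by rw [e3, xs_mul ch_c2]
        rw [hα, e4]
        beta_reduce
        split_ifs <;> ring
      rw [e2, norm_mul]
      exact pow_le_pow_left₀ (by positivity)
        (mul_le_of_le_one_left (norm_nonneg _) (norm_xs_le ch_c2 _ _)) 2
    have e5 : ∑ f ∈ sqf U, ‖α f‖ ^ 2 ≤ c ^ 2 * (C2 * Y) * (Ns (fac d ∩ r) / nm d) ^ 2 := by
      calc _ ≤ ∑ f ∈ sqf U, c ^ 2 * (Ns (fac d ∩ r) / nm d) ^ 2 * (Ns (f ∩ r) / Ns f) := by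
            refine Finset.sum_le_sum fun f _ => ?_
            have h5 := vbphi_sq r hu hd k f
            have h6 : ‖α f‖ ≤ c * vbphi r (vbel ((u, k, d), f)) := by
              rw [hα]
              beta_reduce
              split_ifs with h
              · exact hx _ h
              · rw [norm_zero]; exact mul_nonneg hc (vbphi_nonneg _ _)
            calc _ ≤ (c * vbphi r (vbel ((u, k, d), f))) ^ 2 :=
                  pow_le_pow_left₀ (norm_nonneg _) h6 2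
              _ ≤ _ := by
                  rw [mul_pow, mul_assoc]
                  exact mul_le_mul_of_nonneg_left h5 (sq_nonneg _)
        _ ≤ c ^ 2 * (Ns (fac d ∩ r) / nm d) ^ 2 * (C2 * Y) := by
            rw [← Finset.mul_sum]
            refine mul_le_mul_of_nonneg_left ?_ (by positivity)
            rw [hY]
            refine le_trans (Finset.sum_le_sum_of_subset_of_nonneg (sqf_mono hUZ) fun f _ _ => ?_)
              (hg1 r _ hZU hrZ)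
            exact div_nonneg (Ns_pos _).le (Ns_pos _).le
        _ = _ := by ring
    have e6 : (M * U) ^ (ε / 6) ≤ Y := by
      rw [hY]
      exact Real.rpow_le_rpow (by positivity) (mul_le_mul_of_nonneg_right hMZ (by linarith)) hη.le
    calc _ ≤ _ := Finset.sum_le_sum e1
      _ ≤ _ := hq M U α hM hU
      _ ≤ C1 * Y * (M + U) * (c ^ 2 * (C2 * Y) * (Ns (fac d ∩ r) / nm d) ^ 2) := by gcongr
      _ = _ := by rw [hA]; ring
  have hsum : ∑ i ∈ vbidx U J, Ns (fac i.2.2 ∩ r) / nm i.2.2 ≤ 12 * (C4 * Y) * (C3 * Y) := by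
    have s1 : ∑ d ∈ (ball U).filter fun d => (3 : E) ∣ d - 1, Ns (fac d ∩ r) / nm d ≤ C3 * Y := by
      rw [hY]
      refine le_trans (Finset.sum_le_sum_of_subset_of_nonneg
        ((Finset.filter_subset _ _).trans (ball_mono hUZ)) fun f _ _ => ?_) (hg2 r _ hZU hrZ)
      exact div_nonneg (Ns_pos _).le (Nat.cast_nonneg _)
    have s2 : (J + 1 : ℝ) ≤ C4 * Y := by rw [hY]; exact hl _ J hZU (hJ1.trans hUZ)
    have s3 : ((ball 1).card : ℝ) ≤ 12 := by simpa using card_ball_le zero_le_one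
    have s4 : 0 ≤ ∑ d ∈ (ball U).filter fun d => (3 : E) ∣ d - 1, Ns (fac d ∩ r) / nm d :=
      Finset.sum_nonneg fun _ _ => div_nonneg (Ns_pos _).le (Nat.cast_nonneg _)
    rw [vbidx, Finset.sum_product]
    simp only [Finset.sum_product, Finset.sum_const, Finset.card_range, nsmul_eq_mul]
    push_cast
    rw [mul_assoc]
    gcongr
  have hre : ∀ t ∈ sqo M, ‖∑ δ ∈ T, x δ * xs c2 t δ‖ ^ 2 = ‖∑ i ∈ vbidx U J, ∑ f ∈ sqf U,
      if vbel (i, f) ∈ T then x (vbel (i, f)) * xs c2 t (vbel (i, f)) else 0‖ ^ 2 := fun t _ => by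
    rw [vb_reindex hJ2 hT (F := fun δ => x δ * xs c2 t δ) fun δ hδ h0 => ?_]
    have := hx δ hδ
    rw [vbphi, h0, norm_zero, zero_div, zero_mul, mul_zero, norm_le_zero_iff] at this
    rw [this, zero_mul]
  rw [Finset.sum_congr rfl hre]
  have hm := (minkowski (sqo M) (vbidx U J) fun t i => ∑ f ∈ sqf U,
    if vbel (i, f) ∈ T then x (vbel (i, f)) * xs c2 t (vbel (i, f)) else 0).trans
    (Finset.sum_le_sum hblock)
  rw [← Finset.mul_sum] at hm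
  have hm2 := hm.trans (mul_le_mul_of_nonneg_left hsum (Real.sqrt_nonneg _))
  have hm3 := (Real.sqrt_le_iff.1 hm2).2
  refine hm3.trans (le_of_eq ?_)
  have hY6 : (Z * U) ^ ε = Y ^ 6 := by
    rw [hY, ← Real.rpow_natCast, ← Real.rpow_mul (by positivity)]
    congr 1
    push_cast
    ring
  rw [mul_pow, Real.sq_sqrt hA0, hA, hY6]
  ring

end QRH
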