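import Vale.Agent.P026.Phi1
import Vale.Agent.P026.Stm1

noncomputable section
namespace QRH
open Complex MeasureTheory
open scoped ComplexConjugate Classical

/-- Dilation by `p ^ a`, extended by zero. -/
def lsD1 (p : P) (a : ℕ) (f : E → ℂ) (x : E) : ℂ :=
  if p.1 ^ a ∣ x then f (dv x (p.1 ^ a)) else 0

/-- Dilation in two variables. -/
def lsD (p : P) (a b : ℕ) (F : E → E → ℂ) (y x : E) : ℂ :=
  lsD1 p a (fun y' => lsD1 p b (F y') x) y

/-- The finite Fourier transform. -/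
def lsT (p : P) (u : E) (k : ℕ) (F : E → E → ℂ) (δ ξ : E) : ℂ :=
  rsum2 (p.1 ^ k) fun y x => F y x * psq p.1 (y * δ + 3 * x * ξ) (p.1 ^ k * u)

theorem ls_pk (p : P) (k : ℕ) : p.1 ^ k ≠ 0 := pow_ne_zero k p.ne_zero

theorem lsD1_mul (p : P) (a : ℕ) (f : E → ℂ) (x : E) : lsD1 p a f (p.1 ^ a * x) = f x := by
  unfold lsD1
  rw [if_pos (dvd_mul_right _ _), dv_mul (ls_pk p a)]

theorem lsD1_not {p : P} {a : ℕ} (f : E → ℂ) {x : E} (h : ¬ p.1 ^ a ∣ x) : lsD1 p a f x = 0 := by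
  unfold lsD1
  rw [if_neg h]

theorem lsD1_zero (p : P) (f : E → ℂ) (x : E) : lsD1 p 0 f x = f x := by
  have := lsD1_mul p 0 f x
  rwa [pow_zero, one_mul] at this

theorem lsD1_one_mul (p : P) (f : E → ℂ) (x : E) : lsD1 p 1 f (p.1 * x) = f x := by
  have := lsD1_mul p 1 f x
  rwa [pow_one] at this

theorem lsD1_one_not {p : P} (f : E → ℂ) {x : E} (h : ¬ p.1 ∣ x) : lsD1 p 1 f x = 0 :=
  lsD1_not f (by rwa [pow_one])

theorem lsD1_fun_zero (p : P) (a : ℕ) (x : E) : lsD1 p a (fun _ => 0) x = 0 := by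
  unfold lsD1
  split_ifs <;> rfl

theorem lsD1_smul (p : P) (a : ℕ) (c : ℂ) (f : E → ℂ) (x : E) :
    lsD1 p a (fun z => c * f z) x = c * lsD1 p a f x := by
  unfold lsD1
  split_ifs <;> simp

theorem lsD_smul (p : P) (a b : ℕ) (c : ℂ) (F : E → E → ℂ) (y x : E) :
    lsD p a b (fun y x => c * F y x) y x = c * lsD p a b F y x := by
  unfold lsD
  simp only [lsD1_smul]

theorem lsD1_per {p : P} {a m : ℕ} {f : E → ℂ} (hf : Per (p.1 ^ m) f) :
    Per (p.1 ^ (a + m)) (lsD1 p a f) := by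
  intro x y h
  rw [pow_add] at h
  by_cases hx : p.1 ^ a ∣ x
  · obtain ⟨x', rfl⟩ := hx
    have hy : p.1 ^ a ∣ y := by
      have := dvd_sub (dvd_mul_right (p.1 ^ a) x') (dvd_of_mul_right_dvd h)
      simpa using this
    obtain ⟨y', rfl⟩ := hy
    rw [lsD1_mul, lsD1_mul]
    rw [← mul_sub] at h
    exact hf _ _ ((mul_dvd_mul_iff_left (ls_pk p a)).mp h)
  · have hy : ¬ p.1 ^ a ∣ y := fun hy => hx (by
      have := dvd_add (dvd_of_mul_right_dvd h) hy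
      simpa using this)
    rw [lsD1_not f hx, lsD1_not f hy]

section
variable {p : P} {u : E} (hu : ¬ p.1 ∣ u)
include hu

theorem ls_vp (k : ℕ) : vp p.1 (p.1 ^ k * u) = k := (vp_up_eq p.2.1 hu k).1
theorem ls_up (k : ℕ) : up p.1 (p.1 ^ k * u) = u := (vp_up_eq p.2.1 hu k).2
theorem ls_u0 : u ≠ 0 := fun h => hu (h ▸ dvd_zero _)
theorem ls_c0 (k : ℕ) : p.1 ^ k * u ≠ 0 := mul_ne_zero (ls_pk p k) (ls_u0 hu)

theorem ls_per_psq (k : ℕ) (ξ : E) :
    Per (p.1 ^ k) fun x => psq p.1 (x * ξ) (p.1 ^ k * u) := by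
  intro x y h
  refine psq_congr ?_
  rw [ls_vp hu, ← sub_mul]
  exact h.mul_right _

theorem ls_scale (a k : ℕ) (A : E) :
    psq p.1 (p.1 ^ a * A) (p.1 ^ (a + k) * u) = psq p.1 A (p.1 ^ k * u) := by
  rw [pow_add, mul_assoc]
  exact psq_scale p.2.1 (ls_pk p a) (ls_c0 hu k) A

theorem ls_one (a b m : ℕ) {f : E → ℂ} (hf : Per (p.1 ^ m) f) (ξ : E) :
    rsum (p.1 ^ (a + (m + b))) (fun x => lsD1 p a f x * psq p.1 (x * ξ) (p.1 ^ (a + (m + b)) * u))
      = (nm p.1 : ℂ) ^ b * lsD1 p b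
          (fun ξ' => rsum (p.1 ^ m) fun x => f x * psq p.1 (x * ξ') (p.1 ^ m * u)) ξ := by
  have hf' : Per (p.1 ^ (m + b)) f := hf.mono (pow_dvd_pow _ (Nat.le_add_right m b))
  have hper := (lsD1_per (a := a) hf').mul (ls_per_psq hu (a + (m + b)) ξ)
  have e1 : p.1 ^ (a + (m + b)) = p.1 ^ a * p.1 ^ (m + b) := pow_add _ _ _
  have h1 := rsum_supp (ls_pk p a) (ls_pk p (m + b)) (e1 ▸ hper)
    (fun x hx => by rw [lsD1_not f hx, zero_mul])
  rw [← e1] at h1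
  rw [h1]
  have h2 : (fun y => lsD1 p a f (p.1 ^ a * y) *
      psq p.1 (p.1 ^ a * y * ξ) (p.1 ^ (a + (m + b)) * u)) =
      fun y => f y * psq p.1 (y * ξ) (p.1 ^ (m + b) * u) := by
    funext y
    rw [lsD1_mul, mul_assoc, ls_scale hu]
  rw [h2]
  have hper2 := hf'.mul (ls_per_psq hu (m + b) ξ)
  have e2 : p.1 ^ (m + b) = p.1 ^ m * p.1 ^ b := pow_add _ _ _
  have h3 := rsum_mul (ls_pk p m) (ls_pk p b) (e2 ▸ hper2)
  rw [← e2] at h3
  rw [h3]
  have h4 : ∀ x, rsum (p.1 ^ b) (fun y => f (x + p.1 ^ m * y) *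
      psq p.1 ((x + p.1 ^ m * y) * ξ) (p.1 ^ (m + b) * u)) =
      f x * psq p.1 (x * ξ) (p.1 ^ (m + b) * u) *
        if p.1 ^ b ∣ ξ then (nm p.1 : ℂ) ^ b else 0 := by
    intro x
    have h5 := rsum_psq p.2.1 (ls_c0 hu b) ξ
    rw [ls_vp hu] at h5
    rw [← h5, ← rsum_mul_left]
    congr 1
    funext y
    rw [hf (x + p.1 ^ m * y) x (by simp), add_mul, psq_add, mul_assoc (p.1 ^ m), ls_scale hu]
    ring
  simp only [h4]
  by_cases hξ : p.1 ^ b ∣ ξ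
  · obtain ⟨ξ', rfl⟩ := hξ
    rw [lsD1_mul, if_pos (dvd_mul_right _ _), rsum_mul_right, mul_comm]
    congr 2
    funext x
    rw [mul_left_comm, add_comm m b, ls_scale hu]
  · rw [lsD1_not _ hξ, if_neg hξ, rsum_mul_right, mul_zero, mul_zero]

omit hu in
theorem lsT_eq (k : ℕ) (F : E → E → ℂ) (δ ξ : E) :
    lsT p u k F δ ξ = rsum (p.1 ^ k) fun y =>
      rsum (p.1 ^ k) (fun x => F y x * psq p.1 (x * (3 * ξ)) (p.1 ^ k * u)) *
        psq p.1 (y * δ) (p.1 ^ k * u) := by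
  unfold lsT rsum2
  congr 1
  funext y
  rw [← rsum_mul_right]
  congr 1
  funext x
  beta_reduce
  rw [psq_add, show 3 * x * ξ = x * (3 * ξ) by ring]
  ring

omit hu in
theorem ls_rsum_zero (c : E) : rsum c (fun _ => 0) = 0 := by
  unfold rsum
  simp

theorem ls_two {a b a' b' m k : ℕ} (h1 : k = a + (m + b)) (h2 : k = a' + (m + b'))
    {F : E → E → ℂ} (hF : Per2 (p.1 ^ m) F) (δ ξ : E) :
    lsT p u k (lsD p a a' F) δ ξ = (nm p.1 : ℂ) ^ (b + b') * lsD p b b' (lsT p u m F) δ ξ := by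
  have hin : ∀ y, rsum (p.1 ^ k) (fun x => lsD p a a' F y x *
      psq p.1 (x * (3 * ξ)) (p.1 ^ k * u)) =
      lsD1 p a (fun y' => (nm p.1 : ℂ) ^ b' * lsD1 p b'
        (fun ξ' => rsum (p.1 ^ m) fun x => F y' x * psq p.1 (x * ξ') (p.1 ^ m * u)) (3 * ξ)) y := by
    intro y
    unfold lsD
    by_cases hy : p.1 ^ a ∣ y
    · obtain ⟨y', rfl⟩ := hy
      simp only [lsD1_mul]
      rw [h2]
      exact ls_one hu a' b' m (fun x x' h => hF _ _ _ _ (by simp) h) _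
    · simp only [lsD1_not _ hy, zero_mul, ls_rsum_zero]
  rw [lsT_eq]
  simp only [hin]
  rw [h1, ls_one hu a b m]
  · unfold lsD
    rw [pow_add, mul_assoc, ← lsD1_smul p b ((nm p.1 : ℂ) ^ b')]
    congr 2
    funext δ'
    by_cases hξ : p.1 ^ b' ∣ ξ
    · obtain ⟨ξ', rfl⟩ := hξ
      rw [lsD1_mul, lsT_eq, ← rsum_mul_left]
      congr 1
      funext y
      rw [mul_left_comm (3 : E), lsD1_mul]
      ring
    · have hξ' : ¬ p.1 ^ b' ∣ 3 * ξ := fun h => hξ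
        ((((isCoprime_prime p.2.1).mpr p.not_dvd_three).symm.pow_left).dvd_of_dvd_mul_left h)
      simp only [lsD1_not _ hξ, lsD1_not _ hξ', mul_zero, zero_mul, ls_rsum_zero]
  · intro y y' h
    have : ∀ x, F y x = F y' x := fun x => hF _ _ _ _ h (by simp)
    simp only [this]

end

theorem lsT_add (p : P) (u : E) (k : ℕ) (F G : E → E → ℂ) (δ ξ : E) :
    lsT p u k (fun y x => F y x + G y x) δ ξ = lsT p u k F δ ξ + lsT p u k G δ ξ := by
  unfold lsT rsum2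
  simp only [add_mul, rsum_add]

theorem lsT_sub (p : P) (u : E) (k : ℕ) (F G : E → E → ℂ) (δ ξ : E) :
    lsT p u k (fun y x => F y x - G y x) δ ξ = lsT p u k F δ ξ - lsT p u k G δ ξ := by
  unfold lsT rsum2
  simp only [sub_mul, rsum_sub]

theorem lsT_smul (p : P) (u : E) (k : ℕ) (c : ℂ) (F : E → E → ℂ) (δ ξ : E) :
    lsT p u k (fun y x => c * F y x) δ ξ = c * lsT p u k F δ ξ := by
  unfold lsT rsum2
  simp only [mul_assoc, rsum_mul_left]

/-- The generic term. -/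
def lsA (p : P) (u : E) (k a : ℕ) (y x : E) : ℂ :=
  c3 p y ^ a * psq p.1 (x ^ 3) (p.1 ^ k * u * y)

/-- Its restriction to units. -/
def lsB (p : P) (u : E) (k a : ℕ) (y x : E) : ℂ :=
  if ¬ p.1 ∣ y ∧ ¬ p.1 ∣ x then lsA p u k a y x else 0

/-- The twisted Gauss sum. -/
def lsG (p : P) (u : E) : ℂ := conj (c3 p u) * G3 p

/-- The local section. -/
def lsP (p : P) (u : E) (k : ℕ) : E → E → ℂ := phip p (p.1 ^ k * u)

theorem lsA_dvd {p : P} (u : E) (k a : ℕ) {y : E} (hy : p.1 ∣ y) (x : E) :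
    lsA p u k (a + 1) y x = 0 := by
  unfold lsA
  rw [(c3_mc p).zero y hy]
  simp

theorem ls_Tp_cube (p : P) {e : E} (he : e ≠ 0) (x : E) :
    Tp p (p.1 ^ 3 * e) x = (nm p.1 : ℂ) ^ 2 * lsD1 p 2 (Tp p e) x := by
  have h0 := not_dvd_up p.2.1 he
  have e1 : p.1 ^ 3 * e = p.1 ^ (vp p.1 e + 3) * up p.1 e := by
    conv_lhs => rw [← pow_vp_mul_up p.1 e]
    ring
  have hv : vp p.1 (p.1 ^ 3 * e) = vp p.1 e + 3 := by rw [e1, ls_vp h0]
  have hup : up p.1 (p.1 ^ 3 * e) = up p.1 e := by rw [e1, ls_up h0]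
  have d1 : (vp p.1 e + 3) % 3 = vp p.1 e % 3 := by omega
  have d2 : 2 * ((vp p.1 e + 3) / 3) = 2 + 2 * (vp p.1 e / 3) := by omega
  by_cases hx : p.1 ^ 2 ∣ x
  · obtain ⟨x', rfl⟩ := hx
    rw [lsD1_mul]
    unfold Tp
    rw [hv, hup, d1, d2, add_assoc, pow_add p.1 2, mul_dvd_mul_iff_left (ls_pk p 2)]
    split_ifs <;> ring
  · rw [lsD1_not _ hx, mul_zero]
    unfold Tp
    rw [hv, d2, if_pos]
    refine Or.inr fun h => hx (dvd_trans (pow_dvd_pow _ (by omega)) h)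

section
variable {p : P} {u : E} (hu : ¬ p.1 ∣ u)
include hu

theorem lsP_per (k : ℕ) : Per2 (p.1 ^ k) (lsP p u k) := by
  have := phip_per p (ls_c0 hu k)
  rwa [ls_vp hu] at this

theorem lsA_per (k a : ℕ) : Per2 (p.1 ^ (k + 1)) (lsA p u (k + 1) (a + 1)) := by
  intro y y' x x' hy hx
  have hy1 : p.1 ∣ y - y' := dvd_trans (dvd_pow_self _ (Nat.succ_ne_zero k)) hy
  by_cases h : p.1 ∣ y
  · have h' : p.1 ∣ y' := by simpa using dvd_sub h hy1
    rw [lsA_dvd u _ _ h, lsA_dvd u _ _ h']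
  · have h' : ¬ p.1 ∣ y' := fun h' => h (by simpa using dvd_add hy1 h')
    have n1 : ¬ p.1 ∣ u * y := fun h2 => (p.2.1.dvd_or_dvd h2).elim hu h
    have n2 : ¬ p.1 ∣ u * y' := fun h2 => (p.2.1.dvd_or_dvd h2).elim hu h'
    unfold lsA
    rw [(c3_mc p).per y y' hy1, mul_assoc, mul_assoc]
    congr 1
    refine psq_eq_of p.2.1 (ls_c0 n1 _) (ls_c0 n2 _) ?_
    rw [ls_vp n1, ls_vp n2, pow_add]
    have e : x ^ 3 * (p.1 ^ (k + 1) * (u * y')) - x' ^ 3 * (p.1 ^ (k + 1) * (u * y)) =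
        p.1 ^ (k + 1) * (u * ((x - x') * (x ^ 2 + x * x' + x' ^ 2) * y' - (y - y') * x' ^ 3)) := by
      ring
    rw [e]
    exact mul_dvd_mul_left _ (Dvd.dvd.mul_left
      (dvd_sub ((hx.mul_right _).mul_right _) (hy.mul_right _)) _)

theorem lsP_zero (y x : E) : lsP p u 0 y x = 1 := by
  unfold lsP
  exact phip_of_not_dvd (by simpa using hu) y x

theorem lsP_unit (k : ℕ) {y : E} (hy : ¬ p.1 ∣ y) (x : E) : lsP p u k y x = lsA p u k k y x := by
  unfold lsP lsA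
  rw [phip_of_le (ls_c0 hu k) (ls_u0 hy) (by rw [vp_of_not_dvd hy]; exact Nat.zero_le _),
    hs_unit_right hy, ls_vp hu, Tp_of_not_dvd hy, mul_one]

theorem ls_vp1 : vp p.1 (p.1 * u) = 1 := by
  have := ls_vp hu 1
  rwa [pow_one] at this

theorem ls_up1 : up p.1 (p.1 * u) = u := by
  have := ls_up hu 1
  rwa [pow_one] at this

theorem ls_Tp_one (x : E) : Tp p (p.1 * u) x = if p.1 ∣ x then lsG p u else 0 := by
  unfold Tp lsG
  rw [ls_vp1 hu, ls_up1 hu]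
  by_cases hx : p.1 ∣ x <;> simp [hx]

theorem ls_Tp_two (x : E) : Tp p (p.1 ^ 2 * u) x = 0 := by
  unfold Tp
  rw [ls_vp hu, if_pos (Or.inl rfl)]

theorem lsP_one (k : ℕ) {w : E} (hw : ¬ p.1 ∣ w) (x : E) :
    lsP p u (k + 1) (p.1 * w) x = if p.1 ∣ x then lsG p u * lsA p u (k + 2) (k + 3) w x else 0 := by
  unfold lsP lsA
  rw [phip_of_le (ls_c0 hu _) (mul_ne_zero p.ne_zero (ls_u0 hw))
    (by rw [ls_vp1 hw, ls_vp hu]; omega), ls_Tp_one hw]
  unfold hs lsG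
  rw [ls_vp1 hw, ls_up1 hw, ls_vp hu, ls_up hu, conj_c3 p w,
    show p.1 ^ (k + 1) * u * (p.1 * w) = p.1 ^ (k + 2) * u * w by ring]
  split_ifs <;> ring

theorem lsP_two (k : ℕ) {w : E} (hw : ¬ p.1 ∣ w) (x : E) :
    lsP p u (k + 2) (p.1 ^ 2 * w) x = 0 := by
  unfold lsP
  rw [phip_of_le (ls_c0 hu _) (ls_c0 hw 2) (by rw [ls_vp hw, ls_vp hu]; omega), ls_Tp_two hw,
    mul_zero]

theorem lsP_three (k : ℕ) (y x : E) :
    lsP p u (k + 3) (p.1 ^ 3 * y) x = (nm p.1 : ℂ) ^ 2 * lsD1 p 2 (lsP p u k y) x := by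
  have e : p.1 ^ (k + 3) * u = p.1 ^ 3 * (p.1 ^ k * u) := by ring
  unfold lsP
  by_cases hy : p.1 ^ k ∣ y
  · rw [phip_of_dvd (by rw [ls_vp hu, add_comm, pow_add]; exact mul_dvd_mul_left _ hy), e,
      ls_Tp_cube p (ls_c0 hu k)]
    congr 2
    funext z
    rw [phip_of_dvd (by rwa [ls_vp hu])]
  · have hy0 : y ≠ 0 := fun h => hy (h ▸ dvd_zero _)
    have hv : vp p.1 y ≤ k := by
      by_contra h
      exact hy ((pow_dvd_iff p.2.1 hy0 k).mpr (by omega))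
    have hv3 : vp p.1 (p.1 ^ 3 * y) = 3 + vp p.1 y := by
      rw [vp_mul p.2.1 (ls_pk p 3) hy0]
      have := ls_vp (p.not_dvd_unit isUnit_one) 3
      rw [mul_one] at this
      rw [this]
    rw [phip_of_le (ls_c0 hu _) (mul_ne_zero (ls_pk p 3) hy0) (by rw [hv3, ls_vp hu]; omega),
      ls_Tp_cube p hy0, e, hs_cube_left p (ls_c0 hu k) (mul_ne_zero (ls_pk p 3) hy0) p.ne_zero,
      hs_cube_right p (ls_c0 hu k) hy0 p.ne_zero]
    by_cases hx : p.1 ^ 2 ∣ x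
    · obtain ⟨x', rfl⟩ := hx
      rw [lsD1_mul, lsD1_mul, phip_of_le (ls_c0 hu k) hy0 (by rwa [ls_vp hu]),
        show (p.1 ^ 2 * x') ^ 3 = p.1 ^ 6 * x' ^ 3 by ring,
        show p.1 ^ 3 * (p.1 ^ k * u) * (p.1 ^ 3 * y) = p.1 ^ 6 * (p.1 ^ k * u * y) by ring,
        psq_scale p.2.1 (ls_pk p 6) (mul_ne_zero (ls_c0 hu k) hy0)]
      ring
    · rw [lsD1_not _ hx, lsD1_not _ hx]
      ring

theorem lsP_sq (k : ℕ) {y : E} (hy : p.1 ^ 2 ∣ y) (x : E) :
    lsP p u (k + 3) y x = (nm p.1 : ℂ) ^ 2 * lsD p 3 2 (lsP p u k) y x := by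
  unfold lsD
  by_cases h3 : p.1 ^ 3 ∣ y
  · obtain ⟨y', rfl⟩ := h3
    rw [lsD1_mul, lsP_three hu]
  · obtain ⟨w, rfl⟩ := hy
    have hw : ¬ p.1 ∣ w := fun h => h3 (by rw [pow_succ]; exact mul_dvd_mul_left _ h)
    rw [lsD1_not _ h3, mul_zero]
    exact lsP_two hu (k + 1) hw x

theorem lsA_scale (k a : ℕ) {y : E} (hy : ¬ p.1 ∣ y) (x : E) :
    lsA p u (k + 3) (a + 3) y (p.1 * x) = lsA p u k a y x := by
  unfold lsA
  rw [pow_add, c3_cube hy, mul_one, mul_pow,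
    show p.1 ^ (k + 3) * u * y = p.1 ^ 3 * (p.1 ^ k * u * y) by ring,
    psq_scale p.2.1 (ls_pk p 3) (mul_ne_zero (ls_c0 hu k) (ls_u0 hy))]

end

/-- The correction term. -/
def lsZ (p : P) (u : E) (m : ℕ) (w x : E) : ℂ :=
  lsG p u * lsA p u (m + 1) (m + 2) w x - lsP p u m (p.1 * w) x

section
variable {p : P} {u : E} (hu : ¬ p.1 ∣ u)
include hu

theorem lsZ_per (m : ℕ) : Per2 (p.1 ^ (m + 1)) (lsZ p u m) := by
  intro y y' x x' hy hx
  unfold lsZ
  have hd : p.1 ^ m ∣ p.1 ^ (m + 1) := pow_dvd_pow _ (Nat.le_succ m)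
  rw [lsA_per hu m (m + 1) y y' x x' hy hx, lsP_per hu m (p.1 * y) (p.1 * y') x x'
    (by rw [← mul_sub]; exact (hd.trans hy).mul_left _) (hd.trans hx)]

theorem ls_dec (m : ℕ) (y x : E) :
    lsP p u (m + 3) y x = lsB p u (m + 3) (m + 3) y x +
      (nm p.1 : ℂ) ^ 2 * lsD p 3 2 (lsP p u m) y x + lsD p 0 1 (lsP p u m) y x +
      lsD p 1 1 (lsZ p u m) y x := by
  by_cases hy : p.1 ∣ y
  · obtain ⟨w, rfl⟩ := hy
    have hB : lsB p u (m + 3) (m + 3) (p.1 * w) x = 0 := by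
      unfold lsB
      rw [if_neg fun h => h.1 (dvd_mul_right _ _)]
    rw [hB, zero_add]
    by_cases hw : p.1 ∣ w
    · rw [lsP_sq hu m (by rw [sq]; exact mul_dvd_mul_left _ hw)]
      unfold lsD
      rw [lsD1_zero, lsD1_one_mul]
      by_cases hx : p.1 ∣ x
      · obtain ⟨x', rfl⟩ := hx
        rw [lsD1_one_mul, lsD1_one_mul, lsZ, lsA_dvd u _ (m + 1) hw]
        ring
      · rw [lsD1_one_not _ hx, lsD1_one_not _ hx]
        ring
    · have h3 : ¬ p.1 ^ 3 ∣ p.1 * w := fun h => hw (by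
        rw [pow_succ', mul_dvd_mul_iff_left p.ne_zero] at h
        exact dvd_trans (dvd_pow_self _ two_ne_zero) h)
      rw [lsP_one hu (m + 2) hw]
      unfold lsD
      rw [lsD1_zero, lsD1_one_mul, lsD1_not _ h3]
      by_cases hx : p.1 ∣ x
      · obtain ⟨x', rfl⟩ := hx
        rw [lsD1_one_mul, lsD1_one_mul, lsZ, if_pos (dvd_mul_right _ _),
          show m + 2 + 2 = m + 1 + 3 by ring, lsA_scale hu _ _ hw]
        ring
      · rw [lsD1_one_not _ hx, lsD1_one_not _ hx, if_neg hx]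
        ring
  · have h3 : ¬ p.1 ^ 3 ∣ y := fun h => hy (dvd_trans (dvd_pow_self _ three_ne_zero) h)
    rw [lsP_unit hu _ hy]
    unfold lsD lsB
    rw [lsD1_zero, lsD1_one_not _ hy, lsD1_not _ h3]
    by_cases hx : p.1 ∣ x
    · obtain ⟨x', rfl⟩ := hx
      rw [lsD1_one_mul, if_neg fun h => h.2 (dvd_mul_right _ _), lsA_scale hu _ _ hy,
        lsP_unit hu _ hy]
      ring
    · rw [lsD1_one_not _ hx, if_pos ⟨hy, hx⟩]
      ring

theorem lsT_B (h2 : SPh) (k a : ℕ) (hk : 2 ≤ k) (δ ξ : E) :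
    lsT p u k (lsB p u k a) δ ξ = (nm p.1 : ℂ) ^ k * lsB p u k a δ ξ := by
  have := h2 p u δ ξ a k hu hk
  unfold lsT lsB lsA
  simp only [ite_mul, zero_mul, mul_ite, mul_zero]
  exact this

theorem lsT_zero (δ ξ : E) : lsT p u 0 (fun _ _ => 1) δ ξ = 1 := by
  have h : ¬ p.1 ∣ p.1 ^ 0 * u := by simpa using hu
  unfold lsT rsum2
  simp only [psq_of_not_dvd h, mul_one, rsum_const (ls_pk p 0)]
  simp [nm_one]

omit hu in
theorem ls_per_one (k : ℕ) : Per2 (p.1 ^ k) fun _ _ => (1 : ℂ) := fun _ _ _ _ _ _ => rfl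

theorem lsT_D_one (a b a' b' k : ℕ) (h1 : k = a + (0 + b)) (h2 : k = a' + (0 + b')) (δ ξ : E) :
    lsT p u k (lsD p a a' fun _ _ => 1) δ ξ =
      (nm p.1 : ℂ) ^ (b + b') * lsD p b b' (fun _ _ => 1) δ ξ := by
  rw [ls_two hu h1 h2 (ls_per_one 0)]
  have : lsT p u 0 (fun _ _ => 1) = fun _ _ => 1 := by
    funext δ ξ
    exact lsT_zero hu δ ξ
  rw [this]

theorem ls_gauss {f : E → ℂ} (hf : Mc p f) (hn : Nt p f) (δ : E) :
    rsum p.1 (fun y => f y * psq p.1 (y * δ) (p.1 * u)) =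
      conj (f δ) * (f u * rsum p.1 fun y => f y * psf y p.1) := by
  have ht := inv_spec ((isCoprime_prime p.2.1).mpr hu)
  generalize inv p.1 u = t at ht
  have h1 : ∀ A, psq p.1 A (p.1 * u) = psf (A * t) p.1 := by
    intro A
    have := psq_eq (q := p.1) (B := p.1 * u) (j := 1) (y := t) p.2.1 (by rw [pow_one]) hu
      (by rwa [pow_one]) A
    rwa [pow_one] at this
  simp only [h1, mul_assoc]
  rw [hf.gauss_twist hn, hf.mul, map_mul]
  have h2 : f u * f t = 1 := by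
    rw [← hf.mul, hf.per _ 1 ht, hf.one]
  have h3 : conj (f u) * conj (f t) = 1 := by
    rw [← map_mul, h2, map_one]
  have h4 : conj (f t) = f u := by
    have h5 := hf.mul_conj hu
    linear_combination (f u) * h3 - conj (f t) * h5
  rw [h4]
  ring

theorem ls_g1 (δ : E) :
    rsum p.1 (fun y => conj (c3 p y) * psq p.1 (y * δ) (p.1 * u)) = c3 p δ * lsG p u := by
  rw [ls_gauss hu (c3_mc p).conj (c3_nt p).conj]
  simp [lsG, G3]

omit hu in
theorem ls_conj_sq (y : E) : conj (c3 p y) ^ 2 = c3 p y := by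
  rw [conj_c3]
  by_cases hy : p.1 ∣ y
  · rw [(c3_mc p).zero y hy]; simp
  · linear_combination c3 p y * c3_cube hy

theorem ls_g2 (δ : E) :
    lsG p u * rsum p.1 (fun y => c3 p y * psq p.1 (y * δ) (p.1 * u)) =
      nm p.1 * c3 p δ ^ 2 := by
  rw [ls_gauss hu (c3_mc p) (c3_nt p), conj_c3 p δ]
  unfold lsG G3
  rw [(c3_mc p).gauss_conj, c3_neg_one]
  have h1 := (c3_mc p).gauss_norm (c3_nt p)
  generalize (rsum p.1 fun y => c3 p y * psf y p.1) = g at h1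
  have h2 : g * conj g = nm p.1 := by
    rw [Complex.mul_conj, Complex.normSq_eq_norm_sq, h1]
    simp
  have h3 := (c3_mc p).mul_conj hu
  linear_combination c3 p δ ^ 2 * (g * conj g) * h3 + c3 p δ ^ 2 * h2

omit hu in
theorem lsD_11_one (y x : E) :
    lsD p 1 1 (fun _ _ => 1) y x = if p.1 ∣ y ∧ p.1 ∣ x then 1 else 0 := by
  unfold lsD lsD1
  simp only [pow_one]
  by_cases hy : p.1 ∣ y <;> by_cases hx : p.1 ∣ x <;> simp [hy, hx]

omit hu in
theorem lsD_00 (F : E → E → ℂ) (y x : E) : lsD p 0 0 F y x = F y x := by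
  unfold lsD
  rw [lsD1_zero, lsD1_zero]

theorem lsT_A (h1 : Card1) (a : ℕ) (ha : a = 1 ∨ a = 2) (δ ξ : E) :
    lsT p u 1 (lsA p u 1 a) δ ξ = nm p.1 * lsA p u 1 a δ ξ +
      (nm p.1 * lsD p 1 1 (fun _ _ => 1) δ ξ - 1) *
        rsum p.1 (fun y => conj (c3 p y) ^ a * psq p.1 (y * 1) (p.1 * u)) := by
  have := h1 p u δ ξ a hu ha
  unfold lsT lsA
  simp only [pow_one, mul_one, lsD_11_one]
  split_ifs at this ⊢ <;> linear_combination this

theorem ls_k1 (h1 : Card1) (δ ξ : E) :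
    lsT p u 1 (lsP p u 1) δ ξ = (nm p.1 : ℂ) ^ 1 * lsP p u 1 δ ξ := by
  have hd : ∀ y x, lsP p u 1 y x = lsA p u 1 1 y x + lsG p u * lsD p 1 1 (fun _ _ => 1) y x := by
    intro y x
    rw [lsD_11_one]
    by_cases hy : p.1 ∣ y
    · rw [lsA_dvd u 1 0 hy]
      unfold lsP
      rw [phip_of_dvd (by rwa [ls_vp hu, pow_one]), pow_one, ls_Tp_one hu]
      simp [hy]
    · rw [lsP_unit hu _ hy]
      simp [hy]
  rw [show lsP p u 1 = fun y x => _ from funext₂ hd, lsT_add, lsT_smul, lsT_A hu h1 1 (Or.inl rfl),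
    lsT_D_one hu 1 0 1 0 1 rfl rfl, lsD_00]
  simp only [pow_one]
  rw [ls_g1 hu, (c3_mc p).one]
  ring

theorem lsT_fst (f : E → ℂ) (δ ξ : E) :
    lsT p u 1 (fun y _ => f y) δ ξ =
      nm p.1 * lsD1 p 1 (fun _ => rsum p.1 fun y => f y * psq p.1 (y * δ) (p.1 * u)) ξ := by
  rw [lsT_eq]
  have h5 := rsum_psq p.2.1 (ls_c0 hu 1) (3 * ξ)
  rw [ls_vp hu] at h5
  simp only [pow_one] at h5 ⊢
  simp only [rsum_mul_left, h5]
  by_cases hξ : p.1 ∣ ξ
  · obtain ⟨ξ', rfl⟩ := hξ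
    rw [lsD1_one_mul, if_pos (Dvd.dvd.mul_left (dvd_mul_right _ _) _), ← rsum_mul_left]
    congr 1
    funext y
    ring
  · rw [lsD1_one_not _ hξ, if_neg fun h => (p.2.1.dvd_or_dvd h).elim p.not_dvd_three hξ]
    simp [ls_rsum_zero]

theorem ls_k2 (h2 : SPh) (δ ξ : E) :
    lsT p u 2 (lsP p u 2) δ ξ = (nm p.1 : ℂ) ^ 2 * lsP p u 2 δ ξ := by
  have hd : ∀ y x, lsP p u 2 y x = lsB p u 2 2 y x + lsD p 0 1 (fun y _ => c3 p y ^ 2) y x +
      lsD p 1 1 (fun y _ => lsG p u * c3 p y) y x := by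
    intro y x
    unfold lsD lsB
    rw [lsD1_zero]
    beta_reduce
    by_cases hy : p.1 ∣ y
    · rw [(c3_mc p).zero y hy, if_neg fun h => h.1 hy]
      obtain ⟨w, rfl⟩ := hy
      rw [lsD1_one_mul, zero_pow two_ne_zero, lsD1_fun_zero]
      by_cases hw : p.1 ∣ w
      · rw [(c3_mc p).zero w hw, mul_zero, lsD1_fun_zero]
        unfold lsP
        rw [phip_of_dvd (by rw [ls_vp hu, sq]; exact mul_dvd_mul_left _ hw), ls_Tp_two hu]
        ring
      · rw [lsP_one hu 1 hw]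
        by_cases hx : p.1 ∣ x
        · obtain ⟨x', rfl⟩ := hx
          rw [lsD1_one_mul, if_pos (dvd_mul_right _ _), lsA_scale hu 0 1 hw]
          unfold lsA
          rw [psq_of_not_dvd (by
            rw [pow_zero, one_mul]; exact fun h => (p.2.1.dvd_or_dvd h).elim hu hw)]
          ring
        · rw [lsD1_one_not _ hx, if_neg hx]
          ring
    · rw [lsP_unit hu _ hy, lsD1_one_not _ hy]
      by_cases hx : p.1 ∣ x
      · obtain ⟨x', rfl⟩ := hx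
        rw [lsD1_one_mul, if_neg fun h => h.2 (dvd_mul_right _ _)]
        unfold lsA
        have n1 : ¬ p.1 ∣ u * y := fun h2 => (p.2.1.dvd_or_dvd h2).elim hu hy
        rw [psq_of_dvd (by
          rw [mul_assoc, ls_vp n1]; exact ⟨p.1 * x' ^ 3, by ring⟩)]
        ring
      · rw [lsD1_one_not _ hx, if_pos ⟨hy, hx⟩]
        ring
  have hA : Per2 (p.1 ^ 1) fun y _ => c3 p y ^ 2 := by
    intro y y' x x' hy _
    beta_reduce
    rw [(c3_mc p).per y y' (by simpa using hy)]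
  have hB : Per2 (p.1 ^ 1) fun y _ => lsG p u * c3 p y := by
    intro y y' x x' hy _
    beta_reduce
    rw [(c3_mc p).per y y' (by simpa using hy)]
  have eA : lsT p u 1 (fun y _ => c3 p y ^ 2) =
      fun δ ξ => nm p.1 * lsD1 p 1 (fun _ => lsG p u * c3 p δ) ξ := by
    funext δ ξ
    rw [lsT_fst hu]
    simp only [← conj_c3, ls_g1 hu, mul_comm (lsG p u)]
  have eB : lsT p u 1 (fun y _ => lsG p u * c3 p y) =
      fun δ ξ => (nm p.1 : ℂ) ^ 2 * lsD1 p 1 (fun _ => c3 p δ ^ 2) ξ := by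
    funext δ ξ
    rw [lsT_fst hu]
    simp only [mul_assoc, rsum_mul_left, ls_g2 hu, lsD1_smul]
    ring
  rw [show lsP p u 2 = fun y x => _ from funext₂ hd, lsT_add, lsT_add, lsT_B hu h2 2 2 le_rfl,
    ls_two hu (a := 0) (b := 1) (a' := 1) (b' := 0) rfl rfl hA,
    ls_two hu (a := 1) (b := 0) (a' := 1) (b' := 0) rfl rfl hB, eA, eB, lsD_smul, lsD_smul]
  unfold lsD
  simp only [lsD1_zero]
  ring

theorem ls_Z0 (h1 : Card1) (δ ξ : E) :
    lsT p u 1 (lsZ p u 0) δ ξ = (nm p.1 : ℂ) ^ 1 * lsZ p u 0 δ ξ := by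
  have hd : ∀ y x, lsZ p u 0 y x = lsG p u * lsA p u 1 2 y x - lsD p 0 0 (fun _ _ => 1) y x := by
    intro y x
    rw [lsZ, lsP_zero hu, lsD_00]
  rw [show lsZ p u 0 = fun y x => _ from funext₂ hd, lsT_sub, lsT_smul,
    lsT_A hu h1 2 (Or.inr rfl), lsT_D_one hu 0 1 0 1 1 rfl rfl]
  simp only [ls_conj_sq, lsD_00]
  have := ls_g2 hu 1
  rw [(c3_mc p).one] at this
  linear_combination (nm p.1 * lsD p 1 1 (fun _ _ => 1) δ ξ - 1) * this

theorem ls_Zdec (m : ℕ) {V : E → E → ℂ} (h0 : ∀ w x, ¬ p.1 ∣ w → V w x = 0)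
    (h1 : ∀ w x, p.1 ∣ w → V w x = lsP p u (m + 1) (p.1 * w) x) (w x : E) :
    lsZ p u (m + 1) w x = lsG p u * lsB p u (m + 2) (m + 3) w x - V w x := by
  unfold lsZ lsB
  by_cases hw : p.1 ∣ w
  · rw [h1 w x hw, lsA_dvd u _ _ hw, if_neg fun h => h.1 hw]
  · rw [h0 w x hw, lsP_one hu m hw]
    by_cases hx : p.1 ∣ x <;> simp [hw, hx]

theorem ls_Z (h1 : Card1) (h2 : SPh) (m : ℕ)
    (ih : ∀ n < m, ∀ δ ξ, lsT p u n (lsP p u n) δ ξ = (nm p.1 : ℂ) ^ n * lsP p u n δ ξ)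
    (δ ξ : E) :
    lsT p u (m + 1) (lsZ p u m) δ ξ = (nm p.1 : ℂ) ^ (m + 1) * lsZ p u m δ ξ := by
  match m, ih with
  | 0, _ => exact ls_Z0 hu h1 δ ξ
  | 1, _ =>
    have hd := ls_Zdec hu 0 (V := fun w x => lsG p u * lsD p 1 1 (fun _ _ => 1) w x)
      (fun w x hw => by simp [lsD_11_one, hw])
      (fun w x hw => by
        unfold lsP
        rw [phip_of_dvd (by rw [ls_vp hu]; simp), zero_add, pow_one, ls_Tp_one hu, lsD_11_one]
        simp [hw])
    rw [show lsZ p u 1 = fun y x => _ from funext₂ hd, lsT_sub, lsT_smul, lsT_smul,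
      lsT_B hu h2 _ _ le_rfl, lsT_D_one hu 1 1 1 1 2 rfl rfl]
    ring
  | 2, _ =>
    have hd := ls_Zdec hu 1 (V := fun _ _ => 0) (fun w x _ => rfl)
      (fun w x hw => by
        unfold lsP
        rw [phip_of_dvd (by rw [ls_vp hu, pow_succ', pow_one]; exact mul_dvd_mul_left _ hw),
          ls_Tp_two hu])
    simp only [sub_zero] at hd
    rw [show lsZ p u 2 = fun y x => _ from funext₂ hd, lsT_smul, lsT_B hu h2 _ _ (by omega)]
    ring
  | n + 3, ih =>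
    have hd := ls_Zdec hu (n + 2)
      (V := fun w x => (nm p.1 : ℂ) ^ 2 * lsD p 2 2 (lsP p u n) w x)
      (fun w x hw => by
        unfold lsD
        rw [lsD1_not _ fun h => hw (dvd_trans (dvd_pow_self _ two_ne_zero) h), mul_zero])
      (fun w x hw => by
        rw [lsP_sq hu n (by rw [sq]; exact mul_dvd_mul_left _ hw)]
        unfold lsD
        by_cases h : p.1 ^ 2 ∣ w
        · obtain ⟨w', rfl⟩ := h
          rw [lsD1_mul, ← mul_assoc, ← pow_succ', lsD1_mul]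
        · rw [lsD1_not _ h, lsD1_not _ fun h' => h (by
            rwa [pow_succ', mul_dvd_mul_iff_left p.ne_zero] at h')])
    rw [show lsZ p u (n + 3) = fun y x => _ from funext₂ hd, lsT_sub, lsT_smul, lsT_smul,
      lsT_B hu h2 _ _ (by omega),
      ls_two hu (a := 2) (b := 2) (a' := 2) (b' := 2) (by omega) (by omega) (lsP_per hu n),
      show lsT p u n (lsP p u n) = fun y x => _ from funext₂ (ih n (by omega)), lsD_smul]
    ring

theorem ls_main (h1 : Card1) (h2 : SPh) (k : ℕ) :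
    ∀ δ ξ, lsT p u k (lsP p u k) δ ξ = (nm p.1 : ℂ) ^ k * lsP p u k δ ξ := by
  induction k using Nat.strong_induction_on with
  | _ k ih =>
    match k, ih with
    | 0, _ =>
      intro δ ξ
      rw [show lsP p u 0 = fun _ _ => 1 from funext₂ (lsP_zero hu), lsT_zero hu]
      simp
    | 1, _ => exact ls_k1 hu h1
    | 2, _ => exact ls_k2 hu h2
    | m + 3, ih =>
      intro δ ξ
      rw [show lsP p u (m + 3) = fun y x => _ from funext₂ (ls_dec hu m), lsT_add, lsT_add,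
        lsT_add, lsT_smul, lsT_B hu h2 _ _ (by omega),
        ls_two hu (a := 3) (b := 0) (a' := 2) (b' := 1) (by omega) (by omega) (lsP_per hu m),
        ls_two hu (a := 0) (b := 3) (a' := 1) (b' := 2) (by omega) (by omega) (lsP_per hu m),
        ls_two hu (a := 1) (b := 1) (a' := 1) (b' := 1) (by omega) (by omega) (lsZ_per hu m),
        show lsT p u m (lsP p u m) = fun y x => _ from funext₂ (ih m (by omega)),
        show lsT p u (m + 1) (lsZ p u m) = fun y x => _ from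
          funext₂ (ls_Z hu h1 h2 m fun n hn => ih n (by omega)),
        lsD_smul, lsD_smul, lsD_smul]
      ring

end

theorem locS (h1 : Card1) (h2 : SPh) : LocS := by
  intro p c δ ξ hc
  have h := ls_main (not_dvd_up p.2.1 hc) h1 h2 (vp p.1 c) δ ξ
  unfold lsT lsP at h
  rwa [pow_vp_mul_up] at h

end QRH
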