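import Vale.Agent.P026.Cnt
import Vale.Agent.P026.Stm2

noncomputable section
namespace QRH
open Complex MeasureTheory Filter
open scoped ComplexConjugate Classical ContDiff Topology

theorem eu_fiber {α : Type} (q : α → Prop) (T : Finset α) (h : ∀ a, q a ↔ a ∈ T) (F : α → ℂ) :
    HasProd (fun c : {a // q a} => F c) (∏ a ∈ T, F a) := by
  obtain rfl : q = fun a => a ∈ T := funext fun a => propext (h a)
  exact T.hasProd F

/-- The quadratic character modulo 3. -/
def eu_chi3 : DirichletCharacter ℂ 3 := (quadraticChar (ZMod 3)).ringHomComp (Int.castRingHom ℂ)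

theorem eu_chi3_one {l : ℕ} (h : l % 3 = 1) : eu_chi3 (l : ZMod 3) = 1 := by
  rw [← ZMod.natCast_mod, h, Nat.cast_one, map_one]

theorem eu_chi3_two {l : ℕ} (h : l % 3 = 2) : eu_chi3 (l : ZMod 3) = -1 := by
  have h1 : quadraticChar (ZMod 3) ((2 : ℕ) : ZMod 3) = -1 :=
    quadraticChar_neg_one_iff_not_isSquare.2 (by
      rintro ⟨r, hr⟩
      revert r
      decide)
  rw [← ZMod.natCast_mod, h, eu_chi3, MulChar.ringHomComp_apply, h1]
  simp

theorem eu_twist {Q : ℕ} (χ : DirichletCharacter ℂ Q) (h3 : 3 ∣ Q) (l : ℕ) :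
    (χ * DirichletCharacter.changeLevel h3 eu_chi3) (l : ZMod Q) =
      χ l * eu_chi3 (l : ZMod 3) := by
  rw [MulChar.mul_apply]
  by_cases h : IsUnit (l : ZMod Q)
  · obtain ⟨u, hu⟩ := h
    rw [← hu, DirichletCharacter.changeLevel_eq_cast_of_dvd, hu, ZMod.cast_natCast h3]
  · rw [χ.map_nonunit h, zero_mul, zero_mul]

/-- The rational prime below a primary prime. -/
def eu_below (p : P) : Nat.Primes :=
  ⟨(nm p.1).minFac, Nat.minFac_prime (by have := p.four_le_nm; omega)⟩

theorem eu_cases {p : P} {l : Nat.Primes} (h : eu_below p = l) :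
    nm p.1 = l ∨ ((l : ℕ) % 3 = 2 ∧ p.1 = -((l : ℕ) : E)) := by
  have h0 : (nm p.1).minFac = l := congrArg Subtype.val h
  rcases p.nm_cases with ⟨h1, -⟩ | ⟨k, hk, h1, h2⟩
  · exact Or.inl (h1.minFac_eq.symm.trans h0)
  · rw [h2, nm_neg, nm_natCast, hk.pow_minFac two_ne_zero] at h0
    exact Or.inr ⟨h0 ▸ h1, h0 ▸ h2⟩

theorem eu_local {Q : ℕ} (χ : DirichletCharacter ℂ Q) (h3 : 3 ∣ Q) (z : ℂ) (l : Nat.Primes) :
    HasProd (fun c : {p // eu_below p = l} =>
      1 + -(χ (nm c.1.1 : ZMod Q) * (nm c.1.1 : ℂ) ^ (-z)))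
      ((1 - χ ((l : ℕ) : ZMod Q) * ((l : ℕ) : ℂ) ^ (-z)) *
        (1 - (χ * DirichletCharacter.changeLevel h3 eu_chi3) ((l : ℕ) : ZMod Q) *
          ((l : ℕ) : ℂ) ^ (-z))) := by
  have hl := l.2
  rw [eu_twist]
  have key := fun T h => eu_fiber (fun p => eu_below p = l) T h
    fun p => 1 + -(χ (nm p.1 : ZMod Q) * (nm p.1 : ℂ) ^ (-z))
  obtain h | h | h : (l : ℕ) % 3 = 0 ∨ (l : ℕ) % 3 = 1 ∨ (l : ℕ) % 3 = 2 := by omega
  · have e : (l : ℕ) = 3 :=
      ((Nat.prime_dvd_prime_iff_eq Nat.prime_three hl).1 (Nat.dvd_of_mod_eq_zero h)).symm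
    have h0 : χ ((l : ℕ) : ZMod Q) = 0 :=
      χ.map_nonunit (by rw [ZMod.isUnit_prime_iff_not_dvd hl, not_not, e]; exact h3)
    convert key ∅ fun p => ⟨fun hp => ?_, fun hp => absurd hp (Finset.notMem_empty p)⟩ using 1
    · simp [h0]
    · have := p.nm_mod
      rcases eu_cases hp with h1 | h1 <;> omega
  · obtain ⟨p0, hp0⟩ := exists_P_split hl h
    have hb : nm p0.bar.1 = l := (nm_star _).trans hp0
    have hne : p0 ≠ p0.bar := by
      rcases p0.nm_cases with ⟨-, h1⟩ | ⟨k, hk, -, h2⟩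
      · exact h1.symm
      · rw [h2, nm_neg, nm_natCast] at hp0
        exact absurd (hp0 ▸ hl) (Nat.Prime.not_prime_pow le_rfl)
    convert key {p0, p0.bar} fun p => ⟨fun hp => ?_, fun hp => ?_⟩ using 1
    · rw [Finset.prod_pair hne, hp0, hb, eu_chi3_one h]
      ring
    · rcases eu_cases hp with h1 | h1
      · have : p.1 ∣ (nm p0.1 : E) := by
          rw [hp0, ← h1, ← mul_star_eq]
          exact dvd_mul_right _ _
        simpa using P.eq_or_bar this
      · omega
    · refine Subtype.ext ?_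
      change (nm p.1).minFac = l
      rcases Finset.mem_insert.1 hp with rfl | hp
      · rw [hp0, hl.minFac_eq]
      · rw [Finset.mem_singleton.1 hp, hb, hl.minFac_eq]
  · obtain ⟨p0, hp0⟩ := exists_P_inert hl h
    have hn : nm p0.1 = l * l := by rw [hp0, nm_neg, nm_natCast, sq]
    convert key {p0} fun p => ⟨fun hp => ?_, fun hp => ?_⟩ using 1
    · rw [Finset.prod_singleton, hn, Nat.cast_mul, Nat.cast_mul, map_mul,
        natCast_mul_natCast_cpow, eu_chi3_two h]
      ring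
    · have := p.nm_mod
      rcases eu_cases hp with h1 | h1
      · omega
      · exact Finset.mem_singleton.2 (Subtype.ext (h1.2.trans hp0.symm))
    · refine Subtype.ext ?_
      change (nm p.1).minFac = l
      rw [Finset.mem_singleton.1 hp, hn, ← sq, hl.pow_minFac two_ne_zero]

theorem eu_term {Q : ℕ} (χ : DirichletCharacter ℂ Q) (z : ℂ) (s : Finset P) :
    ∏ p ∈ s, -(χ (nm p.1 : ZMod Q) * (nm p.1 : ℂ) ^ (-z)) =
      mu s * χ (nm (pr s)) * (Ns s : ℂ) ^ (-z) := by
  rw [Ns, Complex.ofReal_natCast]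
  induction s using Finset.induction_on with
  | empty => simp [mu_empty, pr_empty, nm_one]
  | insert p s hp ih =>
    rw [Finset.prod_insert hp, ih, pr_insert hp, nm_mul, Nat.cast_mul, Nat.cast_mul, map_mul,
      natCast_mul_natCast_cpow, mu, mu, Finset.card_insert_of_notMem hp]
    ring

theorem eu_ne {Q : ℕ} (χ : DirichletCharacter ℂ Q) {z : ℂ} (hz : 0 < z.re) {l : ℕ}
    (hl : l.Prime) : 1 - χ (l : ZMod Q) * (l : ℂ) ^ (-z) ≠ 0 := by
  intro h
  have h1 : ‖χ (l : ZMod Q) * (l : ℂ) ^ (-z)‖ < 1 := by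
    rw [norm_mul, norm_natCast_cpow_of_pos hl.pos, neg_re]
    exact (mul_le_of_le_one_left (by positivity) (χ.norm_le_one _)).trans_lt
      (Real.rpow_lt_one_of_one_lt_of_neg (by exact_mod_cast hl.one_lt) (by linarith))
  rw [← sub_eq_zero.1 h, norm_one] at h1
  exact lt_irrefl _ h1

theorem euler : Euler := by
  intro Q _ χ h3
  refine ⟨χ * DirichletCharacter.changeLevel h3 eu_chi3, fun z hz => ?_⟩
  have hs : Summable fun p : P => ‖-(χ (nm p.1 : ZMod Q) * (nm p.1 : ℂ) ^ (-z))‖ := by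
    refine (summable_P_rpow hz).of_nonneg_of_le (fun _ => norm_nonneg _) fun p => ?_
    rw [norm_neg, norm_mul, norm_natCast_cpow_of_pos (by have := p.four_le_nm; omega), neg_re]
    exact mul_le_of_le_one_left (by positivity) (χ.norm_le_one _)
  have h1 := hasProd_one_add_of_hasSum_prod (summable_finsetProd_of_summable_norm hs).hasSum
  simp only [eu_term] at h1
  have h2 := ((Equiv.sigmaFiberEquiv eu_below).hasProd_iff.2 h1).sigma (eu_local χ h3 z)
  have h4 := (h2.mul (χ.LSeries_eulerProduct_hasProd hz)).mul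
    ((χ * DirichletCharacter.changeLevel h3 eu_chi3).LSeries_eulerProduct_hasProd hz)
  rw [DirichletCharacter.LFunction_eq_LSeries _ hz, DirichletCharacter.LFunction_eq_LSeries _ hz]
  refine h4.unique ?_
  convert hasProd_one with l
  have a1 := eu_ne χ (z := z) (by linarith) l.2
  have a2 := eu_ne (χ * DirichletCharacter.changeLevel h3 eu_chi3) (z := z) (by linarith) l.2
  have key : ∀ A B : ℂ, A ≠ 0 → B ≠ 0 → A * B * A⁻¹ * B⁻¹ = 1 := fun A B hA hB => by field_simp
  exact key _ _ a1 a2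

end QRH
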