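import Vale.Agent.P026.Rearr
import Vale.Agent.P026.Wt

noncomputable section
namespace QRH
open Complex MeasureTheory Filter Set Asymptotics
open scoped ComplexConjugate Classical ContDiff Topology

theorem fin_cont (β : Finset P → ℂ) (z : ℂ) : ContinuousOn (fun x => S β x z) (Ioi 0) := by
  intro x hx
  have hx : (0 : ℝ) < x := hx
  have h1 : ContinuousAt (fun y : ℝ => ∑ s ∈ sqf (16 * (2 * x)), β s * wt (Ns s / y) z) x := by
    refine tendsto_finsetSum _ fun s _ => ContinuousAt.mul continuousAt_const ?_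
    have h2 : ContinuousAt (fun y : ℝ => Ns s / y) x := continuousAt_const.div continuousAt_id hx.ne'
    exact (continuous_V0.continuousAt.comp h2).mul
      ((continuousAt_ofReal_cpow_const _ z (Or.inr (div_pos (Ns_pos s) hx).ne')).comp h2)
  refine (h1.congr ?_).continuousWithinAt
  filter_upwards [Ioo_mem_nhds hx (by linarith : x < 2 * x)] with y hy
  exact (S_eq_sum hy.1 (sqf_mono (by linarith [hy.2])) β z).symm

theorem fin_term (g : ℝ → ℂ) {N : ℝ} (hN : 0 < N) (s : ℂ) :
    mellin (fun x => g (N / x)) (-s) = (N : ℂ) ^ (-s) * mellin g s := by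
  simp only [div_eq_mul_inv]
  rw [mellin_comp_inv fun u => g (N * u), neg_neg, mellin_comp_mul_left _ _ hN, smul_eq_mul]

theorem fin_conv {g : ℝ → ℂ} {N : ℝ} (hN : 0 < N) {s : ℂ} (h : MellinConvergent g s) :
    MellinConvergent (fun x => g (N / x)) (-s) := by
  have := (MellinConvergent.comp_rpow (f := fun u => g (N * u)) (s := -s) (a := -1)
    (by norm_num)).2 (by simpa using (MellinConvergent.comp_mul_left hN).2 h)
  simpa only [Real.rpow_neg_one, ← div_eq_mul_inv] using this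

theorem fin_norm (g : ℝ → ℂ) {N : ℝ} (hN : 0 < N) (s : ℂ) :
    ∫ x in Ioi (0 : ℝ), ‖(x : ℂ) ^ (-s - 1) • g (N / x)‖
      = N ^ (-s.re) * ‖mellin (fun y => (‖g y‖ : ℂ)) s.re‖ := by
  have h := congrArg norm (fin_term (fun y => (‖g y‖ : ℂ)) hN s.re)
  rw [norm_mul, norm_cpow_eq_rpow_re_of_pos hN, neg_re, ofReal_re] at h
  rw [← h, mellin, ← Real.norm_of_nonneg (integral_nonneg fun _ => norm_nonneg _), ← norm_real,
    ← integral_complex_ofReal]
  congr 1
  refine setIntegral_congr_fun measurableSet_Ioi fun x hx => ?_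
  have hx : (0 : ℝ) < x := hx
  simp only [norm_mul, norm_cpow_eq_rpow_re_of_pos hx, smul_eq_mul]
  rw [ofReal_mul, sub_re, neg_re, one_re]
  congr 1
  rw [show (-(s.re : ℂ) - 1) = ((-s.re - 1 : ℝ) : ℂ) by push_cast; ring, ← ofReal_cpow hx.le]

theorem fin_mellin {β : Finset P → ℂ} (hβ : ∀ t, ‖β t‖ ≤ 1) (z : ℂ) {s : ℂ} (hs : 1 < s.re) :
    mellin (fun x => S β x z) (-s)
      = (∑' t, β t * (Ns t : ℂ) ^ (-s)) * mellin V0 (s + z) := by
  have hw : (fun y => wt y z) = fun y : ℝ => (y : ℂ) ^ z • V0 y := by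
    ext y; rw [wt, smul_eq_mul, mul_comm]
  have hc : MellinConvergent (fun y => wt y z) s := by
    rw [hw]; exact MellinConvergent.cpow_smul.2 (mellinConvergent_V0 _)
  have hm : mellin (fun y => wt y z) s = mellin V0 (s + z) := by rw [hw, mellin_cpow_smul]
  have h1 := integral_tsum_of_summable_integral_norm (μ := volume.restrict (Ioi (0 : ℝ)))
    (F := fun (t : Finset P) (x : ℝ) => β t * ((x : ℂ) ^ (-s - 1) • wt (Ns t / x) z))
    (fun t => (fin_conv (Ns_pos t) hc).const_mul _) (by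
      refine ((summable_Ns_rpow hs).mul_right
        ‖mellin (fun y => (‖wt y z‖ : ℂ)) s.re‖).of_nonneg_of_le
        (fun t => integral_nonneg fun _ => norm_nonneg _) fun t => ?_
      simp only [norm_mul]
      rw [integral_const_mul, fin_norm (fun y => wt y z) (Ns_pos t)]
      exact mul_le_of_le_one_left (by have := Ns_pos t; positivity) (hβ t))
  rw [← tsum_mul_right, mellin]
  refine (setIntegral_congr_fun measurableSet_Ioi fun x hx => ?_).trans (h1.symm.trans ?_)
  · simp only [smul_eq_mul]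
    rw [S_eq_tsum hx, ← tsum_mul_left]
    exact tsum_congr fun t => mul_left_comm _ _ _
  · refine tsum_congr fun t => ?_
    rw [integral_const_mul, mul_assoc, ← hm, ← fin_term (fun y => wt y z) (Ns_pos t), mellin]

theorem fin_diff (β : Finset P → ℂ) (z : ℂ) {θ : ℝ}
    (h : (fun x => S β x z) =O[atTop] fun x : ℝ => x ^ θ) {s : ℂ} (hs : θ < s.re) :
    DifferentiableAt ℂ (fun s => mellin (fun x => S β x z) (-s)) s := by
  refine (mellin_differentiableAt_of_isBigO_rpow (a := -θ) (b := -s.re - 1)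
    ((fin_cont β z).locallyIntegrableOn measurableSet_Ioi) (by simpa using h) (by simpa using hs)
    ?_ (by simp)).comp s differentiableAt_id.neg
  refine (isBigO_zero _ _).congr' ?_ EventuallyEq.rfl
  filter_upwards [nhdsWithin_le_nhds (Iio_mem_nhds (by norm_num : (0 : ℝ) < 1 / 16))] with x hx
  exact (S_eq_zero (by linarith [mem_Iio.1 hx]) β z).symm

theorem fin_big {Q : ℕ} [NeZero Q] {θ : ℝ} (h : MoB Q θ) (χ : DirichletCharacter ℂ Q) (τ : ℝ) :
    (fun x => S (fun t => mu t * χ (nm (pr t))) x (τ * I)) =O[atTop] fun x : ℝ => x ^ θ := by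
  have hQ : (Q : E) ≠ 0 := Nat.cast_ne_zero.2 (NeZero.ne Q)
  have h1 : ∀ t, mu t * χ (nm (pr t)) = ∑ a ∈ reps Q, χ (nm a) * (cl Q a t * mu t) := by
    intro t
    obtain ⟨r, hr, hd⟩ := exists_rep hQ (pr t)
    rw [Finset.sum_eq_single_of_mem r hr, cl, if_pos hd, one_mul, mul_comm]
    · congr 2
      rw [← Int.cast_natCast, ← Int.cast_natCast (nm r), ZMod.intCast_eq_intCast_iff_dvd_sub,
        ← dvd_neg, neg_sub]
      exact nm_sub_dvd Q rfl hd
    · intro a ha hne
      rw [cl, if_neg, zero_mul, mul_zero]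
      exact fun hh => hne (rep_unique hQ ha hr (by simpa using hd.sub hh))
  have h2 : ∀ x, S (fun t => mu t * χ (nm (pr t))) x (τ * I)
      = ∑ a ∈ reps Q, χ (nm a) * S (fun t => cl Q a t * mu t) x (τ * I) := by
    intro x
    simp only [S, h1, Finset.sum_mul, Finset.mul_sum, mul_assoc]
    exact Finset.sum_comm
  simp only [h2]
  refine IsBigO.fun_sum fun a _ => ?_
  by_cases ha : IsUnit (nm a : ZMod Q)
  · have hc : IsCoprime a Q :=
      (Nat.Coprime.cast ((ZMod.isUnit_iff_coprime _ _).1 ha)).of_isCoprime_of_dvd_left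
        ⟨_, (mul_star_eq a).symm⟩
    obtain ⟨C, hC⟩ := h a τ hc
    refine IsBigO.const_mul_left (IsBigO.of_bound C ?_) _
    filter_upwards [eventually_ge_atTop 1] with x hx
    rw [Real.norm_of_nonneg (by positivity)]
    exact hC x hx
  · simp only [χ.map_nonunit ha, zero_mul]
    exact isBigO_zero _ _

theorem fin_entire {Q : ℕ} [NeZero Q] (χ : DirichletCharacter ℂ Q) :
    ∃ Z : ℂ → ℂ, Differentiable ℂ Z ∧ ∀ s, s ≠ 1 → Z s = (s - 1) * χ.LFunction s := by
  by_cases h : χ = 1
  · subst h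
    exact ⟨_, DirichletCharacter.differentiable_LFunctionTrivChar₁ Q,
      fun s hs => Function.update_of_ne hs ..⟩
  · exact ⟨_, (differentiable_id.sub_const 1).mul (DirichletCharacter.differentiable_LFunction h),
      fun _ _ => rfl⟩

theorem fin_main (hE : Euler) {Q : ℕ} [NeZero Q] (h3 : 3 ∣ Q) {θ : ℝ} (h : MoB Q θ)
    (χ : DirichletCharacter ℂ Q) {s : ℂ} (hs : θ < s.re) (h0 : 0 < s.re) (h1 : s ≠ 1) :
    χ.LFunction s ≠ 0 := by
  intro hz
  obtain ⟨χ', hχ⟩ := hE Q χ h3
  obtain ⟨Z, dZ, hZ⟩ := fin_entire χ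
  obtain ⟨Z', dZ', hZ'⟩ := fin_entire χ'
  set τ : ℝ := -s.im with hτ
  have hd : DifferentiableOn ℂ (fun w => mellin (fun x => S (fun t => mu t * χ (nm (pr t))) x
      (τ * I)) (-w) * Z w * Z' w) {w | θ < w.re} := fun w hw =>
    (((fin_diff _ _ (fin_big h χ τ) hw).mul (dZ w)).mul (dZ' w)).differentiableWithinAt
  have hd' : Differentiable ℂ fun w => (w - 1) ^ 2 * mellin V0 (w + τ * I) :=
    ((differentiable_id.sub_const 1).pow 2).mul
      (differentiable_mellin_V0.comp (differentiable_id.add_const _))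
  have ho : IsOpen {w : ℂ | θ < w.re} := isOpen_lt continuous_const continuous_re
  have key := (hd.analyticOnNhd ho).eqOn_of_preconnected_of_eventuallyEq
    (hd'.differentiableOn.analyticOnNhd ho) (convex_halfSpace_re_gt θ).isPreconnected
    (z₀ := s + 1) (by simp only [mem_ofPred_eq, add_re, one_re]; linarith) (by
      filter_upwards [(isOpen_lt continuous_const continuous_re).mem_nhds
        (show 1 < (s + 1).re by simpa using h0)] with w hw
      have hw1 : w ≠ 1 := by rintro rfl; simp at hw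
      rw [fin_mellin (fun t => by rw [norm_mul, norm_mu, one_mul]; exact χ.norm_le_one _) _ hw,
        hZ w hw1, hZ' w hw1]
      linear_combination (w - 1) ^ 2 * mellin V0 (w + τ * I) * hχ w hw) hs
  simp only [hZ s h1, hz, mul_zero, zero_mul] at key
  refine mul_ne_zero (pow_ne_zero 2 (sub_ne_zero.2 h1)) ?_ key.symm
  rw [show s + τ * I = (s.re : ℂ) by apply Complex.ext <;> simp [hτ]]
  exact mellin_V0_ne _

theorem zero_free (hE : Euler)
    (h : ∀ Q k : ℕ, GoodQ Q k → ∀ θ : ℝ, 11 / 12 < θ → MoB Q θ)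
    (q : ℕ) [NeZero q] (χ : DirichletCharacter ℂ q) (s : ℂ) (hs : 11 / 12 < s.re) (h1 : s ≠ 1) :
    χ.LFunction s ≠ 0 := by
  obtain ⟨b, q1, hq1, hq⟩ := Nat.exists_eq_pow_mul_and_not_dvd (NeZero.ne q) 3 (by norm_num)
  have hG : GoodQ (27 ^ (b + 1) * (8 * q1)) (b + 1) :=
    ⟨by omega, _, rfl, Nat.Coprime.mul_left (by norm_num)
      ((Nat.Prime.coprime_iff_not_dvd Nat.prime_three).2 hq1).symm, dvd_mul_right _ _⟩
  have : NeZero (27 ^ (b + 1) * (8 * q1)) := ⟨hG.ne_zero⟩
  have hd : q ∣ 27 ^ (b + 1) * (8 * q1) := by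
    rw [hq]
    exact mul_dvd_mul ((pow_dvd_pow_of_dvd (by norm_num) b).trans (pow_dvd_pow _ b.le_succ))
      (dvd_mul_left _ _)
  obtain ⟨θ, h2, h3⟩ := exists_between hs
  have := fin_main hE (((by norm_num : 3 ∣ 72)).trans hG.dvd72) (h _ _ hG θ h2)
    (DirichletCharacter.changeLevel hd χ) h3 (by linarith) h1
  rw [DirichletCharacter.LFunction_changeLevel hd χ (Or.inr h1)] at this
  exact left_ne_zero_of_mul this

end QRH
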