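import Vale.Agent.P026.Phi1
import Vale.Agent.P026.HD
import Vale.Agent.P026.HOne

noncomputable section
namespace QRH
open Complex MeasureTheory
open scoped ComplexConjugate Classical

theorem g6_xs_c3_neg_one (s : Finset P) : xs c3 s (-1) = 1 :=
  Finset.prod_eq_one fun p _ => c3_neg_one p

theorem g6_xs_c6_neg_one (s : Finset P) : xs c6 s (-1) = xs c2 s (-1) := by
  rw [xs_c6, g6_xs_c3_neg_one, one_pow, one_mul]

theorem g6_conj_xs_c3 (s : Finset P) (n : E) : conj (xs c3 s n) = xs c3 s n ^ 2 := by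
  simp only [xs, map_prod, conj_c3, Finset.prod_pow]

theorem rec_c6 (h : CubRec) (h2 : Rec c2) : Rec c6 := by
  intro c c' hd hc hc' h4
  have h1 := h2 c c' hd hc hc' h4
  have hA : xs c3 c' (pr c) = xs c3 c (pr c') := by
    rw [← xv_pr, ← xv_pr]
    exact xv_c3_recip h (pr_primary _) (pr_primary _)
  have hn : xs c3 c (pr c') * conj (xs c3 c (pr c')) = 1 := by
    rw [xs_mul_conj ch_c3, if_pos]
    intro p hp hp'
    exact Finset.disjoint_left.1 hd hp (dvd_pr_iff.1 hp')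
  rw [g6_xs_c6_neg_one, xs_c6, xs_c6, hA, map_mul, map_pow]
  calc _ = (xs c3 c (pr c') * conj (xs c3 c (pr c'))) ^ 2 *
        (xs c2 c (pr c') * conj (xs c2 c' (pr c)) * xs c2 c' (-1)) := by ring
    _ = 1 := by rw [hn, h1]; ring

theorem rec6 (h : CubRec) (h2 : QRec) : Rec6 := by
  obtain ⟨sg, h1, h3, h4⟩ := h2
  refine ⟨sg, h1, h3, fun c n hc hn hc2 hn2 => ?_⟩
  rw [xv_c6, xv_c6, h4 c n hc hn hc2 hn2, xv_c3_recip h hc hn]
  ring

theorem neg6 (h : QPer) : Neg6 := by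
  intro s t hs _ h4
  rw [g6_xs_c6_neg_one, g6_xs_c6_neg_one, ← xv_pr, ← xv_pr]
  refine h (-1) _ _ (by norm_num) (pr_primary _) (pr_primary _) ?_ ?_
  · rw [mul_neg_one]
    exact (odd_iff_coprime.1 hs).symm.neg_right
  · rwa [mul_neg_one, neg_dvd]

/-- The identity between the three Gauss sums. -/
def G6Id (s : Finset P) : Prop :=
  mu s * gs c6 s * (Ns s : ℝ) = conj (xs c6 s 4) * gs c2 s * conj (gs c3 s) * toC (pr s)

theorem g6_id_single (h2 : G3Cube) {p : P} (hp : ¬ p.1 ∣ 2) : G6Id {p} := by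
  have h1 := hasse_davenport hp
  have h3 := h2 p
  have h4 : gs c3 {p} * conj (gs c3 {p}) = toC p.1 * conj (toC p.1) := by
    rw [mul_conj, mul_conj, normSq_eq_norm_sq, normSq_eq_norm_sq,
      norm_gs ch_c3 (fun q _ => c3_nt q), pr_singleton]
  have h5 : ((Ns {p} : ℝ) : ℂ) = toC p.1 * conj (toC p.1) := by
    rw [mul_conj, normSq_eq_norm_sq, Ns_eq, pr_singleton]
  have h6 : gs c3 {p} ≠ 0 := by
    rw [← norm_ne_zero_iff, norm_gs ch_c3 (fun q _ => c3_nt q), norm_ne_zero_iff]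
    exact toC_ne_zero (pr_ne_zero _)
  have h7 : gs c3 {p} ^ 2 = -(toC p.1 * conj (gs c3 {p})) := by
    apply mul_left_cancel₀ h6
    linear_combination h3 + toC p.1 * h4
  have h8 : xs c6 {p} 4 = c6 p 4 := Finset.prod_singleton _ _
  have h9 : mu {p} = -1 := by simp [mu]
  rw [G6Id, h5, h8, h9, pr_singleton, ← h4]
  linear_combination (-gs c3 {p}) * h1 - conj (c6 p 4) * gs c2 {p} * h7

theorem g6_id_union {s t : Finset P} (hd : Disjoint s t) (hs : G6Id s) (ht : G6Id t) :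
    G6Id (s ∪ t) := by
  unfold G6Id at *
  rw [mu_union hd, gs_union ch_c6 hd, gs_union ch_c2 hd, gs_union ch_c3 hd, Ns_union hd,
    xs_union hd, pr_union hd, xs_c6 s (pr t), xs_c6 t (pr s)]
  simp only [map_mul, g6_conj_xs_c3]
  push_cast
  calc _ = (xs c3 s (pr t) ^ 2 * xs c2 s (pr t) * (xs c3 t (pr s) ^ 2 * xs c2 t (pr s))) *
        ((mu s * gs c6 s * (Ns s : ℝ)) * (mu t * gs c6 t * (Ns t : ℝ))) := by ring
    _ = _ := by rw [hs, ht]; ring

theorem g6_id (h2 : G3Cube) (s : Finset P) (hs : Odd' s) : G6Id s := by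
  induction s using Finset.induction_on with
  | empty => simp [G6Id, mu_empty, gs_empty, Ns_empty, xs_empty, pr_empty]
  | insert p s hp ih =>
    rw [Finset.insert_eq]
    exact g6_id_union (Finset.disjoint_singleton_left.2 hp)
      (g6_id_single h2 (hs p (Finset.mem_insert_self _ _)))
      (ih fun q hq => hs q (Finset.mem_insert_of_mem hq))

theorem g6_xs_four (h : CubRec) (s : Finset P) : xs c6 s 4 = c3 pTwo (pr s) := by
  have h1 : xs c6 s 4 = xs c3 s pTwo.1 := by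
    refine Finset.prod_congr rfl fun p _ => ?_
    rw [show (4 : E) = pTwo.1 ^ 2 by change (4 : E) = (-2) ^ 2; norm_num, (c6_mc p).map_pow, c6_sq]
  rw [h1, ← xv_pr, xv_c3_recip h (pr_primary s) pTwo.2.2, xv_prime]

theorem muGam (h : CubRec) (h2 : G3Cube) (h3 : QGam) : MuGam := by
  let f : Finset P → ℂ := fun s => conj (xs c6 s 4) * gam c2 s
  have hf : ∀ s t, Odd' s → Odd' t → (4 : E) ∣ pr s - pr t → f s = f t := by
    intro s t hs ht h4
    simp only [f]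
    rw [h3 s t hs ht h4, g6_xs_four h, g6_xs_four h,
      (c3_mc pTwo).per _ _ (Dvd.dvd.trans ⟨-2, by change (4 : E) = -2 * -2; norm_num⟩ h4)]
  have hn : ∀ s, Odd' s → ‖f s‖ = 1 := by
    intro s hs
    simp only [f]
    rw [norm_mul, RCLike.norm_conj, norm_gam ch_c2 (fun p hp => c2_nt (hs p hp)), norm_xs ch_c6, mul_one]
    intro p hp h4
    exact hs p hp (p.2.1.dvd_of_dvd_pow (n := 2) (by rwa [show (2 : E) ^ 2 = 4 by norm_num]))
  refine ⟨fun a => if h : ∃ s, Odd' s ∧ (4 : E) ∣ pr s - a then f h.choose else 1, ?_, ?_, ?_⟩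
  · intro x y hxy
    have hi : (∃ s, Odd' s ∧ (4 : E) ∣ pr s - x) ↔ ∃ s, Odd' s ∧ (4 : E) ∣ pr s - y := by
      constructor
      · rintro ⟨s, hs, h4⟩
        exact ⟨s, hs, by simpa using dvd_add h4 hxy⟩
      · rintro ⟨s, hs, h4⟩
        exact ⟨s, hs, by simpa using dvd_sub h4 hxy⟩
    by_cases hx : ∃ s, Odd' s ∧ (4 : E) ∣ pr s - x
    · have hy := hi.1 hx
      simp only [dif_pos hx, dif_pos hy]
      refine hf _ _ hx.choose_spec.1 hy.choose_spec.1 ?_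
      have := dvd_sub (dvd_add hx.choose_spec.2 hxy) hy.choose_spec.2
      simpa using this
    · simp only [dif_neg hx, dif_neg (mt hi.2 hx)]
  · intro a
    by_cases hx : ∃ s, Odd' s ∧ (4 : E) ∣ pr s - a
    · simp only [dif_pos hx]
      exact hn _ hx.choose_spec.1
    · simp only [dif_neg hx, norm_one]
  · intro s hs
    have hx : ∃ t, Odd' t ∧ (4 : E) ∣ pr t - pr s := ⟨s, hs, by simp⟩
    simp only [dif_pos hx]
    rw [hf _ _ hx.choose_spec.1 hs hx.choose_spec.2, Tg_pr]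
    have h1 := g6_id h2 s hs
    have hN : ((Ns s : ℝ) : ℂ) ≠ 0 := ofReal_ne_zero.2 (Ns_pos s).ne'
    have hr : ((‖toC (pr s)‖ : ℝ) : ℂ) ≠ 0 :=
      ofReal_ne_zero.2 (norm_ne_zero_iff.2 (toC_ne_zero (pr_ne_zero s)))
    unfold G6Id at h1
    simp only [f, gam]
    field_simp
    linear_combination h1

theorem g6_quad (h2 : QPer) {Q a c : E} (h72 : (72 : E) ∣ Q) (hc : IsCoprime c Q)
    (ha3 : (3 : E) ∣ a - 1) (hc3 : (3 : E) ∣ c - 1) (hca : Q ∣ c - a) {x : E} (hx : x ≠ 0) :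
    (∀ p : P, p.1 ∣ x → p.1 ∣ Q) → xv c2 c x = xv c2 a x := by
  have key : ∀ t : E, t ≠ 0 → 4 * t ∣ Q → xv c2 c t = xv c2 a t := by
    intro t ht h4
    refine h2 t c a ht hc3 ha3 (hc.of_isCoprime_of_dvd_right ?_) (h4.trans hca)
    exact Dvd.dvd.trans ⟨2, by ring⟩ h4
  have h4 : (4 : E) ∣ Q := Dvd.dvd.trans ⟨18, by norm_num⟩ h72
  refine induction_nz (M := fun x => (∀ p : P, p.1 ∣ x → p.1 ∣ Q) → xv c2 c x = xv c2 a x)
    ?_ ?_ ?_ hx
  · intro u hu _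
    exact key u hu.ne_zero ((hu.mul_right_dvd).2 h4)
  · intro x _ ih hp
    rw [xv_mul ch_c2, xv_mul ch_c2, ih fun p h => hp p (h.mul_left _), key lam lam_prime.ne_zero]
    exact (mul_dvd_mul_left 4 lam_dvd_three).trans (Dvd.dvd.trans ⟨6, by norm_num⟩ h72)
  · intro q x _ ih hp
    rw [xv_mul ch_c2, xv_mul ch_c2, ih fun p h => hp p (h.mul_left _), key q.1 q.ne_zero]
    by_cases hq : q.1 ∣ 2
    · exact (mul_dvd_mul_left 4 hq).trans (Dvd.dvd.trans ⟨9, by norm_num⟩ h72)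
    · refine IsCoprime.mul_dvd ?_ h4 (hp q (dvd_mul_right _ _))
      rw [isCoprime_prime q.2.1]
      intro h
      exact hq (q.2.1.dvd_of_dvd_pow (n := 2) (by rwa [show (2 : E) ^ 2 = 4 by norm_num]))

theorem g6_not_both {Q c x : E} (hc : IsCoprime c Q) (hp : ∀ p : P, p.1 ∣ x → p.1 ∣ Q) (p : P) :
    ¬ (p.1 ∣ c ∧ p.1 ∣ x) := fun h => (isCoprime_iff.1 hc).2 p ⟨h.1, hp p h.2⟩

theorem g6_cub (h : CubRec) {Q a c : E} (h72 : (72 : E) ∣ Q) (ha : IsCoprime a Q)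
    (hc : IsCoprime c Q) (ha3 : (3 : E) ∣ a - 1) (hc3 : (3 : E) ∣ c - 1) (hca : Q ∣ c - a) {x : E}
    (hx : x ≠ 0) (hp : ∀ p : P, p.1 ∣ x → p.1 ∣ Q) : xv c3 c x = xv c3 a x := by
  have ha0 := primary_ne_zero ha3
  have hc0 := primary_ne_zero hc3
  have h1 := (hCongr h a c x ha0 hx (by
    rw [vp_of_not_dvd (not_lam_dvd_of_primary ha3), pow_zero, mul_one]
    exact (Dvd.dvd.trans ⟨8, by norm_num⟩ h72).trans hca)).1
  have h2 : xv c3 x c = xv c3 x a :=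
    xv_per ch_c3 hx _ _ ((pr_dvd_iff.2 fun p hq => hp p ((mem_fac hx).1 hq)).trans hca)
  rw [H_coprime hc0 hx (g6_not_both hc hp), H_coprime ha0 hx (g6_not_both ha hp), h2] at h1
  refine mul_right_cancel₀ ?_ h1
  rw [← norm_ne_zero_iff, RCLike.norm_conj,
    norm_xv ch_c3 hx fun p hq => g6_not_both ha hp p hq.symm]
  exact one_ne_zero

theorem x6R (h : CubRec) (h2 : QPer) (h3 : QRec) : X6R := by
  intro Q a n hQ h72 ha ha3 hn
  obtain ⟨sg, hsg, hsg1, hrec⟩ := rec6 h h3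
  have hQ0 : (Q : E) ≠ 0 := by
    intro h0
    have := nm_natCast Q
    rw [h0, nm_zero] at this
    exact hQ (pow_eq_zero_iff two_ne_zero |>.1 this.symm)
  have h72' : (72 : E) ∣ (Q : E) := by exact_mod_cast (natCast_dvd_natCast (m := 72)).2 h72
  have h2Q : (2 : E) ∣ (Q : E) := Dvd.dvd.trans ⟨36, by norm_num⟩ h72'
  obtain ⟨u, hu, hfac⟩ := exists_factor hn
  obtain ⟨n₂, hn₂⟩ : ∃ n₂, n₂ = ∏ p ∈ fac n \ fac Q, p.1 ^ vp p.1 n := ⟨_, rfl⟩
  obtain ⟨n₁, hn₁⟩ : ∃ n₁, n₁ = u * lam ^ vp lam n * ∏ p ∈ fac n ∩ fac Q, p.1 ^ vp p.1 n := ⟨_, rfl⟩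
  have hmul : n = n₁ * n₂ := by
    rw [hn₁, hn₂, mul_assoc, Finset.prod_inter_mul_prod_sdiff]
    exact hfac
  have hdv : ∀ (S : Finset P) (p : P), p.1 ∣ ∏ q ∈ S, q.1 ^ vp q.1 n → p ∈ S := by
    intro S p hp
    obtain ⟨q, hq, hpq⟩ := (p.2.1.dvd_finsetProd_iff _).1 hp
    rwa [(p.dvd_iff q).1 (p.2.1.dvd_of_dvd_pow hpq)]
  have h10 : n₁ ≠ 0 := left_ne_zero_of_mul (hmul ▸ hn)
  have h20 : n₂ ≠ 0 := right_ne_zero_of_mul (hmul ▸ hn)
  have hp1 : ∀ p : P, p.1 ∣ n₁ → p.1 ∣ (Q : E) := by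
    intro p hp
    rw [hn₁] at hp
    rcases p.2.1.dvd_or_dvd hp with hp | hp
    · rcases p.2.1.dvd_or_dvd hp with hp | hp
      · exact absurd hp (p.not_dvd_unit hu)
      · exact absurd (p.2.1.dvd_of_dvd_pow hp) p.not_dvd_lam
    · exact (mem_fac hQ0).1 (Finset.mem_inter.1 (hdv _ p hp)).2
  have h23 : (3 : E) ∣ n₂ - 1 := hn₂ ▸ primary_prod_pow _ _
  have hsub : fac n₂ ⊆ fac n \ fac Q := fun p hp => hdv _ p (hn₂ ▸ (mem_fac h20).1 hp)
  have h22 : IsCoprime n₂ 2 := by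
    rw [isCoprime_iff]
    refine ⟨fun hh => not_lam_dvd_of_primary h23 hh.1, fun p hh => ?_⟩
    exact (Finset.mem_sdiff.1 (hsub ((mem_fac h20).2 hh.1))).2 ((mem_fac hQ0).2 (hh.2.trans h2Q))
  refine ⟨xv c6 a n₁ * sg a n₂, ?_, fun c hca => ?_⟩
  · rw [norm_mul, norm_xv ch_c6 (primary_ne_zero ha3) (g6_not_both ha hp1)]
    rcases hsg1 a n₂ with h1 | h1 <;> simp [h1]
  · have hc : IsCoprime c Q := by
      obtain ⟨m, hm⟩ := hca
      rw [show c = a + Q * m by linear_combination hm]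
      exact ha.add_mul_left_left m
    have hc3 : (3 : E) ∣ c - 1 := by
      have := dvd_add ((Dvd.dvd.trans (⟨24, by norm_num⟩ : (3 : E) ∣ 72) h72').trans hca) ha3
      simpa using this
    have e1 : xv c6 c n₁ = xv c6 a n₁ := by
      rw [xv_c6, xv_c6, g6_cub h h72' ha hc ha3 hc3 hca h10 hp1,
        g6_quad h2 h72' hc ha3 hc3 hca h10 hp1]
    have e2 : sg c n₂ = sg a n₂ :=
      hsg _ _ _ _ ((Dvd.dvd.trans (⟨18, by norm_num⟩ : (4 : E) ∣ 72) h72').trans hca) (by simp)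
    have e3 : xv c6 n₂ c = ∏ p ∈ fac n \ fac Q, c6 p c ^ vp p.1 n := by
      rw [xv_eq_prod h20 hsub]
      refine Finset.prod_congr rfl fun p hp => ?_
      rw [hn₂, vp_prod_pow, if_pos hp]
    rw [← e3, mul_assoc, ← e1, ← e2, ← hrec c n₂ hc3 h23 (hc.of_isCoprime_of_dvd_right h2Q) h22,
      ← xv_mul ch_c6, ← hmul]

end QRH
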