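import Vale.Agent.P026.Gauss
import Vale.Agent.P026.Rearr
import Vale.Agent.P026.Wt

noncomputable section
namespace QRH
open Complex MeasureTheory Filter
open scoped ComplexConjugate Classical ContDiff Topology

theorem pla_Vg_pos (y : ℝ) : 0 < Vg y := Real.exp_pos _

theorem pla_Vg_anti {x y : ℝ} (h : x ≤ y) : Vg y ≤ Vg x := by
  refine Real.exp_le_exp.2 ?_
  have := cnt_two_le
  nlinarith

theorem pla_Vg_cont : Continuous Vg := by unfold Vg; fun_prop

theorem pla_summable {u : ℝ} (hu : 0 < u) : Summable fun x : E => Vg (nm x * u) := by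
  obtain ⟨C, -, h⟩ := gauss_lattice
  simpa only [mul_comm] using (h u hu).1

theorem pla_hs {f g : E → ℂ} {a b : ℂ} (h : HasSum f a) (h1 : ∀ n, g n = f n) (h2 : b = a) :
    HasSum g b := by rw [funext h1, h2]; exact h

/-- The integrated Gaussian. -/
def plaK (y : ℝ) : ℂ := ∫ v : ℝ, (beta v : ℂ) * ((Real.exp v * Vg (y * Real.exp v) : ℝ) : ℂ)

theorem pla_pt {y v : ℝ} (hy : 0 ≤ y) (h1 : 1 < Real.exp v) (h4 : Real.exp v < 4) :
    ‖((Real.exp v * Vg (y * Real.exp v) : ℝ) : ℂ)‖ ≤ 4 * Vg y := by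
  rw [Complex.norm_real, Real.norm_of_nonneg (mul_pos (Real.exp_pos _) (pla_Vg_pos _)).le]
  exact mul_le_mul h4.le (pla_Vg_anti (le_mul_of_one_le_right hy h1.le)) (pla_Vg_pos _).le
    (by norm_num)

theorem pla_norm_K {y : ℝ} (hy : 0 ≤ y) : ‖plaK y‖ ≤ 8 * Vg y := by
  have h := norm_integral_beta_le (F := fun v => ((Real.exp v * Vg (y * Real.exp v) : ℝ) : ℂ))
    (M := 4 * Vg y) (by have := pla_Vg_pos y; positivity) fun v => pla_pt hy
  unfold plaK
  linarith

theorem pla_sm {y : ℝ} (hy : 0 < y) :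
    sm 1 (fun v => (Vg (Real.exp v) : ℝ)) (Real.log y) = plaK y := by
  unfold sm plaK
  congr 1
  funext v
  beta_reduce
  rw [Real.exp_add, Real.exp_log hy, one_mul, mul_comm y, mul_assoc]
  push_cast
  rfl

theorem pla_term {κ M : ℝ} (hκ : 0 < κ) {co : E → ℂ} (hM : ∀ m, ‖co m‖ ≤ M) :
    Integrable (fun v => (beta v : ℂ) *
      ∑' m : E, co m * ((Real.exp v * Vg (nm m * κ * Real.exp v) : ℝ) : ℂ)) ∧
    HasSum (fun m => co m * plaK (nm m * κ)) (∫ v, (beta v : ℂ) *
      ∑' m : E, co m * ((Real.exp v * Vg (nm m * κ * Real.exp v) : ℝ) : ℂ)) := by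
  have hM0 : 0 ≤ M := (norm_nonneg _).trans (hM 0)
  set F : E → ℝ → ℂ := fun m v =>
    (beta v : ℂ) * (co m * ((Real.exp v * Vg (nm m * κ * Real.exp v) : ℝ) : ℂ)) with hF
  have hs : Summable fun m : E => M * (4 * Vg (nm m * κ)) :=
    ((pla_summable hκ).mul_left 4).mul_left M
  have hb : ∀ m v, ‖F m v‖ ≤ beta v * (M * (4 * Vg (nm m * κ))) := fun m v => by
    by_cases h : beta v = 0
    · simp [hF, h]
    rw [hF, norm_mul, norm_mul, Complex.norm_real, Real.norm_of_nonneg (beta_nonneg v)]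
    exact mul_le_mul_of_nonneg_left (mul_le_mul (hM m)
      (pla_pt (by positivity) (beta_exp h).1 (beta_exp h).2) (norm_nonneg _) hM0) (beta_nonneg v)
  have hc : ∀ m, Continuous (F m) := fun m =>
    (continuous_ofReal.comp contDiff_beta.continuous).mul (continuous_const.mul
      (continuous_ofReal.comp (Real.continuous_exp.mul
        (pla_Vg_cont.comp (continuous_const.mul Real.continuous_exp)))))
  have he : (fun v => (beta v : ℂ) *
      ∑' m : E, co m * ((Real.exp v * Vg (nm m * κ * Real.exp v) : ℝ) : ℂ)) =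
      fun v => ∑' m, F m v := funext fun v => tsum_mul_left.symm
  rw [he]
  constructor
  · refine (integrable_beta.mul_const (∑' m : E, M * (4 * Vg (nm m * κ)))).mono'
      (continuous_tsum hc hs fun m v => (hb m v).trans (mul_le_of_le_one_left
        (by have := pla_Vg_pos (nm m * κ); positivity) (beta_le_one v))).aestronglyMeasurable
      (Eventually.of_forall fun v => ?_)
    exact tsum_of_norm_bounded (hs.hasSum.mul_left (beta v)) (hb · v)
  · have h := hasSum_integral_of_dominated_convergence (μ := volume) (F := F)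
      (f := fun v => ∑' m, F m v) (fun m v => beta v * (M * (4 * Vg (nm m * κ))))
      (fun m => (hc m).aestronglyMeasurable) (fun m => Eventually.of_forall (hb m))
      (Eventually.of_forall fun v => hs.mul_left _)
      (by simpa only [tsum_mul_left] using integrable_beta.mul_const _)
      (Eventually.of_forall fun v => ((hs.mul_left (beta v)).of_norm_bounded (hb · v)).hasSum)
    refine pla_hs h (fun m => ?_) rfl
    rw [plaK, ← integral_const_mul]
    congr 1
    funext v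
    simp only [hF]
    ring

variable {χ : P → E → ℂ}

/-- The dual coefficient. -/
def plaG (χ : P → E → ℂ) (C f : Finset P) (m : E) : ℂ :=
  xs χ C (pr f) * (conj (xs χ C m) * gs χ C)

theorem pla_norm_G (hc : Ch χ) (C f : Finset P) (m : E) : ‖plaG χ C f m‖ ≤ ‖gs χ C‖ := by
  rw [plaG, norm_mul, norm_mul, RCLike.norm_conj]
  exact (mul_le_of_le_one_left (by positivity) (norm_xs_le hc _ _)).trans
    (mul_le_of_le_one_left (norm_nonneg _) (norm_xs_le hc _ _))

/-- The dual scale. -/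
def plak (N : ℝ) (f C C' : Finset P) : ℝ := N / (Ns f * (Ns C * Ns C'))

theorem plak_pos {N : ℝ} (hN : 0 < N) (f C C' : Finset P) : 0 < plak N f C C' :=
  div_pos hN (mul_pos (Ns_pos _) (mul_pos (Ns_pos _) (Ns_pos _)))

theorem pla_pois1 (h : PSG) (hc : Ch χ) (hr : Rec χ) {C C' : Finset P} (f : Finset P)
    (hd : Disjoint C C') (ho : Odd' C) (ho' : Odd' C') (h4 : (4 : E) ∣ pr C - pr C') {N w : ℝ}
    (hN : 0 < N) (hw : 0 < w) :
    HasSum (fun n : E => (Vg (nm n / (N * w)) : ℂ) *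
        ((if pr f ∣ n then mu f else 0) * (xs χ C n * conj (xs χ C' n))))
      (∑' m : E, mu f * (plak N f C C' : ℝ) * (plaG χ C f m * conj (plaG χ C' f m)) *
        ((w * Vg (nm m * plak N f C C' * w) : ℝ) : ℂ)) := by
  have hf := Ns_pos f
  have hs : Summable fun n : E => (Vg (nm n / (N * w)) : ℂ) *
      ((if pr f ∣ n then mu f else 0) * (xs χ C n * conj (xs χ C' n))) := by
    refine (pla_summable (u := (N * w)⁻¹) (by positivity)).of_norm_bounded fun n => ?_
    rw [norm_mul, Complex.norm_real, Real.norm_of_nonneg (pla_Vg_pos _).le, div_eq_mul_inv]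
    refine mul_le_of_le_one_right (pla_Vg_pos _).le ?_
    rw [norm_mul, norm_mul, RCLike.norm_conj]
    refine mul_le_one₀ ?_ (by positivity)
      (mul_le_one₀ (norm_xs_le hc _ _) (norm_nonneg _) (norm_xs_le hc _ _))
    split_ifs <;> simp [norm_mu]
  convert hs.hasSum using 1
  have hq : pr C * pr C' ≠ 0 := mul_ne_zero (pr_ne_zero _) (pr_ne_zero _)
  have hP := h (pr C * pr C') (fun y => xs χ C y * conj (xs χ C' y)) (N * w / Ns f) hq
    (((xs_per hc C).mono (dvd_mul_right _ _)).mul fun x y hxy =>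
      congrArg conj ((xs_per hc C').mono (dvd_mul_left _ _) x y hxy)) (by positivity)
  have hk : N * w / Ns f / (nm (pr C * pr C') : ℝ) = plak N f C C' * w := by
    rw [nm_mul, plak]; push_cast; unfold Ns; ring
  simp only [gs_pair hc hr hd ho ho' h4, mul_div_assoc (nm _ : ℝ), hk] at hP
  symm
  rw [tsum_supp (pr_ne_zero f) (fun x hx => by simp [hx])]
  have h1 : ∀ y : E, (Vg (nm (pr f * y) / (N * w)) : ℂ) * ((if pr f ∣ pr f * y then mu f else 0) *
      (xs χ C (pr f * y) * conj (xs χ C' (pr f * y)))) =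
      (mu f * (xs χ C (pr f) * conj (xs χ C' (pr f)))) *
        (xs χ C y * conj (xs χ C' y) * (Vg (nm y / (N * w / Ns f)) : ℝ)) := fun y => by
    have h2 : (nm (pr f * y) : ℝ) / (N * w) = nm y / (N * w / Ns f) := by
      rw [nm_mul]; push_cast; unfold Ns at hf ⊢; field_simp
    rw [if_pos (dvd_mul_right _ _), xs_mul hc, xs_mul hc, map_mul, h2]
    ring
  simp only [h1]
  rw [tsum_mul_left, hP, ← tsum_mul_left, ← tsum_mul_left]
  congr 1
  funext m
  simp only [plaG, map_mul, mul_assoc (nm m : ℝ)]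
  push_cast
  ring

/-- The coefficient of a pair after Poisson summation. -/
def plaC (χ : P → E → ℂ) (a : Finset P → ℂ) (N : ℝ) (d C C' f : Finset P) (m : E) : ℂ :=
  a (d ∪ C) * conj (a (d ∪ C')) *
    (mu f * (plak N f C C' : ℝ) * (plaG χ C f m * conj (plaG χ C' f m)))

theorem pla_odd {s t : Finset P} (h : Odd' s) (hts : t ⊆ s) : Odd' t := fun p hp => h p (hts hp)

theorem pla_pois2 (h : PSG) (hc : Ch χ) (hr : Rec χ) {a : Finset P → ℂ} {b : E}
    (ha : ∀ s, a s ≠ 0 → Odd' s ∧ (4 : E) ∣ pr s - b) {d C C' : Finset P} (h1 : Disjoint d C)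
    (h2 : Disjoint d C') (h3 : Disjoint C C') {N w : ℝ} (hN : 0 < N) (hw : 0 < w) :
    HasSum (fun n : E => (Vg (nm n / (N * w)) : ℂ) *
        (a (d ∪ C) * xs χ (d ∪ C) n * conj (a (d ∪ C') * xs χ (d ∪ C') n)))
      (∑ f ∈ d.powerset, ∑' m : E, plaC χ a N d C C' f m *
        ((w * Vg (nm m * plak N f C C' * w) : ℝ) : ℂ)) := by
  by_cases h0 : a (d ∪ C) = 0 ∨ a (d ∪ C') = 0
  · rcases h0 with h0 | h0 <;> simp [plaC, h0, hasSum_zero]
  rw [not_or] at h0
  obtain ⟨o1, q1⟩ := ha _ h0.1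
  obtain ⟨o2, q2⟩ := ha _ h0.2
  have h4 : (4 : E) ∣ pr C - pr C' := by
    have h5 := dvd_sub q1 q2
    rw [sub_sub_sub_cancel_right, pr_union h1, pr_union h2, ← mul_sub] at h5
    have h6 : IsCoprime (2 : E) (pr d) :=
      odd_iff_coprime.1 (pla_odd o1 Finset.subset_union_left)
    have h7 : IsCoprime (4 : E) (pr d) := by
      have := h6.mul_left h6
      rwa [show (2 : E) * 2 = 4 by norm_num] at this
    exact h7.dvd_of_dvd_mul_left h5
  have h5 := (hasSum_sum fun f (_ : f ∈ d.powerset) => pla_pois1 h hc hr f h3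
    (pla_odd o1 Finset.subset_union_right) (pla_odd o2 Finset.subset_union_right) h4 hN
      hw).mul_left (a (d ∪ C) * conj (a (d ∪ C')))
  refine pla_hs h5 (fun n => ?_) ?_
  · rw [← Finset.mul_sum, ← Finset.sum_mul, sum_mu_dvd, ← xs_mul_conj hc, xs_union h1,
      xs_union h2]
    simp only [map_mul]
    ring
  · rw [Finset.mul_sum]
    refine Finset.sum_congr rfl fun f _ => ?_
    rw [← tsum_mul_left]
    simp only [plaC, mul_assoc]

/-- The dual side, as a function of the scale. -/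
def plaA (χ : P → E → ℂ) (a : Finset P → ℂ) (N : ℝ) (T : Finset (Finset P)) (v : ℝ) : ℂ :=
  ∑ s ∈ T, ∑ s' ∈ T, ∑ f ∈ (s ∩ s').powerset, (beta v : ℂ) *
    ∑' m : E, plaC χ a N (s ∩ s') (s \ s') (s' \ s) f m *
      ((Real.exp v * Vg (nm m * plak N f (s \ s') (s' \ s) * Real.exp v) : ℝ) : ℂ)

theorem pla_lower (h : PSG) (hc : Ch χ) (hr : Rec χ) {a : Finset P → ℂ} {b : E}
    (ha : ∀ s, a s ≠ 0 → Odd' s ∧ (4 : E) ∣ pr s - b) (T : Finset (Finset P)) {N : ℝ}
    (hN : 0 < N) (v : ℝ) :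
    beta v * (Vg 1 * ∑ n ∈ ball N, ‖∑ s ∈ T, a s * xs χ s n‖ ^ 2) ≤ (plaA χ a N T v).re := by
  by_cases h0 : beta v = 0
  · simp [plaA, h0]
  have hv := (beta_exp h0).1
  have h1 := hasSum_sum fun s (_ : s ∈ T) => hasSum_sum fun s' (_ : s' ∈ T) =>
    pla_pois2 h hc hr ha (d := s ∩ s') (C := s \ s') (C' := s' \ s)
      (Finset.disjoint_sdiff_inter s s').symm
      (by rw [Finset.inter_comm]; exact (Finset.disjoint_sdiff_inter s' s).symm)
      disjoint_sdiff_sdiff hN (Real.exp_pos v)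
  have e1 : ∀ s s' : Finset P, s ∩ s' ∪ s \ s' = s := fun s s' => by
    rw [Finset.union_comm, Finset.sdiff_union_inter]
  have e2 : ∀ s s' : Finset P, s ∩ s' ∪ s' \ s = s' := fun s s' => by
    rw [Finset.inter_comm, e1]
  have e3 : ∀ n : E, ∑ s ∈ T, ∑ s' ∈ T, (Vg (nm n / (N * Real.exp v)) : ℂ) *
      (a s * xs χ s n * conj (a s' * xs χ s' n)) =
      ((Vg (nm n / (N * Real.exp v)) * ‖∑ s ∈ T, a s * xs χ s n‖ ^ 2 : ℝ) : ℂ) := fun n => by
    push_cast
    rw [← Complex.mul_conj', map_sum, Finset.sum_mul_sum]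
    simp only [Finset.mul_sum]
  simp only [e1, e2, e3] at h1
  have h2 := sum_le_hasSum (ball N) (fun n _ => by
    have := pla_Vg_pos (nm n / (N * Real.exp v))
    simp only [Complex.ofReal_re]
    positivity) (Complex.hasSum_re h1)
  simp only [Complex.ofReal_re] at h2
  simp only [plaA, ← Finset.mul_sum, Complex.re_ofReal_mul]
  refine mul_le_mul_of_nonneg_left (le_trans ?_ h2) (beta_nonneg v)
  rw [Finset.mul_sum]
  refine Finset.sum_le_sum fun n hn => mul_le_mul_of_nonneg_right (pla_Vg_anti ?_) (by positivity)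
  rw [div_le_one (by positivity)]
  exact (mem_ball.1 hn).2.trans (le_mul_of_one_le_right hN.le hv.le)

theorem pla_main (h : PSG) (hc : Ch χ) (hr : Rec χ) {a : Finset P → ℂ} {b : E}
    (ha : ∀ s, a s ≠ 0 → Odd' s ∧ (4 : E) ∣ pr s - b) (T : Finset (Finset P)) {N : ℝ}
    (hN : 0 < N) {g : E → ℝ} {G : ℝ} (hg : HasSum g G)
    (hb : ∀ m, ‖∑ s ∈ T, ∑ s' ∈ T, ∑ f ∈ (s ∩ s').powerset,
      plaC χ a N (s ∩ s') (s \ s') (s' \ s) f m * plaK (nm m * plak N f (s \ s') (s' \ s))‖ ≤ g m) :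
    (∫ v, beta v) * (Vg 1 * ∑ n ∈ ball N, ‖∑ s ∈ T, a s * xs χ s n‖ ^ 2) ≤ G := by
  have h1 := fun d C C' f : Finset P => pla_term (plak_pos hN f C C') (co := plaC χ a N d C C' f)
    (M := ‖a (d ∪ C) * conj (a (d ∪ C'))‖ *
      (‖mu f * (plak N f C C' : ℝ)‖ * (‖gs χ C‖ * ‖gs χ C'‖))) fun m => by
      rw [plaC, norm_mul, norm_mul (mu f * _), norm_mul (plaG χ C f m), RCLike.norm_conj]
      gcongr <;> exact pla_norm_G hc _ _ _
  have h2 : Integrable (plaA χ a N T) :=
    integrable_finsetSum _ fun s _ => integrable_finsetSum _ fun s' _ =>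
      integrable_finsetSum _ fun f _ => (h1 _ _ _ f).1
  have h3 := hasSum_sum fun s (_ : s ∈ T) => hasSum_sum fun s' (_ : s' ∈ T) =>
    hasSum_sum fun f (_ : f ∈ (s ∩ s').powerset) => (h1 (s ∩ s') (s \ s') (s' \ s) f).2
  replace h3 := pla_hs (b := ∫ v, plaA χ a N T v) h3 (fun _ => rfl) <| by
    unfold plaA
    rw [integral_finsetSum _ fun s _ => integrable_finsetSum _ fun s' _ =>
      integrable_finsetSum _ fun f _ => (h1 _ _ _ f).1]
    refine Finset.sum_congr rfl fun s _ => ?_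
    rw [integral_finsetSum _ fun s' _ => integrable_finsetSum _ fun f _ => (h1 _ _ _ f).1]
    refine Finset.sum_congr rfl fun s' _ => ?_
    exact integral_finsetSum _ fun f _ => (h1 _ _ _ f).1
  rw [← integral_mul_const]
  refine (integral_mono (integrable_beta.mul_const _) h2.re (pla_lower h hc hr ha T hN)).trans ?_
  rw [integral_re h2]
  exact (RCLike.re_le_norm _).trans (h3.norm_le_of_bounded hg hb)

theorem pla_zero (hc : Ch χ) (a : Finset P → ℂ) (T : Finset (Finset P)) {N M : ℝ} (hN : 0 < N)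
    (hM : ∀ s, ‖a s‖ ≤ M) :
    ‖∑ s ∈ T, ∑ s' ∈ T, ∑ f ∈ (s ∩ s').powerset, plaC χ a N (s ∩ s') (s \ s') (s' \ s) f 0 *
      plaK (nm 0 * plak N f (s \ s') (s' \ s))‖ ≤ T.card * (M ^ 2 * (N * 8)) := by
  have hG : ∀ C f : Finset P, C ≠ ∅ → plaG χ C f 0 = 0 := fun C f hC => by
    obtain ⟨p, hp⟩ := Finset.nonempty_iff_ne_empty.2 hC
    rw [plaG, (xs_eq_zero_iff hc).2 ⟨p, hp, dvd_zero _⟩]
    simp
  rw [← nsmul_eq_mul]
  refine (norm_sum_le _ _).trans (Finset.sum_le_card_nsmul _ _ _ fun s hs => ?_)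
  rw [Finset.sum_eq_single_of_mem s hs fun s' _ hne => Finset.sum_eq_zero fun f _ => ?_]
  · have h1 : ∑ f ∈ s.powerset, mu f * ((Ns f)⁻¹ : ℝ) = ∏ p ∈ s, (1 + -((nm p.1 : ℂ))⁻¹) := by
      rw [Finset.prod_one_add]
      refine Finset.sum_congr rfl fun f _ => ?_
      rw [Finset.prod_neg, Finset.prod_inv_distrib, Ns_eq_prod, mu]
      push_cast
      rfl
    have h2 : ‖∑ f ∈ s.powerset, mu f * ((Ns f)⁻¹ : ℝ)‖ ≤ 1 := by
      rw [h1, norm_prod]
      refine Finset.prod_le_one (fun _ _ => norm_nonneg _) fun p _ => ?_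
      have h3 : (1 + -((nm p.1 : ℂ))⁻¹) = ((1 - (nm p.1 : ℝ)⁻¹ : ℝ) : ℂ) := by push_cast; ring
      have h4 : (nm p.1 : ℝ)⁻¹ ≤ 1 := inv_le_one_of_one_le₀ (one_le_nmR p.ne_zero)
      have h5 : 0 ≤ (nm p.1 : ℝ)⁻¹ := by positivity
      rw [h3, Complex.norm_real, Real.norm_of_nonneg (by linarith)]
      linarith
    have h3 : ∑ f ∈ (s ∩ s).powerset, plaC χ a N (s ∩ s) (s \ s) (s \ s) f 0 *
        plaK (nm 0 * plak N f (s \ s) (s \ s)) =
        a s * conj (a s) * (N * plaK 0 * ∑ f ∈ s.powerset, mu f * ((Ns f)⁻¹ : ℝ)) := by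
      simp only [Finset.inter_self, Finset.sdiff_self, Finset.mul_sum]
      refine Finset.sum_congr rfl fun f _ => ?_
      simp only [plaC, plaG, plak, xs_empty, gs_empty, Ns_empty, nm_zero, Finset.union_empty]
      push_cast
      simp only [zero_mul, map_one, mul_one]
      ring
    have h4 := pla_norm_K le_rfl
    rw [show Vg 0 = 1 by simp [Vg], mul_one] at h4
    have h5 := (norm_nonneg _).trans (hM s)
    rw [h3, norm_mul, norm_mul, norm_mul, norm_mul, RCLike.norm_conj, Complex.norm_real,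
      Real.norm_of_nonneg hN.le, sq, ← mul_one (N * 8)]
    gcongr <;> exact hM s
  · have : s \ s' ≠ ∅ ∨ s' \ s ≠ ∅ := by
      by_contra h
      simp only [not_or, not_not, Finset.sdiff_eq_empty_iff_subset] at h
      exact hne (Finset.Subset.antisymm h.2 h.1)
    rcases this with h | h <;> simp [plaC, hG _ _ h]

theorem pla_split (hc : Ch χ) (β : Finset P → ℂ) {X : ℝ} (hX : 0 < X) (z : ℂ) {d e c : Finset P}
    (f : Finset P) (m : E) (hde : Disjoint d e) (hcd : Disjoint c (d ∪ e)) :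
    β (d ∪ (e ∪ c)) * wt (Ns (d ∪ (e ∪ c)) / X) z * plaG χ (e ∪ c) f m =
      plaG χ e f m * (dual χ β d f e m c * wt (Ns c / (X / (Ns d * Ns e))) (z - 1 / 2)) *
        ((Ns c / √(X / (Ns d * Ns e)) : ℝ) : ℂ) := by
  have hec : Disjoint e c := (Finset.disjoint_union_right.1 hcd).2.symm
  have hd := Ns_pos d
  have he := Ns_pos e
  have hcp := Ns_pos c
  have h1 : Ns (d ∪ (e ∪ c)) / X = Ns c / (X / (Ns d * Ns e)) := by
    rw [← Finset.union_assoc, Ns_union hcd.symm, Ns_union hde]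
    field_simp
  have h2 : gs χ c = gam χ c * (√(Ns c) : ℝ) := by
    have h3 : ‖toC (pr c)‖ = √(Ns c) := norm_toC _
    rw [gam, ← h3, div_mul_cancel₀]
    exact_mod_cast ga_norm_ne c
  have hy : 0 < Ns c / (X / (Ns d * Ns e)) := by positivity
  have h3 : wt (Ns c / (X / (Ns d * Ns e))) z = wt (Ns c / (X / (Ns d * Ns e))) (z - 1 / 2) *
      (√(Ns c / (X / (Ns d * Ns e))) : ℝ) := by
    rw [Real.sqrt_eq_rpow, Complex.ofReal_cpow hy.le, wt_mul_cpow hy]
    congr 1
    push_cast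
    ring
  have h4 : Ns c / √(X / (Ns d * Ns e)) = √(Ns c) * √(Ns c / (X / (Ns d * Ns e))) := by
    rw [Real.sqrt_div hcp.le, ← mul_div_assoc, Real.mul_self_sqrt hcp.le]
  rw [h1, h3, h4, dual, if_pos hcd, ← Finset.union_assoc]
  simp only [plaG, xs_union hec, gs_union hc hec, h2, map_mul]
  push_cast
  ring

theorem pla_inner (hc : Ch χ) (β : Finset P → ℂ) {X N : ℝ} (hX : 0 < X) (hN : 0 < N) (z : ℂ)
    {d e : Finset P} (f : Finset P) {m : E} (hm : m ≠ 0) (hde : Disjoint d e) :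
    ∑ c ∈ sqf (16 * X / (Ns d * Ns e)) with Disjoint c (d ∪ e),
      ∑ c' ∈ sqf (16 * X / (Ns d * Ns e)) with Disjoint c' (d ∪ e),
        plaC χ (fun s => β s * wt (Ns s / X) z) N d (e ∪ c) (e ∪ c') f m *
          plaK (nm m * plak N f (e ∪ c) (e ∪ c')) =
      mu f * (plaG χ e f m * conj (plaG χ e f m)) * ((N * Ns d / (X * Ns f) / Ns e : ℝ) : ℂ) *
        bil χ β d f e m X N z := by
  have hd := Ns_pos d
  have he := Ns_pos e
  have hf := Ns_pos f
  have hm1 : (0 : ℝ) < nm m := one_pos.trans_le (one_le_nmR hm)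
  rw [bil, mul_div_assoc 16, Finset.sum_filter, Finset.mul_sum]
  refine Finset.sum_congr rfl fun c _ => ?_
  split_ifs with h1
  swap
  · simp [dual, h1]
  rw [Finset.sum_filter, Finset.mul_sum]
  refine Finset.sum_congr rfl fun c' _ => ?_
  split_ifs with h2
  swap
  · simp [dual, h2]
  have hcp := Ns_pos c
  have hcp' := Ns_pos c'
  have u1 := Ns_union (Finset.disjoint_union_right.1 h1).2.symm
  have u2 := Ns_union (Finset.disjoint_union_right.1 h2).2.symm
  have h3 : nm m / M0 X N d f / (Ns c / (X / (Ns d * Ns e)) * (Ns c' / (X / (Ns d * Ns e)))) =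
      nm m * plak N f (e ∪ c) (e ∪ c') := by
    rw [M0, plak, u1, u2]
    field_simp
  have h4 : plak N f (e ∪ c) (e ∪ c') * (Ns c / √(X / (Ns d * Ns e)) *
      (Ns c' / √(X / (Ns d * Ns e)))) = N * Ns d / (X * Ns f) / Ns e := by
    rw [plak, u1, u2, div_mul_div_comm, Real.mul_self_sqrt (by positivity)]
    field_simp
  have s1 := pla_split hc β hX z f m hde h1
  have s2 := congrArg conj (pla_split hc β hX z f m hde h2)
  rw [h3, pla_sm (mul_pos hm1 (plak_pos hN _ _ _)), ← h4, plaC]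
  rw [map_mul, map_mul _ (_ * _), map_mul _ (plaG χ e f m), Complex.conj_ofReal] at s2
  rw [Complex.ofReal_mul, Complex.ofReal_mul]
  linear_combination (mu f * (plak N f (e ∪ c) (e ∪ c') : ℝ) *
    plaK (nm m * plak N f (e ∪ c) (e ∪ c'))) *
      (conj (β (d ∪ (e ∪ c')) * wt (Ns (d ∪ (e ∪ c')) / X) z) * conj (plaG χ (e ∪ c') f m) * s1 +
        plaG χ e f m * (dual χ β d f e m c * wt (Ns c / (X / (Ns d * Ns e))) (z - 1 / 2)) *
          ((Ns c / √(X / (Ns d * Ns e)) : ℝ) : ℂ) * s2)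

theorem pla_nz (hc : Ch χ) {β : Finset P → ℂ} (hβ : Cls β) {X N : ℝ} (hX : 0 < X) (hN : 0 < N)
    (z : ℂ) {m : E} (hm : m ≠ 0) :
    ‖∑ s ∈ sqf (16 * X), ∑ s' ∈ sqf (16 * X), ∑ f ∈ (s ∩ s').powerset,
      plaC χ (fun s => β s * wt (Ns s / X) z) N (s ∩ s') (s \ s') (s' \ s) f m *
        plaK (nm m * plak N f (s \ s') (s' \ s))‖ ≤
      PSum X N fun d f e => ‖bil χ β d f e m X N z‖ := by
  rw [rearr (16 * X) fun d C C' => ∑ f ∈ d.powerset,
    plaC χ (fun s => β s * wt (Ns s / X) z) N d C C' f m * plaK (nm m * plak N f C C'), PSum]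
  refine (norm_sum_le _ _).trans (Finset.sum_le_sum fun d _ => ?_)
  rw [Finset.sum_comm]
  refine (norm_sum_le _ _).trans (Finset.sum_le_sum fun e he => ?_)
  have hde := (Finset.mem_filter.1 he).2
  simp only [Finset.sum_comm (t := d.powerset), pla_inner hc β hX hN z _ hm hde]
  rw [norm_mul, norm_mu, one_mul]
  refine (norm_sum_le _ _).trans (Finset.sum_le_sum fun f _ => ?_)
  have hd := Ns_pos d
  have he := Ns_pos e
  have hf := Ns_pos f
  by_cases ho : Odd' e
  · rw [norm_mul, norm_mul, norm_mul, norm_mul, norm_mu, one_mul, RCLike.norm_conj,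
      Complex.norm_real, Real.norm_of_nonneg (by positivity)]
    refine mul_le_mul_of_nonneg_right ?_ (norm_nonneg _)
    have h1 := pla_norm_G hc e f m
    rw [norm_gs hc fun p hp => hc.nt p (ho p hp)] at h1
    have h2 := mul_le_mul h1 h1 (norm_nonneg _) (norm_nonneg _)
    rw [← sq ‖toC _‖, ← Ns_eq] at h2
    refine (mul_le_mul_of_nonneg_right h2 (by positivity)).trans (le_of_eq ?_)
    field_simp
  · have h1 : ∀ c, dual χ β d f e m c = 0 := fun c => by
      obtain ⟨b, hb⟩ := hβ.2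
      have : β (d ∪ e ∪ c) = 0 := by
        by_contra h
        exact ho (pla_odd (hb _ h).1
          (Finset.subset_union_right.trans Finset.subset_union_left))
      simp only [dual, this, zero_mul, ite_self]
    simp [bil, h1]

theorem pla_bil (hc : Ch χ) {β : Finset P → ℂ} (hβ : Cls β) {X N : ℝ} (hX : 0 < X) (hN : 0 < N)
    (z : ℂ) (d f e : Finset P) :
    Summable fun m : E => if m = 0 then 0 else ‖bil χ β d f e m X N z‖ := by
  have hd := Ns_pos d
  have he := Ns_pos e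
  have hf := Ns_pos f
  have hM : 0 < M0 X N d f := by unfold M0; positivity
  have hD : ∀ m c, ‖dual χ β d f e m c‖ ≤ ‖gam χ c‖ := fun m c => by
    unfold dual
    split_ifs
    · simp only [norm_mul, RCLike.norm_conj]
      calc _ ≤ 1 * 1 * ‖gam χ c‖ * 1 * 1 * 1 := by
            gcongr
            exacts [hβ.1 _, norm_xs_le hc _ _, norm_xs_le hc _ _, norm_xs_le hc _ _,
              norm_xs_le hc _ _]
        _ = _ := by ring
    · simp
  obtain ⟨X1, hX1, h1⟩ : ∃ X1 : ℝ, X / (Ns d * Ns e) = X1 ∧ 0 < X1 := ⟨_, rfl, by positivity⟩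
  have hk : ∀ c c' : Finset P, 0 < (M0 X N d f * (Ns c / X1 * (Ns c' / X1)))⁻¹ := fun c c' => by
    have := Ns_pos c
    have := Ns_pos c'
    positivity
  refine Summable.of_nonneg_of_le (fun m => by positivity) (fun m => ?_)
    (summable_sum (s := sqf (16 * X1)) fun c _ => summable_sum (s := sqf (16 * X1)) fun c' _ =>
      ((pla_summable (hk c c')).mul_left 8).mul_left (‖gam χ c‖ * ‖wt (Ns c / X1) (z - 1 / 2)‖ *
        (‖gam χ c'‖ * ‖wt (Ns c' / X1) (z - 1 / 2)‖)))
  split_ifs with hm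
  · exact Finset.sum_nonneg fun c _ => Finset.sum_nonneg fun c' _ =>
      mul_nonneg (by positivity) (mul_pos (by norm_num) (pla_Vg_pos _)).le
  have hm1 : (0 : ℝ) < nm m := one_pos.trans_le (one_le_nmR hm)
  rw [bil, hX1]
  refine (norm_sum_le _ _).trans (Finset.sum_le_sum fun c _ =>
    (norm_sum_le _ _).trans (Finset.sum_le_sum fun c' _ => ?_))
  rw [div_div, div_eq_mul_inv (nm m : ℝ), pla_sm (mul_pos hm1 (hk c c'))]
  simp only [norm_mul, RCLike.norm_conj]
  gcongr
  exacts [hD _ _, hD _ _, pla_norm_K (mul_pos hm1 (hk c c')).le]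

theorem pLa (h : PSG) {χ : P → E → ℂ} (hc : Ch χ) (hr : Rec χ) : PLa χ := by
  obtain ⟨W, hW, hwt⟩ := norm_wt_le
  have hI := integral_beta_pos
  have hV := pla_Vg_pos 1
  refine ⟨(1 + 1536 * W ^ 2) / ((∫ v, beta v) * Vg 1), by positivity,
    fun β X N τ hX hN hβ => ?_⟩
  have hX0 : 0 < X := by linarith
  have hN0 : 0 < N := by linarith
  have hs := pla_bil hc hβ hX0 hN0 (τ * I)
  refine ⟨hs, ?_⟩
  obtain ⟨b, hb⟩ := hβ.2
  have hg : HasSum (fun m : E => (if m = 0 then 1536 * W ^ 2 * (N * X) else 0) +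
      PSum X N fun d f e => if m = 0 then 0 else ‖bil χ β d f e m X N (τ * I)‖)
      (1536 * W ^ 2 * (N * X) + PSum X N fun d f e =>
        ∑' m : E, if m = 0 then 0 else ‖bil χ β d f e m X N (τ * I)‖) :=
    (hasSum_ite_eq 0 _).add (hasSum_sum fun d _ => hasSum_sum fun f _ => hasSum_sum fun e _ =>
      (hs d f e).hasSum.mul_left _)
  have h1 := pla_main h hc hr (a := fun s => β s * wt (Ns s / X) (τ * I)) (b := b)
    (fun s hs => hb s (left_ne_zero_of_mul hs)) (sqf (16 * X)) hN0 hg fun m => by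
      by_cases hm : m = 0
      · subst hm
        refine (pla_zero hc _ _ hN0 (M := W) fun s => ?_).trans ?_
        · rw [norm_mul]
          exact (mul_le_of_le_one_left (norm_nonneg _) (hβ.1 s)).trans (hwt _ _ (by simp))
        · have := mul_le_mul_of_nonneg_right (card_sqf_le (R := 16 * X) (by positivity))
            (show 0 ≤ W ^ 2 * (N * 8) by positivity)
          simp only [PSum, if_true, mul_zero, Finset.sum_const_zero, add_zero]
          linarith
      · simpa only [if_neg hm, zero_add] using pla_nz hc hβ hX0 hN0 (τ * I) hm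
  have h2 : 0 ≤ PSum X N fun d f e =>
      ∑' m : E, if m = 0 then 0 else ‖bil χ β d f e m X N (τ * I)‖ :=
    Finset.sum_nonneg fun d _ => Finset.sum_nonneg fun f _ => Finset.sum_nonneg fun e _ =>
      mul_nonneg (div_pos (mul_pos hN0 (Ns_pos d)) (mul_pos hX0 (Ns_pos f))).le
        (tsum_nonneg fun m => by positivity)
  have h3 : ∀ n, S (fun s => β s * xs χ s n) X (τ * I) =
      ∑ s ∈ sqf (16 * X), β s * wt (Ns s / X) (τ * I) * xs χ s n := fun n =>
    Finset.sum_congr rfl fun s _ => mul_right_comm _ _ _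
  simp only [h3]
  rw [div_mul_eq_mul_div, le_div_iff₀ (by positivity), mul_comm, mul_assoc]
  refine h1.trans ?_
  nlinarith [mul_pos hN0 hX0, mul_nonneg (sq_nonneg W) h2]

end QRH
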