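import Vale.Agent.P026.Rearr
import Vale.Agent.P026.Wt

noncomputable section
namespace QRH
open Complex MeasureTheory Filter
open scoped ComplexConjugate Classical ContDiff Topology

theorem plb_int {σ : ℝ} (hσ : 0 < σ) :
    Integrable fun v : ℝ => ((Vg (Real.exp v) : ℝ) : ℂ) * (Real.exp (σ * v) : ℝ) := by
  obtain ⟨C, hC, h⟩ := Vg_le_rpow (A := σ + 1) (by linarith)
  have hc : Continuous fun v : ℝ => Vg (Real.exp v) * Real.exp (σ * v) := by
    unfold Vg
    fun_prop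
  have h0 : ∀ v : ℝ, 0 ≤ Vg (Real.exp v) * Real.exp (σ * v) := fun v =>
    mul_nonneg (Real.exp_pos _).le (Real.exp_pos _).le
  have h1 : IntegrableOn (fun v : ℝ => Vg (Real.exp v) * Real.exp (σ * v)) (Set.Iic 0) := by
    refine Integrable.mono' (integrableOn_exp_mul_Iic hσ 0) hc.aestronglyMeasurable
      (Eventually.of_forall fun v => ?_)
    rw [Real.norm_of_nonneg (h0 v)]
    refine mul_le_of_le_one_left (Real.exp_pos _).le (Real.exp_le_one_iff.2 ?_)
    have : 0 ≤ 2 * Real.pi / √3 * Real.exp v := by positivity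
    linarith
  have h2 : IntegrableOn (fun v : ℝ => Vg (Real.exp v) * Real.exp (σ * v)) (Set.Ioi 0) := by
    refine Integrable.mono' ((integrableOn_exp_mul_Ioi (a := -1) (by norm_num) 0).const_mul C)
      hc.aestronglyMeasurable (Eventually.of_forall fun v => ?_)
    rw [Real.norm_of_nonneg (h0 v)]
    refine (mul_le_mul_of_nonneg_right (h _ (Real.exp_pos v)) (Real.exp_pos _).le).trans_eq ?_
    rw [← Real.exp_mul, mul_assoc, ← Real.exp_add]
    congr 2
    ring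
  have h3 := h1.union h2
  rw [Set.Iic_union_Ioi, integrableOn_univ] at h3
  refine h3.ofReal.congr (Eventually.of_forall fun v => ?_)
  exact ofReal_mul _ _

/-- The index type of the Poisson sums. -/
abbrev PlbIx (ι : Type) : Type := Σ _ : ι, Σ _ : Finset P, Σ _ : Finset P, Finset P × E

/-- The index set of the Poisson sums. -/
def plbI {ι : Type} (J : Finset ι) (X : ℝ) (T : Finset P → Finset P → Finset E) :
    Finset (PlbIx ι) :=
  J.sigma fun _ => (sqf (16 * X)).sigma fun d => d.powerset.sigma fun f =>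
    ((sqf (16 * X)).filter fun e => Disjoint d e) ×ˢ T d f

theorem plb_sum {ι : Type} (J : Finset ι) (X N : ℝ) (T : Finset P → Finset P → Finset E)
    (F : ι → Finset P → Finset P → Finset P → E → ℝ) :
    ∑ i ∈ J, PSum X N (fun d f e => ∑ m ∈ T d f, F i d f e m) =
      ∑ q ∈ plbI J X T, N * Ns q.2.1 / (X * Ns q.2.2.1) *
        F q.1 q.2.1 q.2.2.1 q.2.2.2.1 q.2.2.2.2 := by
  simp only [plbI, PSum, Finset.sum_sigma, Finset.sum_product, Finset.mul_sum]

theorem plb_mem {ι : Type} {J : Finset ι} {X : ℝ} {T : Finset P → Finset P → Finset E}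
    {q : PlbIx ι} (h : q ∈ plbI J X T) :
    q.2.2.1 ⊆ q.2.1 ∧ q.2.2.2.2 ∈ T q.2.1 q.2.2.1 := by
  simp only [plbI, Finset.mem_sigma, Finset.mem_product, Finset.mem_powerset] at h
  exact ⟨h.2.2.1, h.2.2.2.2⟩

theorem plb_w {X N : ℝ} (hX : 0 < X) (hN : 0 < N) (d f : Finset P) :
    0 ≤ N * Ns d / (X * Ns f) := by
  have := Ns_pos d
  have := Ns_pos f
  positivity

theorem plb_M0 {X N : ℝ} (hX : 0 < X) (hN : 0 < N) (d f : Finset P) : 0 < M0 X N d f := by
  have := Ns_pos d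
  have := Ns_pos f
  unfold M0
  positivity

theorem plb_mono {X N : ℝ} (hX : 0 < X) (hN : 0 < N)
    {F G : Finset P → Finset P → Finset P → ℝ} (h : ∀ d f e, F d f e ≤ G d f e) :
    PSum X N F ≤ PSum X N G :=
  Finset.sum_le_sum fun d _ => Finset.sum_le_sum fun f _ => Finset.sum_le_sum fun e _ =>
    mul_le_mul_of_nonneg_left (h d f e) (plb_w hX hN d f)

theorem plb_add (X N : ℝ) (F G : Finset P → Finset P → Finset P → ℝ) :
    PSum X N (fun d f e => F d f e + G d f e) = PSum X N F + PSum X N G := by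
  simp only [PSum, mul_add, Finset.sum_add_distrib]

theorem plb_nonneg {X N : ℝ} (hX : 0 < X) (hN : 0 < N)
    {F : Finset P → Finset P → Finset P → ℝ} (h : ∀ d f e, 0 ≤ F d f e) : 0 ≤ PSum X N F :=
  Finset.sum_nonneg fun d _ => Finset.sum_nonneg fun f _ => Finset.sum_nonneg fun e _ =>
    mul_nonneg (plb_w hX hN d f) (h d f e)

theorem plb_S1 (γ : Finset P → ℂ) {X1 : ℝ} (hX : 0 < X1) (r z s : ℂ) :
    ∑ c ∈ sqf (16 * X1), r * (γ c * wt (Ns c / X1) z) * ((Ns c / X1 : ℝ) : ℂ) ^ s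
      = r * S γ X1 (z + s) := by
  rw [S, Finset.mul_sum]
  refine Finset.sum_congr rfl fun c _ => ?_
  rw [← wt_mul_cpow (div_pos (Ns_pos c) hX)]
  ring

theorem plb_S2 (γ : Finset P → ℂ) {X1 : ℝ} (hX : 0 < X1) (r z s : ℂ) :
    ∑ c ∈ sqf (16 * X1), r * conj (γ c * wt (Ns c / X1) z) * ((Ns c / X1 : ℝ) : ℂ) ^ s
      = r * conj (S γ X1 (z + conj s)) := by
  rw [S, map_sum, Finset.mul_sum]
  refine Finset.sum_congr rfl fun c _ => ?_
  rw [← wt_mul_cpow (div_pos (Ns_pos c) hX), ← mul_assoc (γ c), map_mul _ (γ c * _),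
    conj_cpow_ofReal (div_pos (Ns_pos c) hX), conj_conj]
  ring

theorem plb_pow {τ τ1 σ : ℝ} (h0 : 0 ≤ σ) (h3 : σ ≤ 3) {s : ℂ} (hre : s.re = σ) (him : |s.im| = |τ1|)
    (B : ℕ) : |((τ : ℂ) * I - 1 / 2 + s).re| ≤ 3 ∧
      (1 + ‖(τ : ℂ) * I - 1 / 2 + s‖) ^ B ≤ 4 ^ B * (1 + |τ|) ^ B * (1 + |τ1|) ^ B := by
  have e1 : ((τ : ℂ) * I - 1 / 2 + s).re = σ - 1 / 2 := by
    simp [hre]
    ring
  have e2 : ((τ : ℂ) * I - 1 / 2 + s).im = τ + s.im := by simp
  have h1 : |((τ : ℂ) * I - 1 / 2 + s).re| ≤ 3 := by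
    rw [e1, abs_le]
    constructor <;> linarith
  refine ⟨h1, ?_⟩
  rw [← mul_pow, ← mul_pow]
  refine pow_le_pow_left₀ (by positivity) ?_ B
  have h2 := norm_le_abs_re_add_abs_im ((τ : ℂ) * I - 1 / 2 + s)
  have h4 := abs_add_le τ s.im
  rw [e2] at h2
  have := abs_nonneg τ
  have := abs_nonneg τ1
  nlinarith [mul_nonneg (abs_nonneg τ) (abs_nonneg τ1)]

theorem plb_amgm {w : ℝ} (hw : 0 ≤ w) (u v : ℝ) :
    w * (u * v) ≤ 1 / 2 * (w * u ^ 2 + w * v ^ 2) := by
  nlinarith [mul_nonneg hw (sq_nonneg (u - v))]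

theorem plb_norm {w : ℝ} (hw : 0 ≤ w) (z : ℂ) : w * ‖z‖ = ‖(w : ℂ) * z‖ := by
  rw [norm_mul, norm_real, Real.norm_of_nonneg hw]

theorem plb_block (h : SepB) (χ : P → E → ℂ) (B : ℕ) {σ : ℝ} (hσ : 0 < σ) (h3 : σ ≤ 3) :
    ∃ C : ℝ, 0 < C ∧ ∀ (ι : Type) (J : Finset ι) (β : ι → Finset P → ℂ) (X N K τ Y : ℝ)
      (R : Finset P → Finset P → ℝ) (T : Finset P → Finset P → Finset E), 0 < X → 0 < N →
      0 ≤ K → 0 ≤ Y →
      (∀ s : ℂ, |s.re| ≤ 3 → ∑ i ∈ J, PSum X N (fun d f e =>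
        ∑ m ∈ ball (R d f), ‖S (dual χ (β i) d f e m) (X / (Ns d * Ns e)) s‖ ^ 2)
          ≤ K * (1 + ‖s‖) ^ B) →
      (∀ d f, T d f ⊆ ball (R d f)) →
      (∀ d f, f ⊆ d → ∀ m ∈ T d f, (nm m / M0 X N d f) ^ (-σ) ≤ Y) →
      ∑ i ∈ J, PSum X N (fun d f e => ∑ m ∈ T d f, ‖bil χ (β i) d f e m X N (τ * I)‖)
        ≤ C * (Y * K * (1 + |τ|) ^ B) := by
  obtain ⟨C, hC, hs⟩ := h 2 B
  obtain ⟨g, hg0, hg⟩ : ∃ g : ℝ, 0 < g ∧
      ∫ v : ℝ, ‖((Vg (Real.exp v) : ℝ) : ℂ)‖ * Real.exp (σ * v) ≤ g :=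
    ⟨max _ 1, zero_lt_one.trans_le (le_max_right _ _), le_max_left _ _⟩
  refine ⟨C * g * 4 ^ B, by positivity,
    fun ι J β X N K τ Y R T hX hN hK hY hb hT hy => ?_⟩
  have hX1 : ∀ d e : Finset P, 0 < X / (Ns d * Ns e) := fun d e =>
    div_pos hX (mul_pos (Ns_pos d) (Ns_pos e))
  have key := hs (PlbIx ι) (Finset P) (plbI J X T)
    (fun q => sqf (16 * (X / (Ns q.2.1 * Ns q.2.2.2.1))))
    (fun q => sqf (16 * (X / (Ns q.2.1 * Ns q.2.2.2.1))))
    (fun v => (Vg (Real.exp v) : ℝ)) σ g (Y * K * (4 ^ B * (1 + |τ|) ^ B)) 1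
    (fun q c => (√(N * Ns q.2.1 / (X * Ns q.2.2.1)) : ℝ) *
      (dual χ (β q.1) q.2.1 q.2.2.1 q.2.2.2.1 q.2.2.2.2 c
        * wt (Ns c / (X / (Ns q.2.1 * Ns q.2.2.2.1))) (τ * I - 1 / 2)))
    (fun q c => (√(N * Ns q.2.1 / (X * Ns q.2.2.1)) : ℝ) *
      conj (dual χ (β q.1) q.2.1 q.2.2.1 q.2.2.2.1 q.2.2.2.2 c
        * wt (Ns c / (X / (Ns q.2.1 * Ns q.2.2.2.1))) (τ * I - 1 / 2)))
    (fun q => nm q.2.2.2.2 / M0 X N q.2.1 q.2.2.1)
    (fun q c => Ns c / (X / (Ns q.2.1 * Ns q.2.2.2.1)))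
    (fun q c => Ns c / (X / (Ns q.2.1 * Ns q.2.2.2.1)))
    (by rw [one_re, abs_le]; constructor <;> linarith) (plb_int hσ) hg
    (fun q hq => div_pos (zero_lt_one.trans_le
      (one_le_nmR (mem_ball.1 (hT _ _ (plb_mem hq).2)).1)) (plb_M0 hX hN _ _))
    (fun q c => div_pos (Ns_pos c) (hX1 _ _)) (fun q c => div_pos (Ns_pos c) (hX1 _ _))
    (fun τ1 => by
      obtain ⟨a1, b1⟩ := plb_pow (τ := τ) (τ1 := τ1) hσ.le h3 (s := σ + τ1 * I) (by simp)
        (by simp) B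
      obtain ⟨a2, b2⟩ := plb_pow (τ := τ) (τ1 := τ1) hσ.le h3 (s := conj (σ + τ1 * I)) (by simp)
        (by simp) B
      have hsub : ∀ s : ℂ, ∑ i ∈ J, PSum X N (fun d f e =>
          ∑ m ∈ T d f, ‖S (dual χ (β i) d f e m) (X / (Ns d * Ns e)) s‖ ^ 2) ≤
          ∑ i ∈ J, PSum X N (fun d f e =>
          ∑ m ∈ ball (R d f), ‖S (dual χ (β i) d f e m) (X / (Ns d * Ns e)) s‖ ^ 2) := fun s =>
        Finset.sum_le_sum fun i _ => plb_mono hX hN fun d f e =>
          Finset.sum_le_sum_of_subset_of_nonneg (hT d f) fun _ _ _ => sq_nonneg _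
      have c1 := ((hsub _).trans (hb _ a1)).trans (mul_le_mul_of_nonneg_left b1 hK)
      have c2 := ((hsub _).trans (hb _ a2)).trans (mul_le_mul_of_nonneg_left b2 hK)
      rw [plb_sum] at c1 c2
      have c3 := mul_le_mul_of_nonneg_left (add_le_add c1 c2) (half_pos zero_lt_one).le
      have c4 := mul_le_mul_of_nonneg_left c3 hY
      rw [← Finset.sum_add_distrib, Finset.mul_sum, Finset.mul_sum] at c4
      refine le_trans (Finset.sum_le_sum fun q hq => ?_) (c4.trans_eq (by ring))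
      rw [plb_S1 _ (hX1 _ _), plb_S2 _ (hX1 _ _), norm_mul, norm_mul, norm_conj, norm_real,
        Real.norm_of_nonneg (Real.sqrt_nonneg _), mul_assoc]
      refine mul_le_mul (hy _ _ (plb_mem hq).1 _ (plb_mem hq).2) ?_ (by positivity) hY
      rw [mul_mul_mul_comm, Real.mul_self_sqrt (plb_w hX hN _ _)]
      exact plb_amgm (plb_w hX hN _ _) _ _)
  rw [plb_sum]
  refine le_trans (le_of_eq (Finset.sum_congr rfl fun q _ => ?_)) (key.trans_eq ?_)
  · have hw := plb_w hX hN q.2.1 q.2.2.1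
    rw [plb_norm hw, bil, Finset.mul_sum]
    refine congrArg _ (Finset.sum_congr rfl fun c _ => ?_)
    rw [Finset.mul_sum]
    refine Finset.sum_congr rfl fun c' _ => ?_
    rw [mul_mul_mul_comm ((√(N * Ns q.2.1 / (X * Ns q.2.2.1)) : ℝ) : ℂ), ← ofReal_mul,
      Real.mul_self_sqrt hw]
    exact (mul_assoc _ _ _).symm
  · rw [one_im, abs_zero, add_zero, one_pow]
    ring

theorem plb_tends {M : ℝ} (hM : 0 < M) {F : E → ℝ}
    (hF : Summable fun m : E => if m = 0 then 0 else F m) :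
    Tendsto (fun L : ℕ => ∑ m ∈ ball (2 ^ L * M), F m) atTop
      (𝓝 (∑' m : E, if m = 0 then 0 else F m)) := by
  have h1 : Tendsto (fun L : ℕ => insert (0 : E) (ball (2 ^ L * M))) atTop atTop := by
    refine tendsto_atTop_finset_of_monotone (fun a b hab => Finset.insert_subset_insert _
      (ball_mono (mul_le_mul_of_nonneg_right (pow_le_pow_right₀ one_le_two hab) hM.le)))
      fun x => ?_
    obtain ⟨n, hn⟩ := pow_unbounded_of_one_lt (nm x / M : ℝ) one_lt_two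
    refine ⟨n, ?_⟩
    rcases eq_or_ne x 0 with rfl | hx
    · exact Finset.mem_insert_self _ _
    · exact Finset.mem_insert_of_mem (mem_ball.2 ⟨hx, ((div_lt_iff₀ hM).1 hn).le⟩)
  have h2 : Tendsto (fun s : Finset E => ∑ m ∈ s, if m = 0 then 0 else F m) atTop
      (𝓝 (∑' m : E, if m = 0 then 0 else F m)) := hF.hasSum
  refine (h2.comp h1).congr fun L => ?_
  rw [Function.comp_apply, Finset.sum_insert fun h => (mem_ball.1 h).1 rfl, if_pos rfl, zero_add]
  exact Finset.sum_congr rfl fun m hm => if_neg (mem_ball.1 hm).1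

theorem pL (h : SepB) {χ : P → E → ℂ} (h1 : PLa χ) : PL χ := by
  intro ε B hε
  obtain ⟨C1, hC1, h1⟩ := h1
  have hσ : 0 < min ε 1 / 2 := half_pos (lt_min hε one_pos)
  obtain ⟨C2, hC2, h2⟩ := plb_block h χ B hσ (by linarith [min_le_right ε 1])
  obtain ⟨C3, hC3, h3⟩ := plb_block h χ B (σ := 3) (by norm_num) le_rfl
  refine ⟨C1 * (1 + C2 + 24 * C3), by positivity, fun ι J β X N K τ hX hN hβ hK => ?_⟩
  have hX0 : 0 < X := by linarith
  have hN0 : 0 < N := by linarith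
  have hK0 : 0 ≤ K := by
    have := (Finset.sum_nonneg fun i _ => plb_nonneg hX0 hN0 fun d f e =>
      Finset.sum_nonneg fun m _ => sq_nonneg _).trans (hK 0 0 (by simp))
    simpa using this
  have hXe : 1 ≤ X ^ ε := Real.one_le_rpow hX hε.le
  have hτ : 0 ≤ K * (1 + |τ|) ^ B := by positivity
  have hL : ∀ L : ℕ, ∑ i ∈ J, PSum X N (fun d f e =>
      ∑ m ∈ ball (2 ^ L * M0 X N d f), ‖bil χ (β i) d f e m X N (τ * I)‖) ≤
      (C2 * X ^ ε + C3 * (24 - 24 * (3 / 4) ^ L)) * (K * (1 + |τ|) ^ B) := by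
    intro L
    induction L with
    | zero =>
      refine (h2 ι J β X N (K * 6 ^ 0) τ (X ^ ε) (fun d f => 2 ^ 0 * M0 X N d f) _ hX0 hN0
        (by positivity) (by positivity) (hK 0) (fun d f => Finset.Subset.refl _)
        fun d f hf m hm => ?_).trans_eq (by ring)
      have hM := plb_M0 hX0 hN0 d f
      have hM2 : M0 X N d f ≤ X ^ 2 := by
        have g1 := Ns_mono hf
        have g2 := one_le_Ns d
        have g3 := Ns_pos f
        unfold M0
        rw [div_pow, div_mul_eq_mul_div, div_div, div_le_iff₀ (by positivity)]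
        refine mul_le_mul_of_nonneg_left ?_ (sq_nonneg X)
        nlinarith [mul_le_mul_of_nonneg_left hN (sq_nonneg (Ns d))]
      have hm1 := one_le_nmR (mem_ball.1 hm).1
      have g4 : (X ^ 2)⁻¹ ≤ nm m / M0 X N d f := by
        rw [inv_eq_one_div]
        exact div_le_div₀ (by linarith) hm1 hM hM2
      refine (Real.rpow_le_rpow_of_nonpos (by positivity) g4 (by linarith)).trans ?_
      rw [Real.inv_rpow (by positivity), Real.rpow_neg (by positivity), inv_inv,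
        ← Real.rpow_natCast, ← Real.rpow_mul hX0.le]
      refine Real.rpow_le_rpow_of_exponent_le hX ?_
      push_cast
      linarith [min_le_left ε 1]
    | succ L ih =>
      have hsub : ∀ d f, ball (2 ^ L * M0 X N d f) ⊆ ball (2 ^ (L + 1) * M0 X N d f) := fun d f =>
        ball_mono (mul_le_mul_of_nonneg_right (pow_le_pow_right₀ one_le_two (Nat.le_succ L))
          (plb_M0 hX0 hN0 d f).le)
      have g1 := h3 ι J β X N (K * 6 ^ (L + 1)) τ (1 / 8 ^ L) (fun d f => 2 ^ (L + 1) * M0 X N d f)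
        (fun d f => ball (2 ^ (L + 1) * M0 X N d f) \ ball (2 ^ L * M0 X N d f)) hX0 hN0
        (by positivity) (by positivity) (hK (L + 1)) (fun d f => Finset.sdiff_subset)
        fun d f _ m hm => by
          obtain ⟨g2, g3⟩ := Finset.mem_sdiff.1 hm
          have g4 : (2 : ℝ) ^ L ≤ nm m / M0 X N d f := by
            rw [le_div_iff₀ (plb_M0 hX0 hN0 d f)]
            exact (not_le.1 fun g5 => g3 (mem_ball.2 ⟨(mem_ball.1 g2).1, g5⟩)).le
          refine (Real.rpow_le_rpow_of_nonpos (by positivity) g4 (by norm_num)).trans_eq ?_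
          rw [Real.rpow_neg (by positivity), one_div, show (3 : ℝ) = (3 : ℕ) by norm_num,
            Real.rpow_natCast, ← pow_mul, mul_comm, pow_mul]
          norm_num
      simp only [← Finset.sum_sdiff (hsub _ _), plb_add, Finset.sum_add_distrib]
      refine (add_le_add g1 ih).trans_eq ?_
      have e1 : (6 : ℝ) ^ L = (3 / 4) ^ L * 8 ^ L := by
        rw [← mul_pow]
        norm_num
      rw [pow_succ, pow_succ, e1]
      field_simp
      ring
  have hT : Tendsto (fun L : ℕ => ∑ i ∈ J, PSum X N (fun d f e =>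
      ∑ m ∈ ball (2 ^ L * M0 X N d f), ‖bil χ (β i) d f e m X N (τ * I)‖)) atTop
      (𝓝 (∑ i ∈ J, PSum X N fun d f e =>
        ∑' m : E, if m = 0 then 0 else ‖bil χ (β i) d f e m X N (τ * I)‖)) :=
    tendsto_finsetSum _ fun i hi => tendsto_finsetSum _ fun d _ => tendsto_finsetSum _ fun f _ =>
      tendsto_finsetSum _ fun e _ => (plb_tends (plb_M0 hX0 hN0 d f)
        ((h1 (β i) X N τ hX hN (hβ i hi)).1 d f e)).const_mul _
  have h4 := le_of_tendsto' hT (b := (C2 + 24 * C3) * (X ^ ε * K * (1 + |τ|) ^ B)) fun L => by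
    refine (hL L).trans ?_
    have g1 : (0 : ℝ) ≤ (3 / 4) ^ L := by positivity
    have g2 : C2 * X ^ ε + C3 * (24 - 24 * (3 / 4) ^ L) ≤ (C2 + 24 * C3) * X ^ ε := by
      nlinarith [mul_nonneg hC3.le g1, mul_le_mul_of_nonneg_left hXe hC3.le]
    exact (mul_le_mul_of_nonneg_right g2 hτ).trans_eq (by ring)
  refine (Finset.sum_le_sum fun i hi => (h1 (β i) X N τ hX hN (hβ i hi)).2).trans ?_
  rw [← Finset.mul_sum, Finset.sum_add_distrib, Finset.sum_const, nsmul_eq_mul, mul_assoc C1]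
  refine mul_le_mul_of_nonneg_left ?_ hC1.le
  have g1 : 0 ≤ (J.card : ℝ) * N * X := by positivity
  have g2 : 0 ≤ X ^ ε * K * (1 + |τ|) ^ B := by positivity
  nlinarith [mul_nonneg hC2.le g1, mul_nonneg hC3.le g1]

end QRH
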