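import Vale.Agent.P026.Sym
import Vale.Agent.P026.Rearr
import Vale.Agent.P026.Wt
import Vale.Agent.P026.QE1a

noncomputable section
namespace QRH
open Complex MeasureTheory Filter
open scoped ComplexConjugate Classical ContDiff Topology

theorem q1_int_sum (h1 : DelB) {ι : Type} (s : Finset ι) (k : ι → ℂ) (l : ι → ℝ) :
    ∫ v : ℝ, (beta v : ℝ) * ∑ i ∈ s, k i * (Complex.exp (1 * v) * q1G (v + l i))
      = ∑ i ∈ s, k i * sm 1 q1G (l i) := by
  have hc := q1_cont h1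
  simp only [Finset.mul_sum]
  rw [integral_finset_sum _ fun i _ => integrable_beta_mul (by fun_prop)]
  refine Finset.sum_congr rfl fun i _ => ?_
  rw [sm, ← integral_const_mul]
  congr 1
  funext v
  ring

/-- Coefficients restricted to multiples of `e`. -/
def q1z (α : Finset P → ℂ) (d e c : Finset P) : ℂ := if e ⊆ c then α (d ∪ c) else 0

/-- The dual size parameter. -/
def q1y (M w : ℝ) (f e1 e2 : Finset P) (a : E) : ℝ :=
  nm a * (Ns e1 * Ns e2) ^ 2 * w ^ 2 / M * Ns (f \ fac a) ^ 2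

theorem q1_powerset {N : ℝ} {c : Finset P} (hc : Ns c ≤ N) (F : Finset P → ℂ) :
    ∑ e ∈ c.powerset, F e = ∑ e ∈ sqf N, if e ⊆ c then F e else 0 := by
  rw [← Finset.sum_filter]
  refine Finset.sum_congr ?_ fun _ _ => rfl
  ext e
  simp only [Finset.mem_powerset, Finset.mem_filter, mem_sqf]
  exact ⟨fun h => ⟨(Ns_mono h).trans hc, h⟩, fun h => h.2⟩

theorem q1_pair (h1 : DelB) (α α' : Finset P → ℂ) {M N N1 : ℝ} (A : ℝ) (hM : 0 < M)
    (hN1 : 0 < N1) (d : Finset P) {c c' : Finset P} (hc : Ns c ≤ N) (hc' : Ns c' ≤ N) :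
    α (d ∪ c) * α' (d ∪ c') * ∫ v : ℝ, (beta v : ℝ) * E1 A (M * Real.exp v) d c c' =
      ∑ p ∈ (d.powerset ×ˢ sqf N ×ˢ sqf N) ×ˢ calA A,
        mu p.1.1 * mu p.1.2.1 * mu p.1.2.2 * ((M / (Ns p.1.1 * N1) : ℝ) : ℂ) *
          (q1x (q1z α d p.1.2.1) N1 p.2 c * q1x (q1z α' d p.1.2.2) N1 p.2 c' *
            sm 1 q1G (Real.log (q1y M (M / (Ns p.1.1 * N1)) p.1.1 p.1.2.1 p.1.2.2 p.2 /
              (Ns c / N1 * (Ns c' / N1))))) := by
  have k1 := Ns_pos c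
  have k2 := Ns_pos c'
  simp only [← mul_assoc]
  rw [← q1_int_sum h1, ← integral_const_mul]
  congr 1
  funext v
  rw [mul_left_comm]
  congr 1
  rw [E1, Finset.mul_sum, Finset.sum_product, Finset.sum_product]
  refine Finset.sum_congr rfl fun f _ => ?_
  have k3 := Ns_pos f
  rw [Finset.sum_comm, Finset.mul_sum, Finset.mul_sum]
  refine Finset.sum_congr rfl fun a ha => ?_
  have k4 : (0 : ℝ) < nm a := one_pos.trans_le (one_le_nmR (mem_ball.1 (Finset.mem_filter.1 ha).1).1)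
  rw [Finset.sum_product, q1_powerset hc]
  simp only [q1_powerset hc', Finset.mul_sum]
  refine Finset.sum_congr rfl fun e1 _ => ?_
  by_cases b1 : e1 ⊆ c
  swap
  · simp [q1x, q1z, b1]
  rw [if_pos b1]
  simp only [Finset.mul_sum]
  refine Finset.sum_congr rfl fun e2 _ => ?_
  by_cases b2 : e2 ⊆ c'
  swap
  · simp [q1x, q1z, b2]
  have k5 := Ns_pos e1
  have k6 := Ns_pos e2
  have k7 := Ns_pos (f \ fac a)
  have e3 : Real.exp (v + Real.log (q1y M (M / (Ns f * N1)) f e1 e2 a /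
      (Ns c / N1 * (Ns c' / N1)))) = nm a * Ns (f \ fac a) ^ 2 * (Ns e1 * Ns e2) ^ 2 *
        (M * Real.exp v) / (Ns f ^ 2 * (Ns c * Ns c')) := by
    rw [Real.exp_add, Real.exp_log (by unfold q1y; positivity), q1y]
    field_simp
  have e4 : M * Real.exp v / (Ns f * √(Ns c * Ns c')) =
      M / (Ns f * N1) / √(Ns c / N1) / √(Ns c' / N1) * Real.exp v := by
    have s1 := Real.sqrt_pos.2 k1
    have s2 := Real.sqrt_pos.2 k2
    have s3 := Real.sqrt_pos.2 hN1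
    rw [Real.sqrt_mul k1.le, Real.sqrt_div k1.le, Real.sqrt_div k2.le]
    have s4 := Real.mul_self_sqrt hN1.le
    generalize √N1 = r at *
    rw [← s4]
    field_simp
  rw [if_pos b2, q1G, e3, e4]
  simp only [q1x, q1z, if_pos b1, if_pos b2, one_mul, Complex.ofReal_mul, Complex.ofReal_div,
    Complex.ofReal_exp]
  ring

theorem q1_sum_le (α : Finset P → ℂ) {N : ℝ} (d r e : Finset P) :
    ∑ c ∈ sqf (N / Ns d) with Disjoint c d ∧ r ⊆ c, ‖q1z α d e c‖ ^ 2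
      ≤ ∑ n ∈ sqf N with d ∪ r ∪ e ⊆ n, ‖α n‖ ^ 2 := by
  have h1 : ∀ c, ‖q1z α d e c‖ ^ 2 = if e ⊆ c then ‖α (d ∪ c)‖ ^ 2 else 0 := fun c => by
    rw [q1z]; split_ifs <;> simp
  simp only [h1]
  rw [← Finset.sum_filter, ← Finset.sum_image (g := fun c => d ∪ c) (f := fun n => ‖α n‖ ^ 2)]
  · refine Finset.sum_le_sum_of_subset_of_nonneg (fun n hn => ?_) fun _ _ _ => sq_nonneg _
    obtain ⟨c, hc, rfl⟩ := Finset.mem_image.1 hn
    simp only [Finset.mem_filter, mem_sqf] at hc ⊢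
    refine ⟨?_, Finset.union_subset (Finset.union_subset_union_right hc.1.2.2)
      (hc.2.trans Finset.subset_union_right)⟩
    rw [Ns_union hc.1.2.1.symm, mul_comm]
    exact (le_div_iff₀ (Ns_pos d)).1 hc.1.1
  · intro c hc c' hc' h
    simp only [Finset.coe_filter, Finset.mem_filter, Set.mem_setOf_eq] at hc hc'
    have h2 := congrArg (· \ d) h
    simp only [Finset.union_sdiff_left] at h2
    rwa [Finset.sdiff_eq_self_of_disjoint hc.1.2.1,
      Finset.sdiff_eq_self_of_disjoint hc'.1.2.1] at h2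

theorem q1_supp {α : Finset P → ℂ} {N : ℝ} (hα : ∀ n, α n ≠ 0 → Odd' n ∧ N / 2 < Ns n)
    (d r e : Finset P) :
    Q1S ((sqf (N / Ns d)).filter fun c => Disjoint c d ∧ r ⊆ c) (q1z α d e) e (N / Ns d) := by
  intro c hc h0
  simp only [Finset.mem_filter, mem_sqf] at hc
  have he : e ⊆ c := by
    by_contra h
    exact h0 (if_neg h)
  rw [q1z, if_pos he] at h0
  obtain ⟨k1, k2⟩ := hα _ h0
  refine ⟨fun p hp => k1 p (Finset.mem_union_right _ hp), he, ?_, hc.1⟩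
  rw [Ns_union hc.2.1.symm] at k2
  rw [div_right_comm, div_lt_iff₀ (Ns_pos d)]
  linarith

theorem q1_term (h1 : DelB) (h2 : SepB) {ξ δ : ℝ} (hξ : 1 ≤ ξ) (hξ2 : ξ ≤ 2) (h : QD ξ)
    (hδ : 0 < δ) (hδ1 : δ ≤ 1 / 4) : ∃ C : ℝ, 0 < C ∧
    ∀ (M N Z A0 : ℝ) (J : Finset (Finset P)) (z z' : Finset P → ℂ) (d f e1 e2 : Finset P)
      (S1 S2 : ℝ), 1 ≤ N → N ^ (2 - 1 / ξ) ≤ M → 1 ≤ Z → A0 ≤ N ^ (1 / ξ) * Z → Ns d ≤ N → f ⊆ d →
      Ns e1 ≤ N → Ns e2 ≤ N → Q1S J z e1 (N / Ns d) → Q1S J z' e2 (N / Ns d) →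
      ∑ c ∈ J, ‖z c‖ ^ 2 ≤ S1 → ∑ c ∈ J, ‖z' c‖ ^ 2 ≤ S2 →
      M / (Ns f * (N / Ns d)) * ∑ a ∈ calA A0, ‖∑ c ∈ J, ∑ c' ∈ J,
          q1x z (N / Ns d) a c * q1x z' (N / Ns d) a c' *
          sm 1 q1G (Real.log (q1y M (M / (Ns f * (N / Ns d))) f e1 e2 a /
            (Ns c / (N / Ns d) * (Ns c' / (N / Ns d)))))‖
        ≤ C * ((2 * (M * N) ^ 3 * Z) ^ δ) ^ 3 * (M * Z ^ 2) * (√(S1 / Ns e1) * √(S2 / Ns e2)) := by
  obtain ⟨C1, hC1, hB⟩ := q1_block h1 h2 h hδ hδ1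
  obtain ⟨C2, hC2, hL⟩ := log_le_rpow hδ
  refine ⟨C2 * C1 * 5, by positivity,
    fun M N Z A0 J z z' d f e1 e2 S1 S2 hN hM hZ hA0 hd hf he1 he2 hz hz' hS1 hS2 => ?_⟩
  have hξ0 : 0 < ξ := by linarith
  have hξ1 : 1 / ξ ≤ 1 := (div_le_one hξ0).2 hξ
  have hNM : N ≤ M := le_trans (Real.self_le_rpow_of_one_le hN (by linarith)) hM
  have n1 : 1 ≤ N ^ (1 / ξ) * Z :=
    one_le_mul_of_one_le_of_one_le (Real.one_le_rpow hN (by positivity)) hZ
  have n2 : N ^ (1 / ξ) * Z ≤ N * Z :=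
    mul_le_mul_of_nonneg_right (Real.rpow_le_self_of_one_le hN hξ1) (by linarith)
  obtain ⟨K, hK1, hK2⟩ := exists_dyadic (le_max_right A0 1)
  have hK3 : (2 : ℝ) ^ K ≤ N ^ (1 / ξ) * Z := hK1.trans (max_le hA0 n1)
  have hd0 := Ns_pos d
  have hf1 := one_le_Ns f
  have u1 : 1 ≤ N / Ns d := (one_le_div hd0).2 hd
  have u2 : N / Ns d ≤ N := div_le_self (by linarith) (one_le_Ns d)
  have u3 : Ns f * (N / Ns d) ≤ N := by
    rw [← mul_div_assoc, div_le_iff₀ hd0, mul_comm]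
    exact mul_le_mul_of_nonneg_left (Ns_mono hf) (by linarith)
  generalize N / Ns d = N1 at *
  have u4 : 1 ≤ Ns f * N1 := one_le_mul_of_one_le_of_one_le hf1 u1
  have hM0 : 0 < M := by linarith
  have w0 : 0 < M / (Ns f * N1) := by positivity
  have w1 : M / (Ns f * N1) ≤ M := div_le_self hM0.le u4
  have w2 : M / (Ns f * N1) * N1 ≤ M := by
    rw [div_mul_eq_mul_div, div_le_iff₀ (by linarith)]
    exact mul_le_mul_of_nonneg_left (le_mul_of_one_le_left (by linarith) hf1) hM0.le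
  have w3 : M ≤ M / (Ns f * N1) * N := by
    rw [div_mul_eq_mul_div, le_div_iff₀ (by linarith)]
    exact mul_le_mul_of_nonneg_left u3 hM0.le
  generalize M / (Ns f * N1) = w at *
  have t1 : N * N ≤ M * N := mul_le_mul_of_nonneg_right hNM (by linarith)
  have t2 : N ≤ N * N := le_mul_of_one_le_left (by linarith) hN
  have t3 : M * N ≤ (M * N) ^ 3 := le_self_pow₀ (by linarith) (by norm_num)
  have t4 : (M * N) ^ 3 ≤ (M * N) ^ 3 * Z := le_mul_of_one_le_right (by positivity) hZ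
  have t5 : N * N * Z ≤ (M * N) ^ 3 * Z := mul_le_mul_of_nonneg_right (by linarith) (by linarith)
  have t6 : N * Z ≤ N * N * Z := mul_le_mul_of_nonneg_right t2 (by linarith)
  obtain ⟨Y, hY⟩ : ∃ Y, Y = 2 * (M * N) ^ 3 * Z := ⟨_, rfl⟩
  rw [← hY]
  have hY1 : 1 ≤ Y := by linarith
  have a1 := one_le_Ns e1
  have a2 := one_le_Ns e2
  have a3 : 1 ≤ Ns e1 * Ns e2 := one_le_mul_of_one_le_of_one_le a1 a2
  have a4 : Ns e1 * Ns e2 ≤ M * N := (mul_le_mul he1 he2 (by linarith) (by linarith)).trans t1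
  rw [sum_dyadic (calA A0) (fun a => (nm a : ℝ)) _ (J := K) (fun a ha => by
    have := mem_ball.1 (Finset.mem_filter.1 ha).1
    exact ⟨one_le_nmR this.1, this.2.trans_lt ((le_max_left _ _).trans_lt hK2)⟩), Finset.mul_sum]
  refine (Finset.sum_le_card_nsmul _ _
    (C1 * (Y ^ δ) ^ 2 * (5 * (M * Z ^ 2)) * (√(S1 / Ns e1) * √(S2 / Ns e2))) fun j hj => ?_).trans ?_
  · have j1 : (1 : ℝ) ≤ 2 ^ j := one_le_pow₀ one_le_two
    have j2 : (2 : ℝ) ^ j ≤ N ^ (1 / ξ) * Z :=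
      (pow_le_pow_right₀ one_le_two (Nat.lt_succ_iff.1 (Finset.mem_range.1 hj))).trans hK3
    rw [pow_succ]
    generalize (2 : ℝ) ^ j = A at j1 j2 ⊢
    obtain ⟨m, m0, m1, m2, hm⟩ := hB ((calA A0).filter fun a => A ≤ nm a ∧ nm a < A * 2) J z z'
      e1 e2 (q1y M w f e1 e2) N1 (2 * A) (A * (Ns e1 * Ns e2) ^ 2 * w ^ 2 / M) Y (by linarith)
      (by linarith) (fun a ha => by
        simp only [calA, Finset.mem_filter, mem_ball] at ha ⊢
        exact ⟨⟨ha.1.1.1, by linarith [ha.2.2]⟩, ha.1.2⟩) (by positivity) (fun a ha => by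
        have := (Finset.mem_filter.1 ha).2.1
        refine le_trans ?_ (le_mul_of_one_le_right (by positivity) (one_le_pow₀ (one_le_Ns _)))
        gcongr) (by
        rw [div_le_iff₀ hM0]
        calc _ ≤ N * Z * (M * N) ^ 2 * M ^ 2 := by gcongr; exact j2.trans n2
          _ = (M * N) ^ 3 * Z * M := by ring
          _ ≤ Y * M := mul_le_mul_of_nonneg_right (by linarith) hM0.le) (by
        rw [inv_div, div_le_iff₀ (by positivity)]
        calc M ≤ M * M := le_mul_of_one_le_left hM0.le (by linarith)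
          _ ≤ w * N * (w * N) := mul_self_le_mul_self hM0.le w3
          _ = N * N * (1 * 1 ^ 2 * w ^ 2) := by ring
          _ ≤ _ := by gcongr; linarith) (by
        linarith [mul_le_mul (j2.trans n2) u2 (by linarith) (by positivity)]) hz hz'
    refine (mul_le_mul_of_nonneg_left hm w0.le).trans ?_
    have b1 := q1_num hξ hξ2 hN hM hZ j1 j2 m0 m1 w0 (by linarith) w2 a1 a2 m2
    have b2 := q1_num hξ hξ2 hN hM hZ j1 j2 m0 m1 w0 (by linarith) w2 a2 a1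
      (by rwa [mul_comm (Ns e2)])
    have key : ∀ {X s S a : ℝ}, 0 < a → 0 ≤ s → s ≤ S → w * X ≤ 5 * M * Z ^ 2 / a →
        √w * √(X * s) ≤ √(5 * (M * Z ^ 2)) * √(S / a) := fun {X s S a} ha s0 hs hX => by
      rw [← Real.sqrt_mul w0.le, ← Real.sqrt_mul (by positivity)]
      refine Real.sqrt_le_sqrt ?_
      rw [← mul_assoc]
      exact (mul_le_mul hX hs s0 (by positivity)).trans (le_of_eq (by ring))
    have b3 := mul_le_mul (key (Ns_pos e1) (Finset.sum_nonneg fun _ _ => sq_nonneg _) hS1 b1)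
      (key (Ns_pos e2) (Finset.sum_nonneg fun _ _ => sq_nonneg _) hS2 b2) (by positivity)
      (by positivity)
    rw [mul_mul_mul_comm, mul_mul_mul_comm (√(5 * (M * Z ^ 2))), Real.mul_self_sqrt w0.le,
      Real.mul_self_sqrt (by positivity)] at b3
    rw [mul_left_comm, mul_assoc (C1 * (Y ^ δ) ^ 2)]
    exact mul_le_mul_of_nonneg_left b3 (by positivity)
  · rw [Finset.card_range, nsmul_eq_mul, Nat.cast_succ]
    refine (mul_le_mul_of_nonneg_right (hL Y K hY1 (by linarith)) (by positivity)).trans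
      (le_of_eq (by ring))

theorem qE1 (h1 : DelB) (h2 : SepB) {ξ : ℝ} (hξ : 1 ≤ ξ) (hξ2 : ξ ≤ 2) (h : QD ξ) :
    QE E1 ξ := by
  intro ε hε
  obtain ⟨δ, hδ⟩ : ∃ δ : ℝ, δ = ε / (4 * (3 + ε)) := ⟨_, rfl⟩
  have hδ0 : 0 < δ := by rw [hδ]; positivity
  have hδ2 : (3 + ε) * (δ * 4) = ε := by rw [hδ]; field_simp
  have hδ1 : δ ≤ 1 / 4 := by nlinarith
  obtain ⟨C1, hC1, hT⟩ := q1_term h1 h2 hξ hξ2 h hδ0 hδ1
  obtain ⟨C2, hC2, hcomb⟩ := comb hδ0
  refine ⟨C1 * C2 * 2, by positivity, fun M N α hN hM ⟨a0, hα⟩ => ?_⟩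
  have hξ0 : 0 < ξ := by linarith
  have hNM : N ≤ M := le_trans (Real.self_le_rpow_of_one_le hN
    (by linarith [(div_le_one hξ0).2 hξ])) hM
  have hM0 : 0 < M := by linarith
  have hT1 : 1 ≤ M * N := one_le_mul_of_one_le_of_one_le (by linarith) hN
  have hZ : 1 ≤ (M * N) ^ ε := Real.one_le_rpow hT1 hε.le
  have hA0 : N ^ 2 * (M * N) ^ ε / M ≤ N ^ (1 / ξ) * (M * N) ^ ε := by
    rw [div_le_iff₀ hM0, mul_right_comm]
    refine mul_le_mul_of_nonneg_right ?_ (by linarith)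
    calc N ^ 2 = N ^ (1 / ξ) * N ^ (2 - 1 / ξ) := by
          rw [← Real.rpow_add (by linarith), add_sub_cancel, Real.rpow_two]
      _ ≤ _ := mul_le_mul_of_nonneg_left hM (by positivity)
  have hY : ((2 * (M * N) ^ 3 * (M * N) ^ ε) ^ δ) ^ 4 ≤ 2 * (M * N) ^ ε := by
    rw [mul_assoc, ← Real.rpow_natCast (M * N), ← Real.rpow_add (by linarith),
      ← Real.rpow_natCast, ← Real.rpow_mul (by positivity),
      Real.mul_rpow (by norm_num) (by positivity), ← Real.rpow_mul (by linarith)]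
    push_cast
    rw [hδ2]
    exact mul_le_mul_of_nonneg_right (Real.rpow_le_self_of_one_le one_le_two (by linarith))
      (by linarith)
  have hN2 : N ^ δ ≤ (2 * (M * N) ^ 3 * (M * N) ^ ε) ^ δ := by
    refine Real.rpow_le_rpow (by linarith) ?_ hδ0.le
    have t1 : N ≤ M * N := le_mul_of_one_le_left (by linarith) (by linarith)
    have t3 : M * N ≤ (M * N) ^ 3 := le_self_pow₀ hT1 (by norm_num)
    have t4 := le_mul_of_one_le_right (by positivity : 0 ≤ (M * N) ^ 3) hZ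
    linarith
  have hZ3 : (M * N) ^ (3 * ε) = ((M * N) ^ ε) ^ 3 := by
    rw [← Real.rpow_natCast, ← Real.rpow_mul (by linarith), mul_comm ε]; norm_num
  rw [hZ3]
  generalize (M * N) ^ ε = Z at *
  generalize N ^ 2 * Z / M = A0 at *
  have e0 := rearr2 N (fun d c c' => α (d ∪ c) * conj (α (d ∪ c')) *
    ∫ v : ℝ, (beta v : ℝ) * E1 A0 (M * Real.exp v) d c c')
  have e1 : ∀ n n' : Finset P, n ∩ n' ∪ n \ n' = n := fun n n' => by
    rw [Finset.union_comm, Finset.sdiff_union_inter]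
  have e2 : ∀ n n' : Finset P, n ∩ n' ∪ n' \ n = n' := fun n n' => by
    rw [Finset.inter_comm, e1]
  simp only [e1, e2] at e0
  rw [e0]
  obtain ⟨K, hK⟩ : ∃ K, K = C1 * ((2 * (M * N) ^ 3 * Z) ^ δ) ^ 3 * (M * Z ^ 2) := ⟨_, rfl⟩
  have hK0 : 0 ≤ K := by rw [hK]; positivity
  have key : ∀ d ∈ sqf N, ∀ r ∈ sqf N, ‖mu r * ∑ c ∈ sqf (N / Ns d) with Disjoint c d ∧ r ⊆ c,
      ∑ c' ∈ sqf (N / Ns d) with Disjoint c' d ∧ r ⊆ c', α (d ∪ c) * conj (α (d ∪ c')) *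
        ∫ v : ℝ, (beta v : ℝ) * E1 A0 (M * Real.exp v) d c c'‖ ≤ K * (2 ^ d.card *
      (∑ e ∈ sqf N, √((∑ n ∈ sqf N with d ∪ r ∪ e ⊆ n, ‖α n‖ ^ 2) / Ns e)) ^ 2) := by
    intro d hd r _
    have hd0 := Ns_pos d
    have hJ : ∀ c ∈ (sqf (N / Ns d)).filter fun c => Disjoint c d ∧ r ⊆ c, Ns c ≤ N := fun c hc =>
      (mem_sqf.1 (Finset.mem_filter.1 hc).1).trans (div_le_self (by linarith) (one_le_Ns d))
    rw [norm_mul, norm_mu, one_mul, Finset.sum_congr rfl fun c hc => Finset.sum_congr rfl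
      fun c' hc' => q1_pair h1 α (fun n => conj (α n)) A0 hM0 (N1 := N / Ns d) (by positivity) d
        (hJ c hc) (hJ c' hc'), Finset.sum_congr rfl fun c _ => Finset.sum_comm, Finset.sum_comm,
      Finset.sum_product]
    refine (norm_sum_le _ _).trans ((Finset.sum_le_sum (g := fun q => K *
      (√((∑ n ∈ sqf N with d ∪ r ∪ q.2.1 ⊆ n, ‖α n‖ ^ 2) / Ns q.2.1) *
        √((∑ n ∈ sqf N with d ∪ r ∪ q.2.2 ⊆ n, ‖α n‖ ^ 2) / Ns q.2.2))) fun q hq => ?_).trans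
      (le_of_eq ?_))
    · simp only [Finset.mem_product, Finset.mem_powerset, mem_sqf] at hq
      have hf := Ns_pos q.1
      have b1 := hT M N Z A0 _ _ _ d q.1 q.2.1 q.2.2 _ _ hN hM hZ hA0 (mem_sqf.1 hd) hq.1 hq.2.1
        hq.2.2 (q1_supp (fun n hn => ⟨(hα n hn).1, (hα n hn).2.1⟩) d r q.2.1)
        (q1_supp (α := fun n => conj (α n)) (fun n hn =>
          ⟨(hα n (by simpa using hn)).1, (hα n (by simpa using hn)).2.1⟩) d r q.2.2)
        (q1_sum_le α d r q.2.1) (q1_sum_le (fun n => conj (α n)) d r q.2.2)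
      simp only [Complex.norm_conj] at b1
      rw [hK]
      refine (norm_sum_le _ _).trans (le_trans (le_of_eq ?_) b1)
      rw [Finset.mul_sum]
      refine Finset.sum_congr rfl fun a _ => ?_
      simp only [← Finset.mul_sum]
      rw [norm_mul, norm_mul, norm_mul, norm_mul, norm_mu, norm_mu, norm_mu, Complex.norm_real,
        Real.norm_eq_abs, abs_of_pos (by positivity)]
      simp only [one_mul, Finset.mul_sum]
    · rw [← Finset.mul_sum, Finset.sum_product]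
      simp only [Finset.sum_product, Finset.sum_const, Finset.card_powerset, nsmul_eq_mul]
      rw [sq, Finset.sum_mul_sum]
      push_cast
      rfl
  refine (norm_sum_le _ _).trans ((Finset.sum_le_sum fun d hd =>
    (norm_sum_le _ _).trans (Finset.sum_le_sum (key d hd))).trans ?_)
  simp only [← Finset.mul_sum]
  have h5 : 0 ≤ ∑ n ∈ sqf N, ‖α n‖ ^ 2 := Finset.sum_nonneg fun _ _ => sq_nonneg _
  have b2 := hcomb N α hN
  simp only [← Finset.mul_sum] at b2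
  refine (mul_le_mul_of_nonneg_left (b2.trans (mul_le_mul_of_nonneg_right
    (mul_le_mul_of_nonneg_left hN2 hC2.le) h5)) hK0).trans ?_
  rw [hK]
  have b3 := mul_le_mul_of_nonneg_left hY
    (by positivity : 0 ≤ C1 * C2 * (M * Z ^ 2) * ∑ n ∈ sqf N, ‖α n‖ ^ 2)
  linarith

end QRH
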