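import Vale.Agent.P026.Gauss
import Vale.Agent.P026.Rearr

noncomputable section
namespace QRH
open Complex MeasureTheory Filter
open scoped ComplexConjugate Classical ContDiff Topology

theorem ql0_pos (y : ℝ) : 0 < Vg y := Real.exp_pos _

theorem ql0_anti {x y : ℝ} (h : x ≤ y) : Vg y ≤ Vg x := by
  refine Real.exp_le_exp.2 ?_
  have : 0 ≤ 2 * Real.pi / √3 := by positivity
  nlinarith

theorem ql0_norm (y : ℝ) : ‖((Vg y : ℝ) : ℂ)‖ = Vg y := by
  rw [Complex.norm_real, Real.norm_of_nonneg (ql0_pos y).le]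

theorem ql0_sumR {t : ℝ} (ht : 0 < t) : Summable fun x : E => Vg (nm x / t) := by
  obtain ⟨C, -, h⟩ := gauss_lattice
  simpa only [div_eq_inv_mul] using (h t⁻¹ (inv_pos.2 ht)).1

theorem ql0_sumC {t B : ℝ} (ht : 0 < t) {ρ : E → ℂ} (hρ : ∀ x, ‖ρ x‖ ≤ B) :
    Summable fun x : E => ρ x * (Vg (nm x / t) : ℝ) := by
  refine Summable.of_norm_bounded ((ql0_sumR ht).mul_left B) fun x => ?_
  rw [norm_mul, ql0_norm]
  exact mul_le_mul_of_nonneg_right (hρ x) (ql0_pos _).le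

/-- A primitive quadratic character against the Gaussian. -/
theorem ql0_char (h : PSG) : ∃ C : ℝ, 0 < C ∧ ∀ (k : Finset P) (t : ℝ), Odd' k → k.Nonempty →
    0 < t → ‖∑' y : E, xs c2 k y * (Vg (nm y / t) : ℝ)‖ ≤ C * √(Ns k) := by
  obtain ⟨C, hC, hG⟩ := gauss_lattice
  refine ⟨C, hC, fun k t hk hne ht => ?_⟩
  have hnt : ∀ p ∈ k, Nt p (c2 p) := fun p hp => c2_nt (hk p hp)
  have hN : 0 < Ns k := Ns_pos k
  have hu : 0 < t / Ns k := div_pos ht hN
  obtain ⟨hs, hb⟩ := hG _ hu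
  have h0 : xs c2 k 0 = 0 := by
    obtain ⟨p, hp⟩ := hne
    exact (xs_eq_zero_iff ch_c2).2 ⟨p, hp, dvd_zero _⟩
  have hs' : Summable fun x : E => if x = 0 then 0 else Vg (t / Ns k * nm x) := by
    refine Summable.of_nonneg_of_le (fun x => ?_) (fun x => ?_) hs
    · split_ifs
      exacts [le_rfl, (ql0_pos _).le]
    · split_ifs
      exacts [(ql0_pos _).le, le_rfl]
  have ht' : ∑' x : E, (if x = 0 then 0 else Vg (t / Ns k * nm x)) ≤ C / (t / Ns k) := by
    have e := hs.tsum_eq_add_tsum_ite 0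
    have e0 : Vg (t / Ns k * nm (0 : E)) = 1 := by simp [Vg, nm_zero]
    rw [e0] at e
    linarith
  have hg : ‖gs c2 k‖ = √(Ns k) := by rw [norm_gs ch_c2 hnt, norm_toC, Ns]
  rw [h (pr k) (xs c2 k) t (pr_ne_zero k) (xs_per ch_c2 k) ht]
  simp only [gs_twist ch_c2 hnt]
  have hb2 : ‖∑' ξ : E, conj (xs c2 k ξ) * gs c2 k * (Vg (nm ξ * t / nm (pr k)) : ℝ)‖
      ≤ √(Ns k) * (C / (t / Ns k)) := by
    refine (tsum_of_norm_bounded (hs'.mul_left √(Ns k)).hasSum fun x => ?_).trans ?_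
    · split_ifs with hx
      · simp [hx, h0]
      · have e : (nm x : ℝ) * t / nm (pr k) = t / Ns k * nm x := by
          rw [Ns]
          ring
        rw [norm_mul, norm_mul, ql0_norm, hg, Complex.norm_conj, e]
        refine mul_le_mul_of_nonneg_right ?_ (ql0_pos _).le
        exact mul_le_of_le_one_left (Real.sqrt_nonneg _) (norm_xs_le ch_c2 k x)
    · rw [tsum_mul_left]
      exact mul_le_mul_of_nonneg_left ht' (Real.sqrt_nonneg _)
  rw [norm_mul, Complex.norm_real, Real.norm_of_nonneg (show 0 ≤ t / nm (pr k) from hu.le)]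
  refine (mul_le_mul_of_nonneg_left hb2 (show 0 ≤ t / nm (pr k) from hu.le)).trans_eq ?_
  show t / Ns k * _ = _
  field_simp

theorem ql0_split (n n' : Finset P) (m : E) : xs c2 n m * xs c2 n' m =
    ∑ f ∈ (n ∩ n').powerset, (if pr f ∣ m then mu f else 0) * xs c2 (n \ n' ∪ n' \ n) m := by
  have h1 : xs c2 n m = xs c2 (n ∩ n') m * xs c2 (n \ n') m := by
    rw [← xs_union (Finset.disjoint_sdiff_inter n n').symm, Finset.union_comm,
      Finset.sdiff_union_inter]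
  have h2 : xs c2 n' m = xs c2 (n ∩ n') m * xs c2 (n' \ n) m := by
    rw [Finset.inter_comm, ← xs_union (Finset.disjoint_sdiff_inter n' n).symm, Finset.union_comm,
      Finset.sdiff_union_inter]
  rw [← Finset.sum_mul, sum_mu_dvd, ← xs_mul_conj ch_c2, conj_xs_c2,
    xs_union disjoint_sdiff_sdiff, h1, h2]
  ring

/-- The off-diagonal sums. -/
theorem ql0_pair (h : PSG) : ∃ C : ℝ, 0 < C ∧ ∀ (n n' : Finset P) (t : ℝ), Odd' n → Odd' n' →
    n ≠ n' → 0 < t → ‖∑' y : E, xs c2 n y * xs c2 n' y * (Vg (nm y / t) : ℝ)‖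
      ≤ C * 2 ^ n.card * √(Ns n * Ns n') := by
  obtain ⟨C, hC, hc⟩ := ql0_char h
  refine ⟨C, hC, fun n n' t hn hn' hne ht => ?_⟩
  set k := n \ n' ∪ n' \ n with hk
  have hko : Odd' k := fun p hp => by
    rcases Finset.mem_union.1 hp with hp | hp
    exacts [hn p (Finset.mem_sdiff.1 hp).1, hn' p (Finset.mem_sdiff.1 hp).1]
  have hkn : k.Nonempty := by
    rw [Finset.nonempty_iff_ne_empty]
    intro e
    rw [hk, Finset.union_eq_empty, Finset.sdiff_eq_empty_iff_subset,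
      Finset.sdiff_eq_empty_iff_subset] at e
    exact hne (e.1.antisymm e.2)
  have hkN : √(Ns k) ≤ √(Ns n * Ns n') := by
    refine Real.sqrt_le_sqrt ((Ns_union_le _ _).trans ?_)
    exact mul_le_mul (Ns_mono Finset.sdiff_subset) (Ns_mono Finset.sdiff_subset) (Ns_pos _).le
      (Ns_pos _).le
  have hterm : ∀ f ∈ (n ∩ n').powerset, ‖∑' y : E, (if pr f ∣ y then mu f else 0) * xs c2 k y
      * (Vg (nm y / t) : ℝ)‖ ≤ C * √(Ns n * Ns n') := by
    intro f _
    rw [tsum_supp (pr_ne_zero f) (fun x hx => by simp [hx])]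
    have e : ∀ y : E, (if pr f ∣ pr f * y then mu f else 0) * xs c2 k (pr f * y)
        * (Vg (nm (pr f * y) / t) : ℝ)
        = mu f * xs c2 k (pr f) * (xs c2 k y * (Vg (nm y / (t / Ns f)) : ℝ)) := by
      intro y
      have e1 : (nm (pr f * y) : ℝ) / t = nm y / (t / Ns f) := by
        have := (Ns_pos f).ne'
        rw [nm_mul, Nat.cast_mul]
        show Ns f * _ / t = _
        field_simp
      rw [if_pos (dvd_mul_right _ _), xs_mul ch_c2, e1]
      ring
    rw [tsum_congr e, tsum_mul_left, norm_mul, norm_mul, norm_mu, one_mul]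
    refine (mul_le_of_le_one_left (norm_nonneg _) (norm_xs_le ch_c2 _ _)).trans ?_
    exact (hc k _ hko hkn (div_pos ht (Ns_pos f))).trans (mul_le_mul_of_nonneg_left hkN hC.le)
  have hsum : ∀ f ∈ (n ∩ n').powerset, Summable fun y : E =>
      (if pr f ∣ y then mu f else 0) * xs c2 k y * (Vg (nm y / t) : ℝ) := by
    intro f _
    refine ql0_sumC (B := 1) ht fun x => ?_
    rw [norm_mul]
    refine mul_le_one₀ ?_ (norm_nonneg _) (norm_xs_le ch_c2 _ _)
    split_ifs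
    · exact (norm_mu f).le
    · simp
  simp only [ql0_split n n', Finset.sum_mul]
  rw [Summable.tsum_finsetSum hsum]
  refine (norm_sum_le_of_le _ hterm).trans ?_
  rw [Finset.sum_const, Finset.card_powerset, nsmul_eq_mul]
  have h2 : ((2 ^ (n ∩ n').card : ℕ) : ℝ) ≤ 2 ^ n.card := by
    push_cast
    exact pow_le_pow_right₀ one_le_two (Finset.card_le_card Finset.inter_subset_left)
  calc _ ≤ 2 ^ n.card * (C * √(Ns n * Ns n')) :=
        mul_le_mul_of_nonneg_right h2 (by positivity)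
    _ = _ := by ring

theorem ql0_expand (T : Finset (Finset P)) (α : Finset P → ℂ) {t : ℝ} (ht : 0 < t) :
    Summable (fun y : E => ‖∑ n ∈ T, α n * xs c2 n y‖ ^ 2 * Vg (nm y / t)) ∧
    ∑' y : E, ‖∑ n ∈ T, α n * xs c2 n y‖ ^ 2 * Vg (nm y / t) ≤ ∑ n ∈ T, ∑ n' ∈ T,
      ‖α n‖ * ‖α n'‖ * ‖∑' y : E, xs c2 n y * xs c2 n' y * (Vg (nm y / t) : ℝ)‖ := by
  have e : ∀ y : E, ((‖∑ n ∈ T, α n * xs c2 n y‖ ^ 2 * Vg (nm y / t) : ℝ) : ℂ) =
      ∑ n ∈ T, ∑ n' ∈ T, α n * conj (α n') * (xs c2 n y * xs c2 n' y * (Vg (nm y / t) : ℝ)) := by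
    intro y
    rw [Complex.ofReal_mul, Complex.ofReal_pow, ← Complex.mul_conj', map_sum, Finset.sum_mul_sum,
      Finset.sum_mul]
    refine Finset.sum_congr rfl fun n _ => ?_
    rw [Finset.sum_mul]
    refine Finset.sum_congr rfl fun n' _ => ?_
    rw [map_mul, conj_xs_c2]
    ring
  have hs : ∀ n n', Summable fun y : E =>
      α n * conj (α n') * (xs c2 n y * xs c2 n' y * (Vg (nm y / t) : ℝ)) := by
    intro n n'
    refine (ql0_sumC (B := 1) ht fun x => ?_).mul_left _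
    rw [norm_mul]
    exact mul_le_one₀ (norm_xs_le ch_c2 _ _) (norm_nonneg _) (norm_xs_le ch_c2 _ _)
  have hS : Summable fun y : E =>
      ((‖∑ n ∈ T, α n * xs c2 n y‖ ^ 2 * Vg (nm y / t) : ℝ) : ℂ) := by
    simp only [e]
    exact summable_sum fun n _ => summable_sum fun n' _ => hs n n'
  refine ⟨Complex.summable_ofReal.1 hS, (Real.le_norm_self _).trans ?_⟩
  rw [← Complex.norm_real, Complex.ofReal_tsum, tsum_congr e,
    Summable.tsum_finsetSum fun n _ => summable_sum fun n' _ => hs n n']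
  refine norm_sum_le_of_le _ fun n _ => ?_
  rw [Summable.tsum_finsetSum fun n' _ => hs n n']
  refine norm_sum_le_of_le _ fun n' _ => ?_
  rw [tsum_mul_left, norm_mul, norm_mul, Complex.norm_conj]

theorem qS_two (h : PSG) : QS 2 := by
  intro ε hε
  obtain ⟨C1, hC1, hG⟩ := gauss_lattice
  obtain ⟨C2, hC2, hp⟩ := ql0_pair h
  obtain ⟨C3, hC3, hc⟩ := pow_card_le (A := 2) zero_le_two hε
  have hV := ql0_pos 1
  refine ⟨(1 + C1 + 12 * C2 * C3) / Vg 1, by positivity, fun M N α hM hN => ?_⟩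
  have hM0 : 0 < M := one_pos.trans_le hM
  have hN0 : 0 < N := one_pos.trans_le hN
  obtain ⟨hs, hb⟩ := ql0_expand (sqo N) α hM0
  set Z := (M * N) ^ ε with hZ
  have hZ1 : 1 ≤ Z := Real.one_le_rpow (by nlinarith) hε.le
  have hZN : N ^ ε ≤ Z := Real.rpow_le_rpow hN0.le (by nlinarith) hε.le
  set A := ∑ n ∈ sqo N, ‖α n‖ ^ 2 with hA
  have hA0 : 0 ≤ A := Finset.sum_nonneg fun _ _ => by positivity
  have h1 : Vg 1 * ∑ m ∈ sqo M, ‖∑ n ∈ sqo N, α n * xs c2 n (pr m)‖ ^ 2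
      ≤ ∑' y : E, ‖∑ n ∈ sqo N, α n * xs c2 n y‖ ^ 2 * Vg (nm y / M) := by
    refine le_trans ?_ (hs.sum_le_tsum ((sqo M).image pr) fun y _ =>
      mul_nonneg (by positivity) (ql0_pos _).le)
    rw [Finset.sum_image fun a _ b _ e => pr_inj e, Finset.mul_sum]
    refine Finset.sum_le_sum fun m hm => ?_
    rw [mul_comm]
    refine mul_le_mul_of_nonneg_left (ql0_anti ?_) (by positivity)
    exact (div_le_one hM0).2 (mem_sqf.1 (Finset.mem_filter.1 hm).1)
  have h2 : ∀ n ∈ sqo N, ∀ n' ∈ sqo N,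
      ‖∑' y : E, xs c2 n y * xs c2 n' y * (Vg (nm y / M) : ℝ)‖
        ≤ (if n = n' then 1 + C1 * M else 0) + C2 * C3 * Z * N := by
    intro n hn n' hn'
    obtain ⟨hn1, hn2⟩ := Finset.mem_filter.1 hn
    obtain ⟨hn1', hn2'⟩ := Finset.mem_filter.1 hn'
    split_ifs with e
    · refine le_add_of_le_of_nonneg ?_ (by positivity)
      refine (tsum_of_norm_bounded (ql0_sumR hM0).hasSum fun x => ?_).trans ?_
      · rw [norm_mul, norm_mul, ql0_norm]
        exact mul_le_of_le_one_left (ql0_pos _).le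
          (mul_le_one₀ (norm_xs_le ch_c2 _ _) (norm_nonneg _) (norm_xs_le ch_c2 _ _))
      · simpa only [div_eq_inv_mul, inv_inv, mul_comm M C1] using (hG M⁻¹ (inv_pos.2 hM0)).2
    · rw [zero_add]
      refine (hp n n' M hn2 hn2' e hM0).trans ?_
      have a1 : (2 : ℝ) ^ n.card ≤ C3 * Z := (hc n).trans (mul_le_mul_of_nonneg_left
        ((Real.rpow_le_rpow (Ns_pos n).le (mem_sqf.1 hn1) hε.le).trans hZN) hC3.le)
      have a2 : √(Ns n * Ns n') ≤ N := Real.sqrt_le_iff.2 ⟨hN0.le, by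
        rw [sq]
        exact mul_le_mul (mem_sqf.1 hn1) (mem_sqf.1 hn1') (Ns_pos _).le hN0.le⟩
      calc _ ≤ C2 * (C3 * Z) * N := by gcongr
        _ = _ := by ring
  have h3 : (∑ n ∈ sqo N, ‖α n‖) ^ 2 ≤ 12 * N * A := by
    refine sq_sum_le_card_mul_sum_sq.trans (mul_le_mul_of_nonneg_right ?_ hA0)
    refine le_trans ?_ (card_sqf_le hN0.le)
    exact_mod_cast Finset.card_le_card (Finset.filter_subset _ _)
  have h4 : ∑ n ∈ sqo N, ∑ n' ∈ sqo N, ‖α n‖ * ‖α n'‖
      * ((if n = n' then 1 + C1 * M else 0) + C2 * C3 * Z * N)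
      = (1 + C1 * M) * A + C2 * C3 * Z * N * (∑ n ∈ sqo N, ‖α n‖) ^ 2 := by
    rw [sq, Finset.sum_mul_sum, hA, Finset.mul_sum, Finset.mul_sum, ← Finset.sum_add_distrib]
    refine Finset.sum_congr rfl fun n hn => ?_
    simp only [mul_add, mul_ite, mul_zero, Finset.sum_add_distrib, Finset.sum_ite_eq, if_pos hn,
      Finset.mul_sum]
    refine congrArg₂ _ (by ring) (Finset.sum_congr rfl fun n' _ => by ring)
  have h5 := h1.trans (hb.trans ((Finset.sum_le_sum fun n hn => Finset.sum_le_sum fun n' hn' =>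
    mul_le_mul_of_nonneg_left (h2 n hn n' hn') (by positivity)).trans_eq h4))
  have h6 : (1 + C1 * M) * A + C2 * C3 * Z * N * (∑ n ∈ sqo N, ‖α n‖) ^ 2
      ≤ (1 + C1 + 12 * C2 * C3) * Z * (M + N ^ 2) * A := by
    have b1 : C2 * C3 * Z * N * (∑ n ∈ sqo N, ‖α n‖) ^ 2 ≤ C2 * C3 * Z * N * (12 * N * A) :=
      mul_le_mul_of_nonneg_left h3 (by positivity)
    have b2 : 1 + C1 * M ≤ (1 + C1) * Z * (M + N ^ 2) := by
      have : M ≤ Z * (M + N ^ 2) := by nlinarith [sq_nonneg N]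
      nlinarith
    have b3 := mul_le_mul_of_nonneg_right b2 hA0
    have b4 : 0 ≤ C2 * C3 * Z * M * A := by positivity
    nlinarith
  rw [Real.rpow_two, div_mul_eq_mul_div, div_mul_eq_mul_div, div_mul_eq_mul_div, le_div_iff₀ hV,
    mul_comm]
  exact h5.trans h6

end QRH
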