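import Vale.Agent.P026.Gauss
import Vale.Agent.P026.Rearr

noncomputable section
namespace QRH
open Complex MeasureTheory Filter
open scoped ComplexConjugate Classical ContDiff Topology

theorem qp_Vg_pos (y : ℝ) : 0 < Vg y := Real.exp_pos _

theorem qp_Vg_zero : Vg 0 = 1 := by simp [Vg]

theorem qp_Vg_anti {x y : ℝ} (h : x ≤ y) : Vg y ≤ Vg x := by
  have := cnt_two_le
  exact Real.exp_le_exp.2 (by nlinarith)

theorem qp_norm_Vg (y : ℝ) : ‖((Vg y : ℝ) : ℂ)‖ = Vg y := by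
  rw [Complex.norm_real, Real.norm_eq_abs, abs_of_pos (qp_Vg_pos y)]

theorem qp_sumV {u : ℝ} (hu : 0 < u) : Summable fun x : E => Vg (u * nm x) :=
  (gauss_lattice.choose_spec.2 u hu).1

theorem qp_Vg_sq {u : ℝ} (hu : 0 < u) (b : E) : Vg (u * (nm b : ℝ) ^ 2) ≤ Vg (u * nm b) := by
  refine qp_Vg_anti (mul_le_mul_of_nonneg_left ?_ hu.le)
  exact_mod_cast Nat.le_self_pow two_ne_zero (nm b)

theorem qp_ite {p q r : Prop} {_ : Decidable p} {_ : Decidable q} {_ : Decidable r}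
    (h : p ↔ q ∧ r) :
    (if p then (1 : ℂ) else 0) = (if q then 1 else 0) * if r then 1 else 0 := by
  by_cases h1 : q <;> by_cases h2 : r <;> simp [h, h1, h2]

theorem qp_cop_union (s t : Finset P) (b : E) : cop (s ∪ t) b = cop s b * cop t b :=
  qp_ite Finset.forall_mem_union

theorem qp_cop_mul (s : Finset P) (a b : E) : cop s (a * b) = cop s a * cop s b := by
  have h : (∀ p ∈ s, ¬ p.1 ∣ a * b) ↔ (∀ p ∈ s, ¬ p.1 ∣ a) ∧ ∀ p ∈ s, ¬ p.1 ∣ b :=
    ⟨fun h => ⟨fun p hp hd => h p hp (hd.mul_right _), fun p hp hd => h p hp (hd.mul_left _)⟩,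
      fun h p hp hd => (p.2.1.dvd_or_dvd hd).elim (h.1 p hp) (h.2 p hp)⟩
  exact qp_ite h

theorem qp_cop_sq (s : Finset P) (b : E) : cop s (b ^ 2) = cop s b := by
  rw [sq, qp_cop_mul, cop]
  split_ifs <;> simp

theorem qp_cop_pr {s g : Finset P} (h : Disjoint s g) : cop s (pr g) = 1 :=
  if_pos fun _ hp hd => Finset.disjoint_left.1 h hp (dvd_pr_iff.1 hd)

theorem qp_norm_cop (s : Finset P) (b : E) : ‖cop s b‖ ≤ 1 := by
  rw [cop]; split_ifs <;> simp

theorem qp_xs_sq (c : Finset P) (b : E) : xs c2 c (b ^ 2) = cop c b := by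
  rw [xs_pow ch_c2, sq]
  nth_rewrite 2 [← conj_xs_c2]
  exact xs_mul_conj ch_c2 c b

theorem qp_powerset {s t : Finset P} (h : Disjoint s t) (F : Finset P → ℂ) :
    ∑ e ∈ (s ∪ t).powerset, F e = ∑ e1 ∈ s.powerset, ∑ e2 ∈ t.powerset, F (e1 ∪ e2) := by
  rw [← Finset.sum_product']
  symm
  refine Finset.sum_nbij' (fun x => x.1 ∪ x.2) (fun e => (e ∩ s, e ∩ t)) ?_ ?_ ?_ ?_ ?_
  · intro x hx
    simp only [Finset.mem_product, Finset.mem_powerset] at hx ⊢
    exact Finset.union_subset_union hx.1 hx.2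
  · intro e _
    simp
  · intro x hx
    simp only [Finset.mem_product, Finset.mem_powerset] at hx
    refine Prod.ext ?_ ?_
    · ext p
      simp only [Finset.mem_inter, Finset.mem_union]
      exact ⟨fun hp => hp.1.resolve_right fun h2 => Finset.disjoint_left.1 h hp.2 (hx.2 h2),
        fun hp => ⟨Or.inl hp, hx.1 hp⟩⟩
    · ext p
      simp only [Finset.mem_inter, Finset.mem_union]
      exact ⟨fun hp => hp.1.resolve_left fun h2 => Finset.disjoint_left.1 h (hx.1 h2) hp.2,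
        fun hp => ⟨Or.inr hp, hx.2 hp⟩⟩
  · intro e he
    rw [← Finset.inter_union_distrib_left]
    exact Finset.inter_eq_left.2 (Finset.mem_powerset.1 he)
  · intro _ _
    rfl

theorem qp_disj {s t e1 e2 : Finset P} (h : Disjoint s t) (h1 : e1 ∈ s.powerset)
    (h2 : e2 ∈ t.powerset) : Disjoint e1 e2 :=
  Finset.disjoint_of_subset_left (Finset.mem_powerset.1 h1)
    (Finset.disjoint_of_subset_right (Finset.mem_powerset.1 h2) h)

/-- The density of elements coprime to `r`. -/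
def qpR (r : Finset P) : ℂ := ∑ e ∈ r.powerset, mu e / (Ns e : ℝ)

theorem qpR_union {s t : Finset P} (h : Disjoint s t) : qpR (s ∪ t) = qpR s * qpR t := by
  rw [qpR, qp_powerset h, qpR, qpR, Finset.sum_mul_sum]
  refine Finset.sum_congr rfl fun e1 h1 => Finset.sum_congr rfl fun e2 h2 => ?_
  rw [mu_union (qp_disj h h1 h2), Ns_union (qp_disj h h1 h2), Complex.ofReal_mul, mul_div_mul_comm]

theorem qp_sum_mu {a : E} (ha : a ≠ 0) (d : Finset P) :
    ∑ f ∈ d.powerset, mu f / (Ns (f \ fac a) : ℝ) = cop d a * qpR d := by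
  have hd : Disjoint (d ∩ fac a) (d \ fac a) :=
    Finset.disjoint_left.2 fun p h1 h2 => (Finset.mem_sdiff.1 h2).2 (Finset.mem_inter.1 h1).2
  have e : d = d ∩ fac a ∪ d \ fac a := by
    rw [Finset.union_comm, Finset.sdiff_union_inter]
  have h1 : ∑ f ∈ d.powerset, mu f / (Ns (f \ fac a) : ℝ) =
      (∑ f ∈ (d ∩ fac a).powerset, mu f) * qpR (d \ fac a) := by
    conv_lhs => rw [e]
    rw [qp_powerset hd, qpR, Finset.sum_mul_sum]
    refine Finset.sum_congr rfl fun e1 h1 => Finset.sum_congr rfl fun e2 h2 => ?_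
    have h3 : (e1 ∪ e2) \ fac a = e2 := by
      ext p
      simp only [Finset.mem_sdiff, Finset.mem_union]
      exact ⟨fun hp => hp.1.resolve_left fun h4 =>
          hp.2 (Finset.mem_inter.1 (Finset.mem_powerset.1 h1 h4)).2,
        fun hp => ⟨Or.inr hp, (Finset.mem_sdiff.1 (Finset.mem_powerset.1 h2 hp)).2⟩⟩
    rw [h3, mu_union (qp_disj hd h1 h2), mul_div_assoc]
  rw [h1, sum_mu, cop]
  by_cases h : ∀ p ∈ d, ¬ p.1 ∣ a
  · have h2 : Disjoint d (fac a) :=
      Finset.disjoint_left.2 fun p hp h3 => h p hp ((mem_fac ha).1 h3)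
    rw [if_pos h, if_pos (Finset.disjoint_iff_inter_eq_empty.1 h2),
      Finset.sdiff_eq_self_of_disjoint h2]
  · rw [if_neg h, if_neg, zero_mul, zero_mul]
    intro h2
    exact h fun p hp h3 => Finset.disjoint_left.1 (Finset.disjoint_iff_inter_eq_empty.2 h2) hp
      ((mem_fac ha).2 h3)

theorem qp_L (r : Finset P) {u : ℝ} (hu : 0 < u) :
    ∑' b : E, (if b = 0 then 0 else cop r b * (Vg (u * (nm b : ℝ) ^ 2) : ℝ))
      = ∑ e ∈ r.powerset, mu e * (Del (u * Ns e ^ 2) : ℝ)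
        + ((cDel * u ^ (-(1 / 2) : ℝ) : ℝ) : ℂ) * qpR r := by
  have h1 : ∀ b : E, (if b = 0 then 0 else cop r b * (Vg (u * (nm b : ℝ) ^ 2) : ℝ)) =
      ∑ e ∈ r.powerset, (if b = 0 then 0 else
        (if pr e ∣ b then mu e else 0) * (Vg (u * (nm b : ℝ) ^ 2) : ℝ)) := fun b => by
    by_cases hb : b = 0
    · simp [hb]
    · simp only [if_neg hb]
      rw [← Finset.sum_mul, sum_mu_dvd, cop]
  simp only [h1]
  rw [Summable.tsum_finsetSum, qpR, Finset.mul_sum, ← Finset.sum_add_distrib]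
  · refine Finset.sum_congr rfl fun e _ => ?_
    have hN := Ns_pos e
    rw [tsum_supp (pr_ne_zero e) (fun x hx => by simp [hx])]
    have h2 : ∀ y : E, (if pr e * y = 0 then 0 else (if pr e ∣ pr e * y then mu e else 0) *
        (Vg (u * (nm (pr e * y) : ℝ) ^ 2) : ℝ)) = mu e *
          (((if y = 0 then 0 else Vg (u * Ns e ^ 2 * (nm y : ℝ) ^ 2)) : ℝ) : ℂ) := fun y => by
      by_cases hy : y = 0
      · simp [hy]
      · rw [if_neg (mul_ne_zero (pr_ne_zero e) hy), if_neg hy, if_pos (dvd_mul_right _ _), nm_mul,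
          Nat.cast_mul, mul_pow, mul_assoc u, Ns]
    simp only [h2]
    rw [tsum_mul_left, ← Complex.ofReal_tsum, Del]
    have h3 : (u * Ns e ^ 2) ^ (-(1 / 2) : ℝ) = u ^ (-(1 / 2) : ℝ) / Ns e := by
      rw [Real.mul_rpow hu.le (by positivity), ← Real.rpow_natCast, ← Real.rpow_mul hN.le]
      norm_num [Real.rpow_neg_one, div_eq_mul_inv]
    rw [h3]
    push_cast
    ring
  · intro e _
    refine Summable.of_norm_bounded (qp_sumV hu) fun b => ?_
    split_ifs
    · simpa using (qp_Vg_pos _).le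
    · rw [norm_mul, norm_mu, one_mul, qp_norm_Vg]; exact qp_Vg_sq hu b
    · simpa using (qp_Vg_pos _).le

theorem qp_isA_real {W : E → ℝ} (hW : Summable W) :
    Summable (fun x : E × E => if IsA x.1 ∧ x.2 ≠ 0 then W (x.1 * x.2 ^ 2) else 0) ∧
    ∑' x : E × E, (if IsA x.1 ∧ x.2 ≠ 0 then W (x.1 * x.2 ^ 2) else 0)
      = 2 * ∑' m : E, if m = 0 then 0 else W m := by
  obtain ⟨h1, h2⟩ := tsum_isA (F := fun m => (W m : ℂ)) (Complex.summable_ofReal.2 hW)
  have e1 : ∀ x : E × E, (if IsA x.1 ∧ x.2 ≠ 0 then (W (x.1 * x.2 ^ 2) : ℂ) else 0) =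
      (((if IsA x.1 ∧ x.2 ≠ 0 then W (x.1 * x.2 ^ 2) else 0) : ℝ) : ℂ) := fun x => by
    split_ifs <;> simp
  have e2 : ∀ m : E, (if m = 0 then 0 else (W m : ℂ)) = (((if m = 0 then 0 else W m) : ℝ) : ℂ) :=
    fun m => by split_ifs <;> simp
  simp only [e1, e2] at h1 h2
  rw [← Complex.ofReal_tsum, ← Complex.ofReal_tsum] at h2
  exact ⟨Complex.summable_ofReal.1 h1, by exact_mod_cast h2⟩

theorem qp_mem_calA {A : ℝ} {a : E} : a ∈ calA A ↔ IsA a ∧ (nm a : ℝ) ≤ A := by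
  rw [calA, Finset.mem_filter, mem_ball]
  exact ⟨fun h => ⟨h.2, h.1.2⟩, fun h => ⟨⟨h.1.ne_zero, h.2⟩, h.1⟩⟩

/-- Truncation of the sum over the classes modulo squares. -/
theorem qp_split {F : E → ℂ} {W : E → ℝ} (hW : Summable W) (hF : ∀ m, ‖F m‖ ≤ W m) {A : ℝ}
    (hA : 0 < A) :
    ‖2 * (∑' m : E, if m = 0 then 0 else F m) -
      ∑ a ∈ calA A, ∑' b : E, (if b = 0 then 0 else F (a * b ^ 2))‖
      ≤ 2 * ∑' m : E, if A < nm m then W m else 0 := by
  have hW0 : ∀ m, 0 ≤ W m := fun m => (norm_nonneg _).trans (hF m)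
  obtain ⟨h1, h2⟩ := tsum_isA (Summable.of_norm_bounded hW hF)
  have hW' : Summable fun m : E => if A < nm m then W m else 0 :=
    Summable.of_nonneg_of_le (fun m => by split_ifs <;> simp [hW0])
      (fun m => by split_ifs <;> simp [hW0]) hW
  obtain ⟨h3, h4⟩ := qp_isA_real hW'
  have h5 : (∑' m : E, if m = 0 then 0 else if A < nm m then W m else 0) =
      ∑' m : E, if A < nm m then W m else 0 := tsum_congr fun m => by
    by_cases hm : m = 0
    · simp [hm, nm_zero, hA.le]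
    · rw [if_neg hm]
  set Φ : E × E → ℂ := fun x => if IsA x.1 ∧ x.2 ≠ 0 then F (x.1 * x.2 ^ 2) else 0 with hΦ
  have s1 : Summable fun x : E × E => if x.1 ∈ calA A then Φ x else 0 :=
    Summable.of_norm_bounded h1.norm fun x => by split_ifs <;> simp
  have e1 : ∑ a ∈ calA A, ∑' b : E, (if b = 0 then 0 else F (a * b ^ 2)) =
      ∑' x : E × E, if x.1 ∈ calA A then Φ x else 0 := by
    rw [s1.tsum_prod, tsum_eq_sum (s := calA A) (fun a ha => by simp [ha])]
    refine Finset.sum_congr rfl fun a ha => tsum_congr fun b => ?_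
    by_cases hb : b = 0 <;> simp [hΦ, ha, hb, (qp_mem_calA.1 ha).1]
  rw [← h2, e1, ← h1.tsum_sub s1, ← h5, ← h4]
  refine tsum_of_norm_bounded h3.hasSum fun x => ?_
  by_cases hx : IsA x.1 ∧ x.2 ≠ 0
  · by_cases ha : x.1 ∈ calA A
    · rw [if_pos ha, sub_self, norm_zero, if_pos hx]
      split_ifs <;> simp [hW0]
    · have h6 : A < nm (x.1 * x.2 ^ 2) := by
        have h7 : A < nm x.1 := not_le.1 fun h => ha (qp_mem_calA.2 ⟨hx.1, h⟩)
        refine h7.trans_le ?_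
        exact_mod_cast nm_le_of_dvd (dvd_mul_right _ _)
          (mul_ne_zero hx.1.ne_zero (pow_ne_zero 2 hx.2))
      rw [if_neg ha, sub_zero, if_pos hx, if_pos h6, hΦ]
      simp only [if_pos hx]
      exact hF _
  · have : Φ x = 0 := if_neg hx
    simp [this, hx]

theorem qp_tail {B : ℝ} (hB : 1 < B) : ∃ C : ℝ, 0 < C ∧ ∀ A κ : ℝ, 0 < A → 0 < κ →
    (∑' m : E, if A < nm m then Vg (κ * nm m) else 0) ≤ C * (A * (A * κ) ^ (-B)) := by
  obtain ⟨C1, hC1, h1⟩ := Vg_le_rpow (A := B) (by linarith)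
  obtain ⟨C2, hC2, h2⟩ := tail_nm_rpow hB
  refine ⟨C1 * C2, by positivity, fun A κ hA hκ => ?_⟩
  refine Real.tsum_le_of_sum_le (fun m => by
    split_ifs
    exacts [(qp_Vg_pos _).le, le_rfl]) fun T => ?_
  rw [← Finset.sum_filter]
  calc ∑ m ∈ T with A < nm m, Vg (κ * nm m)
      ≤ ∑ m ∈ T with A < nm m, C1 * κ ^ (-B) * (nm m : ℝ) ^ (-B) :=
        Finset.sum_le_sum fun m hm => by
          have h3 : (0 : ℝ) < nm m := hA.trans (Finset.mem_filter.1 hm).2
          rw [mul_assoc, ← Real.mul_rpow hκ.le h3.le]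
          exact h1 _ (by positivity)
    _ ≤ C1 * κ ^ (-B) * (C2 * A ^ (1 - B)) := by
        rw [← Finset.mul_sum]
        exact mul_le_mul_of_nonneg_left (h2 A hA _ fun m hm => (Finset.mem_filter.1 hm).2.le)
          (by positivity)
    _ = _ := by
        rw [Real.mul_rpow hA.le hκ.le, sub_eq_add_neg, Real.rpow_add hA, Real.rpow_one]
        ring

end QRH
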