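import Vale.Agent.P026.Gauss
import Vale.Agent.P026.Rearr
import Vale.Agent.P026.QPaira

noncomputable section
namespace QRH
open Complex MeasureTheory Filter
open scoped ComplexConjugate Classical ContDiff Topology

/-- The character attached to a pair. -/
def qpX (c c' : Finset P) (m : E) : ℂ := xs c2 c m * xs c2 c' m

theorem qpX_mul (c c' : Finset P) (m n : E) :
    qpX c c' (m * n) = qpX c c' m * qpX c c' n := by
  simp only [qpX, xs_mul ch_c2]
  ring

theorem qpX_norm (c c' : Finset P) (m : E) : ‖qpX c c' m‖ ≤ 1 := by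
  rw [qpX, norm_mul]
  exact mul_le_one₀ (norm_xs_le ch_c2 c m) (norm_nonneg _) (norm_xs_le ch_c2 c' m)

theorem qpX_sq (c c' : Finset P) (b : E) : qpX c c' (b ^ 2) = cop (c ∪ c') b := by
  rw [qpX, qp_xs_sq, qp_xs_sq, qp_cop_union]

theorem qpX_zero (c c' : Finset P) : ‖qpX c c' 0‖ ≤ if c ∪ c' = ∅ then 1 else 0 := by
  split_ifs with h
  · exact qpX_norm c c' 0
  · obtain ⟨p, hp⟩ := Finset.nonempty_iff_ne_empty.2 h
    have : qpX c c' 0 = 0 := by
      rw [← zero_pow two_ne_zero, qpX_sq]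
      exact if_neg fun h1 => h1 p hp (dvd_zero _)
    rw [this, norm_zero]

/-- The summand of the theta series over multiples of `f`. -/
def qpG (c c' f : Finset P) (κ : ℝ) (m : E) : ℂ :=
  if pr f ∣ m then qpX c c' m * (Vg (κ * nm m) : ℝ) else 0

theorem qpG_norm (c c' f : Finset P) (κ : ℝ) (m : E) : ‖qpG c c' f κ m‖ ≤ Vg (κ * nm m) := by
  rw [qpG]
  split_ifs
  · rw [norm_mul, qp_norm_Vg]
    exact mul_le_of_le_one_left (qp_Vg_pos _).le (qpX_norm c c' m)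
  · simpa using (qp_Vg_pos _).le

theorem qpG_summable (c c' f : Finset P) {κ : ℝ} (hκ : 0 < κ) : Summable (qpG c c' f κ) :=
  Summable.of_norm_bounded (qp_sumV hκ) (qpG_norm c c' f κ)

theorem qpG_tsum (c c' f : Finset P) {κ : ℝ} (hκ : 0 < κ) : ∑' m, qpG c c' f κ m =
    qpX c c' 0 + ∑' m, if m = 0 then 0 else qpG c c' f κ m := by
  rw [(qpG_summable c c' f hκ).tsum_eq_add_tsum_ite 0]
  simp [qpG, nm_zero, qp_Vg_zero]

theorem qpG_supp (c c' f : Finset P) (κ : ℝ) : ∑' m, qpG c c' f κ m =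
    qpX c c' (pr f) * ∑' y : E, qpX c c' y * (Vg (κ * Ns f * nm y) : ℝ) := by
  rw [tsum_supp (F := qpG c c' f κ) (pr_ne_zero f) (fun x hx => if_neg hx), ← tsum_mul_left]
  refine tsum_congr fun y => ?_
  rw [qpG, if_pos (dvd_mul_right _ _), qpX_mul, nm_mul, Nat.cast_mul, mul_assoc, mul_assoc κ, Ns]

theorem qp_gauss (h2 : QGam) (h3 : Rec c2) {c c' : Finset P} (hd : Disjoint c c') (hc : Odd' c)
    (hc' : Odd' c') (h4 : (4 : E) ∣ pr c - pr c') (m : E) :
    rsum (pr c * pr c') (fun y => qpX c c' y * psf (y * m) (pr c * pr c'))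
      = qpX c c' m * (√(Ns c * Ns c') : ℝ) := by
  have e := gs_pair ch_c2 h3 hd hc hc' h4 m
  simp only [conj_xs_c2, map_mul] at e
  have g1 : ∀ s : Finset P, gs c2 s = gam c2 s * (√(Ns s) : ℝ) := fun s => by
    rw [Ns, ← norm_toC, gam, div_mul_cancel₀]
    exact_mod_cast ga_norm_ne s
  have g2 : gam c2 c' * conj (gam c2 c') = 1 := by
    rw [Complex.mul_conj, Complex.normSq_eq_norm_sq,
      norm_gam ch_c2 fun p hp => c2_nt (hc' p hp)]
    simp
  simp only [qpX]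
  rw [e, g1 c, g1 c', h2 c c' hc hc' h4, map_mul, Complex.conj_ofReal,
    Real.sqrt_mul (Ns_pos c).le, Complex.ofReal_mul]
  linear_combination (xs c2 c m * xs c2 c' m * (√(Ns c) : ℝ) * (√(Ns c') : ℝ)) * g2

theorem qp_poisson (h1 : PSG) (h2 : QGam) (h3 : Rec c2) {c c' : Finset P} (hd : Disjoint c c')
    (hc : Odd' c) (hc' : Odd' c') (h4 : (4 : E) ∣ pr c - pr c') (f : Finset P) {t : ℝ}
    (ht : 0 < t) : ∑' m, qpG c c' f (1 / t) m = ((t / (Ns f * √(Ns c * Ns c')) : ℝ) : ℂ) *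
      ∑' m, qpG c c' f (t / (Ns f ^ 2 * (Ns c * Ns c'))) m := by
  have hf := Ns_pos f
  have hk : 0 < Ns c * Ns c' := mul_pos (Ns_pos c) (Ns_pos c')
  have hs : 0 < √(Ns c * Ns c') := Real.sqrt_pos.2 hk
  have hn : (nm (pr c * pr c') : ℝ) = Ns c * Ns c' := by rw [nm_mul, Nat.cast_mul, Ns, Ns]
  have e := h1 (pr c * pr c') (qpX c c') (t / Ns f) (mul_ne_zero (pr_ne_zero c) (pr_ne_zero c'))
    (((xs_per ch_c2 c).mono (dvd_mul_right _ _)).mul ((xs_per ch_c2 c').mono (dvd_mul_left _ _)))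
    (by positivity)
  simp only [qp_gauss h2 h3 hd hc hc' h4, hn] at e
  have e1 : ∀ y : E, 1 / t * Ns f * nm y = nm y / (t / Ns f) := fun y => by field_simp
  have e2 : ∀ y : E, t / (Ns f ^ 2 * (Ns c * Ns c')) * Ns f * nm y =
      nm y * (t / Ns f) / (Ns c * Ns c') := fun y => by field_simp
  have e3 : t / (Ns f * √(Ns c * Ns c')) = t / Ns f / (Ns c * Ns c') * √(Ns c * Ns c') := by
    have := Real.mul_self_sqrt hk.le
    generalize √(Ns c * Ns c') = r at *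
    rw [← this]
    field_simp
  rw [qpG_supp, qpG_supp]
  simp only [e1, e2]
  rw [e, e3, Complex.ofReal_mul]
  simp only [mul_right_comm _ ((√(Ns c * Ns c') : ℝ) : ℂ)]
  rw [tsum_mul_right]
  ring

theorem qp_T1 (d c c' : Finset P) {t : ℝ} (ht : 0 < t) : T1 t d c c' =
    ∑ f ∈ d.powerset, mu f * ∑' m, if m = 0 then 0 else qpG c c' f (1 / t) m := by
  have h1 : ∀ m : E, (if m = 0 then 0 else (Vg (nm m / t) : ℝ) *
      (cop d m * xs c2 c m * xs c2 c' m)) =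
      ∑ f ∈ d.powerset, mu f * (if m = 0 then 0 else qpG c c' f (1 / t) m) := fun m => by
    by_cases hm : m = 0
    · simp [hm]
    · simp only [if_neg hm]
      rw [cop, ← sum_mu_dvd, mul_assoc, Finset.sum_mul, Finset.mul_sum]
      refine Finset.sum_congr rfl fun f _ => ?_
      rw [qpG, one_div_mul_eq_div, qpX]
      split_ifs <;> ring
  rw [T1]
  simp only [h1]
  rw [Summable.tsum_finsetSum]
  · simp only [tsum_mul_left]
  · intro f _
    refine Summable.mul_left _ (Summable.of_norm_bounded (qp_sumV (one_div_pos.2 ht)) fun m => ?_)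
    split_ifs
    · simpa using (qp_Vg_pos _).le
    · exact qpG_norm _ _ _ _ _

theorem qp_inner {c c' f : Finset P} (hd : Disjoint (c ∪ c') f) (κ : ℝ) {a : E} (ha : a ≠ 0) :
    (∑' b : E, if b = 0 then 0 else qpG c c' f κ (a * b ^ 2)) = qpX c c' a *
      ∑' b : E, if b = 0 then 0 else
        cop (c ∪ c') b * (Vg (κ * nm a * Ns (f \ fac a) ^ 2 * (nm b : ℝ) ^ 2) : ℝ) := by
  have h1 : ∀ b : E, pr f ∣ a * b ^ 2 ↔ pr (f \ fac a) ∣ b := fun b => by
    simp only [pr_dvd_iff, Finset.mem_sdiff, mem_fac ha]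
    refine ⟨fun h p hp => p.2.1.dvd_of_dvd_pow (((p.2.1.dvd_or_dvd (h p hp.1))).resolve_left hp.2),
      fun h p hp => ?_⟩
    by_cases h2 : p.1 ∣ a
    · exact h2.mul_right _
    · exact (dvd_pow (h p ⟨hp, h2⟩) two_ne_zero).mul_left _
  rw [tsum_supp (pr_ne_zero (f \ fac a)) (fun x hx => by simp [qpG, h1, hx]), ← tsum_mul_left]
  refine tsum_congr fun y => ?_
  by_cases hy : y = 0
  · simp [hy]
  · rw [if_neg (mul_ne_zero (pr_ne_zero _) hy), if_neg hy, qpG,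
      if_pos ((h1 _).2 (dvd_mul_right _ _)), qpX_mul, qpX_sq, qp_cop_mul,
      qp_cop_pr (Finset.disjoint_of_subset_right Finset.sdiff_subset hd), one_mul, mul_assoc]
    congr 4
    simp only [nm_mul, nm_pow, Ns]
    push_cast
    ring

theorem qp_T2 {d c c' : Finset P} (h1 : Disjoint d c) (h2 : Disjoint d c') (h3 : Disjoint c c')
    (A : ℝ) {t : ℝ} (ht : 0 < t) : T2 A t d c c' = E2 A t d c c' +
      ∑ a ∈ calA A, qpX c c' a * ((cDel * (nm a / t) ^ (-(1 / 2) : ℝ) : ℝ) : ℂ) *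
        qpR (c ∪ c') * (cop d a * qpR d) := by
  have hd : Disjoint d (c ∪ c') := Finset.disjoint_union_right.2 ⟨h1, h2⟩
  rw [T2, E2, ← Finset.sum_add_distrib]
  refine Finset.sum_congr rfl fun a ha => ?_
  have ha0 := (qp_mem_calA.1 ha).1.ne_zero
  have hN : (0 : ℝ) < nm a := one_pos.trans_le (one_le_nmR ha0)
  have e1 : ∀ b : E, (if b = 0 then 0 else (Vg (nm (a * b ^ 2) / t) : ℝ) *
      (cop d (a * b ^ 2) * xs c2 c (a * b ^ 2) * xs c2 c' (a * b ^ 2))) =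
      cop d a * qpX c c' a * (if b = 0 then 0 else
        cop (d ∪ (c ∪ c')) b * (Vg (nm a / t * (nm b : ℝ) ^ 2) : ℝ)) := fun b => by
    split_ifs
    · rw [mul_zero]
    · have e2 : ((nm (a * b ^ 2) : ℝ) / t) = nm a / t * (nm b : ℝ) ^ 2 := by
        rw [nm_mul, nm_pow]; push_cast; ring
      rw [e2, mul_assoc (cop d _), ← qpX, qpX_mul, qpX_sq, qp_cop_mul, qp_cop_sq, qp_cop_union d]
      ring
  simp only [e1]
  rw [tsum_mul_left, qp_L _ (by positivity), qpR_union hd, qp_powerset hd]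
  have e3 : ∀ e0 ∈ d.powerset, ∑ e ∈ (c ∪ c').powerset,
      mu (e0 ∪ e) * (Del (nm a / t * Ns (e0 ∪ e) ^ 2) : ℝ) =
      ∑ e1 ∈ c.powerset, ∑ e2 ∈ c'.powerset, mu e0 * mu e1 * mu e2 *
        (Del (nm a * (Ns e0 * Ns e1 * Ns e2) ^ 2 / t) : ℝ) := fun e0 h0 => by
    rw [qp_powerset h3]
    refine Finset.sum_congr rfl fun e1 k1 => Finset.sum_congr rfl fun e2 k2 => ?_
    have k3 := qp_disj h3 k1 k2
    have k4 : Disjoint e0 (e1 ∪ e2) :=
      Finset.disjoint_union_right.2 ⟨qp_disj h1 h0 k1, qp_disj h2 h0 k2⟩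
    rw [mu_union k4, mu_union k3, Ns_union k4, Ns_union k3, div_mul_eq_mul_div]
    simp only [mul_assoc]
  rw [Finset.sum_congr rfl e3, qpX]
  ring

theorem qp_E1 {d c c' : Finset P} (h1 : Disjoint d c) (h2 : Disjoint d c') (h3 : Disjoint c c')
    (A : ℝ) {t : ℝ} (ht : 0 < t) :
    ∑ f ∈ d.powerset, mu f * ((t / (Ns f * √(Ns c * Ns c')) : ℝ) : ℂ) * ∑ a ∈ calA A,
      (∑' b : E, if b = 0 then 0 else qpG c c' f (t / (Ns f ^ 2 * (Ns c * Ns c'))) (a * b ^ 2))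
    = E1 A t d c c' + ∑ a ∈ calA A, qpX c c' a * ((cDel * (nm a / t) ^ (-(1 / 2) : ℝ) : ℝ) : ℂ) *
        qpR (c ∪ c') * (cop d a * qpR d) := by
  have hd : Disjoint d (c ∪ c') := Finset.disjoint_union_right.2 ⟨h1, h2⟩
  have hk : 0 < Ns c * Ns c' := mul_pos (Ns_pos c) (Ns_pos c')
  have e0 : ∑ a ∈ calA A, qpX c c' a * ((cDel * (nm a / t) ^ (-(1 / 2) : ℝ) : ℝ) : ℂ) *
      qpR (c ∪ c') * (cop d a * qpR d) = ∑ f ∈ d.powerset, ∑ a ∈ calA A,
        qpX c c' a * ((cDel * (nm a / t) ^ (-(1 / 2) : ℝ) : ℝ) : ℂ) * qpR (c ∪ c') *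
          (mu f / (Ns (f \ fac a) : ℝ)) := by
    rw [Finset.sum_comm]
    refine Finset.sum_congr rfl fun a ha => ?_
    rw [← qp_sum_mu (qp_mem_calA.1 ha).1.ne_zero, Finset.mul_sum]
  rw [e0, E1, ← Finset.sum_add_distrib]
  refine Finset.sum_congr rfl fun f hf => ?_
  rw [Finset.mul_sum, Finset.mul_sum, ← Finset.sum_add_distrib]
  refine Finset.sum_congr rfl fun a ha => ?_
  have ha0 := (qp_mem_calA.1 ha).1.ne_zero
  have hN : (0 : ℝ) < nm a := one_pos.trans_le (one_le_nmR ha0)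
  have hf0 := Ns_pos f
  have hg := Ns_pos (f \ fac a)
  have hs : 0 < √(Ns c * Ns c') := Real.sqrt_pos.2 hk
  rw [qp_inner (Finset.disjoint_of_subset_right (Finset.mem_powerset.1 hf) hd.symm) _ ha0,
    qp_L _ (by positivity), qp_powerset h3]
  have e1 : ∑ e1 ∈ c.powerset, ∑ e2 ∈ c'.powerset, mu (e1 ∪ e2) *
      (Del (t / (Ns f ^ 2 * (Ns c * Ns c')) * nm a * Ns (f \ fac a) ^ 2 * Ns (e1 ∪ e2) ^ 2) : ℝ) =
      ∑ e1 ∈ c.powerset, ∑ e2 ∈ c'.powerset, mu e1 * mu e2 *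
        (Del (nm a * Ns (f \ fac a) ^ 2 * (Ns e1 * Ns e2) ^ 2 * t /
          (Ns f ^ 2 * (Ns c * Ns c'))) : ℝ) := by
    refine Finset.sum_congr rfl fun e1 k1 => Finset.sum_congr rfl fun e2 k2 => ?_
    rw [mu_union (qp_disj h3 k1 k2), Ns_union (qp_disj h3 k1 k2)]
    congr 3
    ring
  have e2 : t / (Ns f * √(Ns c * Ns c')) *
      (t / (Ns f ^ 2 * (Ns c * Ns c')) * nm a * Ns (f \ fac a) ^ 2) ^ (-(1 / 2) : ℝ) =
      (nm a / t) ^ (-(1 / 2) : ℝ) / Ns (f \ fac a) := by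
    have e3 : t / (Ns f ^ 2 * (Ns c * Ns c')) * nm a * Ns (f \ fac a) ^ 2 =
        nm a / t * (t * Ns (f \ fac a) / (Ns f * √(Ns c * Ns c'))) ^ 2 := by
      rw [div_pow, mul_pow (Ns f), Real.sq_sqrt hk.le]
      field_simp
    rw [e3, Real.mul_rpow (by positivity) (by positivity), ← Real.rpow_natCast,
      ← Real.rpow_mul (by positivity)]
    norm_num [Real.rpow_neg_one]
    field_simp
  have e4 := congrArg (fun x : ℝ => (x : ℂ)) e2
  simp only [Complex.ofReal_mul, Complex.ofReal_div] at e4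
  rw [e1, qpX]
  simp only [Complex.ofReal_mul, Complex.ofReal_div]
  linear_combination (mu f * (xs c2 c a * xs c2 c' a) * (cDel : ℂ) * qpR (c ∪ c')) * e4

theorem qPair (h1 : PSG) (h2 : QGam) (h3 : Rec c2) : QPair := by
  intro B hB
  obtain ⟨C, hC, hT⟩ := qp_tail hB
  refine ⟨2 * C + 2, by positivity, fun A t d c c' hA ht k1 k2 k3 hc hc' h4 => ?_⟩
  have hk : 1 ≤ Ns c * Ns c' := one_le_mul_of_one_le_of_one_le (one_le_Ns c) (one_le_Ns c')
  have e : 2 * T1 t d c c' - T2 A t d c c' - (E1 A t d c c' - E2 A t d c c') =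
      ∑ f ∈ d.powerset, mu f * (2 * (((t / (Ns f * √(Ns c * Ns c')) : ℝ) : ℂ) - 1) * qpX c c' 0 +
        ((t / (Ns f * √(Ns c * Ns c')) : ℝ) : ℂ) *
          (2 * (∑' m, if m = 0 then 0 else qpG c c' f (t / (Ns f ^ 2 * (Ns c * Ns c'))) m) -
            ∑ a ∈ calA A, ∑' b : E, if b = 0 then 0 else
              qpG c c' f (t / (Ns f ^ 2 * (Ns c * Ns c'))) (a * b ^ 2))) := by
    have e1 := qp_E1 k1 k2 k3 A ht
    rw [qp_T2 k1 k2 k3 A ht, qp_T1 d c c' ht]
    have e2 : ∀ x y z w : ℂ, x - (y + z) - (w - y) = x - (w + z) := fun _ _ _ _ => by ring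
    rw [e2, ← e1, Finset.mul_sum, ← Finset.sum_sub_distrib]
    refine Finset.sum_congr rfl fun f _ => ?_
    have hf := Ns_pos f
    have e3 := qp_poisson h1 h2 h3 k3 hc hc' h4 f ht
    rw [qpG_tsum _ _ _ (by positivity), qpG_tsum _ _ _ (by positivity)] at e3
    linear_combination (2 * mu f) * e3
  set X : ℝ := if c ∪ c' = ∅ then t + 1 else 0 with hX
  set Y : ℝ := t * A * (A * t / (Ns d ^ 2 * (Ns c * Ns c'))) ^ (-B) with hY
  have hd := Ns_pos d
  have hX0 : 0 ≤ X := by rw [hX]; split_ifs <;> positivity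
  have hY0 : 0 ≤ Y := by positivity
  rw [e]
  refine (norm_sum_le _ _).trans ((Finset.sum_le_card_nsmul _ _ ((2 * C + 2) * (X + Y))
    fun f hf => ?_).trans (le_of_eq ?_))
  · have hf0 := Ns_pos f
    have hf1 := Ns_mono (Finset.mem_powerset.1 hf)
    have hw0 : 0 < t / (Ns f * √(Ns c * Ns c')) := by positivity
    have hw1 : t / (Ns f * √(Ns c * Ns c')) ≤ t := div_le_self ht.le
      (one_le_mul_of_one_le_of_one_le (one_le_Ns f) (Real.one_le_sqrt.2 hk))
    have hκ : 0 < t / (Ns f ^ 2 * (Ns c * Ns c')) := by positivity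
    have b1 := (qp_split (qp_sumV hκ) (qpG_norm c c' f _) hA).trans
      (mul_le_mul_of_nonneg_left (hT A _ hA hκ) (by norm_num))
    have b2 : (A * (t / (Ns f ^ 2 * (Ns c * Ns c')))) ^ (-B) ≤
        (A * t / (Ns d ^ 2 * (Ns c * Ns c'))) ^ (-B) := by
      refine Real.rpow_le_rpow_of_nonpos (by positivity) ?_ (by linarith)
      rw [mul_div_assoc]
      gcongr
    generalize t / (Ns f * √(Ns c * Ns c')) = w at hw0 hw1 ⊢
    have b3 : ‖2 * ((w : ℂ) - 1) * qpX c c' 0‖ ≤ 2 * X := by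
      have b4 : ‖(w : ℂ) - 1‖ ≤ t + 1 := (norm_sub_le _ _).trans (by
        rw [Complex.norm_real, Real.norm_eq_abs, abs_of_pos hw0, norm_one]; linarith)
      have b5 : X = (t + 1) * if c ∪ c' = ∅ then 1 else 0 := by rw [hX]; split_ifs <;> simp
      rw [mul_assoc, norm_mul, norm_mul, Complex.norm_ofNat, b5]
      exact mul_le_mul_of_nonneg_left
        (mul_le_mul b4 (qpX_zero c c') (norm_nonneg _) (by positivity)) (by norm_num)
    rw [norm_mul, norm_mu, one_mul]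
    refine (norm_add_le _ _).trans ?_
    rw [norm_mul (w : ℂ), Complex.norm_real, Real.norm_eq_abs, abs_of_pos hw0]
    have b6 := mul_le_mul hw1 (b1.trans (mul_le_mul_of_nonneg_left (mul_le_mul_of_nonneg_left
      (mul_le_mul_of_nonneg_left b2 hA.le) hC.le) (by norm_num))) (norm_nonneg _) ht.le
    have b7 : t * (2 * (C * (A * (A * t / (Ns d ^ 2 * (Ns c * Ns c'))) ^ (-B)))) = 2 * C * Y := by
      rw [hY]; ring
    rw [b7] at b6
    nlinarith [mul_nonneg hC.le hX0]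
  · rw [Finset.card_powerset, nsmul_eq_mul]
    push_cast
    ring

end QRH
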