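import Vale.Agent.P026.Sym
import Vale.Agent.P026.Rearr
import Vale.Agent.P026.Wt

noncomputable section
namespace QRH
open Complex MeasureTheory Filter
open scoped ComplexConjugate Classical ContDiff Topology

theorem qs_Vg_pos (y : ℝ) : 0 < Vg y := Real.exp_pos _

theorem qs_Vg_anti {x y : ℝ} (h : x ≤ y) : Vg y ≤ Vg x := by
  refine Real.exp_le_exp.2 ?_
  nlinarith [cnt_two_le]

theorem qs_sumV {t : ℝ} (ht : 0 < t) : Summable fun m : E => Vg (nm m / t) := by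
  obtain ⟨C, -, h⟩ := gauss_lattice
  simpa only [div_eq_inv_mul] using (h t⁻¹ (inv_pos.2 ht)).1

theorem qs_sumV2 {t : ℝ} (ht : 0 < t) {a : E} (ha : a ≠ 0) :
    Summable fun b : E => Vg (nm (a * b ^ 2) / t) := by
  refine (qs_sumV ht).of_nonneg_of_le (fun _ => (qs_Vg_pos _).le) fun b => qs_Vg_anti ?_
  refine div_le_div_of_nonneg_right ?_ ht.le
  have h1 : nm b ≤ nm (a * b ^ 2) := by
    rw [nm_mul, nm_pow]
    have := one_le_nm ha
    nlinarith [Nat.le_self_pow two_ne_zero (nm b)]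
  exact_mod_cast h1

theorem qs_calA {A : ℝ} {a : E} (ha : a ∈ calA A) : a ≠ 0 :=
  (mem_ball.1 (Finset.mem_filter.1 ha).1).1

theorem qs_xs (n n' : Finset P) (m : E) :
    xs c2 n m = xs c2 (n ∩ n') m * xs c2 (n \ n') m :=
  (Finset.prod_inter_mul_prod_sdiff n n' _).symm

theorem qs_K (n n' : Finset P) (m : E) : xs c2 n m * conj (xs c2 n' m)
    = cop (n ∩ n') m * xs c2 (n \ n') m * xs c2 (n' \ n) m := by
  rw [qs_xs n n', qs_xs n' n, Finset.inter_comm n' n, map_mul, conj_xs_c2 (n' \ n), cop,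
    ← xs_mul_conj ch_c2]
  ring

theorem qs_K_le (d c c' : Finset P) (m : E) : ‖cop d m * xs c2 c m * xs c2 c' m‖ ≤ 1 := by
  have h1 : ‖cop d m‖ ≤ 1 := by
    unfold cop
    split_ifs <;> simp
  rw [norm_mul, norm_mul]
  exact mul_le_one₀ (mul_le_one₀ h1 (norm_nonneg _) (norm_xs_le ch_c2 _ _)) (norm_nonneg _)
    (norm_xs_le ch_c2 _ _)

theorem qs_sq (T : Finset (Finset P)) (α : Finset P → ℂ) (m : E) :
    ((‖∑ n ∈ T, α n * xs c2 n m‖ ^ 2 : ℝ) : ℂ) = ∑ n ∈ T, ∑ n' ∈ T, α n * conj (α n') *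
      (cop (n ∩ n') m * xs c2 (n \ n') m * xs c2 (n' \ n) m) := by
  rw [ofReal_pow, ← Complex.mul_conj', map_sum, Finset.sum_mul_sum]
  refine Finset.sum_congr rfl fun n _ => Finset.sum_congr rfl fun n' _ => ?_
  rw [← qs_K, map_mul]
  ring

theorem qs_expand (T : Finset (Finset P)) (α : Finset P → ℂ) (g : E → E) (W : E → ℝ)
    (hW : Summable W) :
    ((∑' b : E, if b = 0 then 0 else W b * ‖∑ n ∈ T, α n * xs c2 n (g b)‖ ^ 2 : ℝ) : ℂ)
      = ∑ n ∈ T, ∑ n' ∈ T, α n * conj (α n') * ∑' b : E, if b = 0 then 0 else (W b : ℂ) *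
        (cop (n ∩ n') (g b) * xs c2 (n \ n') (g b) * xs c2 (n' \ n) (g b)) := by
  have hs : ∀ n n' : Finset P, Summable fun b : E => α n * conj (α n') *
      if b = 0 then 0 else (W b : ℂ) *
        (cop (n ∩ n') (g b) * xs c2 (n \ n') (g b) * xs c2 (n' \ n) (g b)) := fun n n' => by
    refine Summable.mul_left _ (Summable.of_norm_bounded hW.norm fun b => ?_)
    split_ifs
    · simp
    · rw [norm_mul, norm_real]
      exact mul_le_of_le_one_right (norm_nonneg _) (qs_K_le _ _ _ _)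
  simp only [← tsum_mul_left]
  rw [ofReal_tsum]
  simp only [← Summable.tsum_finsetSum fun n' _ => hs _ n']
  rw [← Summable.tsum_finsetSum fun n _ => summable_sum fun n' _ => hs n n']
  refine tsum_congr fun b => ?_
  split_ifs
  · simp
  · rw [ofReal_mul, qs_sq, Finset.mul_sum]
    refine Finset.sum_congr rfl fun n _ => ?_
    rw [Finset.mul_sum]
    exact Finset.sum_congr rfl fun n' _ => by ring

theorem qs_isA {f : E → ℝ} (hf : Summable f) :
    Summable (fun x : E × E => if IsA x.1 ∧ x.2 ≠ 0 then f (x.1 * x.2 ^ 2) else 0) ∧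
    ∑' x : E × E, (if IsA x.1 ∧ x.2 ≠ 0 then f (x.1 * x.2 ^ 2) else 0)
      = 2 * ∑' m : E, if m = 0 then 0 else f m := by
  obtain ⟨h1, h2⟩ := tsum_isA (F := fun m => (f m : ℂ)) (summable_ofReal.2 hf)
  have e1 : ∀ (y : E × E) (x : ℝ), (if IsA y.1 ∧ y.2 ≠ 0 then (x : ℂ) else 0)
      = ((if IsA y.1 ∧ y.2 ≠ 0 then x else 0 : ℝ) : ℂ) := fun y x => by split_ifs <;> simp
  have e2 : ∀ (m : E) (x : ℝ),
      (if m = 0 then 0 else (x : ℂ)) = ((if m = 0 then 0 else x : ℝ) : ℂ) :=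
    fun m x => by split_ifs <;> simp
  simp only [e1] at h1 h2
  simp only [e2] at h2
  refine ⟨summable_ofReal.1 h1, ?_⟩
  rw [← ofReal_tsum, ← ofReal_tsum] at h2
  exact_mod_cast h2

theorem qs_pos {f : E → ℝ} (hf : Summable f) (h0 : ∀ m, 0 ≤ f m) (A : ℝ)
    (U : Finset (Finset P)) (hU : ∀ m ∈ U, A < Ns m) :
    ∑ m ∈ U, f (pr m) ≤ 2 * (∑' m : E, if m = 0 then 0 else f m)
      - ∑ a ∈ calA A, ∑' b : E, if b = 0 then 0 else f (a * b ^ 2) := by
  obtain ⟨h1, h2⟩ := qs_isA hf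
  have hn : ∀ a b : E, 0 ≤ (if IsA a ∧ b ≠ 0 then f (a * b ^ 2) else 0) := fun a b => by
    split_ifs
    · exact h0 _
    · exact le_rfl
  rw [← h2, h1.tsum_prod, le_sub_iff_add_le]
  have hd : Disjoint (U.image pr) (calA A) := by
    rw [Finset.disjoint_left]
    intro x hx hx'
    obtain ⟨m, hm, rfl⟩ := Finset.mem_image.1 hx
    exact absurd (mem_ball.1 (Finset.mem_filter.1 hx').1).2 (hU m hm).not_ge
  refine le_trans ?_ (h1.prod.sum_le_tsum (U.image pr ∪ calA A)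
    fun a _ => tsum_nonneg fun b => hn a b)
  rw [Finset.sum_union hd, Finset.sum_image pr_inj.injOn]
  refine add_le_add (Finset.sum_le_sum fun m _ => ?_) (Finset.sum_le_sum fun a ha => ?_)
  · refine le_trans ?_ ((h1.prod_factor (pr m)).le_tsum 1 fun b _ => hn _ b)
    rw [if_pos ⟨⟨m, Or.inl rfl⟩, one_ne_zero⟩, one_pow, mul_one]
  · refine le_of_eq (tsum_congr fun b => ?_)
    have := (Finset.mem_filter.1 ha).2
    by_cases hb : b = 0 <;> simp [hb, this]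

theorem qs_main (T U : Finset (Finset P)) (α : Finset P → ℂ) {A t : ℝ} (ht : 0 < t)
    (hU : ∀ m ∈ U, A < Ns m ∧ Ns m ≤ t) :
    Vg 1 * ∑ m ∈ U, ‖∑ n ∈ T, α n * xs c2 n (pr m)‖ ^ 2
      ≤ (∑ n ∈ T, ∑ n' ∈ T, α n * conj (α n') *
        (2 * T1 t (n ∩ n') (n \ n') (n' \ n) - T2 A t (n ∩ n') (n \ n') (n' \ n))).re := by
  have hb : ∀ m, ‖∑ n ∈ T, α n * xs c2 n m‖ ^ 2 ≤ (∑ n ∈ T, ‖α n‖) ^ 2 := fun m => by
    refine pow_le_pow_left₀ (norm_nonneg _) ((norm_sum_le _ _).trans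
      (Finset.sum_le_sum fun n _ => ?_)) 2
    rw [norm_mul]
    exact mul_le_of_le_one_right (norm_nonneg _) (norm_xs_le ch_c2 _ _)
  have hf : Summable fun m : E => Vg (nm m / t) * ‖∑ n ∈ T, α n * xs c2 n m‖ ^ 2 :=
    ((qs_sumV ht).mul_right _).of_nonneg_of_le
      (fun m => mul_nonneg (qs_Vg_pos _).le (sq_nonneg _))
      fun m => mul_le_mul_of_nonneg_left (hb m) (qs_Vg_pos _).le
  have h1 := qs_pos hf (fun m => mul_nonneg (qs_Vg_pos _).le (sq_nonneg _)) A U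
    fun m hm => (hU m hm).1
  have h2 : ((2 * (∑' m : E, if m = 0 then 0 else
        Vg (nm m / t) * ‖∑ n ∈ T, α n * xs c2 n m‖ ^ 2)
      - ∑ a ∈ calA A, ∑' b : E, (if b = 0 then 0 else
        Vg (nm (a * b ^ 2) / t) * ‖∑ n ∈ T, α n * xs c2 n (a * b ^ 2)‖ ^ 2) : ℝ) : ℂ)
      = ∑ n ∈ T, ∑ n' ∈ T, α n * conj (α n') *
        (2 * T1 t (n ∩ n') (n \ n') (n' \ n) - T2 A t (n ∩ n') (n \ n') (n' \ n)) := by
    rw [ofReal_sub, ofReal_mul, ofReal_sum, qs_expand T α (fun m => m) _ (qs_sumV ht),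
      Finset.sum_congr (s₁ := calA A) rfl fun a ha => qs_expand T α (fun b => a * b ^ 2) _
        (qs_sumV2 ht (qs_calA ha)), Finset.sum_comm (s := calA A),
      Finset.mul_sum, ← Finset.sum_sub_distrib]
    refine Finset.sum_congr rfl fun n _ => ?_
    rw [Finset.sum_comm (s := calA A), Finset.mul_sum, ← Finset.sum_sub_distrib]
    refine Finset.sum_congr rfl fun n' _ => ?_
    rw [← Finset.mul_sum, T1, T2]
    push_cast
    ring
  rw [← h2, ofReal_re, Finset.mul_sum]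
  refine le_trans (Finset.sum_le_sum fun m hm => ?_) h1
  exact mul_le_mul_of_nonneg_right (qs_Vg_anti ((div_le_one ht).2 (hU m hm).2)) (sq_nonneg _)

theorem qs_cont1 (h0 : DelB) (A : ℝ) {M : ℝ} (hM : 0 < M) (d c c' : Finset P) :
    Continuous fun v : ℝ => E1 A (M * Real.exp v) d c c' := by
  unfold E1
  refine continuous_finsetSum _ fun f _ => Continuous.mul (by fun_prop) ?_
  refine continuous_finsetSum _ fun a ha => continuous_const.mul ?_
  refine continuous_finsetSum _ fun e1 _ => continuous_finsetSum _ fun e2 _ =>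
    continuous_const.mul (continuous_ofReal.comp ?_)
  refine h0.1.comp_continuous (by fun_prop) fun v => ?_
  have := one_le_nmR (qs_calA ha)
  have := Ns_pos (f \ fac a)
  have := Ns_pos e1
  have := Ns_pos e2
  have := Ns_pos f
  have := Ns_pos c
  have := Ns_pos c'
  rw [Set.mem_Ioi]
  positivity

theorem qs_cont2 (h0 : DelB) (A : ℝ) {M : ℝ} (hM : 0 < M) (d c c' : Finset P) :
    Continuous fun v : ℝ => E2 A (M * Real.exp v) d c c' := by
  unfold E2
  refine continuous_finsetSum _ fun a ha => continuous_const.mul ?_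
  refine continuous_finsetSum _ fun e0 _ => continuous_finsetSum _ fun e1 _ =>
    continuous_finsetSum _ fun e2 _ => continuous_const.mul (continuous_ofReal.comp ?_)
  refine h0.1.comp_continuous (continuous_const.div (by fun_prop) fun v => by positivity)
    fun v => ?_
  have := one_le_nmR (qs_calA ha)
  have := Ns_pos e0
  have := Ns_pos e1
  have := Ns_pos e2
  rw [Set.mem_Ioi]
  positivity

/-- The error in the pair formula. -/
theorem qs_err (h1 : QPair) {δ : ℝ} (hδ : 0 < δ) : ∃ C : ℝ, 0 < C ∧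
    ∀ (M N t : ℝ) (a : E) (n n' : Finset P), 1 ≤ N → N ≤ M → M ≤ t → t ≤ 4 * M →
      Ns n ≤ N → Ns n' ≤ N → Odd' n → Odd' n' → (4 : E) ∣ pr n - a → (4 : E) ∣ pr n' - a →
      ‖2 * T1 t (n ∩ n') (n \ n') (n' \ n)
        - T2 (N ^ 2 * (M * N) ^ δ / M) t (n ∩ n') (n \ n') (n' \ n)
        - (E1 (N ^ 2 * (M * N) ^ δ / M) t (n ∩ n') (n \ n') (n' \ n)
          - E2 (N ^ 2 * (M * N) ^ δ / M) t (n ∩ n') (n \ n') (n' \ n))‖
      ≤ C * (M * N) ^ δ * ((if n = n' then 5 * M else 0) + 4) := by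
  obtain ⟨C, hC, h⟩ := h1 (1 / δ + 1) (by have := one_div_pos.2 hδ; linarith)
  obtain ⟨C2, hC2, h2⟩ := pow_card_le (A := 2) (by norm_num) hδ
  refine ⟨C * C2, by positivity, fun M N t a n n' hN hM ht ht' hn hn' ho ho' h4 h4' => ?_⟩
  have hM1 : 1 ≤ M := hN.trans hM
  have hN0 : 0 < N := by linarith
  have hM0 : 0 < M := by linarith
  have hZ : 0 < (M * N) ^ δ := by positivity
  have hp := Ns_pos n
  have hp' := Ns_pos n'
  have ht0 : 0 < t := by linarith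
  have d1 : Disjoint (n ∩ n') (n \ n') :=
    Finset.disjoint_sdiff.mono_left Finset.inter_subset_right
  have d2 : Disjoint (n ∩ n') (n' \ n) :=
    Finset.disjoint_sdiff.mono_left Finset.inter_subset_left
  have u1 : n ∩ n' ∪ n \ n' = n := by rw [Finset.union_comm, Finset.sdiff_union_inter]
  have u2 : n ∩ n' ∪ n' \ n = n' := by
    rw [Finset.union_comm, Finset.inter_comm, Finset.sdiff_union_inter]
  have h5 : (4 : E) ∣ pr (n \ n') - pr (n' \ n) := by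
    have h6 : IsCoprime (2 : E) (pr (n ∩ n')) :=
      odd_iff_coprime.1 fun p hp => ho p (Finset.mem_inter.1 hp).1
    have h7 : IsCoprime (4 : E) (pr (n ∩ n')) := by
      have := h6.pow_left (m := 2)
      norm_num at this
      exact this
    refine h7.dvd_of_dvd_mul_left ?_
    rw [mul_sub, ← pr_union d1, ← pr_union d2, u1, u2]
    simpa using dvd_sub h4 h4'
  refine (h _ t _ _ _ (by positivity) (by linarith) d1 d2 disjoint_sdiff_sdiff
    (fun p hp => ho p (Finset.mem_sdiff.1 hp).1) (fun p hp => ho' p (Finset.mem_sdiff.1 hp).1)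
    h5).trans ?_
  have h8 : (2 : ℝ) ^ (n ∩ n').card ≤ C2 * (M * N) ^ δ := by
    refine (h2 _).trans (mul_le_mul_of_nonneg_left
      (Real.rpow_le_rpow (Ns_pos _).le ?_ hδ.le) hC2.le)
    have := Ns_mono (Finset.inter_subset_left (s₁ := n) (s₂ := n'))
    nlinarith
  have h9 : Ns (n ∩ n') ^ 2 * (Ns (n \ n') * Ns (n' \ n)) = Ns n * Ns n' := by
    conv_rhs => rw [← u1, Ns_union d1]
    conv_rhs => rw [← congrArg Ns u2, Ns_union d2]
    ring
  have h10 : (M * N) ^ δ ≤ N ^ 2 * (M * N) ^ δ / M * t / (Ns n * Ns n') := by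
    rw [le_div_iff₀ (mul_pos (Ns_pos _) (Ns_pos _)), div_mul_eq_mul_div, le_div_iff₀ hM0]
    have h11 : Ns n * Ns n' ≤ N ^ 2 := by
      rw [sq]
      exact mul_le_mul hn hn' (Ns_pos _).le hN0.le
    calc (M * N) ^ δ * (Ns n * Ns n') * M ≤ (M * N) ^ δ * N ^ 2 * t := by gcongr
      _ = _ := by ring
  have h12 : ((M * N) ^ δ) ^ (-(1 / δ + 1)) = (M * N * (M * N) ^ δ)⁻¹ := by
    rw [Real.rpow_neg hZ.le, Real.rpow_add hZ, Real.rpow_one, ← Real.rpow_mul (by positivity),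
      mul_one_div_cancel hδ.ne', Real.rpow_one]
  have h13 : t * (N ^ 2 * (M * N) ^ δ / M) * (N ^ 2 * (M * N) ^ δ / M * t / (Ns n * Ns n'))
      ^ (-(1 / δ + 1)) ≤ 4 := by
    have h14 := Real.rpow_le_rpow_of_nonpos hZ h10
      (show -(1 / δ + 1) ≤ 0 by have := one_div_pos.2 hδ; linarith)
    rw [h12] at h14
    calc _ ≤ 4 * M * (N ^ 2 * (M * N) ^ δ / M) * (M * N * (M * N) ^ δ)⁻¹ := by gcongr
      _ = 4 * (N / M) := by field_simp
      _ ≤ 4 * 1 := by gcongr; exact (div_le_one hM0).2 hM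
      _ = 4 := mul_one _
  have h15 : (if n \ n' ∪ n' \ n = ∅ then t + 1 else 0) ≤ if n = n' then 5 * M else 0 := by
    have : n \ n' ∪ n' \ n = ∅ ↔ n = n' := by
      rw [Finset.union_eq_empty, Finset.sdiff_eq_empty_iff_subset,
        Finset.sdiff_eq_empty_iff_subset, Finset.Subset.antisymm_iff]
    simp only [this]
    split_ifs
    · linarith
    · exact le_rfl
  rw [h9, mul_assoc C C2]
  exact mul_le_mul (mul_le_mul_of_nonneg_left h8 hC.le) (add_le_add h15 h13) (by positivity)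
    (by positivity)

theorem qs_errsum {M N : ℝ} (α : Finset P → ℂ) (hN : 1 ≤ N) (hM : N ≤ M) :
    ∑ n ∈ sqf N, ∑ n' ∈ sqf N, ‖α n‖ * ‖α n'‖ * ((if n = n' then 5 * M else 0) + 4)
      ≤ 53 * M * ∑ n ∈ sqf N, ‖α n‖ ^ 2 := by
  have h1 : ∑ n ∈ sqf N, ∑ n' ∈ sqf N, ‖α n‖ * ‖α n'‖ * ((if n = n' then 5 * M else 0) + 4)
      = 5 * M * ∑ n ∈ sqf N, ‖α n‖ ^ 2 + 4 * (∑ n ∈ sqf N, ‖α n‖) ^ 2 := by
    rw [sq (∑ n ∈ sqf N, ‖α n‖), Finset.sum_mul_sum, Finset.mul_sum, Finset.mul_sum,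
      ← Finset.sum_add_distrib]
    refine Finset.sum_congr rfl fun n hn => ?_
    simp only [mul_add, Finset.sum_add_distrib, mul_ite, mul_zero, Finset.sum_ite_eq, if_pos hn]
    rw [← Finset.sum_mul]
    ring
  have h2 := sq_sum_le_card_mul_sum_sq (s := sqf N) (f := fun n => ‖α n‖)
  have h3 := card_sqf_le (R := N) (by linarith)
  have h4 : 0 ≤ ∑ n ∈ sqf N, ‖α n‖ ^ 2 := Finset.sum_nonneg fun _ _ => sq_nonneg _
  have h5 : ((sqf N).card : ℝ) * ∑ n ∈ sqf N, ‖α n‖ ^ 2 ≤ 12 * M * ∑ n ∈ sqf N, ‖α n‖ ^ 2 :=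
    mul_le_mul_of_nonneg_right (by linarith) h4
  rw [h1]
  linarith

/-- The large values of `m`. -/
theorem qs_big (h0 : DelB) (h1 : QPair) {ξ : ℝ} (h2 : QE E1 ξ) (h3 : QE E2 ξ) {δ : ℝ}
    (hδ : 0 < δ) : ∃ C : ℝ, 0 < C ∧ ∀ (M N : ℝ) (α : Finset P → ℂ) (U : Finset (Finset P)),
      1 ≤ N → N ≤ M → N ^ (2 - 1 / ξ) ≤ M → Dy N α →
      (∀ m ∈ U, N ^ 2 * (M * N) ^ δ / M < Ns m ∧ Ns m ≤ M) →
      ∑ m ∈ U, ‖∑ n ∈ sqf N, α n * xs c2 n (pr m)‖ ^ 2
        ≤ C * (M * N) ^ (3 * δ) * M * ∑ n ∈ sqf N, ‖α n‖ ^ 2 := by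
  obtain ⟨C1, hC1, e1⟩ := qs_err h1 hδ
  obtain ⟨C2, hC2, e2⟩ := h2 δ hδ
  obtain ⟨C3, hC3, e3⟩ := h3 δ hδ
  have hβ := integral_beta_pos
  have hV := qs_Vg_pos 1
  refine ⟨((C2 + C3) / (∫ v, beta v) + 53 * C1) / Vg 1, by positivity,
    fun M N α U hN hM hM' hD hU => ?_⟩
  have hM0 : 0 < M := by linarith
  have e2' := e2 M N α hN hM' hD
  have e3' := e3 M N α hN hM' hD
  obtain ⟨a, hD⟩ := hD
  set A := N ^ 2 * (M * N) ^ δ / M with hA
  set S := ∑ n ∈ sqf N, ‖α n‖ ^ 2 with hS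
  set L := ∑ m ∈ U, ‖∑ n ∈ sqf N, α n * xs c2 n (pr m)‖ ^ 2 with hL
  have hS0 : 0 ≤ S := Finset.sum_nonneg fun _ _ => sq_nonneg _
  set Φ : ℝ → ℂ := fun v => ∑ n ∈ sqf N, ∑ n' ∈ sqf N, α n * conj (α n') *
    (E1 A (M * Real.exp v) (n ∩ n') (n \ n') (n' \ n)
      - E2 A (M * Real.exp v) (n ∩ n') (n \ n') (n' \ n)) with hΦ
  have hc : Continuous Φ := continuous_finsetSum _ fun n _ => continuous_finsetSum _ fun n' _ =>
    continuous_const.mul ((qs_cont1 h0 A hM0 _ _ _).sub (qs_cont2 h0 A hM0 _ _ _))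
  have k1 : ∀ v, beta v * (Vg 1 * L - C1 * (M * N) ^ δ * (53 * M * S))
      ≤ ((beta v : ℂ) * Φ v).re := fun v => by
    rw [re_ofReal_mul]
    by_cases hv : beta v = 0
    · rw [hv, zero_mul, zero_mul]
    refine mul_le_mul_of_nonneg_left ?_ (beta_nonneg v)
    obtain ⟨v1, v2⟩ := beta_exp hv
    have t1 : M ≤ M * Real.exp v := by nlinarith
    have t2 : M * Real.exp v ≤ 4 * M := by nlinarith
    have k2 := qs_main (sqf N) U α (A := A) (t := M * Real.exp v) (by positivity)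
      fun m hm => ⟨(hU m hm).1, (hU m hm).2.trans t1⟩
    have k3 : ‖∑ n ∈ sqf N, ∑ n' ∈ sqf N, α n * conj (α n') *
        (2 * T1 (M * Real.exp v) (n ∩ n') (n \ n') (n' \ n)
          - T2 A (M * Real.exp v) (n ∩ n') (n \ n') (n' \ n)) - Φ v‖
        ≤ C1 * (M * N) ^ δ * (53 * M * S) := by
      refine le_trans ?_ (mul_le_mul_of_nonneg_left (qs_errsum α hN hM) (by positivity))
      rw [hΦ, ← Finset.sum_sub_distrib, Finset.mul_sum]
      refine (norm_sum_le _ _).trans (Finset.sum_le_sum fun n hn => ?_)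
      rw [← Finset.sum_sub_distrib, Finset.mul_sum]
      refine (norm_sum_le _ _).trans (Finset.sum_le_sum fun n' hn' => ?_)
      rw [← mul_sub, norm_mul, norm_mul, Complex.norm_conj, mul_left_comm]
      by_cases z : α n = 0
      · simp [z]
      by_cases z' : α n' = 0
      · simp [z']
      exact mul_le_mul_of_nonneg_left (e1 M N _ a n n' hN hM t1 t2 (mem_sqf.1 hn) (mem_sqf.1 hn')
        (hD n z).1 (hD n' z').1 (hD n z).2.2 (hD n' z').2.2) (by positivity)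
    have k4 := (re_le_norm _).trans k3
    rw [sub_re] at k4
    linarith
  have k5 : ∫ v, (beta v : ℂ) * Φ v = ∑ n ∈ sqf N, ∑ n' ∈ sqf N, α n * conj (α n') *
        (∫ v : ℝ, (beta v : ℝ) * E1 A (M * Real.exp v) (n ∩ n') (n \ n') (n' \ n))
      - ∑ n ∈ sqf N, ∑ n' ∈ sqf N, α n * conj (α n') *
        ∫ v : ℝ, (beta v : ℝ) * E2 A (M * Real.exp v) (n ∩ n') (n \ n') (n' \ n) := by
    have i1 := fun n n' : Finset P =>
      integrable_beta_mul (qs_cont1 h0 A hM0 (n ∩ n') (n \ n') (n' \ n))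
    have i2 := fun n n' : Finset P =>
      integrable_beta_mul (qs_cont2 h0 A hM0 (n ∩ n') (n \ n') (n' \ n))
    have i3 := fun n n' : Finset P => ((i1 n n').sub (i2 n n')).const_mul (α n * conj (α n'))
    have i4 : ∀ v, (beta v : ℂ) * Φ v = ∑ n ∈ sqf N, ∑ n' ∈ sqf N, α n * conj (α n') *
        ((beta v : ℝ) * E1 A (M * Real.exp v) (n ∩ n') (n \ n') (n' \ n)
          - (beta v : ℝ) * E2 A (M * Real.exp v) (n ∩ n') (n \ n') (n' \ n)) := fun v => by
      simp only [hΦ, Finset.mul_sum]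
      exact Finset.sum_congr rfl fun n _ => Finset.sum_congr rfl fun n' _ => by ring
    simp only [Pi.sub_apply] at i3
    simp only [i4]
    rw [integral_finsetSum _ fun n _ => integrable_finsetSum _ fun n' _ => i3 n n',
      ← Finset.sum_sub_distrib]
    refine Finset.sum_congr rfl fun n _ => ?_
    rw [integral_finsetSum _ fun n' _ => i3 n n', ← Finset.sum_sub_distrib]
    refine Finset.sum_congr rfl fun n' _ => ?_
    rw [integral_const_mul, integral_sub (i1 n n') (i2 n n'), mul_sub]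
  have k6 := integral_mono (integrable_beta.mul_const _) (integrable_beta_mul hc).re k1
  rw [integral_mul_const] at k6
  have k7 : ∫ v, ((beta v : ℂ) * Φ v).re ≤ (C2 + C3) * ((M * N) ^ (3 * δ) * M * S) := by
    rw [← wt_re_integral (integrable_beta_mul hc), k5]
    refine ((re_le_norm _).trans (norm_sub_le _ _)).trans ?_
    linarith
  have k8 : Vg 1 * L - C1 * (M * N) ^ δ * (53 * M * S)
      ≤ (C2 + C3) / (∫ v, beta v) * ((M * N) ^ (3 * δ) * M * S) := by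
    rw [div_mul_eq_mul_div, le_div_iff₀' hβ]
    exact k6.trans k7
  have k9 : (M * N) ^ δ ≤ (M * N) ^ (3 * δ) :=
    Real.rpow_le_rpow_of_exponent_le (by nlinarith) (by linarith)
  have k10 : C1 * (M * N) ^ δ * (53 * M * S) ≤ C1 * (M * N) ^ (3 * δ) * (53 * M * S) := by gcongr
  rw [mul_assoc, mul_assoc, div_mul_eq_mul_div, le_div_iff₀' hV]
  linarith

theorem qStep (h0 : DelB) (h1 : QPair) {ξ : ℝ} (hξ : 1 ≤ ξ) (hξ2 : ξ ≤ 2) (h : QD ξ)
    (h2 : QE E1 ξ) (h3 : QE E2 ξ) : QSd (2 - 1 / ξ) := by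
  intro ε hε
  obtain ⟨δ, rfl⟩ : ∃ δ, ε = 3 * δ := ⟨ε / 3, by ring⟩
  have hδ : 0 < δ := by linarith
  obtain ⟨C1, hC1, e1⟩ := qs_big h0 h1 h2 h3 hδ
  obtain ⟨C2, hC2, e2⟩ := h (δ / (1 + δ)) (by positivity)
  refine ⟨2 * C2 + C1, by positivity, fun M N α hN hM' hD => ?_⟩
  have hξ0 : 0 < ξ := by linarith
  have hN0 : 0 < N := by linarith
  have hM : N ≤ M := by
    refine le_trans ?_ hM'
    have : 1 / ξ ≤ 1 := (div_le_one hξ0).2 hξ
    simpa using Real.rpow_le_rpow_of_exponent_le hN (show 1 ≤ 2 - 1 / ξ by linarith)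
  have hM0 : 0 < M := by linarith
  have hZ : 1 ≤ M * N := by nlinarith
  set A := N ^ 2 * (M * N) ^ δ / M with hA
  have hA0 : 0 < A := by positivity
  have hS0 : 0 ≤ ∑ n ∈ sqf N, ‖α n‖ ^ 2 := Finset.sum_nonneg fun _ _ => sq_nonneg _
  have k1 := e1 M N α ((sqo M).filter fun m => ¬ Ns m ≤ A) hN hM hM' hD fun m hm =>
    ⟨not_le.1 (Finset.mem_filter.1 hm).2,
      mem_sqf.1 (Finset.mem_filter.1 (Finset.mem_filter.1 hm).1).1⟩
  obtain ⟨a, hD⟩ := hD
  have k2 := e2 A N (sqf N) ∅ α hA0.le hN0.le fun c hc hc' =>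
    ⟨(hD c hc').1, Finset.empty_subset _, by rw [Ns_empty, mul_one]; exact mem_sqf.1 hc⟩
  have k3 : ∑ m ∈ (sqo M).filter fun m => Ns m ≤ A, ‖∑ n ∈ sqf N, α n * xs c2 n (pr m)‖ ^ 2
      ≤ ∑ a ∈ calA A, ‖∑ n ∈ sqf N, α n * xs c2 n a‖ ^ 2 := by
    rw [← Finset.sum_image (f := fun a => ‖∑ n ∈ sqf N, α n * xs c2 n a‖ ^ 2) pr_inj.injOn]
    refine Finset.sum_le_sum_of_subset_of_nonneg (fun x hx => ?_) fun _ _ _ => sq_nonneg _
    obtain ⟨m, hm, rfl⟩ := Finset.mem_image.1 hx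
    exact Finset.mem_filter.2 ⟨mem_ball.2 ⟨pr_ne_zero m, (Finset.mem_filter.1 hm).2⟩, m, Or.inl rfl⟩
  have k4 : (A * N) ^ (δ / (1 + δ)) ≤ (M * N) ^ δ := by
    have k5 : A * N ≤ (M * N) ^ (1 + δ) := by
      rw [Real.rpow_add (by positivity), Real.rpow_one, hA, div_mul_eq_mul_div, div_le_iff₀ hM0]
      calc N ^ 2 * (M * N) ^ δ * N = N * N * (M * N) ^ δ * N := by ring
        _ ≤ M * N * (M * N) ^ δ * M := by gcongr
    refine (Real.rpow_le_rpow (by positivity) k5 (by positivity)).trans (le_of_eq ?_)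
    rw [← Real.rpow_mul (by positivity), mul_div_cancel₀ _ (by positivity)]
  have k6 : 1 ≤ (M * N) ^ (2 * δ) := Real.one_le_rpow hZ (by linarith)
  have k7 : A ^ ξ ≤ M * (M * N) ^ (2 * δ) := by
    have k8 : A ≤ N ^ (1 / ξ) * (M * N) ^ δ := by
      rw [hA, div_le_iff₀ hM0]
      have k9 : N ^ 2 = N ^ (1 / ξ) * N ^ (2 - 1 / ξ) := by
        rw [← Real.rpow_add hN0, add_sub_cancel, Real.rpow_two]
      calc N ^ 2 * (M * N) ^ δ = N ^ (1 / ξ) * (M * N) ^ δ * N ^ (2 - 1 / ξ) := by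
            rw [k9]; ring
        _ ≤ _ := by gcongr
    refine (Real.rpow_le_rpow hA0.le k8 hξ0.le).trans ?_
    rw [Real.mul_rpow (by positivity) (by positivity), ← Real.rpow_mul hN0.le,
      one_div_mul_cancel hξ0.ne', Real.rpow_one, ← Real.rpow_mul (by positivity)]
    exact mul_le_mul hM (Real.rpow_le_rpow_of_exponent_le hZ (by nlinarith)) (by positivity) hM0.le
  have k10 : C2 * (A * N) ^ (δ / (1 + δ)) * (N + A ^ ξ) ≤ 2 * C2 * (M * N) ^ (3 * δ) * M := by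
    have k11 : N + A ^ ξ ≤ 2 * (M * (M * N) ^ (2 * δ)) := by nlinarith
    calc _ ≤ C2 * (M * N) ^ δ * (2 * (M * (M * N) ^ (2 * δ))) := by gcongr
      _ = _ := by
        rw [show 3 * δ = δ + 2 * δ by ring, Real.rpow_add (by positivity)]
        ring
  rw [← Finset.sum_filter_add_sum_filter_not (sqo M) fun m => Ns m ≤ A]
  have k12 := mul_le_mul_of_nonneg_right k10 hS0
  linarith

end QRH
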