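import Vale.Agent.P026.Gauss
import Vale.Agent.P026.Stm1

noncomputable section
namespace QRH
open Complex MeasureTheory
open scoped ComplexConjugate Classical

/-- Quadratic Gauss sum. -/
def qdS (t c : E) : ℂ := rsum c fun x => psf (t * x ^ 2) c
/-- Normalised quadratic Gauss sum. -/
def qdG (t c : E) : ℂ := qdS t c / (‖toC c‖ : ℝ)
/-- The other side of the reciprocity formula for `t = 1`. -/
def qdR (c : E) : ℂ :=
  rsum (2 * 1) (fun y => psf (-(c * y ^ 2)) (4 * 1)) / (‖toC (2 * 1)‖ : ℝ)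

theorem qd_per (t c : E) : Per c fun x => psf (t * x ^ 2) c := fun x y h =>
  psf_congr (by
    rw [show t * x ^ 2 - t * y ^ 2 = (x - y) * (t * (x + y)) by ring]
    exact h.mul_right _)

theorem qd_neg_congr {t c c' : E} (h : 4 * t ∣ c - c') :
    (fun y => psf (-(c * y ^ 2)) (4 * t)) = fun y => psf (-(c' * y ^ 2)) (4 * t) :=
  funext fun y => psf_congr (by
    rw [show -(c * y ^ 2) - -(c' * y ^ 2) = (c - c') * -(y ^ 2) by ring]
    exact h.mul_right _)

theorem qdG_congr (h : QGauss) {t c c' : E} (ht : t ≠ 0) (hc : c ≠ 0) (hc' : c' ≠ 0)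
    (h4 : 4 * t ∣ c - c') : qdG t c = qdG t c' := by
  unfold qdG qdS
  rw [h c t hc ht, h c' t hc' ht, qd_neg_congr h4]

theorem qdG_one (h : QGauss) {c : E} (hc : c ≠ 0) : qdG 1 c = qdR c := h c 1 hc one_ne_zero

theorem qdR_congr {c c' : E} (h4 : (4 : E) ∣ c - c') : qdR c = qdR c' := by
  unfold qdR
  rw [qd_neg_congr (t := 1) (by rwa [mul_one])]

theorem qdS_inv {a b b' : E} (ha : a ≠ 0) (hab : IsCoprime b a) (hb' : a ∣ b * b' - 1) (t : E) :
    rsum a (fun x => psf (t * x ^ 2 * b') a) = qdS (t * b) a := by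
  have hp : Per a fun x => psf (t * x ^ 2 * b') a := fun x y h =>
    psf_congr (by
      rw [show t * x ^ 2 * b' - t * y ^ 2 * b' = (x - y) * (t * (x + y) * b') by ring]
      exact h.mul_right _)
  rw [← rsum_mul_unit ha hp hab, qdS]
  refine congrArg _ (funext fun x => psf_congr ?_)
  rw [show t * (b * x) ^ 2 * b' - t * b * x ^ 2 = (b * b' - 1) * (t * b * x ^ 2) by ring]
  exact hb'.mul_right _

theorem qdS_mul {a b : E} (ha : a ≠ 0) (hb : b ≠ 0) (hab : IsCoprime a b) (t : E) :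
    qdS t (a * b) = qdS (t * b) a * qdS (t * a) b := by
  have h1 := inv_spec hab
  have h2 := inv_spec hab.symm
  have hp : ∀ c u : E, Per c fun x => psf (t * x ^ 2 * u) c := fun c u x y h =>
    psf_congr (by
      rw [show t * x ^ 2 * u - t * y ^ 2 * u = (x - y) * (t * (x + y) * u) by ring]
      exact h.mul_right _)
  rw [← qdS_inv ha hab.symm h2, ← qdS_inv hb hab h1, ← rsum_crt ha hb hab (hp _ _) (hp _ _), qdS]
  exact congrArg _ (funext fun x => psf_crt ha hb hab h1 h2 _)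

theorem qdG_mul {a b : E} (ha : a ≠ 0) (hb : b ≠ 0) (hab : IsCoprime a b) (t : E) :
    qdG t (a * b) = qdG (t * b) a * qdG (t * a) b := by
  unfold qdG
  rw [qdS_mul ha hb hab, map_mul, norm_mul, ofReal_mul, div_mul_div_comm]

theorem qdS_sq {p c t : E} (hp : Prime p) (hc : c ≠ 0) (h2 : ¬ p ∣ 2) (ht : ¬ p ∣ t) :
    qdS t (p * c * p) = nm p * qdS t c := by
  have hp0 := hp.ne_zero
  have hpc : p * c ≠ 0 := mul_ne_zero hp0 hc
  have key : ∀ x, rsum p (fun y => psf (t * (x + p * c * y) ^ 2) (p * c * p)) =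
      if p ∣ x then (nm p : ℂ) * psf (t * x ^ 2) (p * c * p) else 0 := by
    intro x
    have e : (fun y => psf (t * (x + p * c * y) ^ 2) (p * c * p)) =
        fun y => psf (t * x ^ 2) (p * c * p) * psf (y * (2 * t * x)) p := by
      funext y
      rw [← psf_scale hpc (y * (2 * t * x)) p, ← psf_add]
      refine psf_congr ⟨t * c * y ^ 2, by ring⟩
    rw [e, rsum_mul_left, rsum_psf hp0]
    by_cases hx : p ∣ x
    · rw [if_pos hx, if_pos (hx.mul_left _), mul_comm]
    · rw [if_neg hx, if_neg, mul_zero]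
      intro h
      rcases hp.dvd_or_dvd h with h | h
      · exact (hp.dvd_or_dvd h).elim h2 ht
      · exact hx h
  have hper : Per (p * c) fun x =>
      if p ∣ x then (nm p : ℂ) * psf (t * x ^ 2) (p * c * p) else 0 := by
    intro x y hxy
    have h1 : p ∣ x - y := (dvd_mul_right p c).trans hxy
    by_cases hx : p ∣ x
    · have hy : p ∣ y := by simpa using hx.sub h1
      simp only [if_pos hx, if_pos hy]
      congr 1
      refine psf_congr ?_
      rw [show t * x ^ 2 - t * y ^ 2 = (x - y) * (x + y) * t by ring]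
      exact (mul_dvd_mul hxy (hx.add hy)).mul_right _
    · have hy : ¬ p ∣ y := fun hy => hx (by simpa using h1.add hy)
      simp only [if_neg hx, if_neg hy]
  rw [qdS, rsum_mul hpc hp0 (qd_per _ _), funext key,
    rsum_supp hp0 hc hper fun x hx => if_neg hx, qdS, ← rsum_mul_left]
  refine congrArg _ (funext fun y => ?_)
  rw [if_pos (dvd_mul_right p y), ← psf_scale (mul_ne_zero hp0 hp0) (t * y ^ 2) c]
  congr 2 <;> ring

theorem qdG_sq {p c t : E} (hp : Prime p) (hc : c ≠ 0) (h2 : ¬ p ∣ 2) (ht : ¬ p ∣ t) :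
    qdG t (p * c * p) = qdG t c := by
  have h0 : (‖toC p‖ : ℂ) ≠ 0 := by
    simpa using toC_ne_zero hp.ne_zero
  have h1 : (nm p : ℂ) = (‖toC p‖ : ℂ) ^ 2 := by
    have := congrArg (fun x : ℝ => (x : ℂ)) (nm_eq p)
    simpa using this
  have h3 : (‖toC c‖ : ℂ) ≠ 0 := by
    simpa using toC_ne_zero hc
  unfold qdG
  rw [qdS_sq hp hc h2 ht, map_mul, map_mul, norm_mul, norm_mul, h1]
  push_cast
  field_simp

theorem qdS_prime {p : P} (h2 : ¬ p.1 ∣ 2) {t : E} (ht : ¬ p.1 ∣ t) :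
    qdS t p.1 = c2 p t * gs c2 {p} := by
  have e : (fun x => psf (t * x ^ 2) p.1) = fun x => psf (x ^ 2 * t) p.1 :=
    funext fun x => by rw [mul_comm]
  have h1 := rsum_sq h2 (per_psf t p.1)
  have h3 : (fun y => (1 + c2 p y) * psf (y * t) p.1) =
      fun y => psf (y * t) p.1 + c2 p y * psf (y * t) p.1 := funext fun y => by ring
  rw [qdS, e, h1, h3, rsum_add, rsum_psf p.ne_zero, if_neg ht, zero_add,
    (c2_mc p).gauss_twist (c2_nt h2), conj_c2, gs_singleton]

theorem qdS_unit {u : E} (hu : IsUnit u) (t : E) : qdS t u = 1 := by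
  rw [qdS, rsum_unit hu (qd_per _ _)]
  simp [psf_zero]

theorem qdG_unit {u : E} (hu : IsUnit u) (t : E) : qdG t u = 1 := by
  rw [qdG, qdS_unit hu, norm_toC, isUnit_iff.1 hu]
  simp

theorem qdS_pr (s : Finset P) (hs : Odd' s) : ∀ t : E, (∀ p ∈ s, ¬ p.1 ∣ t) →
    qdS t (pr s) = xs c2 s t * gs c2 s := by
  induction s using Finset.induction_on with
  | empty => intro t _; rw [pr_empty, qdS_unit isUnit_one, xs_empty, gs_empty, mul_one]
  | insert p s hp ih =>
    intro t ht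
    have hd : Disjoint {p} s := Finset.disjoint_singleton_left.2 hp
    have hc : IsCoprime p.1 (pr s) := by
      rw [← pr_singleton]
      exact coprime_pr.2 hd
    have h1 : ¬ p.1 ∣ t * pr s := fun h =>
      (p.2.1.dvd_or_dvd h).elim (ht p (Finset.mem_insert_self _ _)) fun h => hp (dvd_pr_iff.1 h)
    have h2 : ∀ q ∈ s, ¬ q.1 ∣ t * p.1 := fun q hq h =>
      (q.2.1.dvd_or_dvd h).elim (ht q (Finset.mem_insert_of_mem hq)) fun h =>
        hp ((P.dvd_iff q p).1 h ▸ hq)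
    have e : ∀ n, xs c2 {p} n = c2 p n := fun n => Finset.prod_singleton _ _
    rw [pr_insert hp, qdS_mul p.ne_zero (pr_ne_zero s) hc,
      qdS_prime (hs p (Finset.mem_insert_self _ _)) h1,
      ih (fun q hq => hs q (Finset.mem_insert_of_mem hq)) _ h2, Finset.insert_eq,
      gs_union ch_c2 hd, xs_union hd, e, e, pr_singleton, (c2_mc p).mul, xs_mul ch_c2]
    ring

theorem qdG_pr {s : Finset P} (hs : Odd' s) {t : E} (ht : ∀ p ∈ s, ¬ p.1 ∣ t) :
    qdG t (pr s) = xs c2 s t * gam c2 s := by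
  rw [qdG, qdS_pr s hs t ht, gam, mul_div_assoc]

theorem qdG_pr_one {s : Finset P} (hs : Odd' s) : qdG 1 (pr s) = gam c2 s := by
  rw [qdG_pr hs fun p _ => p.not_dvd_unit isUnit_one, xs_one ch_c2, one_mul]

theorem qd_main (n : ℕ) : ∀ c : E, nm c = n → (3 : E) ∣ c - 1 → IsCoprime c 2 →
    ∃ g : ℂ, ‖g‖ = 1 ∧ ∀ t, IsCoprime c t → qdG t c = xv c2 c t * g := by
  induction n using Nat.strong_induction_on with
  | _ n ih =>
    intro c hn hc h2
    have hc0 := primary_ne_zero hc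
    have hnd : ∀ {t : E}, IsCoprime c t → ∀ p : P, p.1 ∣ c → ¬ p.1 ∣ t := fun h p h1 h3 =>
      (isCoprime_iff.1 h).2 p ⟨h1, h3⟩
    by_cases hv : ∀ p : P, vp p.1 c ≤ 1
    · have e := eq_pr_of_vp_le hc hv
      have ho : Odd' (fac c) := fun p hp => hnd h2 p ((mem_fac hc0).1 hp)
      refine ⟨gam c2 (fac c), norm_gam ch_c2 fun p hp => c2_nt (ho p hp), fun t ht => ?_⟩
      have := qdG_pr ho (t := t) fun p hp => hnd ht p ((mem_fac hc0).1 hp)
      rw [← xv_pr, ← e] at this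
      exact this
    · push Not at hv
      obtain ⟨p, hp⟩ := hv
      obtain ⟨c₁, h1⟩ := (pow_dvd_iff p.2.1 hc0 2).2 hp
      have e : c = p.1 * c₁ * p.1 := by rw [h1]; ring
      have hc₁ : (3 : E) ∣ c₁ - 1 := primary_of_mul (primary_pow p.2.2 2) (h1 ▸ hc)
      have hc₁0 := primary_ne_zero hc₁
      have hd : c₁ ∣ c := ⟨p.1 ^ 2, by rw [h1]; ring⟩
      have hpd : p.1 ∣ c := ⟨c₁ * p.1, by rw [h1]; ring⟩
      have hlt : nm c₁ < n := by
        have a1 := p.four_le_nm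
        have a2 := one_le_nm hc₁0
        rw [← hn, h1, nm_mul, nm_pow]
        exact lt_mul_of_one_lt_left a2 (one_lt_pow₀ (by omega) two_ne_zero)
      obtain ⟨g, hg, H⟩ := ih _ hlt c₁ rfl hc₁ (h2.of_isCoprime_of_dvd_left hd)
      refine ⟨g, hg, fun t ht => ?_⟩
      have a3 : xv c2 c t = xv c2 c₁ t := by
        rw [h1, xv_mul_left (pow_ne_zero 2 p.ne_zero) hc₁0, xv_pow_left p.ne_zero, xv_prime,
          c2_sq (hnd ht p hpd), one_mul]
      rw [a3, ← H t (ht.of_isCoprime_of_dvd_left hd), e,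
        qdG_sq p.2.1 hc₁0 (hnd h2 p hpd) (hnd ht p hpd)]

theorem qdG_norm {c : E} (hc : (3 : E) ∣ c - 1) (h2 : IsCoprime c 2) : ‖qdG 1 c‖ = 1 := by
  obtain ⟨g, hg, H⟩ := qd_main _ c rfl hc h2
  rw [H 1 isCoprime_one_right, xv_one ch_c2, one_mul, hg]

theorem qdG_ne {c : E} (hc : (3 : E) ∣ c - 1) (h2 : IsCoprime c 2) : qdG 1 c ≠ 0 := by
  intro h
  have := qdG_norm hc h2
  rw [h, norm_zero] at this
  exact zero_ne_one this

theorem qdG_eq {c t : E} (hc : (3 : E) ∣ c - 1) (h2 : IsCoprime c 2) (ht : IsCoprime c t) :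
    qdG t c = xv c2 c t * qdG 1 c := by
  obtain ⟨g, _, H⟩ := qd_main _ c rfl hc h2
  rw [H 1 isCoprime_one_right, xv_one ch_c2, one_mul, H t ht]

theorem qdG_pair {c n : E} (hc : (3 : E) ∣ c - 1) (hn : (3 : E) ∣ n - 1) (hc2 : IsCoprime c 2)
    (hn2 : IsCoprime n 2) (h : IsCoprime c n) :
    qdG 1 (c * n) = xv c2 c n * xv c2 n c * (qdG 1 c * qdG 1 n) := by
  rw [qdG_mul (primary_ne_zero hc) (primary_ne_zero hn) h, one_mul, one_mul, qdG_eq hc hc2 h,
    qdG_eq hn hn2 h.symm]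
  ring

theorem qd_odd_unit {b : E} (hb : ¬ (2 : E) ∣ b) : ∃ u, IsUnit u ∧ (2 : E) ∣ b - u := by
  have h2 : ∀ x : E, (2 : E) ∣ x ↔ (2 : ℤ) ∣ x.re ∧ (2 : ℤ) ∣ x.im := fun x => by
    simpa using natCast_dvd_iff 2 x
  rw [h2] at hb
  have hu : IsUnit (1 + om) :=
    IsUnit.of_mul_eq_one (-om) (by linear_combination -om_rel)
  by_cases h1 : (2 : ℤ) ∣ b.re
  · refine ⟨om, isUnit_om, (h2 _).2 ?_⟩
    simp only [om, QuadraticAlgebra.re_sub, QuadraticAlgebra.im_sub]
    omega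
  · by_cases h3 : (2 : ℤ) ∣ b.im
    · refine ⟨1, isUnit_one, (h2 _).2 ?_⟩
      simp only [QuadraticAlgebra.re_sub, QuadraticAlgebra.im_sub, QuadraticAlgebra.re_one,
        QuadraticAlgebra.im_one]
      omega
    · refine ⟨1 + om, hu, (h2 _).2 ?_⟩
      simp only [om, QuadraticAlgebra.re_sub, QuadraticAlgebra.im_sub, QuadraticAlgebra.re_one,
        QuadraticAlgebra.im_one, QuadraticAlgebra.re_add, QuadraticAlgebra.im_add]
      omega

theorem qPer (h : QGauss) : QPer := by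
  intro t c c' ht hc hc' hco h4
  have hco' : IsCoprime c' (2 * t) := by
    obtain ⟨k, hk⟩ := h4
    have e : c' = c + 2 * t * (-(2 * k)) := by linear_combination -hk
    rw [e]
    exact hco.add_mul_left_left _
  have h1 := qdG_congr h ht (primary_ne_zero hc) (primary_ne_zero hc') h4
  have h2 := qdG_congr h one_ne_zero (primary_ne_zero hc) (primary_ne_zero hc')
    ((mul_dvd_mul_left 4 (one_dvd t)).trans h4)
  rw [qdG_eq hc hco.of_mul_right_left hco.of_mul_right_right,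
    qdG_eq hc' hco'.of_mul_right_left hco'.of_mul_right_right, ← h2] at h1
  exact mul_right_cancel₀ (qdG_ne hc hco.of_mul_right_left) h1

theorem qRec (h : QGauss) : QRec := by
  refine ⟨fun a b => if qdR (a * b) = -(qdR a * qdR b) then -1 else 1, ?_, fun a b => ?_, ?_⟩
  · intro a a' b b' ha hb
    have hab : (4 : E) ∣ a * b - a' * b' := by
      rw [show a * b - a' * b' = (a - a') * b + a' * (b - b') by ring]
      exact (ha.mul_right _).add (hb.mul_left _)
    simp only [qdR_congr ha, qdR_congr hb, qdR_congr hab]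
  · by_cases e : qdR (a * b) = -(qdR a * qdR b)
    · exact Or.inr (if_pos e)
    · exact Or.inl (if_neg e)
  intro c n hc hn hc2 hn2
  have hc0 := primary_ne_zero hc
  have hn0 := primary_ne_zero hn
  by_cases hcn : IsCoprime c n
  · have h1 := qdG_pair hc hn hc2 hn2 hcn
    have h2 : qdG 1 c * qdG 1 n ≠ 0 := mul_ne_zero (qdG_ne hc hc2) (qdG_ne hn hn2)
    have h3 := xv_c2_sq hc0 (isCoprime_iff.1 hcn).2
    have h4 := xv_c2_sq hn0 (isCoprime_iff.1 hcn.symm).2
    show _ = (if qdR (c * n) = -(qdR c * qdR n) then -1 else 1) * _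
    rw [← qdG_one h hc0, ← qdG_one h hn0, ← qdG_one h (mul_ne_zero hc0 hn0), h1]
    generalize qdG 1 c * qdG 1 n = g at h2
    have h5 : g ≠ -g := fun e => h2 (by linear_combination e / 2)
    rcases sq_eq_one_iff.1 h3 with e | e <;>
      rcases sq_eq_one_iff.1 h4 with e' | e' <;> simp [e, e', h5]
  · rw [isCoprime_iff] at hcn
    have : ∃ p : P, p.1 ∣ c ∧ p.1 ∣ n := by
      by_contra hne
      exact hcn ⟨fun hl => not_lam_dvd_of_primary hc hl.1, fun p hp => hne ⟨p, hp⟩⟩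
    obtain ⟨p, h1, h2⟩ := this
    rw [(xv_eq_zero_iff ch_c2 hc0).2 ⟨p, h1, h2⟩, (xv_eq_zero_iff ch_c2 hn0).2 ⟨p, h2, h1⟩,
      mul_zero]

theorem qGam (h : QGauss) : QGam := by
  intro s t hs ht h4
  rw [← qdG_pr_one hs, ← qdG_pr_one ht]
  exact qdG_congr h one_ne_zero (pr_ne_zero s) (pr_ne_zero t) (by rwa [mul_one])

theorem rec_c2 (h : QGauss) : Rec c2 := by
  intro c c' hd hc hc' h4
  have h1 := qdG_pair (pr_primary c) (pr_primary c') (odd_iff_coprime.1 hc).symm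
    (odd_iff_coprime.1 hc').symm (coprime_pr.2 hd)
  have h2 : ¬ (2 : E) ∣ pr c' := fun e =>
    odd_iff.1 hc' (dvd_pr_iff.1 (show pTwo.1 ∣ pr c' from neg_dvd.2 e))
  obtain ⟨u, hu, k, hk⟩ := qd_odd_unit h2
  have h3 : 4 * 1 ∣ pr c * pr c' - u ^ 2 := by
    obtain ⟨m, hm⟩ := h4
    exact ⟨m * pr c' + k * u + k ^ 2, by
      linear_combination pr c' * hm + (pr c' + u + 2 * k) * hk⟩
  have h5 := qdG_congr h one_ne_zero (mul_ne_zero (pr_ne_zero c) (pr_ne_zero c'))
    (hu.pow 2).ne_zero h3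
  have h6 : cj c2 = c2 := funext fun p => funext fun x => conj_c2 p x
  have h7 := gam_mul_cj ch_c2 fun p hp => c2_nt (hc' p hp)
  rw [h6] at h7
  rw [h5, qdG_unit (hu.pow 2), qdG_pr_one hc, qdG_pr_one hc', qGam h c c' hc hc' h4, h7, xv_pr,
    xv_pr] at h1
  rw [conj_xs_c2, ← h1]

end QRH
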