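import Vale.Agent.P026.Gauss
import Vale.Agent.P026.Rearr
import Vale.Agent.P026.Wt

noncomputable section
namespace QRH
open Complex MeasureTheory Filter
open scoped ComplexConjugate Classical ContDiff Topology

theorem sb_norm_mul {x y : ℂ} (hx : ‖x‖ ≤ 1) (hy : ‖y‖ ≤ 1) : ‖x * y‖ ≤ 1 := by
  rw [norm_mul]
  exact mul_le_one₀ hx (norm_nonneg _) hy

theorem sb_norm_conj (s : Finset P) (n : E) : ‖conj (xs c6 s n)‖ ≤ 1 := by
  rw [Complex.norm_conj]
  exact norm_xs_le ch_c6 s n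

theorem sb_norm_cH (Q : ℕ) (a ρ m : E) (s : Finset P) : ‖cH Q a ρ m s‖ ≤ 1 :=
  sb_norm_mul (sb_norm_mul (sb_norm_mul (sb_norm_mul (norm_cl_le _ _ _) (norm_mu s).le)
    (norm_gam_c6 s).le) (sb_norm_conj _ _)) (sb_norm_conj _ _)

theorem sb_norm_cB (Q : ℕ) (a ρ : E) (K : Finset P) (t m : E) (s : Finset P) :
    ‖cB Q a ρ K t m s‖ ≤ 1 := by
  rw [cB]
  split_ifs
  · exact sb_norm_mul (sb_norm_cH _ _ _ _ _) (norm_xs_le ch_c6 _ _)
  · simp

/-- The trivial bound for short sums. -/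
theorem sb_short : ∃ C : ℝ, 0 < C ∧ ∀ (β : E → Finset P → ℂ) (X X' M τ : ℝ), 0 < X' → X' ≤ 1 →
    X' ≤ 32 * X → 0 ≤ M → (∀ m s, ‖β m s‖ ≤ 1) →
    ∑ m ∈ ball M, ‖S (β m) X' (τ * I)‖ ^ 2 ≤ C * (X * M) := by
  obtain ⟨C, hC, h⟩ := norm_S_le
  refine ⟨384 * C ^ 2, by positivity, fun β X X' M τ h0 h1 h2 hM hβ => ?_⟩
  have h3 : ∀ m, ‖S (β m) X' (τ * I)‖ ^ 2 ≤ C ^ 2 * (32 * X) := fun m => by
    refine (pow_le_pow_left₀ (norm_nonneg _) (h _ _ _ h0 (hβ m) (by simp)) 2).trans ?_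
    rw [mul_pow]
    exact mul_le_mul_of_nonneg_left (by nlinarith) (sq_nonneg C)
  refine (Finset.sum_le_card_nsmul _ _ _ fun m _ => h3 m).trans ?_
  rw [nsmul_eq_mul]
  have h4 : 0 ≤ C ^ 2 * (32 * X) := mul_nonneg (sq_nonneg C) (by linarith)
  exact (mul_le_mul_of_nonneg_right (card_ball_le hM) h4).trans (le_of_eq (by ring))

theorem sb_one_le (τ : ℝ) (B : ℕ) : 1 ≤ (1 + |τ|) ^ B :=
  one_le_pow₀ (by linarith [abs_nonneg τ])

theorem hBs (hR : Resc) {Q k : ℕ} (hQ : GoodQ Q k) {η : ℝ} (hη : 0 ≤ η) (h : HB Q η) :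
    HBs Q η := by
  intro ε hε
  obtain ⟨B, C, hC, h⟩ := h ε hε
  obtain ⟨C1, hC1, hR⟩ := hR B
  obtain ⟨C2, hC2, hS⟩ := sb_short
  have hQ0 : (Q : E) ≠ 0 := Nat.cast_ne_zero.2 hQ.ne_zero
  obtain ⟨D, hD⟩ : ∃ D : ℝ, D = nm (Q : E) * (C * 32 ^ ε * 32 ^ (2 + η)) := ⟨_, rfl⟩
  have hD0 : 0 ≤ D := by rw [hD]; positivity
  refine ⟨B, C1 * (D + C2), by positivity,
    fun ι J t a Xi Z X M T s ρ K hX hXZ hM hMZ hT hTZ hs hρ hρZ hK hinj hJ => ?_⟩
  have hZ : 1 ≤ Z := hM.trans hMZ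
  have hZε : 1 ≤ Z ^ ε := Real.one_le_rpow hZ hε.le
  have hRr := one_le_Rr ρ
  obtain ⟨W, hW⟩ : ∃ W : ℝ, W = J.card * X * M + X ^ 2 * T + M * X ^ (1 + η) * Rr ρ := ⟨_, rfl⟩
  have w1 : 0 ≤ J.card * X * M := by positivity
  have w2 : 0 ≤ X ^ 2 * T := by positivity
  have w3 : 0 ≤ M * X ^ (1 + η) * Rr ρ := by positivity
  have hW0 : 0 ≤ W := by rw [hW]; positivity
  have key := hR (ι × E) (J ×ˢ ball M) (fun p => cB Q (a p.1) ρ K (t p.1) p.2) (fun p => Xi p.1) X
    ((D + C2) * Z ^ ε * W) s hX hs (fun p hp => (hJ _ (Finset.mem_product.1 hp).1).2.2)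
    fun X' τ h1 h2 => by
      have hτ := sb_one_le τ B
      rw [Finset.sum_product]
      rcases le_total X' 1 with h3 | h3
      · refine (Finset.sum_le_card_nsmul _ _ _ fun i _ => hS (fun m => cB Q (a i) ρ K (t i) m) X X'
          M τ (by linarith) h3 h2 (by linarith) fun m s => sb_norm_cB _ _ _ _ _ _ _).trans ?_
        rw [nsmul_eq_mul]
        calc _ = C2 * 1 * (J.card * X * M) * 1 := by ring
          _ ≤ _ := by gcongr <;> linarith
      choose r hr hr' using fun i => exists_rep hQ0 (a i)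
      rw [← Finset.sum_fiberwise_of_maps_to (g := r) fun i _ => hr i]
      have hb : ∀ r0, ∑ i ∈ J with r i = r0, ∑ m ∈ ball M,
          ‖S (cB Q (a i) ρ K (t i) m) X' (τ * I)‖ ^ 2 ≤
          C * 32 ^ ε * 32 ^ (2 + η) * (Z ^ ε * W * (1 + |τ|) ^ B) := fun r0 => by
        rcases (J.filter fun i => r i = r0).eq_empty_or_nonempty with he | ⟨i0, hi0⟩
        · rw [he, Finset.sum_empty]
          positivity
        obtain ⟨k1, k2⟩ := Finset.mem_filter.1 hi0
        have hc : IsCoprime r0 (Q : E) := by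
          obtain ⟨y, hy⟩ := hr' i0
          have : r0 = a i0 + Q * (-y) := by rw [← k2]; linear_combination -hy
          rw [this]
          exact (hJ _ k1).2.1.add_mul_left_left _
        have hinj' : Set.InjOn t (J.filter fun i => r i = r0) :=
          hinj.mono fun i hi => (Finset.mem_filter.1 hi).1
        have e1 : ∑ i ∈ J with r i = r0, ∑ m ∈ ball M,
            ‖S (cB Q (a i) ρ K (t i) m) X' (τ * I)‖ ^ 2 =
            ∑ t0 ∈ (J.filter fun i => r i = r0).image t, ∑ m ∈ ball M,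
              ‖S (cB Q r0 ρ K t0 m) X' (τ * I)‖ ^ 2 := by
          rw [Finset.sum_image hinj']
          refine Finset.sum_congr rfl fun i hi => ?_
          have e2 := cl_congr (hr' i)
          rw [(Finset.mem_filter.1 hi).2] at e2
          unfold cB cH
          rw [e2]
        rw [e1]
        refine (h (32 * Z) X' M T τ r0 ρ K _ h3 (by linarith) hM (by linarith) hT (by linarith) hc hρ
          (by linarith) (by linarith) fun t0 ht0 => ?_).trans ?_
        · obtain ⟨i, hi, rfl⟩ := Finset.mem_image.1 ht0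
          exact (hJ _ (Finset.mem_filter.1 hi).1).1
        have c1 : (((J.filter fun i => r i = r0).image t).card : ℝ) ≤ J.card := by
          exact_mod_cast Finset.card_image_le.trans (Finset.card_filter_le _ _)
        have d1 : (32 : ℝ) ^ 2 ≤ 32 ^ (2 + η) := by
          rw [← Real.rpow_two]
          exact Real.rpow_le_rpow_of_exponent_le (by norm_num) (by linarith)
        have d2 : (32 : ℝ) ^ (1 + η) ≤ 32 ^ (2 + η) :=
          Real.rpow_le_rpow_of_exponent_le (by norm_num) (by linarith)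
        have c2 : X' ≤ 32 ^ (2 + η) * X := h2.trans (by gcongr; linarith)
        have c3 : X' ^ 2 ≤ 32 ^ (2 + η) * X ^ 2 := by
          refine (pow_le_pow_left₀ (by linarith) h2 2).trans ?_
          rw [mul_pow]
          gcongr
        have c4 : X' ^ (1 + η) ≤ 32 ^ (2 + η) * X ^ (1 + η) := by
          refine (Real.rpow_le_rpow (by linarith) h2 (by linarith)).trans ?_
          rw [Real.mul_rpow (by norm_num) hX.le]
          gcongr
        rw [Real.mul_rpow (by norm_num) (by linarith)]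
        calc _ ≤ C * (32 ^ ε * Z ^ ε) * (1 + |τ|) ^ B * (J.card * (32 ^ (2 + η) * X) * M +
              32 ^ (2 + η) * X ^ 2 * T + M * (32 ^ (2 + η) * X ^ (1 + η)) * Rr ρ) := by gcongr
          _ = _ := by rw [hW]; ring
      refine (Finset.sum_le_card_nsmul _ _ _ fun r0 _ => hb r0).trans ?_
      rw [nsmul_eq_mul, card_reps hQ0, ← mul_assoc, ← hD]
      calc _ = D * Z ^ ε * W * (1 + |τ|) ^ B := by ring
        _ ≤ _ := by gcongr; linarith
  rw [Finset.sum_product] at key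
  exact key.trans (le_of_eq (by rw [hW]; ring))

theorem hHs (hR : Resc) {Q k : ℕ} (hQ : GoodQ Q k) {η : ℝ} (hη : 0 ≤ η) (h : HH Q η) :
    HHs Q η := by
  intro ε hε
  obtain ⟨B, C, hC, h⟩ := h ε hε
  obtain ⟨C1, hC1, hR⟩ := hR B
  obtain ⟨C2, hC2, hS⟩ := sb_short
  obtain ⟨D, hD⟩ : ∃ D : ℝ, D = C * 32 ^ ε * 32 := ⟨_, rfl⟩
  have hD0 : 0 ≤ D := by rw [hD]; positivity
  refine ⟨B, C1 * (D + C2), by positivity,
    fun Z X M s a ρ hX hXZ hM hMZ hs ha hρ hρZ => ?_⟩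
  have hZ : 1 ≤ Z := hM.trans hMZ
  have hZε : 1 ≤ Z ^ ε := Real.one_le_rpow hZ hε.le
  have hRr := one_le_Rr ρ
  have h4 : M ≤ M * Rr ρ := le_mul_of_one_le_right (by linarith) hRr
  have h5 : M ≤ (M * Rr ρ) ^ (1 + η) :=
    h4.trans (Real.self_le_rpow_of_one_le (hM.trans h4) (by linarith))
  have key := hR E (ball M) (fun m => cH Q a ρ m) (fun _ => X) X
    ((D + C2) * Z ^ ε * (X * (M * Rr ρ) ^ (1 + η))) s hX hs (fun _ _ => ⟨le_rfl, by linarith⟩)
    fun X' τ h1 h2 => by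
      have hτ := sb_one_le τ B
      rcases le_total X' 1 with h3 | h3
      · refine (hS (fun m => cH Q a ρ m) X X' M τ (by linarith) h3 h2 (by linarith)
          fun m s => sb_norm_cH _ _ _ _ _).trans ?_
        calc _ = C2 * 1 * (X * M) * 1 := by ring
          _ ≤ _ := by gcongr; linarith
      refine (h (32 * Z) X' M τ a ρ h3 (by linarith) hM (by linarith) ha hρ (by linarith)).trans ?_
      rw [Real.mul_rpow (by norm_num) (by linarith)]
      calc _ ≤ C * (32 ^ ε * Z ^ ε) * (1 + |τ|) ^ B * (32 * X * (M * Rr ρ) ^ (1 + η)) := by gcongr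
        _ = D * Z ^ ε * (X * (M * Rr ρ) ^ (1 + η)) * (1 + |τ|) ^ B := by rw [hD]; ring
        _ ≤ _ := by gcongr; linarith
  exact key.trans (le_of_eq (by ring))

end QRH
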