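import Vale.Agent.P026.DualC
import Vale.Agent.P026.Wt

noncomputable section
namespace QRH
open Complex MeasureTheory Filter
open scoped ComplexConjugate Classical ContDiff Topology

/-- The mean value of the dual sums. -/
def saF (Q : ℕ) (a ρ : E) (X N : ℝ) (j : ℕ) (s : ℂ) (d f e : Finset P) : ℝ :=
  ∑ m ∈ ball (2 ^ j * M0 X N d f), ‖S (dual c6 (bA Q a ρ) d f e m) (X / (Ns d * Ns e)) s‖ ^ 2

theorem sa_reduce (hP : PL c6) {Q k : ℕ} (hQ : GoodQ Q k) {η : ℝ}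
    (h : ∀ ε : ℝ, 0 < ε → ∃ (B : ℕ) (C : ℝ), 0 < C ∧ ∀ (Z X N : ℝ) (a ρ : E) (j : ℕ) (s : ℂ),
      1 ≤ X → X ≤ Z → X ^ (1 + η) * Rr ρ ≤ N → IsCoprime a Q → ρ ≠ 0 → Rr ρ ≤ Z → |s.re| ≤ 3 →
      PSum X N (saF Q a ρ X N j s) ≤ C * Z ^ ε * (X * N) * 6 ^ j * (1 + ‖s‖) ^ B) : HA Q η := by
  intro ε hε
  obtain ⟨B, C, hC, h⟩ := h (ε / 2) (half_pos hε)
  obtain ⟨C', hC', hP⟩ := hP (ε / 2) B (half_pos hε)
  refine ⟨B, C' * (1 + C), by positivity, fun Z X N τ a ρ hX hXZ hN _ ha hρ hR => ?_⟩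
  have hZ : 1 ≤ Z := hX.trans hXZ
  have hR0 : 0 ≤ X ^ (1 + η) * Rr ρ := mul_nonneg (by positivity) (zero_le_one.trans (one_le_Rr ρ))
  obtain ⟨N1, hN1⟩ : ∃ N1, N1 = max N (X ^ (1 + η) * Rr ρ) := ⟨_, rfl⟩
  have h1 : N ≤ N1 := hN1 ▸ le_max_left _ _
  have h2 : X ^ (1 + η) * Rr ρ ≤ N1 := hN1 ▸ le_max_right _ _
  have h3 : N1 ≤ N + X ^ (1 + η) * Rr ρ := hN1 ▸ max_le (by linarith) (by linarith)
  have h4 := hP Unit Finset.univ (fun _ => bA Q a ρ) X N1 (C * Z ^ (ε / 2) * (X * N1)) τ hX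
    (hN.trans h1) (fun _ _ => cls_bA hQ ha ρ) fun j s hs => by
      rw [Fintype.sum_unique]
      exact h Z X N1 a ρ j s hX hXZ h2 ha hρ hR hs
  rw [Fintype.sum_unique, Finset.card_univ, Fintype.card_unit, Nat.cast_one, one_mul] at h4
  simp only [cA_eq]
  refine ((Finset.sum_le_sum_of_subset_of_nonneg (ball_mono h1) fun _ _ _ => by positivity).trans
    h4).trans ?_
  have h5 : X ^ (ε / 2) * Z ^ (ε / 2) ≤ Z ^ ε := by
    calc _ ≤ Z ^ (ε / 2) * Z ^ (ε / 2) := by gcongr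
      _ = _ := by rw [← Real.rpow_add (by linarith), add_halves]
  have h6 : 1 ≤ Z ^ ε := Real.one_le_rpow hZ hε.le
  have h7 : 1 ≤ (1 + |τ|) ^ B := one_le_pow₀ (by linarith [abs_nonneg τ])
  have hN0 : 0 ≤ N1 := by linarith
  have h8 : N1 * X ≤ Z ^ ε * (1 + |τ|) ^ B * (X * N1) := by
    rw [mul_comm N1]
    exact le_mul_of_one_le_left (by positivity) (one_le_mul_of_one_le_of_one_le h6 h7)
  have h9 : X ^ (ε / 2) * (C * Z ^ (ε / 2) * (X * N1)) * (1 + |τ|) ^ B ≤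
      C * (Z ^ ε * (1 + |τ|) ^ B * (X * N1)) := by
    calc _ = C * (X ^ (ε / 2) * Z ^ (ε / 2) * (1 + |τ|) ^ B * (X * N1)) := by ring
      _ ≤ _ := by gcongr
  calc _ ≤ C' * (Z ^ ε * (1 + |τ|) ^ B * (X * N1) + C * (Z ^ ε * (1 + |τ|) ^ B * (X * N1))) := by
        gcongr
    _ = C' * (1 + C) * Z ^ ε * (1 + |τ|) ^ B * (X * N1) := by ring
    _ ≤ _ := by gcongr

theorem sa_psum {X N A : ℝ} {F : Finset P → Finset P → Finset P → ℝ}
    (h : ∀ d ∈ sqf (16 * X), ∀ f ⊆ d,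
      ∑ e ∈ sqf (16 * X) with Disjoint d e, N * Ns d / (X * Ns f) * F d f e ≤ A / Ns d) :
    PSum X N F ≤ A * ∑ d ∈ sqf (16 * X), 2 ^ d.card / Ns d := by
  rw [PSum, Finset.mul_sum]
  refine Finset.sum_le_sum fun d hd => ?_
  refine (Finset.sum_le_card_nsmul _ _ _ fun f hf => h d hd f (Finset.mem_powerset.1 hf)).trans ?_
  rw [Finset.card_powerset, nsmul_eq_mul]
  push_cast
  exact le_of_eq (by ring)

theorem sa_rp {c Z δ : ℝ} (hc : 1 ≤ c) (hZ : 0 ≤ Z) (h1 : δ ≤ 1) (k : ℕ) :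
    (c * Z ^ k) ^ δ ≤ c * (Z ^ δ) ^ k := by
  rw [Real.mul_rpow (by linarith) (by positivity), ← Real.rpow_natCast, ← Real.rpow_mul hZ,
    mul_comm (k : ℝ), Real.rpow_mul hZ, Real.rpow_natCast]
  exact mul_le_mul_of_nonneg_right (Real.rpow_le_self_of_one_le hc h1) (by positivity)

theorem sa_rp16 {X Z δ : ℝ} (hX : 0 ≤ X) (hXZ : X ≤ Z) (h0 : 0 ≤ δ) (h1 : δ ≤ 1) :
    (16 * X) ^ δ ≤ 16 * Z ^ δ := by
  have := sa_rp (c := 16) (by norm_num) (hX.trans hXZ) h1 1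
  rw [pow_one, pow_one] at this
  exact (Real.rpow_le_rpow (by positivity) (by linarith) h0).trans this

theorem sa_rpk {Z δ ε : ℝ} (hZ : 1 ≤ Z) (k : ℕ) (h : δ * k ≤ ε) : (Z ^ δ) ^ k ≤ Z ^ ε := by
  rw [← Real.rpow_natCast, ← Real.rpow_mul (by linarith)]
  exact Real.rpow_le_rpow_of_exponent_le hZ h

theorem sa_M0_pos {X N : ℝ} (hX : 0 < X) (hN : 0 < N) (d f : Finset P) : 0 < M0 X N d f := by
  have := Ns_pos d
  have := Ns_pos f
  unfold M0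
  positivity

theorem hA_one (hP : PL c6) {Q k : ℕ} (hQ : GoodQ Q k) : HA Q 1 := by
  refine sa_reduce hP hQ fun ε hε => ?_
  obtain ⟨δ, hδ, hδ1, hδε⟩ : ∃ δ : ℝ, 0 < δ ∧ δ ≤ 1 ∧ δ * (2 : ℕ) ≤ ε :=
    ⟨min 1 (ε / 2), by positivity, min_le_left _ _, by
      have := min_le_right 1 (ε / 2); push_cast; linarith⟩
  obtain ⟨C1, hC1, h1⟩ := norm_S_le
  obtain ⟨C2, hC2, h2⟩ := sum_sqf_inv hδ
  obtain ⟨C3, hC3, h3⟩ := sum_pow_card_div (A := 2) (by norm_num) hδ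
  refine ⟨0, 12 * C1 ^ 2 * (C2 * 16) * (C3 * 16), by positivity,
    fun Z X N a ρ j s hX hXZ hN ha hρ hR hs => ?_⟩
  have hX0 : 0 < X := by linarith
  have hZ : 1 ≤ Z := hX.trans hXZ
  have hXN : X ^ 2 ≤ N := by
    rw [one_add_one_eq_two, Real.rpow_two] at hN
    exact (le_mul_of_one_le_right (by positivity) (one_le_Rr ρ)).trans hN
  have hN0 : 0 < N := lt_of_lt_of_le (by positivity) hXN
  have h16 := sa_rp16 hX0.le hXZ hδ.le hδ1
  have hA : ∀ d ∈ sqf (16 * X), ∀ f ⊆ d, ∑ e ∈ sqf (16 * X) with Disjoint d e,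
      N * Ns d / (X * Ns f) * saF Q a ρ X N j s d f e ≤
        12 * C1 ^ 2 * 2 ^ j * (X * N) * (C2 * (16 * Z ^ δ)) / Ns d := by
    intro d _ f _
    have hd := one_le_Ns d
    have hf := Ns_pos f
    have hM := sa_M0_pos hX0 hN0 d f
    have hb : ∀ e, N * Ns d / (X * Ns f) * saF Q a ρ X N j s d f e ≤
        12 * C1 ^ 2 * 2 ^ j * (X * N) / Ns d * (Ns e)⁻¹ := by
      intro e
      have he := one_le_Ns e
      have h4 : saF Q a ρ X N j s d f e ≤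
          12 * (2 ^ j * M0 X N d f) * (C1 * (X / (Ns d * Ns e))) ^ 2 := by
        refine cnt_shell (by positivity) (by positivity) _ subset_rfl fun m _ => ?_
        refine pow_le_pow_left₀ (norm_nonneg _) (h1 _ _ _ (by positivity)
          (norm_dual_le (cls_bA hQ ha ρ).1 d f e m) (hs.trans (by norm_num))) 2
      refine (mul_le_mul_of_nonneg_left h4 (by positivity)).trans ?_
      have h5 : X ^ 2 / (Ns d ^ 2 * Ns e) ≤ N :=
        (div_le_self (by positivity) (one_le_mul_of_one_le_of_one_le (one_le_pow₀ hd) he)).trans hXN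
      calc _ = 12 * C1 ^ 2 * 2 ^ j * (X * (X ^ 2 / (Ns d ^ 2 * Ns e))) / Ns d * (Ns e)⁻¹ := by
            unfold M0; field_simp
        _ ≤ _ := by gcongr
    refine (Finset.sum_le_sum fun e _ => hb e).trans ?_
    rw [← Finset.mul_sum, mul_div_right_comm _ (C2 * _)]
    refine mul_le_mul_of_nonneg_left ?_ (by positivity)
    refine (Finset.sum_le_sum_of_subset_of_nonneg (Finset.filter_subset _ _) fun e _ _ =>
      inv_nonneg.2 (Ns_pos e).le).trans ((h2 (16 * X) (by positivity)).trans ?_)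
    gcongr
  refine (sa_psum hA).trans ?_
  have h6 := (h3 (16 * X) (by linarith)).trans (mul_le_mul_of_nonneg_left h16 hC3.le)
  have h7 := sa_rpk hZ 2 hδε
  have h8 : (2 : ℝ) ^ j ≤ 6 ^ j := by gcongr; norm_num
  calc _ ≤ 12 * C1 ^ 2 * 2 ^ j * (X * N) * (C2 * (16 * Z ^ δ)) * (C3 * (16 * Z ^ δ)) := by gcongr
    _ = 12 * C1 ^ 2 * (C2 * 16) * (C3 * 16) * (Z ^ δ) ^ 2 * (X * N) * 2 ^ j := by ring
    _ ≤ 12 * C1 ^ 2 * (C2 * 16) * (C3 * 16) * Z ^ ε * (X * N) * 6 ^ j := by gcongr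
    _ = _ := by rw [pow_zero, mul_one]

theorem sa_exp {η X : ℝ} (hη : 0 < η) (hX : 1 ≤ X) : ∃ E0 V : ℝ, 1 ≤ E0 ∧ 0 < V ∧
    X ^ 2 * E0 = V * X ^ (1 + 2 * η / (2 + η)) ∧ X * (V ^ η * E0) = X ^ (1 + 2 * η / (2 + η)) ∧
    (X / E0) ^ (1 + η) = X ^ (1 + 2 * η / (2 + η)) := by
  have hX0 : 0 < X := by linarith
  refine ⟨X ^ ((η - 2 * η / (2 + η)) / (1 + η)),
    X ^ (1 - 2 * η / (2 + η) + (η - 2 * η / (2 + η)) / (1 + η)), Real.one_le_rpow hX ?_,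
    by positivity, ?_, ?_, ?_⟩
  · refine div_nonneg (sub_nonneg.2 ?_) (by linarith)
    rw [div_le_iff₀ (by linarith)]; nlinarith
  · rw [← Real.rpow_two, ← Real.rpow_add hX0, ← Real.rpow_add hX0]
    congr 1; ring
  · rw [← Real.rpow_mul hX0.le, ← Real.rpow_add hX0, ← Real.rpow_one_add' hX0.le]
    · congr 1; field_simp; ring
    · have : 1 + ((1 - 2 * η / (2 + η) + (η - 2 * η / (2 + η)) / (1 + η)) * η +
          (η - 2 * η / (2 + η)) / (1 + η)) = 1 + 2 * η / (2 + η) := by field_simp; ring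
      rw [this]; positivity
  · rw [← Real.rpow_one_sub' hX0.le, ← Real.rpow_mul hX0.le]
    · congr 1; field_simp; ring
    · have : 1 - (η - 2 * η / (2 + η)) / (1 + η) = (1 + 2 * η / (2 + η)) / (1 + η) := by
        field_simp; ring
      rw [this]; positivity

theorem sa_ar1 {X N R Nd Nf Ne E0 V Y w η R' : ℝ} (hX : 0 < X) (hR : 1 ≤ R) (hf : 0 < Nf)
    (hfd : Nf ≤ Nd) (he : 0 < Ne) (heE : Ne ≤ E0) (hw : 1 ≤ w) (hV : 0 < V) (hY : 0 < Y)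
    (hN : Y * R ≤ N) (h1 : X ^ 2 * E0 = V * Y) (hη : 0 ≤ η) (hη1 : η ≤ 1) (hR0 : 0 ≤ R')
    (hR1 : R' ≤ R * Nd * Ne) :
    N * Nd / (X * Nf) * (X / (Nd * Ne) * (w * ((X / Nd) ^ 2 * Nf / N) * R') ^ (1 + η)) ≤
      w ^ 2 * X ^ 2 * R * V ^ η / Nd := by
  have hd : 0 < Nd := hf.trans_le hfd
  have hN0 : 0 < N := lt_of_lt_of_le (by positivity) hN
  obtain ⟨u, hu⟩ : ∃ u, u = w * ((X / Nd) ^ 2 * Nf / N) * (R * Nd * Ne) := ⟨_, rfl⟩
  have hu0 : 0 < u := by rw [hu]; positivity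
  have h2 : u ≤ w * V := by
    calc u = w * (X ^ 2 * Ne * (Nf / Nd) * R / N) := by rw [hu]; field_simp
      _ ≤ w * (X ^ 2 * E0 * 1 * R / (Y * R)) := by
          have : Nf / Nd ≤ 1 := (div_le_one hd).2 hfd
          have : 0 < E0 := he.trans_le heE
          gcongr
      _ = w * V := by rw [h1]; field_simp
  have h3 : u ^ η ≤ w * V ^ η := by
    refine (Real.rpow_le_rpow hu0.le h2 hη).trans ?_
    rw [Real.mul_rpow (by linarith) hV.le]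
    exact mul_le_mul_of_nonneg_right (Real.rpow_le_self_of_one_le hw hη1) (by positivity)
  have h4 : (w * ((X / Nd) ^ 2 * Nf / N) * R') ^ (1 + η) ≤ u * (w * V ^ η) := by
    refine (Real.rpow_le_rpow (by positivity) (y := u) (by rw [hu]; gcongr) (by linarith)).trans ?_
    rw [Real.rpow_add hu0, Real.rpow_one]
    gcongr
  calc _ ≤ N * Nd / (X * Nf) * (X / (Nd * Ne) * (u * (w * V ^ η))) := by gcongr
    _ = _ := by rw [hu]; field_simp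

theorem sa_ar2 {X N R Nd Nf E E0 Y w η c : ℝ} (hX : 0 < X) (hR : 1 ≤ R) (hf : 0 < Nf)
    (hd : 1 ≤ Nd) (hE : 0 < E) (hE0 : 0 < E0) (hw : 1 ≤ w) (hXY : X ≤ Y) (hN : Y * R ≤ N)
    (h1 : (X / E0) ^ (1 + η) = Y) (hη : 0 ≤ η) (hEE : E0 ≤ 2 * E) (hc : c ≤ 12 * (2 * E)) :
    N * Nd / (X * Nf) * (c * (X / (2 * Nd * E)) * (w * ((X / Nd) ^ 2 * Nf / N)) +
      (X / (2 * Nd * E)) ^ 2 * (4 * Nf * E ^ 2) +
      w * ((X / Nd) ^ 2 * Nf / N) * (X / (2 * Nd * E)) ^ (1 + η) * R) ≤ 14 * w * (X * N) / Nd := by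
  have hY : 0 < Y := hX.trans_le hXY
  have hXN : X ≤ N := hXY.trans ((le_mul_of_one_le_right hY.le hR).trans hN)
  have hN0 : 0 < N := hX.trans_le hXN
  have h2 : (X / (2 * Nd * E)) ^ (1 + η) ≤ Y := by
    rw [← h1]
    refine Real.rpow_le_rpow (by positivity) ?_ (by linarith)
    exact div_le_div_of_nonneg_left hX.le hE0 (by nlinarith)
  have h3 : X / Nd ≤ N := (div_le_self hX.le hd).trans hXN
  calc _ ≤ N * Nd / (X * Nf) * (12 * (2 * E) * (X / (2 * Nd * E)) * (w * ((X / Nd) ^ 2 * Nf / N)) +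
      (X / (2 * Nd * E)) ^ 2 * (4 * Nf * E ^ 2) + w * ((X / Nd) ^ 2 * Nf / N) * Y * R) := by gcongr
    _ = (12 * w * (X * (X / Nd)) + 1 * (X * N) + w * (X * (Y * R))) / Nd := by
        field_simp; ring
    _ ≤ (12 * w * (X * N) + w * (X * N) + w * (X * N)) / Nd := by gcongr
    _ = _ := by ring

theorem sa_Rr {ρ : E} (hρ : ρ ≠ 0) {d f : Finset P} (hf : f ⊆ d) (e : Finset P) :
    ρ * (pr f ^ 5 * pr e ^ 4 * pr d ^ 6) ≠ 0 ∧
      Rr (ρ * (pr f ^ 5 * pr e ^ 4 * pr d ^ 6)) ≤ Rr ρ * Ns d * Ns e := by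
  have h1 := pr_ne_zero f
  have h2 := pr_ne_zero e
  have h3 := pr_ne_zero d
  have h4 : pr f ^ 5 * pr e ^ 4 * pr d ^ 6 ≠ 0 :=
    mul_ne_zero (mul_ne_zero (pow_ne_zero _ h1) (pow_ne_zero _ h2)) (pow_ne_zero _ h3)
  refine ⟨mul_ne_zero hρ h4, (Rr_mul_le hρ h4).trans ?_⟩
  rw [mul_assoc (Rr ρ)]
  refine mul_le_mul_of_nonneg_left ?_ (zero_le_one.trans (one_le_Rr ρ))
  refine le_trans (Ns_mono ?_) (Ns_union_le d e)
  rw [fac_mul (mul_ne_zero (pow_ne_zero _ h1) (pow_ne_zero _ h2)) (pow_ne_zero _ h3),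
    fac_mul (pow_ne_zero _ h1) (pow_ne_zero _ h2), fac_pow h1 (by norm_num),
    fac_pow h2 (by norm_num), fac_pow h3 (by norm_num), fac_pr, fac_pr, fac_pr]
  exact Finset.union_subset (Finset.union_subset (hf.trans Finset.subset_union_left)
    Finset.subset_union_right) Finset.subset_union_left

theorem sa_inj (f : Finset P) : Function.Injective fun e => pr f * pr e ^ 2 := fun e e' h => by
  have h1 := congrArg fac (mul_left_cancel₀ (pr_ne_zero f) h)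
  rwa [fac_pow (pr_ne_zero e) two_ne_zero, fac_pow (pr_ne_zero e') two_ne_zero, fac_pr,
    fac_pr] at h1

theorem sa_dual (hR : Rec6) {Q k : ℕ} (hQ : GoodQ Q k) {a : E} (ha : IsCoprime a Q) (ρ : E)
    (d f : Finset P) : ∃ a1 : Finset P → E, ∀ e, Disjoint d e → IsCoprime (a1 e) Q ∧
      ∀ (X N : ℝ) (j : ℕ) (s : ℂ), saF Q a ρ X N j s d f e ≤ ∑ m ∈ ball (2 ^ j * M0 X N d f),
        ‖S (cB Q (a1 e) ρ d (pr f * pr e ^ 2) m) (X / (Ns d * Ns e)) s‖ ^ 2 := by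
  have : ∀ e, ∃ a1 : E, Disjoint d e → IsCoprime a1 Q ∧
      ∀ (X N : ℝ) (j : ℕ) (s : ℂ), saF Q a ρ X N j s d f e ≤ ∑ m ∈ ball (2 ^ j * M0 X N d f),
        ‖S (cB Q a1 ρ d (pr f * pr e ^ 2) m) (X / (Ns d * Ns e)) s‖ ^ 2 := by
    intro e
    by_cases h : Disjoint d e
    · obtain ⟨κ, a1, h1, h2, h3⟩ := dual_bA hR hQ ha ρ d f e h
      refine ⟨a1, fun _ => ⟨h2, fun X N j s => Finset.sum_le_sum fun m _ => ?_⟩⟩
      rw [h3, S_smul, norm_mul]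
      exact pow_le_pow_left₀ (by positivity) (mul_le_of_le_one_left (norm_nonneg _) h1) 2
    · exact ⟨0, fun h1 => absurd h1 h⟩
  choose a1 h using this
  exact ⟨a1, h⟩

theorem sa_inner (hR : Rec6) {Q k : ℕ} (hQ : GoodQ Q k) {η Z Z1 D X N E0 V Y : ℝ} {a ρ : E}
    {j J : ℕ} {s : ℂ} {d f : Finset P} (hη : 0 ≤ η) (hη1 : η ≤ 1) (hD : 0 ≤ D)
    (hH : ∀ (X M : ℝ) (a ρ : E), 0 < X → X ≤ Z1 → 1 ≤ M → M ≤ Z1 → IsCoprime a Q → ρ ≠ 0 →
      Rr ρ ≤ Z1 → ∑ m ∈ ball M, ‖S (cH Q a ρ m) X s‖ ^ 2 ≤ D * (X * (M * Rr ρ) ^ (1 + η)))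
    (hB : ∀ (I : Finset (Finset P)) (t a : Finset P → E) (Xi : Finset P → ℝ) (X M T : ℝ),
      0 < X → X ≤ Z1 → 1 ≤ M → M ≤ Z1 → 1 ≤ T → T ≤ Z1 → Set.InjOn t I →
      (∀ i ∈ I, t i ∈ ball T ∧ IsCoprime (a i) Q ∧ X ≤ Xi i ∧ Xi i ≤ 2 * X) →
      ∑ i ∈ I, ∑ m ∈ ball M, ‖S (cB Q (a i) ρ d (t i) m) (Xi i) s‖ ^ 2
        ≤ D * (I.card * X * M + X ^ 2 * T + M * X ^ (1 + η) * Rr ρ))
    (hX : 1 ≤ X) (hXZ : X ≤ Z) (hRZ : Rr ρ ≤ Z) (hZ1 : 2 ^ j * (16384 * Z ^ 3) ≤ Z1)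
    (ha : IsCoprime a Q) (hρ : ρ ≠ 0) (hd : Ns d ≤ 16 * X) (hf : f ⊆ d) (hJ : 16 * X < 2 ^ (J + 1))
    (hE0 : 1 ≤ E0) (hV : 0 < V) (hXY : X ≤ Y) (hN : Y * Rr ρ ≤ N) (e1 : X ^ 2 * E0 = V * Y)
    (e2 : X * (V ^ η * E0) = Y) (e3 : (X / E0) ^ (1 + η) = Y) :
    ∑ e ∈ sqf (16 * X) with Disjoint d e, N * Ns d / (X * Ns f) * saF Q a ρ X N j s d f e ≤
      D * (26 * (2 ^ j) ^ 2 * (J + 1)) * (X * N) / Ns d := by
  have hX0 : 0 < X := by linarith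
  have hZ : 1 ≤ Z := hX.trans hXZ
  have hR1 := one_le_Rr ρ
  have hY : 0 < Y := hX0.trans_le hXY
  have hN1 : 1 ≤ N := (one_le_mul_of_one_le_of_one_le (hX.trans hXY) hR1).trans hN
  have hN0 : 0 < N := by linarith
  have hd1 := one_le_Ns d
  have hf1 := one_le_Ns f
  have hfd := Ns_mono hf
  have hw : (1 : ℝ) ≤ 2 ^ j := one_le_pow₀ one_le_two
  by_cases hM : 2 ^ j * M0 X N d f < 1
  · rw [Finset.sum_eq_zero fun e _ => by rw [saF, ball_eq_empty hM, Finset.sum_empty, mul_zero]]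
    positivity
  rw [not_lt] at hM
  have hZ3 : 16384 * Z ^ 3 ≤ Z1 := (le_mul_of_one_le_left (by positivity) hw).trans hZ1
  have hXZ1 : X ≤ Z1 := by
    have : Z ≤ Z ^ 3 := le_self_pow₀ hZ (by norm_num)
    linarith
  have hMZ : 2 ^ j * M0 X N d f ≤ Z1 := by
    refine le_trans (mul_le_mul_of_nonneg_left ?_ (by positivity)) hZ1
    have h1 : Ns f ≤ Ns d ^ 2 * N :=
      hfd.trans ((le_self_pow₀ hd1 two_ne_zero).trans (le_mul_of_one_le_right (by positivity) hN1))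
    calc M0 X N d f = X ^ 2 * (Ns f / (Ns d ^ 2 * N)) := by unfold M0; field_simp
      _ ≤ Z ^ 2 * 1 := by
          have := (div_le_one (by positivity)).2 h1
          gcongr
      _ ≤ _ := by nlinarith [pow_pos (zero_lt_one.trans_le hZ) 2]
  obtain ⟨a1, h1⟩ := sa_dual hR hQ ha ρ d f
  have hwt : 0 ≤ N * Ns d / (X * Ns f) := by positivity
  rw [← Finset.sum_filter_add_sum_filter_not _ fun e => Ns e ≤ E0]
  have s1 : ∑ e ∈ ((sqf (16 * X)).filter fun e => Disjoint d e).filter (fun e => Ns e ≤ E0),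
      N * Ns d / (X * Ns f) * saF Q a ρ X N j s d f e ≤ D * (12 * (2 ^ j) ^ 2) * (X * N) / Ns d := by
    refine (Finset.sum_le_card_nsmul _ _ (D * ((2 ^ j) ^ 2 * X ^ 2 * Rr ρ * V ^ η / Ns d))
      fun e he => ?_).trans ?_
    · simp only [Finset.mem_filter, mem_sqf] at he
      obtain ⟨⟨he1, he2⟩, he3⟩ := he
      obtain ⟨h2, h3⟩ := h1 e he2
      obtain ⟨h4, h5⟩ := sa_Rr hρ hf e
      have he0 := one_le_Ns e
      have h6 := h3 X N j s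
      simp only [cB_eq_cH] at h6
      have h7 := hH (X / (Ns d * Ns e)) _ (a1 e) _ (by positivity)
        ((div_le_self hX0.le (one_le_mul_of_one_le_of_one_le hd1 he0)).trans hXZ1) hM hMZ h2 h4
        (h5.trans (by
          calc _ ≤ Z * (16 * Z) * (16 * Z) := by gcongr <;> linarith
            _ = 256 * Z ^ 3 := by ring
            _ ≤ _ := by nlinarith [pow_pos (zero_lt_one.trans_le hZ) 3]))
      refine (mul_le_mul_of_nonneg_left (h6.trans h7) hwt).trans ?_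
      rw [mul_left_comm]
      exact mul_le_mul_of_nonneg_left (sa_ar1 hX0 hR1 (Ns_pos f) hfd (Ns_pos e) he3 hw hV hY hN e1
        hη hη1 (zero_le_one.trans (one_le_Rr _)) h5) hD
    · have h2 : ((((sqf (16 * X)).filter fun e => Disjoint d e).filter
          (fun e => Ns e ≤ E0)).card : ℝ) ≤ 12 * E0 := by
        refine le_trans ?_ (card_sqf_le (by linarith))
        exact_mod_cast Finset.card_le_card fun e he => mem_sqf.2 (Finset.mem_filter.1 he).2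
      rw [nsmul_eq_mul]
      calc _ ≤ 12 * E0 * (D * ((2 ^ j) ^ 2 * X ^ 2 * Rr ρ * V ^ η / Ns d)) := by gcongr
        _ = D * (12 * (2 ^ j) ^ 2) * (X * (X * (V ^ η * E0) * Rr ρ)) / Ns d := by ring
        _ ≤ _ := by rw [e2]; gcongr
  have s2 : ∑ e ∈ ((sqf (16 * X)).filter fun e => Disjoint d e).filter (fun e => ¬ Ns e ≤ E0),
      N * Ns d / (X * Ns f) * saF Q a ρ X N j s d f e ≤
        (J + 1) * (D * (14 * 2 ^ j * (X * N) / Ns d)) := by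
    rw [sum_dyadic _ Ns _ (J := J) fun e he => ⟨one_le_Ns e,
      (mem_sqf.1 (Finset.mem_filter.1 (Finset.mem_filter.1 he).1).1).trans_lt hJ⟩]
    refine (Finset.sum_le_card_nsmul _ _ (D * (14 * 2 ^ j * (X * N) / Ns d)) fun i _ => ?_).trans
      (by rw [Finset.card_range, nsmul_eq_mul]; push_cast; exact le_rfl)
    obtain ⟨I, hI⟩ : ∃ I, I = (((sqf (16 * X)).filter fun e => Disjoint d e).filter
      (fun e => ¬ Ns e ≤ E0)).filter fun e => (2 : ℝ) ^ i ≤ Ns e ∧ Ns e < 2 ^ (i + 1) := ⟨_, rfl⟩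
    rw [← hI]
    have hI2 : ∀ e ∈ I, Ns e ≤ 16 * X ∧ Disjoint d e ∧ E0 < Ns e ∧ 2 ^ i ≤ Ns e ∧
        Ns e ≤ 2 * 2 ^ i := by
      intro e he
      simp only [hI, Finset.mem_filter, mem_sqf, not_le, pow_succ'] at he
      exact ⟨he.1.1.1, he.1.1.2, he.1.2, he.2.1, he.2.2.le⟩
    rcases I.eq_empty_or_nonempty with h0 | ⟨e0, he0⟩
    · rw [h0, Finset.sum_empty]; positivity
    obtain ⟨g1, -, g2, g3, g4⟩ := hI2 e0 he0
    have hE : (1 : ℝ) ≤ 2 ^ i := one_le_pow₀ one_le_two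
    have h2 := hB I (fun e => pr f * pr e ^ 2) a1 (fun e => X / (Ns d * Ns e))
      (X / (2 * Ns d * 2 ^ i)) _ (4 * Ns f * (2 ^ i) ^ 2) (by positivity)
      ((div_le_self hX0.le (by nlinarith)).trans hXZ1) hM hMZ (by nlinarith)
      (by
        calc _ ≤ 4 * (16 * Z) * (16 * Z) ^ 2 := by gcongr <;> linarith
          _ = 16384 * Z ^ 3 := by ring
          _ ≤ _ := hZ3)
      (sa_inj f).injOn fun e he => by
        obtain ⟨-, k1, -, k2, k3⟩ := hI2 e he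
        have := Ns_pos e
        refine ⟨mem_ball.2 ⟨mul_ne_zero (pr_ne_zero f) (pow_ne_zero _ (pr_ne_zero e)), ?_⟩,
          (h1 e k1).1, ?_, ?_⟩
        · rw [nm_mul, nm_pow]
          push_cast
          calc _ = Ns f * Ns e ^ 2 := rfl
            _ ≤ Ns f * (2 * 2 ^ i) ^ 2 := by gcongr
            _ = _ := by ring
        · rw [mul_comm 2, mul_assoc]
          gcongr
        · calc _ ≤ X / (Ns d * 2 ^ i) := by gcongr
            _ = _ := by field_simp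
    have h3 : (I.card : ℝ) ≤ 12 * (2 * 2 ^ i) := by
      refine le_trans ?_ (card_sqf_le (by positivity))
      exact_mod_cast Finset.card_le_card fun e he => mem_sqf.2 (hI2 e he).2.2.2.2
    rw [← Finset.mul_sum]
    refine (mul_le_mul_of_nonneg_left ((Finset.sum_le_sum fun e he =>
      (h1 e (hI2 e he).2.1).2 X N j s).trans h2) hwt).trans ?_
    rw [mul_left_comm]
    exact mul_le_mul_of_nonneg_left (sa_ar2 hX0 hR1 (Ns_pos f) hd1 (by positivity) (by linarith) hw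
      hXY hN e3 hη (g2.le.trans g4) h3) hD
  refine (add_le_add s1 s2).trans ?_
  have h2 : (2 : ℝ) ^ j ≤ (2 ^ j) ^ 2 := le_self_pow₀ hw two_ne_zero
  have h3 : (1 : ℝ) ≤ J + 1 := by linarith [Nat.cast_nonneg (α := ℝ) J]
  calc _ = D * (12 * (2 ^ j) ^ 2 * 1 + 14 * 2 ^ j * (J + 1)) * (X * N) / Ns d := by ring
    _ ≤ D * (12 * (2 ^ j) ^ 2 * (J + 1) + 14 * (2 ^ j) ^ 2 * (J + 1)) * (X * N) / Ns d := by gcongr
    _ = _ := by ring

theorem sa_w (j : ℕ) {δ : ℝ} (hδ : δ ≤ 1 / 2) : ((2 : ℝ) ^ j) ^ δ * (2 ^ j) ^ 2 ≤ 6 ^ j := by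
  have h1 : ((2 : ℝ) ^ j) ^ δ ≤ (3 / 2) ^ j := by
    refine (Real.rpow_le_rpow_of_exponent_le (one_le_pow₀ one_le_two) hδ).trans ?_
    rw [← Real.sqrt_eq_rpow, Real.sqrt_le_iff, ← pow_mul, mul_comm, pow_mul]
    exact ⟨by positivity, pow_le_pow_left₀ (by norm_num) (by norm_num) j⟩
  refine (mul_le_mul_of_nonneg_right h1 (by positivity)).trans_eq ?_
  rw [← pow_mul, mul_comm j, pow_mul, ← mul_pow]
  norm_num

theorem sa_ar3 {C C3 C4 P Pe W w u p q r t b : ℝ} (hC : 0 ≤ C) (hC3 : 0 ≤ C3) (hC4 : 0 ≤ C4)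
    (hP : 0 ≤ P) (hu : 0 ≤ u) (hq : 0 ≤ q) (hr : 0 ≤ r) (ht : 0 ≤ t) (hb : 0 ≤ b)
    (h1 : p ≤ u * (16384 * P ^ 3)) (h2 : q ≤ C4 * (16 * P)) (h3 : r ≤ C3 * (16 * P))
    (h4 : P ^ 5 ≤ Pe) (h5 : u * w ^ 2 ≤ W) :
    C * p * b * (26 * w ^ 2 * q) * t * r ≤
      C * 16384 * 26 * (C4 * 16) * (C3 * 16) * Pe * t * W * b := by
  have : 0 ≤ Pe := le_trans (by positivity) h4
  calc _ ≤ C * (u * (16384 * P ^ 3)) * b * (26 * w ^ 2 * (C4 * (16 * P))) * t *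
        (C3 * (16 * P)) := by gcongr
    _ = C * 16384 * 26 * (C4 * 16) * (C3 * 16) * P ^ 5 * t * (u * w ^ 2) * b := by ring
    _ ≤ _ := by gcongr

theorem stepA (hP : PL c6) (hR : Rec6) {Q k : ℕ} (hQ : GoodQ Q k) {η : ℝ} (hη : 0 < η)
    (hη1 : η ≤ 1) (hB : HBs Q η) (hH : HHs Q η) : HA Q (2 * η / (2 + η)) := by
  refine sa_reduce hP hQ fun ε hε => ?_
  obtain ⟨δ, hδ, hδ2, hδε⟩ : ∃ δ : ℝ, 0 < δ ∧ δ ≤ 1 / 2 ∧ δ * (5 : ℕ) ≤ ε :=
    ⟨min (1 / 2) (ε / 5), by positivity, min_le_left _ _, by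
      have := min_le_right (1 / 2) (ε / 5); push_cast; linarith⟩
  have hδ1 : δ ≤ 1 := by linarith
  obtain ⟨B1, C1, hC1, hH⟩ := hH δ hδ
  obtain ⟨B2, C2, hC2, hB⟩ := hB δ hδ
  obtain ⟨C3, hC3, h3⟩ := sum_pow_card_div (A := 2) (by norm_num) hδ
  obtain ⟨C4, hC4, h4⟩ := log_le_rpow hδ
  refine ⟨B1 + B2, (C1 + C2) * 16384 * 26 * (C4 * 16) * (C3 * 16), by positivity,
    fun Z X N a ρ j s hX hXZ hN ha hρ hRZ hs => ?_⟩
  have hX0 : 0 < X := by linarith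
  have hZ : 1 ≤ Z := hX.trans hXZ
  have hR1 := one_le_Rr ρ
  obtain ⟨E0, V, hE0, hV, e1, e2, e3⟩ := sa_exp hη hX
  have hXY : X ≤ X ^ (1 + 2 * η / (2 + η)) :=
    Real.self_le_rpow_of_one_le hX (le_add_of_nonneg_right (by positivity))
  have hN0 : 0 < N := lt_of_lt_of_le (by positivity) hN
  obtain ⟨J, hJ1, hJ2⟩ := exists_dyadic (R := 16 * X) (by linarith)
  obtain ⟨Z1, hZ1⟩ : ∃ Z1 : ℝ, Z1 = 2 ^ j * (16384 * Z ^ 3) := ⟨_, rfl⟩
  have hZ0 : 0 < Z1 := by rw [hZ1]; positivity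
  have hZZ : 16 * Z ≤ Z1 := by
    have h5 : Z ≤ Z ^ 3 := le_self_pow₀ hZ (by norm_num)
    have h6 : 16384 * Z ^ 3 ≤ Z1 :=
      hZ1 ▸ le_mul_of_one_le_left (by positivity) (one_le_pow₀ one_le_two)
    linarith
  have hs1 : 1 ≤ 1 + ‖s‖ := le_add_of_nonneg_right (norm_nonneg s)
  have hD1 : C1 * Z1 ^ δ * (1 + ‖s‖) ^ B1 ≤ (C1 + C2) * Z1 ^ δ * (1 + ‖s‖) ^ (B1 + B2) := by
    have := pow_le_pow_right₀ hs1 (Nat.le_add_right B1 B2)
    gcongr; linarith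
  have hD2 : C2 * Z1 ^ δ * (1 + ‖s‖) ^ B2 ≤ (C1 + C2) * Z1 ^ δ * (1 + ‖s‖) ^ (B1 + B2) := by
    have := pow_le_pow_right₀ hs1 (Nat.le_add_left B2 B1)
    gcongr; linarith
  refine (sa_psum fun d hd f hf => sa_inner hR hQ (Z1 := Z1) (J := J)
    (D := (C1 + C2) * Z1 ^ δ * (1 + ‖s‖) ^ (B1 + B2)) hη.le hη1 (by positivity)
    (fun X M a ρ k1 k2 k3 k4 k5 k6 k7 => (hH Z1 X M s a ρ k1 k2 k3 k4 hs k5 k6 k7).trans ?_)
    (fun I t a Xi X M T k1 k2 k3 k4 k5 k6 k7 k8 => (hB _ I t a Xi Z1 X M T s ρ d k1 k2 k3 k4 k5 k6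
      hs hρ (by linarith) ((mem_sqf.1 hd).trans (by linarith)) k7 k8).trans ?_)
    hX hXZ hRZ hZ1.ge ha hρ (mem_sqf.1 hd) hf hJ2 hE0 hV hXY hN e1 e2 e3).trans ?_
  · have := one_le_Rr ρ
    exact mul_le_mul_of_nonneg_right hD1 (by positivity)
  · exact mul_le_mul_of_nonneg_right hD2 (by positivity)
  have h16 := sa_rp16 hX0.le hXZ hδ.le hδ1
  have h5 := (h3 (16 * X) (by linarith)).trans (mul_le_mul_of_nonneg_left h16 hC3.le)
  have h6 := (h4 (16 * X) J (by linarith) hJ1).trans (mul_le_mul_of_nonneg_left h16 hC4.le)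
  have h7 : Z1 ^ δ ≤ (2 ^ j) ^ δ * (16384 * (Z ^ δ) ^ 3) := by
    rw [hZ1, Real.mul_rpow (by positivity) (by positivity)]
    exact mul_le_mul_of_nonneg_left (sa_rp (by norm_num) (by linarith) hδ1 3) (by positivity)
  exact sa_ar3 (by positivity) hC3.le hC4.le (by positivity) (by positivity) (by positivity)
    (Finset.sum_nonneg fun d _ => div_nonneg (by positivity) (Ns_pos d).le) (by positivity)
    (by positivity) h7 h6 h5 (sa_rpk hZ 5 hδε) (sa_w j hδ2)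

end QRH
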