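import Vale.Agent.P026.DualC
import Vale.Agent.P026.Wt

noncomputable section
namespace QRH
open Complex MeasureTheory Filter
open scoped ComplexConjugate Classical ContDiff Topology

/-- The fibres of `(t, d, f, n) -> n t d (d / f)` are small. -/
theorem sb_fibre {δ C N1 : ℝ} (hδ : 0 < δ) (hC : 0 < C)
    (h : ∀ x : E, x ≠ 0 → ∀ T : Finset E, (∀ y ∈ T, y ∣ x) → (T.card : ℝ) ≤ C * (nm x : ℝ) ^ δ)
    (J : Finset (Σ _ : E, Σ _ : Finset P, Σ _ : Finset P, E))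
    (hJ : ∀ i ∈ J, i.2.2.1 ⊆ i.2.1 ∧ i.2.2.2 * i.1 * pr i.2.1 * pr (i.2.1 \ i.2.2.1) ∈ ball N1)
    (hN1 : 0 ≤ N1) (n0 : E) :
    ((J.filter fun i => i.2.2.2 * i.1 * pr i.2.1 * pr (i.2.1 \ i.2.2.1) = n0).card : ℝ)
      ≤ (C * N1 ^ δ) ^ 4 := by
  by_cases hn : n0 ∈ ball N1
  swap
  · rw [Finset.filter_eq_empty_iff.2]
    · simp only [Finset.card_empty, Nat.cast_zero]; positivity
    · intro i hi he
      exact hn (he ▸ (hJ i hi).2)
  obtain ⟨h0, hle⟩ := mem_ball.1 hn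
  set Dv := (ball (nm n0)).filter (· ∣ n0) with hDv
  have hmem : ∀ y, y ∣ n0 → y ∈ Dv := fun y hy => by
    refine Finset.mem_filter.2 ⟨mem_ball.2 ⟨?_, ?_⟩, hy⟩
    · rintro rfl; exact h0 (zero_dvd_iff.1 hy)
    · exact_mod_cast nm_le_of_dvd hy h0
  have hD : (Dv.card : ℝ) ≤ C * N1 ^ δ :=
    (h n0 h0 Dv fun y hy => (Finset.mem_filter.1 hy).2).trans
      (by gcongr)
  have hc : (J.filter fun i => i.2.2.2 * i.1 * pr i.2.1 * pr (i.2.1 \ i.2.2.1) = n0).card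
      ≤ (Dv ×ˢ Dv ×ˢ Dv ×ˢ Dv).card := by
    refine Finset.card_le_card_of_injOn
      (fun i => (i.1, pr i.2.1, pr (i.2.1 \ i.2.2.1), i.2.2.2)) ?_ ?_
    · intro i hi
      obtain ⟨-, he⟩ := Finset.mem_filter.1 hi
      simp only [Finset.coe_product, Set.mem_prod, Finset.mem_coe]
      refine ⟨hmem _ ?_, hmem _ ?_, hmem _ ?_, hmem _ ?_⟩ <;> rw [← he]
      · exact ⟨i.2.2.2 * pr i.2.1 * pr (i.2.1 \ i.2.2.1), by ring⟩
      · exact ⟨i.2.2.2 * i.1 * pr (i.2.1 \ i.2.2.1), by ring⟩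
      · exact ⟨i.2.2.2 * i.1 * pr i.2.1, by ring⟩
      · exact ⟨i.1 * pr i.2.1 * pr (i.2.1 \ i.2.2.1), by ring⟩
    · rintro ⟨t, d, f, n⟩ hi ⟨t', d', f', n'⟩ hi' he
      have h1 := (hJ _ (Finset.mem_filter.1 hi).1).1
      have h2 := (hJ _ (Finset.mem_filter.1 hi').1).1
      simp only [Prod.mk.injEq] at he h1 h2
      obtain ⟨rfl, hd, hf, rfl⟩ := he
      obtain rfl := pr_inj hd
      have hf' := pr_inj hf
      have : f = f' := by
        rw [← Finset.sdiff_sdiff_eq_self h1, hf', Finset.sdiff_sdiff_eq_self h2]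
      subst this
      rfl
  calc _ ≤ ((Dv ×ˢ Dv ×ˢ Dv ×ˢ Dv).card : ℝ) := by exact_mod_cast hc
    _ = (Dv.card : ℝ) ^ 4 := by simp only [Finset.card_product]; push_cast; ring
    _ ≤ _ := by gcongr

theorem sb_swap (F : Finset E) (X N : ℝ) (G : E → Finset P → Finset P → Finset P → ℝ) :
    ∑ t ∈ F, PSum X N (G t) = ∑ e ∈ sqf (16 * X), ∑ d ∈ sqf (16 * X) with Disjoint d e,
      ∑ t ∈ F, ∑ f ∈ d.powerset, N * Ns d / (X * Ns f) * G t d f e := by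
  unfold PSum
  simp only [Finset.sum_filter]
  rw [Finset.sum_comm]
  rw [Finset.sum_comm (s := sqf (16 * X)) (t := sqf (16 * X))]
  refine Finset.sum_congr rfl fun d _ => ?_
  have : ∀ t ∈ F, (∑ f ∈ d.powerset, ∑ e ∈ sqf (16 * X),
      if Disjoint d e then N * Ns d / (X * Ns f) * G t d f e else 0)
      = ∑ e ∈ sqf (16 * X), ∑ f ∈ d.powerset,
        if Disjoint d e then N * Ns d / (X * Ns f) * G t d f e else 0 :=
    fun t _ => Finset.sum_comm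
  rw [Finset.sum_congr rfl this, Finset.sum_comm]
  refine Finset.sum_congr rfl fun e _ => ?_
  split_ifs <;> simp

theorem sb_pow {Z δ : ℝ} (hZ : 1 ≤ Z) (hδ : 0 < δ) (hδ1 : 7 * δ ≤ 1) (j : ℕ) :
    ((16 * 2 ^ j * Z ^ 3) ^ δ) ^ 7 ≤ 16 * 2 ^ j * Z ^ (21 * δ) := by
  have h2 : (1 : ℝ) ≤ 16 * 2 ^ j := by have : (1 : ℝ) ≤ 2 ^ j := one_le_pow₀ one_le_two; linarith
  rw [← Real.rpow_natCast, ← Real.rpow_mul (by positivity), Real.mul_rpow (by positivity)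
    (by positivity), ← Real.rpow_natCast Z 3, ← Real.rpow_mul (by positivity)]
  have e1 : ((3 : ℕ) : ℝ) * (δ * ((7 : ℕ) : ℝ)) = 21 * δ := by push_cast; ring
  rw [e1]
  gcongr
  calc (16 * 2 ^ j : ℝ) ^ (δ * ((7 : ℕ) : ℝ)) ≤ (16 * 2 ^ j : ℝ) ^ (1 : ℝ) :=
        Real.rpow_le_rpow_of_exponent_le h2 (by push_cast; linarith)
    _ = _ := Real.rpow_one _

set_option maxHeartbeats 600000 in
theorem stepB (hP : PL (cj c6)) (hR : Rec6) (hN : Neg6) {Q k : ℕ} (hQ : GoodQ Q k) {η : ℝ}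
    (hη : 0 < η) (hA : HAs Q η) : HB Q η := by
  intro ε hε
  obtain ⟨δ, hδ, hδ1, hδ2⟩ : ∃ δ : ℝ, 0 < δ ∧ 7 * δ ≤ 1 ∧ 22 * δ ≤ ε :=
    ⟨min (1 / 7) (ε / 22), by positivity, by linarith [min_le_left (1 / 7 : ℝ) (ε / 22)],
      by linarith [min_le_right (1 / 7 : ℝ) (ε / 22)]⟩
  obtain ⟨B, C1, hC1, h1⟩ := hA δ hδ
  obtain ⟨C2, hC2, h2⟩ := hP δ B hδ
  obtain ⟨C3, hC3, h3⟩ := card_dvd_le hδ
  obtain ⟨C4, hC4, h4⟩ := sum_sqf_inv hδ
  obtain ⟨C5, hC5, h5⟩ := log_le_rpow hδ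
  refine ⟨B, C2 * (1 + 32 * C1 * C3 ^ 4 * C4 * C5), by positivity, ?_⟩
  intro Z X M T τ a ρ K F hX hXZ hM hMZ hT hTZ ha hρ hRZ hKZ hF
  have hZ : 1 ≤ Z := hX.trans hXZ
  have hX0 : 0 < X := by linarith
  have hR1 := one_le_Rr ρ
  have hXη : 1 ≤ X ^ (1 + η) := Real.one_le_rpow hX (by linarith)
  set mn := X ^ 2 * T + M * X ^ (1 + η) * Rr ρ with hmn
  have hmn0 : 0 ≤ mn := by positivity
  have hch : ∀ (t : E) (d f e : Finset P), ∃ (κ : ℂ) (a1 : E), f ⊆ d → Disjoint d e →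
      ‖κ‖ ≤ 1 ∧ IsCoprime a1 Q ∧ ∀ n, dual (cj c6) (bB Q a ρ K t) d f e n
        = fun c => κ * cAK Q a1 ρ (K ∪ e) (n * t * pr d * pr (d \ f)) c := by
    intro t d f e
    by_cases h : f ⊆ d ∧ Disjoint d e
    · obtain ⟨κ, a1, h'⟩ := dual_bB hR hN hQ ha ρ K t h.1 h.2
      exact ⟨κ, a1, fun _ _ => h'⟩
    · exact ⟨0, 0, fun h1 h2 => absurd ⟨h1, h2⟩ h⟩
  choose κ a1 hκ using hch
  have key := h2 E F (fun t => bB Q a ρ K t) X M
    (32 * C1 * C3 ^ 4 * C4 * C5 * Z ^ (21 * δ) * mn) τ hX hM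
    (fun t _ => cls_bB hQ ha ρ K t) ?_
  · simp only [cB_eq]
    refine key.trans ?_
    have hb : (1 : ℝ) ≤ (1 + |τ|) ^ B := one_le_pow₀ (by linarith [abs_nonneg τ])
    have hz : (1 : ℝ) ≤ Z ^ ε := Real.one_le_rpow hZ hε.le
    have hz2 : X ^ δ * Z ^ (21 * δ) ≤ Z ^ ε := by
      calc X ^ δ * Z ^ (21 * δ) ≤ Z ^ δ * Z ^ (21 * δ) := by gcongr
        _ = Z ^ (22 * δ) := by rw [← Real.rpow_add (by linarith)]; ring_nf
        _ ≤ _ := Real.rpow_le_rpow_of_exponent_le hZ hδ2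
    set c := 32 * C1 * C3 ^ 4 * C4 * C5 with hc
    have hc0 : 0 < c := by positivity
    set u := (F.card : ℝ) * X * M with hu
    have hu0 : 0 ≤ u := by positivity
    have e1 : (F.card : ℝ) * M * X = u := by rw [hu]; ring
    have e2 : u + X ^ 2 * T + M * X ^ (1 + η) * Rr ρ = u + mn := by rw [hmn]; ring
    rw [e1, e2]
    have e3 : X ^ δ * (c * Z ^ (21 * δ) * mn) * (1 + |τ|) ^ B
        ≤ c * (Z ^ ε * (1 + |τ|) ^ B * mn) := by
      calc _ = c * (X ^ δ * Z ^ (21 * δ) * (1 + |τ|) ^ B * mn) := by ring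
        _ ≤ _ := by gcongr
    have e4 : u ≤ Z ^ ε * (1 + |τ|) ^ B * u :=
      le_mul_of_one_le_left hu0 (one_le_mul_of_one_le_of_one_le hz hb)
    have e5 : 0 ≤ Z ^ ε * (1 + |τ|) ^ B := by positivity
    calc _ ≤ C2 * (Z ^ ε * (1 + |τ|) ^ B * u + c * (Z ^ ε * (1 + |τ|) ^ B * mn)) := by gcongr
      _ ≤ C2 * ((1 + c) * (Z ^ ε * (1 + |τ|) ^ B * (u + mn))) := by
        gcongr
        nlinarith [mul_nonneg e5 hu0, mul_nonneg e5 hmn0, mul_nonneg hc0.le (mul_nonneg e5 hu0)]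
      _ = _ := by ring
  intro j s hs
  set Z1 := 16 * 2 ^ j * Z ^ 3 with hZ1
  set N1 := max 1 (2 ^ j * X ^ 2 * T / M) with hN1
  have h2j : (1 : ℝ) ≤ 2 ^ j := one_le_pow₀ one_le_two
  have hZ3 : Z ≤ Z ^ 3 := le_self_pow₀ hZ (by norm_num)
  have hZ23 : Z ^ 2 ≤ Z ^ 3 := pow_le_pow_right₀ hZ (by norm_num)
  have hZ31 : 16 * Z ^ 3 ≤ Z1 := by rw [hZ1]; nlinarith
  have hZZ : Z ≤ Z1 := by linarith
  have hN1Z : N1 ≤ Z1 := by
    refine max_le (by linarith) ?_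
    calc 2 ^ j * X ^ 2 * T / M ≤ 2 ^ j * X ^ 2 * T := div_le_self (by positivity) hM
      _ ≤ 2 ^ j * Z ^ 2 * Z := by gcongr
      _ ≤ Z1 := by rw [hZ1]; nlinarith [mul_nonneg (by linarith : (0 : ℝ) ≤ 2 ^ j) (by positivity : (0 : ℝ) ≤ Z ^ 3)]
  have hMN1 : M * N1 + M * X ^ (1 + η) * Rr ρ ≤ 2 * 2 ^ j * mn := by
    have e1 : M * N1 ≤ M + 2 ^ j * X ^ 2 * T := by
      rcases le_total 1 (2 ^ j * X ^ 2 * T / M) with h | h
      · rw [hN1, max_eq_right h, mul_div_cancel₀ _ (by linarith)]; linarith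
      · rw [hN1, max_eq_left h]; have : (0 : ℝ) ≤ 2 ^ j * X ^ 2 * T := by positivity
        linarith
    have e2 : M ≤ M * X ^ (1 + η) * Rr ρ := by
      calc M = M * 1 * 1 := by ring
        _ ≤ _ := by gcongr
    have e3 : 0 ≤ X ^ 2 * T := by positivity
    rw [hmn]
    nlinarith
  obtain ⟨J0, hJ0, hJ0'⟩ := exists_dyadic (R := 16 * X) (by linarith)
  set w := C1 * (C3 * Z1 ^ δ) ^ 4 * Z1 ^ δ * (1 + ‖s‖) ^ B * (2 * 2 ^ j * mn) with hw
  have hw0 : 0 ≤ w := by positivity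
  have hblock : ∀ e ∈ sqf (16 * X), ∀ i : ℕ,
      ∑ d ∈ (sqf (16 * X)).filter (fun d => Disjoint d e) with 2 ^ i ≤ Ns d ∧ Ns d < 2 ^ (i + 1),
        ∑ t ∈ F, ∑ f ∈ d.powerset, M * Ns d / (X * Ns f) *
          ∑ m ∈ ball (2 ^ j * M0 X M d f),
            ‖S (dual (cj c6) (bB Q a ρ K t) d f e m) (X / (Ns d * Ns e)) s‖ ^ 2
        ≤ w * (Ns e)⁻¹ := by
    intro e he i
    set Ds := ((sqf (16 * X)).filter (fun d => Disjoint d e)).filter
      fun d => 2 ^ i ≤ Ns d ∧ Ns d < 2 ^ (i + 1) with hDs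
    have hNe := one_le_Ns e
    have h2i : (1 : ℝ) ≤ 2 ^ i := one_le_pow₀ one_le_two
    set X1 := X / (2 ^ (i + 1) * Ns e) with hX1
    have hX10 : 0 < X1 := by positivity
    have hX1X : X1 ≤ X := div_le_self hX0.le
      (one_le_mul_of_one_le_of_one_le (one_le_pow₀ one_le_two) hNe)
    set J : Finset (Σ _ : E, Σ _ : Finset P, Σ _ : Finset P, E) :=
      F.sigma fun _ => Ds.sigma fun d => d.powerset.sigma fun f => ball (2 ^ j * M0 X M d f)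
      with hJ
    have hJm : ∀ x ∈ J, x.1 ∈ F ∧ x.2.1 ∈ Ds ∧ x.2.2.1 ⊆ x.2.1 ∧
        x.2.2.2 ∈ ball (2 ^ j * M0 X M x.2.1 x.2.2.1) := by
      intro x hx
      simpa only [hJ, Finset.mem_sigma, Finset.mem_powerset] using hx
    have hball : ∀ x ∈ J, x.2.2.2 * x.1 * pr x.2.1 * pr (x.2.1 \ x.2.2.1) ∈ ball N1 := by
      rintro ⟨t, d, f, n⟩ hx
      obtain ⟨ht, -, hf, hn⟩ := hJm _ hx
      simp only at ht hf hn ⊢
      obtain ⟨ht0, htT⟩ := mem_ball.1 (hF ht)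
      obtain ⟨hn0, hnM⟩ := mem_ball.1 hn
      refine mem_ball.2 ⟨mul_ne_zero (mul_ne_zero (mul_ne_zero hn0 ht0) (pr_ne_zero _))
        (pr_ne_zero _), le_trans ?_ (le_max_right _ _)⟩
      have hsd : Ns (d \ f) * Ns f = Ns d := by
        rw [← Ns_union Finset.sdiff_disjoint, Finset.sdiff_union_of_subset hf]
      have hd := Ns_pos d
      have hf0 := Ns_pos f
      have hdf := Ns_pos (d \ f)
      rw [nm_mul, nm_mul, nm_mul]
      push_cast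
      calc (nm n : ℝ) * nm t * nm (pr d) * nm (pr (d \ f))
          ≤ 2 ^ j * M0 X M d f * T * Ns d * Ns (d \ f) := by
            have : (0 : ℝ) ≤ 2 ^ j * M0 X M d f := le_trans (by positivity) hnM
            change (nm n : ℝ) * nm t * Ns d * Ns (d \ f) ≤ _
            gcongr
        _ = 2 ^ j * X ^ 2 * T / M := by
            unfold M0; rw [← hsd]; field_simp
    have hmain := h1 _ J (fun x => x.2.2.2 * x.1 * pr x.2.1 * pr (x.2.1 \ x.2.2.1))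
      (fun x => a1 x.1 x.2.1 x.2.2.1 e) (fun x => X / (Ns x.2.1 * Ns e)) ((C3 * N1 ^ δ) ^ 4) Z1 X1
      N1 s ρ (K ∪ e) hX10 (by linarith) (le_max_left _ _) hN1Z hs hρ (by linarith) ?_ ?_
      (sb_fibre hδ hC3 h3 J (fun x hx => ⟨(hJm x hx).2.2.1, hball x hx⟩)
        (le_trans zero_le_one (le_max_left _ _)))
    rotate_left
    · calc Ns (K ∪ e) ≤ Ns K * Ns e := Ns_union_le _ _
        _ ≤ Z * (16 * X) := by gcongr; exact mem_sqf.1 he
        _ ≤ Z1 := by nlinarith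
    · intro x hx
      obtain ⟨-, hd, hf, -⟩ := hJm x hx
      obtain ⟨hd1, hd2, hd3⟩ := Finset.mem_filter.1 hd
      refine ⟨hball x hx, (hκ _ _ _ _ hf (Finset.mem_filter.1 hd1).2).2.1, ?_, ?_⟩
      · rw [hX1]; have := Ns_pos x.2.1; gcongr
      · rw [hX1, pow_succ]
        calc X / (Ns x.2.1 * Ns e) ≤ X / (2 ^ i * Ns e) := by gcongr
          _ = _ := by field_simp
    rw [Finset.sum_comm]
    calc _ ≤ ∑ t ∈ F, ∑ d ∈ Ds, ∑ f ∈ d.powerset, ∑ m ∈ ball (2 ^ j * M0 X M d f),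
          M * 2 ^ (i + 1) / X * ‖S (cAK Q (a1 t d f e) ρ (K ∪ e) (m * t * pr d * pr (d \ f)))
            (X / (Ns d * Ns e)) s‖ ^ 2 := by
          refine Finset.sum_le_sum fun t _ => Finset.sum_le_sum fun d hd =>
            Finset.sum_le_sum fun f hf => ?_
          obtain ⟨hd1, hd2, hd3⟩ := Finset.mem_filter.1 hd
          obtain ⟨hk1, -, hk3⟩ := hκ t d f e (Finset.mem_powerset.1 hf)
            (Finset.mem_filter.1 hd1).2
          rw [Finset.mul_sum]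
          refine Finset.sum_le_sum fun m _ => ?_
          rw [hk3, S_smul, norm_mul, mul_pow]
          have hf1 := one_le_Ns f
          have hd0 := Ns_pos d
          have e1 : M * Ns d / (X * Ns f) ≤ M * 2 ^ (i + 1) / X := by
            calc M * Ns d / (X * Ns f) ≤ M * 2 ^ (i + 1) / (X * 1) := by gcongr
              _ = _ := by rw [mul_one]
          have e2 : ‖κ t d f e‖ ^ 2 ≤ 1 := pow_le_one₀ (norm_nonneg _) hk1
          calc _ ≤ M * 2 ^ (i + 1) / X * (1 * ‖S (cAK Q (a1 t d f e) ρ (K ∪ e)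
                (m * t * pr d * pr (d \ f))) (X / (Ns d * Ns e)) s‖ ^ 2) := by gcongr
            _ = _ := by rw [one_mul]
      _ = M * 2 ^ (i + 1) / X * ∑ x ∈ J, ‖S (cAK Q (a1 x.1 x.2.1 x.2.2.1 e) ρ (K ∪ e)
            (x.2.2.2 * x.1 * pr x.2.1 * pr (x.2.1 \ x.2.2.1))) (X / (Ns x.2.1 * Ns e)) s‖ ^ 2 := by
          simp only [hJ, Finset.sum_sigma, Finset.mul_sum]
      _ ≤ M * 2 ^ (i + 1) / X * (C1 * (C3 * Z1 ^ δ) ^ 4 * Z1 ^ δ * (1 + ‖s‖) ^ B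
            * (X1 * (N1 + X ^ (1 + η) * Rr ρ))) := by
          gcongr
          refine hmain.trans ?_
          have : 0 ≤ N1 := le_trans zero_le_one (le_max_left _ _)
          gcongr
      _ = C1 * (C3 * Z1 ^ δ) ^ 4 * Z1 ^ δ * (1 + ‖s‖) ^ B
            * (M * N1 + M * X ^ (1 + η) * Rr ρ) * (Ns e)⁻¹ := by
          rw [hX1]; field_simp
      _ ≤ _ := by rw [hw]; gcongr
  have h16 : (16 * X) ^ δ ≤ Z1 ^ δ := by gcongr; linarith
  rw [sb_swap]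
  calc _ ≤ ∑ e ∈ sqf (16 * X), C5 * Z1 ^ δ * (w * (Ns e)⁻¹) := by
        refine Finset.sum_le_sum fun e he => ?_
        rw [sum_dyadic _ Ns _ (J := J0) fun d hd =>
          ⟨one_le_Ns d, (mem_sqf.1 (Finset.mem_filter.1 hd).1).trans_lt hJ0'⟩]
        refine (Finset.sum_le_sum fun i _ => hblock e he i).trans ?_
        rw [Finset.sum_const, Finset.card_range, nsmul_eq_mul]
        have := Ns_pos e
        gcongr
        push_cast
        exact (h5 _ _ (by linarith) hJ0).trans (by gcongr)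
    _ = C5 * Z1 ^ δ * w * ∑ e ∈ sqf (16 * X), (Ns e)⁻¹ := by
        rw [Finset.mul_sum]; exact Finset.sum_congr rfl fun _ _ => by ring
    _ ≤ C5 * Z1 ^ δ * w * (C4 * Z1 ^ δ) := by
        gcongr
        exact (h4 _ (by linarith)).trans (by gcongr)
    _ = 2 * C1 * C3 ^ 4 * C4 * C5 * (Z1 ^ δ) ^ 7 * 2 ^ j * mn * (1 + ‖s‖) ^ B := by rw [hw]; ring
    _ ≤ 2 * C1 * C3 ^ 4 * C4 * C5 * (16 * 2 ^ j * Z ^ (21 * δ)) * 2 ^ j * mn * (1 + ‖s‖) ^ B := by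
        gcongr
        exact sb_pow hZ hδ hδ1 j
    _ = 32 * C1 * C3 ^ 4 * C4 * C5 * Z ^ (21 * δ) * mn * (2 * 2) ^ j * (1 + ‖s‖) ^ B := by
        rw [mul_pow]; ring
    _ ≤ _ := by gcongr; norm_num

end QRH
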