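import Vale.Agent.P026.DualC
import Vale.Agent.P026.Wt
import Vale.Agent.P026.Phi1

noncomputable section
namespace QRH
open Complex MeasureTheory Filter
open scoped ComplexConjugate Classical ContDiff Topology

/-- The coefficient in `Th`. -/
def sh_t (n c : E) : ℂ := Tg c * toC c / (nm c : ℂ) * conj (xv c6 c n)
/-- The factor coming from a cube. -/
def sh_w (n d : E) : ℂ := toC d ^ 3 / (nm d : ℂ) * conj (xv c6 d n) ^ 3
/-- The summand of `Th`. -/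
def sh_F (Q : ℕ) (a n : E) (X : ℝ) (z : ℂ) (c : E) : ℂ :=
  (if (Q : E) ∣ c - a then sh_t n c else 0) * wt (nm c / X) z
/-- The squarefree terms of `Th`. -/
def sh_U (Q : ℕ) (a n : E) (X : ℝ) (z : ℂ) : ℂ := ∑ s ∈ sqf (16 * X), sh_F Q a n X z (pr s)

theorem sh_Th (Q : ℕ) (a n : E) (X : ℝ) (z : ℂ) :
    Th Q a n X z = ∑ c ∈ ball (16 * X), sh_F Q a n X z c := rfl

theorem sh_t_mul (n : E) {c d : E} (hc : c ≠ 0) (hd : (3 : E) ∣ d - 1) :
    sh_t n (c * d ^ 3) = sh_w n d * sh_t n c := by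
  have hd0 := primary_ne_zero hd
  have h1 : (nm c : ℂ) ≠ 0 := by exact_mod_cast nm_eq_zero.not.2 hc
  have h2 : (nm d : ℂ) ≠ 0 := by exact_mod_cast nm_eq_zero.not.2 hd0
  simp only [sh_t, sh_w, Tg_cube hc hd, xv_mul_left hc (pow_ne_zero 3 hd0), xv_pow_left hd0,
    nm_mul, nm_pow, map_mul, map_pow]
  push_cast
  field_simp

theorem sh_norm_w (n : E) {d : E} (hd : d ≠ 0) : ‖sh_w n d‖ ≤ √(nm d : ℝ) := by
  have h1 : (0 : ℝ) < nm d := zero_lt_one.trans_le (one_le_nmR hd)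
  have h2 : √(nm d : ℝ) ^ 3 / nm d = √(nm d : ℝ) := by
    rw [pow_succ, Real.sq_sqrt h1.le]
    field_simp
  rw [sh_w, norm_mul, norm_div, norm_pow, norm_pow, norm_toC, Complex.norm_natCast, h2,
    RCLike.norm_conj]
  exact mul_le_of_le_one_right (Real.sqrt_nonneg _)
    (pow_le_one₀ (norm_nonneg _) (norm_xv_le ch_c6 d n))

theorem sh_F_mul {Q : ℕ} (a n : E) (X : ℝ) (z : ℂ) {c d : E} (hc : c ≠ 0)
    (hd : (3 : E) ∣ d - 1) (hQ : IsCoprime d Q) : sh_F Q a n X z (c * d ^ 3) =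
      sh_w n d * sh_F Q (a * inv Q (d ^ 3)) n (X / (nm d : ℝ) ^ 3) z c := by
  have h1 := inv_spec (hQ.pow_left (m := 3))
  have h2 : (Q : E) ∣ c * d ^ 3 - a ↔ (Q : E) ∣ c - a * inv Q (d ^ 3) := by
    constructor
    · intro h
      have := (h.mul_left (inv Q (d ^ 3))).sub (h1.mul_left c)
      convert this using 1
      ring
    · intro h
      have := (h.mul_left (d ^ 3)).add (h1.mul_left a)
      convert this using 1
      ring
  have h3 : (nm (c * d ^ 3) : ℝ) / X = nm c / (X / (nm d : ℝ) ^ 3) := by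
    rw [nm_mul, nm_pow, div_div_eq_mul_div]
    push_cast
    rfl
  simp only [sh_F, h2, h3, sh_t_mul n hc hd]
  split_ifs <;> ring

theorem sh_F_ne {Q k : ℕ} (hQ : GoodQ Q k) {a n c : E} (ha : IsCoprime a Q)
    (ha3 : (3 : E) ∣ a - 1) {X : ℝ} {z : ℂ} (h : sh_F Q a n X z c ≠ 0) :
    (3 : E) ∣ c - 1 ∧ IsCoprime c Q ∧ Tg c ≠ 0 := by
  by_cases h1 : (Q : E) ∣ c - a
  · refine ⟨?_, ?_, fun h2 => h (by simp [sh_F, sh_t, h2])⟩
    · have := (hQ.three_dvd.trans h1).add ha3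
      rwa [sub_add_sub_cancel] at this
    · obtain ⟨y, hy⟩ := h1
      rw [sub_eq_iff_eq_add'] at hy
      rw [hy]
      exact ha.add_mul_left_left y
  · exact absurd (by simp [sh_F, h1]) h

theorem sh_prim {Q k : ℕ} (hQ : GoodQ Q k) {a d : E} (ha3 : (3 : E) ∣ a - 1)
    (hd : (3 : E) ∣ d - 1) (hdQ : IsCoprime d Q) : (3 : E) ∣ a * inv Q (d ^ 3) - 1 :=
  primary_mul ha3 (primary_of_mul (primary_pow hd 3)
    (hQ.three_dvd.trans (inv_spec (hdQ.pow_left (m := 3)))))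

theorem sh_le {c d : E} (hd : d ≠ 0) (X : ℝ) :
    (nm c : ℝ) ≤ 16 * (X / (nm d : ℝ) ^ 3) ↔ (nm (c * d ^ 3) : ℝ) ≤ 16 * X := by
  have h1 : (0 : ℝ) < nm d := zero_lt_one.trans_le (one_le_nmR hd)
  rw [← mul_div_assoc, le_div_iff₀ (by positivity), nm_mul, nm_pow]
  push_cast
  rfl

theorem sh_II {Q k : ℕ} (hQ : GoodQ Q k) {a : E} (ha : IsCoprime a Q) (ha3 : (3 : E) ∣ a - 1)
    (n : E) (X : ℝ) (z : ℂ) :
    Th Q a n X z = ∑ d ∈ ball (16 * X) with (3 : E) ∣ d - 1 ∧ IsCoprime d Q,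
      sh_w n d * sh_U Q (a * inv Q (d ^ 3)) n (X / (nm d : ℝ) ^ 3) z := by
  simp only [sh_U, Finset.mul_sum]
  rw [Finset.sum_sigma', sh_Th]
  symm
  refine Finset.sum_of_injOn (fun x => pr x.2 * x.1 ^ 3) ?_ ?_ ?_ ?_
  · intro x hx y hy h
    simp only [Finset.coe_sigma, Set.mem_sigma_iff, Finset.mem_coe, Finset.mem_filter] at hx hy
    have := decomp_unique hx.1.2.1 hy.1.2.1 h
    exact Sigma.ext this.2 (heq_of_eq this.1)
  · intro x hx
    simp only [Finset.coe_sigma, Set.mem_sigma_iff, Finset.mem_coe, Finset.mem_filter] at hx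
    have hd := primary_ne_zero hx.1.2.1
    exact mem_ball.2 ⟨mul_ne_zero (pr_ne_zero _) (pow_ne_zero 3 hd),
      (sh_le hd X).1 (mem_sqf.1 hx.2)⟩
  · intro c hc h
    by_contra h0
    obtain ⟨h1, h2, h3⟩ := sh_F_ne hQ ha ha3 h0
    obtain ⟨f, d, hd, rfl⟩ := Tg_decomp h1 h3
    have hd0 := primary_ne_zero hd
    have h4 : d ∣ pr f * d ^ 3 := (dvd_pow_self d (by norm_num)).mul_left _
    refine h ⟨⟨d, f⟩, ?_, rfl⟩
    simp only [Finset.coe_sigma, Set.mem_sigma_iff, Finset.mem_coe, Finset.mem_filter]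
    refine ⟨⟨mem_ball.2 ⟨hd0, le_trans ?_ (mem_ball.1 hc).2⟩, hd,
      h2.of_isCoprime_of_dvd_left h4⟩, mem_sqf.2 ((sh_le hd0 X).2 (mem_ball.1 hc).2)⟩
    exact_mod_cast nm_le_of_dvd h4 (mem_ball.1 hc).1
  · intro x hx
    simp only [Finset.mem_sigma, Finset.mem_filter] at hx
    exact (sh_F_mul a n X z (pr_ne_zero _) hx.1.2.1 hx.1.2.2).symm

theorem sh_I1 {Q : ℕ} (a n : E) (X : ℝ) (z : ℂ) {d : E} (hd : (3 : E) ∣ d - 1)
    (hQ : IsCoprime d Q) : sh_w n d * Th Q (a * inv Q (d ^ 3)) n (X / (nm d : ℝ) ^ 3) z =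
      ∑ c ∈ ball (16 * X), if d ^ 3 ∣ c then sh_F Q a n X z c else 0 := by
  have hd0 := primary_ne_zero hd
  rw [sh_Th, Finset.mul_sum]
  refine Finset.sum_of_injOn (fun c => c * d ^ 3) ?_ ?_ ?_ ?_
  · exact fun x _ y _ h => mul_right_cancel₀ (pow_ne_zero 3 hd0) h
  · exact fun c hc => mem_ball.2 ⟨mul_ne_zero (mem_ball.1 hc).1 (pow_ne_zero 3 hd0),
      (sh_le hd0 X).1 (mem_ball.1 hc).2⟩
  · intro c hc h
    refine if_neg fun h1 => h ?_
    obtain ⟨y, rfl⟩ := h1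
    rw [mul_comm (d ^ 3)] at hc
    exact ⟨y, mem_ball.2 ⟨left_ne_zero_of_mul (mem_ball.1 hc).1, (sh_le hd0 X).2 (mem_ball.1 hc).2⟩,
      mul_comm _ _⟩
  · intro c hc
    rw [if_pos (dvd_mul_left _ _), sh_F_mul a n X z (mem_ball.1 hc).1 hd hQ]

theorem sh_cube_dvd {c : E} (hc : c ≠ 0) (d : Finset P) :
    pr d ^ 3 ∣ c ↔ d ⊆ (fac c).filter fun p => 3 ≤ vp p.1 c := by
  constructor
  · intro h p hp
    have h1 : p.1 ^ 3 ∣ c := (pow_dvd_pow_of_dvd (dvd_pr_iff.2 hp) 3).trans h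
    exact Finset.mem_filter.2 ⟨(mem_fac hc).2 ((dvd_pow_self _ (by norm_num)).trans h1),
      (pow_dvd_iff p.2.1 hc 3).1 h1⟩
  · intro h
    rw [pr, ← Finset.prod_pow]
    exact e2_prod_dvd (k := fun _ => 3) fun p hp =>
      (pow_dvd_iff p.2.1 hc 3).2 (Finset.mem_filter.1 (h hp)).2

theorem sh_I {Q k : ℕ} (hQ : GoodQ Q k) {a : E} (ha : IsCoprime a Q) (ha3 : (3 : E) ∣ a - 1)
    (n : E) (X : ℝ) (z : ℂ) :
    sh_U Q a n X z = ∑ d ∈ sqf (16 * X) with IsCoprime (pr d) Q,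
      mu d * sh_w n (pr d) * Th Q (a * inv Q (pr d ^ 3)) n (X / Ns d ^ 3) z := by
  have h1 : ∀ d ∈ (sqf (16 * X)).filter fun d => IsCoprime (pr d) Q,
      mu d * sh_w n (pr d) * Th Q (a * inv Q (pr d ^ 3)) n (X / Ns d ^ 3) z =
        ∑ c ∈ ball (16 * X), (if pr d ^ 3 ∣ c then mu d else 0) * sh_F Q a n X z c := by
    intro d hd
    rw [mul_assoc, Ns, sh_I1 a n X z (pr_primary d) (Finset.mem_filter.1 hd).2, Finset.mul_sum]
    exact Finset.sum_congr rfl fun c _ => by split_ifs <;> simp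
  rw [Finset.sum_congr rfl h1, Finset.sum_comm]
  have h2 : ∀ c ∈ ball (16 * X), ∑ d ∈ sqf (16 * X) with IsCoprime (pr d) Q,
      (if pr d ^ 3 ∣ c then mu d else 0) * sh_F Q a n X z c =
        (if ((fac c).filter fun p => 3 ≤ vp p.1 c) = ∅ then 1 else 0) * sh_F Q a n X z c := by
    intro c hc
    by_cases h0 : sh_F Q a n X z c = 0
    · simp [h0]
    obtain ⟨-, h4, -⟩ := sh_F_ne hQ ha ha3 h0
    obtain ⟨hc0, hc1⟩ := mem_ball.1 hc
    rw [← Finset.sum_mul, ← Finset.sum_filter, ← sum_mu]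
    congr 2
    ext d
    rw [Finset.mem_filter, Finset.mem_filter, Finset.mem_powerset, ← sh_cube_dvd hc0]
    refine ⟨fun h => h.2, fun h => ?_⟩
    have h5 : pr d ∣ c := (dvd_pow_self _ (by norm_num)).trans h
    exact ⟨⟨mem_sqf.2 ((e2_Ns_le hc0 h5).trans hc1), h4.of_isCoprime_of_dvd_left h5⟩, h⟩
  rw [Finset.sum_congr rfl h2, sh_U]
  refine Finset.sum_of_injOn pr pr_inj.injOn ?_ ?_ ?_
  · exact fun s hs => mem_ball.2 ⟨pr_ne_zero s, mem_sqf.1 hs⟩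
  · intro c hc h
    by_contra h0
    obtain ⟨h3, -, h5⟩ := sh_F_ne hQ ha ha3 (right_ne_zero_of_mul h0)
    obtain ⟨hc0, hc1⟩ := mem_ball.1 hc
    have h6 : ((fac c).filter fun p => 3 ≤ vp p.1 c) = ∅ := by
      by_contra h6
      exact h0 (by rw [if_neg h6, zero_mul])
    have h7 : c = pr (fac c) := by
      refine eq_pr_of_vp_le h3 fun p => ?_
      by_contra h7
      have h8 : vp p.1 c % 3 ≠ 2 := fun h8 => h5 (Tg_eq_zero hc0 h8)
      refine Finset.filter_eq_empty_iff.1 h6 ((mem_fac hc0).2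
        ((dvd_iff_vp p.2.1 hc0).2 (by omega))) (by omega)
    exact h ⟨fac c, mem_sqf.2 ((Ns_fac_le hc0).trans hc1), h7.symm⟩
  · intro s _
    rw [if_pos, one_mul]
    refine Finset.filter_eq_empty_iff.2 fun p _ => ?_
    rw [vp_pr]
    split_ifs <;> omega

theorem sh_S (hM : MuGam) {Q k : ℕ} (hQ : GoodQ Q k) {a : E} (ha : IsCoprime a Q) (ρ m : E)
    (X : ℝ) (z : ℂ) : ‖S (cH Q a ρ m) X z‖ = ‖sh_U Q a (m * ρ) X z‖ := by
  obtain ⟨κ, h1, h2, h3⟩ := hM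
  have h : S (cH Q a ρ m) X z = κ a * sh_U Q a (m * ρ) X z := by
    rw [S, sh_U, Finset.mul_sum]
    refine Finset.sum_congr rfl fun s _ => ?_
    by_cases h4 : (Q : E) ∣ pr s - a
    · have h5 : cl Q a s = 1 := if_pos h4
      obtain ⟨h6, h7, -⟩ := cl_ne_zero hQ ha (h5 ▸ one_ne_zero : cl Q a s ≠ 0)
      have h8 := h3 s h6
      rw [h1 _ _ h7] at h8
      simp only [cH, sh_F, sh_t, if_pos h4, h5, one_mul, h8, xv_pr, xs_mul ch_c6, map_mul, Ns]
      push_cast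
      ring
    · simp [cH, sh_F, cl, h4]
  rw [h, norm_mul, h2, one_mul]

theorem sh_mink {ι : Type*} (I : Finset E) (D : Finset ι) (N : ι → ℝ) (v y : E → ι → ℂ)
    {K L : ℝ} (hK : 0 ≤ K) (hN : ∀ d ∈ D, 0 < N d) (hv : ∀ m, ∀ d ∈ D, ‖v m d‖ ≤ √(N d))
    (hy : ∀ d ∈ D, ∑ m ∈ I, ‖y m d‖ ^ 2 ≤ K / N d ^ 3) (hL : ∑ d ∈ D, (N d)⁻¹ ≤ L) :
    ∑ m ∈ I, ‖∑ d ∈ D, v m d * y m d‖ ^ 2 ≤ K * L ^ 2 := by
  have h1 : ∑ d ∈ D, √(∑ m ∈ I, ‖v m d * y m d‖ ^ 2) ≤ √K * L := by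
    refine le_trans ?_ (mul_le_mul_of_nonneg_left hL (Real.sqrt_nonneg K))
    rw [Finset.mul_sum]
    refine Finset.sum_le_sum fun d hd => ?_
    have h2 := hN d hd
    refine Real.sqrt_le_iff.2 ⟨by positivity, ?_⟩
    calc _ ≤ ∑ m ∈ I, N d * ‖y m d‖ ^ 2 := Finset.sum_le_sum fun m _ => by
          rw [norm_mul, mul_pow]
          refine mul_le_mul_of_nonneg_right ?_ (by positivity)
          exact (pow_le_pow_left₀ (norm_nonneg _) (hv m d hd) 2).trans_eq (Real.sq_sqrt h2.le)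
      _ ≤ N d * (K / N d ^ 3) := by
          rw [← Finset.mul_sum]
          exact mul_le_mul_of_nonneg_left (hy d hd) h2.le
      _ = _ := by
          rw [mul_pow, Real.sq_sqrt hK]
          field_simp
  have h2 := pow_le_pow_left₀ (Real.sqrt_nonneg _)
    ((minkowski I D fun m d => v m d * y m d).trans h1) 2
  rwa [Real.sq_sqrt (by positivity), mul_pow, Real.sq_sqrt hK] at h2

theorem sh_small {M R X η : ℝ} (hη : 0 < η) (hM : 1 ≤ M) (hR : 1 ≤ R) (hX : 0 < X)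
    (h : X ≤ M * R) :
    X * M + X ^ 2 + M * X ^ (1 + η) * R ≤ 3 * (X * (M * R) ^ (1 + η)) := by
  have h1 : 1 ≤ M * R := one_le_mul_of_one_le_of_one_le hM hR
  have h2 : M * R ≤ (M * R) ^ (1 + η) := Real.self_le_rpow_of_one_le h1 (by linarith)
  have h3 : M ≤ M * R := le_mul_of_one_le_right (by linarith) hR
  have h4 : M * X ^ (1 + η) * R ≤ X * (M * R) ^ (1 + η) := by
    rw [Real.rpow_add hX, Real.rpow_add (by linarith), Real.rpow_one, Real.rpow_one]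
    have := mul_le_mul_of_nonneg_left (Real.rpow_le_rpow hX.le h hη.le)
      (by positivity : 0 ≤ X * (M * R))
    linarith
  have h5 := mul_le_mul_of_nonneg_left (h3.trans h2) hX.le
  have h6 := mul_le_mul_of_nonneg_left (h.trans h2) hX.le
  nlinarith

theorem sh_sum {C ε X Z s : ℝ} (hC : 0 < C) (hε : 0 < ε) (hX : 0 < X) (hZ : X ≤ Z)
    (h : s ≤ C * (16 * X) ^ ε) : s ≤ C * 16 ^ ε * Z ^ ε := by
  rw [mul_assoc, ← Real.mul_rpow (by norm_num) (by linarith)]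
  exact h.trans (mul_le_mul_of_nonneg_left
    (Real.rpow_le_rpow (by positivity) (by linarith) hε.le) hC.le)

theorem sh_claim (hM : MuGam) {Q k : ℕ} (hQ : GoodQ Q k) {η : ℝ} (hη : 0 < η) (hV : VB Q)
    (hB : HBs Q η) {ε : ℝ} (hε : 0 < ε) : ∃ (B : ℕ) (C : ℝ), 0 < C ∧
    ∀ (Z X M τ : ℝ) (a ρ : E), 0 < X → X ≤ Z → 1 ≤ M → M ≤ Z → IsCoprime a Q →
      (3 : E) ∣ a - 1 → ρ ≠ 0 → Rr ρ ≤ Z →
      ∑ m ∈ ball M, ‖Th Q a (m * ρ) X (τ * I)‖ ^ 2
        ≤ C * (Z ^ ε) ^ 3 * (1 + |τ|) ^ B * (X * (M * Rr ρ) ^ (1 + η)) := by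
  obtain ⟨B1, C1, hC1, h1⟩ := hV ε hε
  obtain ⟨B2, C2, hC2, h2⟩ := hB ε hε
  obtain ⟨C3, hC3, h3⟩ := sum_ball_inv hε
  refine ⟨B1 + B2, 2 * C1 + 3 * C2 * (C3 * 16 ^ ε) ^ 2, by positivity,
    fun Z X M τ a ρ hX hXZ hM1 hMZ ha ha3 hρ hR => ?_⟩
  have hR1 := one_le_Rr ρ
  have hMR : 1 ≤ M * Rr ρ := one_le_mul_of_one_le_of_one_le hM1 hR1
  have hZ : 1 ≤ Z ^ ε := Real.one_le_rpow (hM1.trans hMZ) hε.le
  have hτ : 1 ≤ 1 + |τ| := le_add_of_nonneg_right (abs_nonneg τ)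
  have hP : 0 ≤ X * (M * Rr ρ) ^ (1 + η) := by positivity
  rcases le_total (M * Rr ρ) X with h | h
  · refine (h1 Z X M τ a ρ (hMR.trans h) hXZ hM1 hMZ ha ha3 hρ hR).trans ?_
    have a1 : M * Rr ρ ≤ (M * Rr ρ) ^ (1 + η) := Real.self_le_rpow_of_one_le hMR (by linarith)
    have a2 : M ≤ M * Rr ρ := le_mul_of_one_le_right (by linarith) hR1
    have a3 : X * M + (M * Rr ρ) ^ 2 ≤ 2 * (X * (M * Rr ρ) ^ (1 + η)) := by
      have b1 := mul_le_mul_of_nonneg_left (a2.trans a1) hX.le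
      have b2 := mul_le_mul h a1 (by positivity) hX.le
      nlinarith
    calc _ ≤ C1 * (Z ^ ε) ^ 3 * (1 + |τ|) ^ (B1 + B2) * (2 * (X * (M * Rr ρ) ^ (1 + η))) := by
          gcongr
          · exact le_self_pow₀ hZ (by norm_num)
          · omega
      _ = 2 * C1 * (Z ^ ε) ^ 3 * (1 + |τ|) ^ (B1 + B2) * (X * (M * Rr ρ) ^ (1 + η)) := by ring
      _ ≤ _ := by
          gcongr
          exact le_add_of_nonneg_right (by positivity)
  · simp only [sh_II hQ ha ha3]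
    refine (sh_mink _ _ (fun d => (nm d : ℝ)) (fun m d => sh_w (m * ρ) d) _
      (K := C2 * Z ^ ε * (1 + |τ|) ^ B2 * (3 * (X * (M * Rr ρ) ^ (1 + η))))
      (L := C3 * 16 ^ ε * Z ^ ε) (by positivity) (fun d hd => ?_) (fun m d hd => ?_)
      (fun d hd => ?_) ?_).trans ?_
    · exact zero_lt_one.trans_le (one_le_nmR (mem_ball.1 (Finset.mem_filter.1 hd).1).1)
    · exact sh_norm_w _ (mem_ball.1 (Finset.mem_filter.1 hd).1).1
    · obtain ⟨a1, -, a2⟩ := Finset.mem_filter.1 hd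
      have a3 := one_le_nmR (mem_ball.1 a1).1
      have a4 := coprime_mul_inv ha (a2.pow_left (m := 3))
      have a5 : 0 < X / (nm d : ℝ) ^ 3 := by positivity
      have a6 : X / (nm d : ℝ) ^ 3 ≤ X := div_le_self hX.le (one_le_pow₀ a3)
      have a7 := h2 Unit {()} (fun _ => 1) (fun _ => a * inv Q (d ^ 3))
        (fun _ => X / (nm d : ℝ) ^ 3) Z (X / (nm d : ℝ) ^ 3) M 1 (τ * I) ρ ∅ a5 (a6.trans hXZ) hM1
        hMZ le_rfl (hM1.trans hMZ) (by simp) hρ hR (by rw [Ns_empty]; exact hM1.trans hMZ)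
        (fun _ _ _ _ _ => rfl) fun _ _ =>
          ⟨mem_ball.2 ⟨one_ne_zero, by simp [nm_one]⟩, a4, le_rfl, by linarith⟩
      simp only [Finset.sum_singleton, cB_triv, sh_S hM hQ a4, Finset.card_singleton,
        Nat.cast_one, one_mul, mul_one, norm_mul, Complex.norm_real, Complex.norm_I,
        Real.norm_eq_abs] at a7
      refine a7.trans ((mul_le_mul_of_nonneg_left (sh_small hη hM1 hR1 a5 (a6.trans h))
        (by positivity)).trans_eq ?_)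
      ring
    · refine sh_sum hC3 hε hX hXZ (le_trans ?_ (h3 _ (by positivity)))
      exact Finset.sum_le_sum_of_subset_of_nonneg (Finset.filter_subset _ _)
        fun _ _ _ => by positivity
    · calc _ = 3 * C2 * (C3 * 16 ^ ε) ^ 2 * (Z ^ ε) ^ 3 * (1 + |τ|) ^ B2 *
            (X * (M * Rr ρ) ^ (1 + η)) := by ring
        _ ≤ _ := by
          gcongr
          · exact le_add_of_nonneg_left (by positivity)
          · omega

theorem stepH (hM : MuGam) {Q k : ℕ} (hQ : GoodQ Q k) {η : ℝ} (hη : 0 < η) (hV : VB Q)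
    (hB : HBs Q η) : HH Q η := by
  intro ε hε
  have hε' : 0 < ε / 5 := by positivity
  obtain ⟨B, C, hC, h⟩ := sh_claim hM hQ hη hV hB hε'
  obtain ⟨C3, hC3, h3⟩ := sum_sqf_inv hε'
  refine ⟨B, C * (C3 * 16 ^ (ε / 5)) ^ 2, by positivity,
    fun Z X M τ a ρ hX1 hXZ hM1 hMZ ha hρ hR => ?_⟩
  have hX : 0 < X := zero_lt_one.trans_le hX1
  have hZ : 0 < Z := hX.trans_le hXZ
  have hR1 := one_le_Rr ρ
  by_cases ha3 : (3 : E) ∣ a - 1
  · simp only [sh_S hM hQ ha, sh_I hQ ha ha3]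
    refine (sh_mink _ _ Ns (fun m d => mu d * sh_w (m * ρ) (pr d)) _
      (K := C * (Z ^ (ε / 5)) ^ 3 * (1 + |τ|) ^ B * (X * (M * Rr ρ) ^ (1 + η)))
      (L := C3 * 16 ^ (ε / 5) * Z ^ (ε / 5)) (by positivity) (fun d _ => Ns_pos d)
      (fun m d _ => ?_) (fun d hd => ?_) ?_).trans_eq ?_
    · rw [norm_mul, norm_mu, one_mul]
      exact sh_norm_w _ (pr_ne_zero d)
    · have a1 := (Finset.mem_filter.1 hd).2
      have a2 := Ns_pos d
      refine (h Z (X / Ns d ^ 3) M τ _ ρ (by positivity)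
        ((div_le_self hX.le (one_le_pow₀ (one_le_Ns d))).trans hXZ) hM1 hMZ
        (coprime_mul_inv ha (a1.pow_left (m := 3))) (sh_prim hQ ha3 (pr_primary d) a1) hρ
        hR).trans_eq ?_
      ring
    · refine sh_sum hC3 hε' hX hXZ (le_trans ?_ (h3 _ (by positivity)))
      exact Finset.sum_le_sum_of_subset_of_nonneg (Finset.filter_subset _ _)
        fun d _ _ => (inv_pos.2 (Ns_pos d)).le
    · have a1 : Z ^ ε = (Z ^ (ε / 5)) ^ 5 := by
        rw [← Real.rpow_natCast, ← Real.rpow_mul hZ.le]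
        congr 1
        push_cast
        ring
      rw [a1]
      ring
  · have a1 : ∀ m, S (cH Q a ρ m) X (τ * I) = 0 := fun m => Finset.sum_eq_zero fun s _ => by
      have a2 : cl Q a s = 0 := by
        by_contra a2
        exact ha3 (cl_ne_zero hQ ha a2).2.2.2
      simp [cH, a2]
    simp only [a1, norm_zero, ne_eq, OfNat.ofNat_ne_zero, not_false_eq_true, zero_pow,
      Finset.sum_const_zero]
    positivity

end QRH
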