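import Vale.Agent.P026.Vor2
import Vale.Agent.P026.Rearr
import Vale.Agent.P026.VB0b

noncomputable section
namespace QRH
open Complex MeasureTheory Filter
open scoped ComplexConjugate Classical ContDiff Topology

theorem vb_exp_half {y : ℝ} (hy : 0 < y) (v : ℝ) :
    Real.exp ((v + Real.log y) / 2) = √(y * Real.exp v) := by
  rw [Real.exp_half, Real.exp_add, Real.exp_log hy, mul_comm]

theorem vb_lower (δ : E) {b v : ℝ} (hb : 0 < b) (hv : 1 < Real.exp v) :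
    ‖toC δ‖ / (√b)⁻¹ ≤ Real.exp ((v + Real.log (nm δ * b)) / 2) := by
  by_cases h : δ = 0
  · rw [h, map_zero, norm_zero, zero_div]
    exact (Real.exp_pos _).le
  have h1 := one_le_nmR h
  have h2 : 0 < nm δ * b := by positivity
  rw [vb_exp_half h2, div_inv_eq_mul, norm_toC, ← Real.sqrt_mul (by positivity)]
  exact Real.sqrt_le_sqrt (le_mul_of_one_le_right h2.le hv.le)

theorem vb_hasSum {ι : Type} (J : Finset ι) {G : ℝ → ℂ} {s : ℂ} {W A : ℝ} (κ : ι → E → ℂ)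
    (b : ι → ℝ) (hs : s.re = 1 / 2) (hG : Continuous G)
    (hGb : ∀ v, ‖G v‖ ≤ W * (1 + Real.exp (v / 2)) ^ (-6 : ℝ)) (hκ : ∀ j ∈ J, ∀ δ, ‖κ j δ‖ ≤ A)
    (hb : ∀ j ∈ J, 0 < b j) :
    HasSum (fun δ : E => ∑ j ∈ J, κ j δ * sm s G (Real.log (nm δ * b j)))
      (∫ v : ℝ, ∑ j ∈ J, ∑' δ : E, κ j δ *
        ((beta v : ℝ) * Complex.exp (s * v) * G (v + Real.log (nm δ * b j)))) := by
  have hW : 0 ≤ W := nonneg_of_mul_nonneg_left ((norm_nonneg _).trans (hGb 0)) (by positivity)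
  obtain ⟨C, -, hC⟩ := lattice_decay (σ := 6) (by norm_num)
  obtain ⟨m, hm⟩ : ∃ m : ι → E → ℝ, m = fun j δ =>
    A * (2 * (W * (1 + ‖toC δ‖ / (√(b j))⁻¹) ^ (-6 : ℝ))) := ⟨_, rfl⟩
  have hms : ∀ j ∈ J, Summable (m j) := fun j hj => by
    rw [hm]
    exact ((((hC _ (inv_pos.2 (Real.sqrt_pos.2 (hb j hj)))).1.mul_left W).mul_left 2).mul_left A)
  have hm0 : ∀ j ∈ J, ∀ δ, 0 ≤ m j δ := fun j hj δ => by
    have := (norm_nonneg _).trans (hκ j hj δ)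
    rw [hm]
    positivity
  have hle : ∀ j ∈ J, ∀ (δ : E) (v : ℝ), ‖κ j δ *
      ((beta v : ℝ) * Complex.exp (s * v) * G (v + Real.log (nm δ * b j)))‖ ≤ beta v * m j δ := by
    intro j hj δ v
    by_cases h0 : beta v = 0
    · simp [h0]
    obtain ⟨h1, h4⟩ := beta_exp h0
    have hA := (norm_nonneg _).trans (hκ j hj δ)
    have hβ := beta_nonneg v
    have e1 : ‖Complex.exp (s * v)‖ ≤ 2 := by
      rw [Complex.norm_exp, Complex.mul_re, Complex.ofReal_re, Complex.ofReal_im, mul_zero, sub_zero,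
        hs, one_div, inv_mul_eq_div, Real.exp_half]
      exact Real.sqrt_le_iff.2 ⟨by norm_num, by linarith⟩
    have e2 : ‖G (v + Real.log (nm δ * b j))‖ ≤ W * (1 + ‖toC δ‖ / (√(b j))⁻¹) ^ (-6 : ℝ) :=
      (hGb _).trans (mul_le_mul_of_nonneg_left (Real.rpow_le_rpow_of_nonpos (by positivity)
        (by linarith [vb_lower δ (hb j hj) h1]) (by norm_num)) hW)
    rw [norm_mul, norm_mul, norm_mul, Complex.norm_real, Real.norm_of_nonneg hβ, hm]
    calc _ ≤ A * (beta v * 2 * (W * (1 + ‖toC δ‖ / (√(b j))⁻¹) ^ (-6 : ℝ))) := by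
          gcongr
          exact hκ j hj δ
      _ = _ := by ring
  have hint : ∀ (j : ι) (δ : E), Integrable fun v : ℝ => κ j δ *
      ((beta v : ℝ) * Complex.exp (s * v) * G (v + Real.log (nm δ * b j))) := fun j δ => by
    refine Integrable.const_mul ?_ _
    simp only [mul_assoc]
    exact integrable_beta_mul (by fun_prop)
  have key := hasSum_integral_of_summable_integral_norm (μ := volume)
    (F := fun (δ : E) (v : ℝ) => ∑ j ∈ J, κ j δ *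
      ((beta v : ℝ) * Complex.exp (s * v) * G (v + Real.log (nm δ * b j))))
    (fun δ => integrable_finsetSum _ fun j _ => hint j δ) (by
      refine Summable.of_nonneg_of_le (fun δ => integral_nonneg fun v => norm_nonneg _)
        (fun δ => ?_) ((summable_sum hms).mul_left (∫ v, beta v))
      rw [← integral_mul_const]
      refine integral_mono_of_nonneg (Eventually.of_forall fun v => norm_nonneg _)
        (integrable_beta.mul_const _) (Eventually.of_forall fun v => ?_)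
      beta_reduce
      rw [Finset.mul_sum]
      exact (norm_sum_le _ _).trans (Finset.sum_le_sum fun j hj => hle j hj δ v))
  have e1 : ∀ δ : E, (∫ v : ℝ, ∑ j ∈ J, κ j δ *
      ((beta v : ℝ) * Complex.exp (s * v) * G (v + Real.log (nm δ * b j)))) =
      ∑ j ∈ J, κ j δ * sm s G (Real.log (nm δ * b j)) := fun δ => by
    rw [integral_finsetSum _ fun j _ => hint j δ]
    exact Finset.sum_congr rfl fun j _ => integral_const_mul _ _
  have e2 : ∀ v : ℝ, (∑' δ : E, ∑ j ∈ J, κ j δ *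
      ((beta v : ℝ) * Complex.exp (s * v) * G (v + Real.log (nm δ * b j)))) =
      ∑ j ∈ J, ∑' δ : E, κ j δ *
        ((beta v : ℝ) * Complex.exp (s * v) * G (v + Real.log (nm δ * b j))) := fun v =>
    Summable.tsum_finsetSum fun j hj =>
      Summable.of_norm_bounded ((hms j hj).mul_left (beta v)) fun δ => hle j hj δ v
  simpa only [e1, e2] using key

/-- The direction of a complex number. -/
def vbang (z : ℂ) : ℂ := z / (‖z‖ : ℝ)

theorem vb_norm_ang {z : ℂ} (hz : z ≠ 0) : ‖vbang z‖ = 1 := by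
  rw [vbang, norm_div, Complex.norm_real, norm_norm, div_self (norm_ne_zero_iff.2 hz)]

theorem vb_zd (h4 : KFacts) {w : ℂ → ℂ} (hw : Adm w) {δ D : E} (hδ : δ ≠ 0) (hD : D ≠ 0) {X : ℝ}
    (hX : 0 < X) (v : ℝ) :
    Ka w (toC δ * (√(X * Real.exp v) : ℝ) / toC D) =
      conj (vbang (toC δ)) * conj ((vbang (toC D))⁻¹) *
        Ka w (Real.exp ((v + Real.log (nm δ * (X / nm D))) / 2) : ℝ) := by
  have h1 := one_le_nmR hδ
  have h2 := one_le_nmR hD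
  have h3 := toC_ne_zero hδ
  have h5 := toC_ne_zero hD
  rw [← map_mul, ← h4.2.1 w _ _ hw (by rw [norm_mul, norm_inv, vb_norm_ang h3, vb_norm_ang h5]; simp),
    vb_exp_half (by positivity)]
  congr 1
  have e : √(nm δ * (X / nm D) * Real.exp v) = ‖toC δ‖ * √(X * Real.exp v) / ‖toC D‖ := by
    rw [norm_toC, norm_toC, ← Real.sqrt_mul (by positivity), ← Real.sqrt_div (by positivity)]
    congr 1
    ring
  have n1 : ((‖toC δ‖ : ℝ) : ℂ) ≠ 0 := Complex.ofReal_ne_zero.2 (norm_ne_zero_iff.2 h3)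
  have n2 : ((‖toC D‖ : ℝ) : ℂ) ≠ 0 := Complex.ofReal_ne_zero.2 (norm_ne_zero_iff.2 h5)
  rw [e, vbang, vbang]
  push_cast
  field_simp

theorem vb_exp {X : ℝ} (hX : 0 < X) (τ v : ℝ) :
    Complex.exp (τ * I * v) * (√(X * Real.exp v) : ℝ) =
      (√X : ℝ) * Complex.exp ((1 / 2 + τ * I) * v) := by
  rw [Real.sqrt_mul hX.le, ← Real.exp_half, add_mul, Complex.exp_add]
  push_cast
  rw [show (1 / 2 : ℂ) * v = v / 2 by ring]
  ring

theorem vbphi_le (r : Finset P) {δ : E} (hδ : δ ≠ 0) : vbphi r δ ≤ √(Ns r) := by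
  have h1 := one_le_nmR (up_ne_zero (p := lam) hδ)
  have h2 : ‖Tg δ‖ / nm (up lam δ) ≤ 1 := by
    rw [div_le_one (by linarith)]
    exact (norm_Tg_le hδ).trans (Real.rpow_le_self_of_one_le h1 (by norm_num))
  exact (mul_le_of_le_one_left (Real.sqrt_nonneg _) h2).trans
    (Real.sqrt_le_sqrt (Ns_mono Finset.inter_subset_right))

/-- The theta sum as a limit of finite dual sums. -/
theorem vb_limit (h4 : KFacts) {Q k : ℕ} (hQ : Q ≠ 0) {a n : E} {X τ W C : ℝ} (hX : 0 < X)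
    {r t : Finset P} {J : Finset (Finset P × E)} {g : Finset P × E → E}
    {B : Finset P × E → E → E → ℂ} {e : Finset P × E → ℂ} (hC : 0 ≤ C)
    (hW : ∀ z, ‖Ka (wtau τ) z‖ ≤ W * (1 + ‖z‖) ^ (-6 : ℝ))
    (hj : ∀ j ∈ J, g j ≠ 0 ∧ (∀ δ, Per Q fun t => B j t δ) ∧ (∀ t, B j t 0 = 0) ∧
      ∀ t δ, δ ≠ 0 → ‖B j t δ‖ ≤ C * vbphi r δ) (he : ∀ j, ‖e j‖ ≤ 1)
    (hV : ∀ Y : ℝ, 0 < Y →
      VL (fun c => if (Q : E) ∣ c - a then conj (xv c6 c n) else 0) (wtau τ) Y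
        = ∑ j ∈ J, e j * ∑' δ : E, B j (pr t) δ * xs c2 t δ * Ka (wtau τ) (zd k (pr t * g j) Y δ)) :
    ∃ F : Finset E → ℂ, Tendsto F atTop (𝓝 (Th Q a n X (τ * I))) ∧ ∀ T, ‖F T‖ ^ 2 ≤
      J.card * X * ∑ j ∈ J, ∑ c ∈ reps Q, ‖∑ δ ∈ T.erase 0,
        B j c δ * conj (vbang (toC δ)) * xs c2 t δ *
          sm (1 / 2 + τ * I) (fun v => Ka (wtau τ) (Real.exp (v / 2) : ℝ))
            (Real.log (nm δ * (X / nm (Lam k ^ 2 * (pr t * g j) ^ 2))))‖ ^ 2 := by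
  have hw := adm_wtau τ
  have hD : ∀ j ∈ J, Lam k ^ 2 * (pr t * g j) ^ 2 ≠ 0 := fun j h =>
    mul_ne_zero (pow_ne_zero _ (Lam_ne_zero k))
      (pow_ne_zero _ (mul_ne_zero (pr_ne_zero t) (hj j h).1))
  obtain ⟨η, hη⟩ : ∃ η : Finset P × E → ℂ, η = fun j => (√X : ℝ) * e j *
    conj ((vbang (toC (Lam k ^ 2 * (pr t * g j) ^ 2)))⁻¹) := ⟨_, rfl⟩
  have hη1 : ∀ j ∈ J, ‖η j‖ ≤ √X := fun j h => by
    rw [hη]
    beta_reduce
    rw [norm_mul, norm_mul, Complex.norm_conj, norm_inv, vb_norm_ang (toC_ne_zero (hD j h)),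
      Complex.norm_real, Real.norm_of_nonneg (Real.sqrt_nonneg _), inv_one, mul_one]
    exact mul_le_of_le_one_right (Real.sqrt_nonneg _) (he j)
  have hG : Continuous fun v : ℝ => Ka (wtau τ) (Real.exp (v / 2) : ℝ) :=
    (h4.2.2 _ hw).comp_continuous (by fun_prop)
      fun v => Complex.ofReal_ne_zero.2 (Real.exp_pos _).ne'
  have hs := vb_hasSum J (s := 1 / 2 + τ * I) (W := W) (A := √X * (C * √(Ns r)))
    (fun j δ => η j * (B j (pr t) δ * conj (vbang (toC δ)) * xs c2 t δ))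
    (fun j => X / nm (Lam k ^ 2 * (pr t * g j) ^ 2)) (by simp) hG
    (fun v => by
      have := hW (Real.exp (v / 2) : ℝ)
      rwa [Complex.norm_real, Real.norm_of_nonneg (Real.exp_pos _).le] at this)
    (fun j h δ => by
      rw [norm_mul]
      refine mul_le_mul (hη1 j h) ?_ (norm_nonneg _) (Real.sqrt_nonneg _)
      by_cases h0 : δ = 0
      · rw [h0, (hj j h).2.2.1, zero_mul, zero_mul, norm_zero]
        positivity
      rw [norm_mul, norm_mul, Complex.norm_conj, vb_norm_ang (toC_ne_zero h0), mul_one]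
      exact (mul_le_of_le_one_right (norm_nonneg _) (norm_xs_le ch_c2 _ _)).trans
        (((hj j h).2.2.2 _ δ h0).trans (mul_le_mul_of_nonneg_left (vbphi_le r h0) hC)))
    (fun j h => div_pos hX (lt_of_lt_of_le one_pos (one_le_nmR (hD j h))))
  refine ⟨_, Tendsto.mono_right hs (le_of_eq (congrArg 𝓝 (Eq.symm ?_))), fun T => ?_⟩
  · rw [Th_eq Q a n hX τ]
    refine integral_congr_ae (Eventually.of_forall fun v => ?_)
    beta_reduce
    rw [hV _ (Real.sqrt_pos.2 (by positivity)), vb_exp hX, Finset.mul_sum, Finset.mul_sum]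
    refine Finset.sum_congr rfl fun j h => ?_
    rw [← tsum_mul_left, ← tsum_mul_left, ← tsum_mul_left]
    refine tsum_congr fun δ => ?_
    by_cases h0 : δ = 0
    · rw [h0, (hj j h).2.2.1]
      simp
    rw [zd, vb_zd h4 hw h0 (hD j h) hX, hη]
    ring
  · rw [Finset.sum_comm]
    refine (norm_sum_sq_le _ _).trans ?_
    rw [mul_assoc (J.card : ℝ) X, Finset.mul_sum J _ X]
    refine mul_le_mul_of_nonneg_left (Finset.sum_le_sum fun j h => ?_) (Nat.cast_nonneg _)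
    obtain ⟨c, hc, hc'⟩ := exists_rep (c := (Q : E)) (Nat.cast_ne_zero.2 hQ) (pr t)
    have e1 : ∀ δ, B j (pr t) δ = B j c δ := fun δ => (hj j h).2.1 δ _ _ hc'
    simp only [mul_assoc (η j), e1]
    rw [← Finset.mul_sum, norm_mul, mul_pow, ← Finset.sum_erase T (a := 0)
      (by rw [(hj j h).2.2.1, zero_mul, zero_mul, zero_mul])]
    refine mul_le_mul ?_ (Finset.single_le_sum (f := fun c => ‖∑ δ ∈ T.erase 0,
        B j c δ * conj (vbang (toC δ)) * xs c2 t δ *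
          sm (1 / 2 + τ * I) (fun v => Ka (wtau τ) (Real.exp (v / 2) : ℝ))
            (Real.log (nm δ * (X / nm (Lam k ^ 2 * (pr t * g j) ^ 2))))‖ ^ 2)
      (fun _ _ => sq_nonneg _) hc) (sq_nonneg _) hX.le
    exact (pow_le_pow_left₀ (norm_nonneg _) (hη1 j h) 2).trans_eq (Real.sq_sqrt hX.le)

theorem vB0 (h1 : VorT) (h2 : QLS) (h3 : SepQ) (h4 : KFacts) {Q k : ℕ} (hQ : GoodQ Q k) :
    VB0 Q := by
  intro ε hε
  obtain ⟨ε1, hε1⟩ : ∃ ε1, ε1 = min ε 1 / 16 := ⟨_, rfl⟩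
  have hm0 : 0 < min ε 1 := lt_min hε one_pos
  have he0 : 0 < ε1 := by rw [hε1]; positivity
  have he1 : ε1 ≤ 1 := by linarith [min_le_right ε 1]
  have he2 : ε1 + 5 * (3 * ε1) ≤ ε := by linarith [min_le_left ε 1]
  obtain ⟨C1, hC1, hT⟩ := h1 Q k hQ
  obtain ⟨Cc, hCc, hcore⟩ := vb_core h2 h3 he0 he1
  obtain ⟨n, Ck, hCk, hK⟩ := h4.1 6
  obtain ⟨Cw, hCw, hw⟩ := db_wtau n
  obtain ⟨C5, hC5, hcard⟩ := pow_card_le (A := 4) (by norm_num) he0
  have hQ0 : (Q : E) ≠ 0 := Nat.cast_ne_zero.2 hQ.ne_zero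
  have hNQ := one_le_nmR hQ0
  obtain ⟨c₂, hc₂⟩ : ∃ c₂ : ℝ, c₂ = (nm (Lam k) * C1) ^ 2 := ⟨_, rfl⟩
  have hc0 : 0 ≤ c₂ := by rw [hc₂]; positivity
  refine ⟨2 * n, C1 ^ 2 * C5 * (nm (Q : E) * (Cc * (C1 * (Ck * Cw)) ^ 2 * (1 + c₂) ^ (3 * ε1))) *
    (2 + c₂), by positivity, ?_⟩
  intro Z X M τ a ρ hX hXZ hM hMZ ha ha3 hρ hR
  obtain ⟨J, g, B, hJ, hj, hV⟩ := hT a ρ ha ha3 hρ
  have hZ : 1 ≤ Z := hX.trans hXZ
  have hX0 : 0 < X := by linarith
  have hR1 := one_le_Rr ρ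
  obtain ⟨Δ, hΔ⟩ : ∃ Δ, Δ = 1 + c₂ * (M * Rr ρ) ^ 2 / X := ⟨_, rfl⟩
  have hΔ1 : 1 ≤ Δ := by rw [hΔ]; exact le_add_of_nonneg_right (by positivity)
  have hXΔ : X * Δ = X + c₂ * (M * Rr ρ) ^ 2 := by rw [hΔ]; field_simp
  obtain ⟨W, hWe⟩ : ∃ W, W = Ck * (Cw * (1 + |τ|) ^ n) := ⟨_, rfl⟩
  have hW : ∀ z, ‖Ka (wtau τ) z‖ ≤ W * (1 + ‖z‖) ^ (-6 : ℝ) := fun z => by
    have := hK _ _ (adm_wtau τ) (hw τ) z
    rw [hWe]
    exact_mod_cast this
  have hB : ∀ j ∈ J, ∀ t δ, δ ≠ 0 → ‖B j t δ‖ ≤ C1 * vbphi (fac ρ) δ := fun j h t δ hδ =>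
    ((hj j h).2.2.2.2 t δ hδ).trans_eq (by rw [vbphi]; ring)
  choose! e he hV' using hV
  have hlim := fun t (ht : t ∈ (sqf M).filter fun t => Disjoint t (fac (Q * ρ))) =>
    vb_limit h4 (k := k) hQ.ne_zero hX0 hC1.le hW
      (fun j h => ⟨(hj j h).1, (hj j h).2.2.1, (hj j h).2.2.2.1, hB j h⟩)
      (he t (Finset.mem_filter.1 ht).2)
      fun Y hY => hV' t (Finset.mem_filter.1 ht).2 _ Y (adm_wtau τ) hY
  choose! F hF1 hF2 using hlim
  have hI : ((sqf M).filter fun t => Disjoint t (fac (Q * ρ))) ⊆ sqo M := fun t ht => by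
    obtain ⟨ht1, ht2⟩ := Finset.mem_filter.1 ht
    refine Finset.mem_filter.2 ⟨ht1, odd_iff.2 fun h => Finset.disjoint_left.1 ht2 h ?_⟩
    refine (mem_fac (mul_ne_zero hQ0 hρ)).2 (Dvd.dvd.mul_right ?_ _)
    exact ((P.dvd_two_iff pTwo).2 rfl).trans (Dvd.dvd.trans ⟨2, by norm_num⟩ hQ.four_dvd)
  have hG : Continuous fun v : ℝ => Ka (wtau τ) (Real.exp (v / 2) : ℝ) :=
    (h4.2.2 _ (adm_wtau τ)).comp_continuous (by fun_prop)
      fun v => Complex.ofReal_ne_zero.2 (Real.exp_pos _).ne'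
  obtain ⟨K, hKe⟩ : ∃ K, K = Cc * (C1 * W) ^ 2 * (Z * Δ) ^ (3 * ε1) * (M + Δ) := ⟨_, rfl⟩
  have hMΔ : 0 < M + Δ := by linarith
  have hK0 : 0 ≤ K := by rw [hKe]; positivity
  have hfin : ∀ T, ∑ t ∈ sqf M with Disjoint t (fac (Q * ρ)), ‖F t T‖ ^ 2 ≤
      J.card * X * (J.card * (nm (Q : E) * K)) := fun T => by
    refine (Finset.sum_le_sum fun t ht => hF2 t ht T).trans ?_
    rw [← Finset.mul_sum, Finset.sum_comm]
    refine mul_le_mul_of_nonneg_left ?_ (by positivity)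
    refine (Finset.sum_le_card_nsmul _ _ _ fun j h => ?_).trans_eq (nsmul_eq_mul _ _)
    rw [Finset.sum_comm, ← card_reps hQ0]
    refine (Finset.sum_le_card_nsmul _ _ _ fun c _ => ?_).trans_eq (nsmul_eq_mul _ _)
    rw [hKe]
    refine hcore Z M Δ C1 W (fac ρ) _ _ _ _ (fun δ => B j c δ * conj (vbang (toC δ)))
      (fun t => X / nm (Lam k ^ 2 * (pr t * g j) ^ 2)) hM hMZ hR hΔ1 hC1.le hI
      (fun δ hδ => Finset.ne_of_mem_erase hδ) (by simp) hG (fun v => ?_) (fun δ hδ => ?_)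
      fun t ht => ?_
    · have := hW (Real.exp (v / 2) : ℝ)
      rwa [Complex.norm_real, Real.norm_of_nonneg (Real.exp_pos _).le] at this
    · have h0 := Finset.ne_of_mem_erase hδ
      rw [norm_mul, Complex.norm_conj, vb_norm_ang (toC_ne_zero h0), mul_one]
      exact hB j h c δ h0
    · have h5 := one_le_nmR (mul_ne_zero (pow_ne_zero 2 (Lam_ne_zero k))
        (pow_ne_zero 2 (mul_ne_zero (pr_ne_zero t) (hj j h).1)))
      have h6 : (nm (Lam k ^ 2 * (pr t * g j) ^ 2) : ℝ) ≤ c₂ * (M * Rr ρ) ^ 2 := by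
        have h7 : (nm (pr t) : ℝ) ≤ M := mem_sqf.1 (Finset.mem_filter.1 ht).1
        have h8 := (hj j h).2.1
        rw [nm_mul, nm_pow, nm_pow, nm_mul, hc₂]
        push_cast
        calc _ ≤ (nm (Lam k) : ℝ) ^ 2 * (M * (C1 * Rr ρ)) ^ 2 := by gcongr
          _ = _ := by ring
      rw [inv_eq_one_div, div_le_div_iff₀ (by linarith) (by linarith)]
      linarith
  refine (le_of_tendsto' (tendsto_finsetSum _ fun t ht => ((hF1 t ht).norm.pow 2)) hfin).trans ?_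
  have a1 : (J.card : ℝ) ^ 2 ≤ C1 ^ 2 * C5 * Z ^ ε1 := by
    calc _ ≤ (C1 * 2 ^ (fac ρ).card) ^ 2 := pow_le_pow_left₀ (Nat.cast_nonneg _) hJ 2
      _ = C1 ^ 2 * 4 ^ (fac ρ).card := by
          rw [mul_pow, ← pow_mul, mul_comm _ 2, pow_mul]; norm_num
      _ ≤ C1 ^ 2 * (C5 * Z ^ ε1) := mul_le_mul_of_nonneg_left ((hcard _).trans
          (mul_le_mul_of_nonneg_left (Real.rpow_le_rpow (Ns_pos _).le hR he0.le) hC5.le))
          (sq_nonneg _)
      _ = _ := by ring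
  have a2 : Z * Δ ≤ (1 + c₂) * Z ^ 5 := by
    have b1 : c₂ * (M * Rr ρ) ^ 2 / X ≤ c₂ * (Z * Z) ^ 2 :=
      (div_le_self (by positivity) hX).trans (by gcongr)
    have b2 : 1 ≤ (Z * Z) ^ 2 := one_le_pow₀ (one_le_mul_of_one_le_of_one_le hZ hZ)
    calc _ ≤ Z * ((1 + c₂) * (Z * Z) ^ 2) :=
          mul_le_mul_of_nonneg_left (by rw [hΔ]; linarith) (by linarith)
      _ = _ := by ring
  have a3 : (Z * Δ) ^ (3 * ε1) ≤ (1 + c₂) ^ (3 * ε1) * Z ^ (5 * (3 * ε1)) := by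
    refine (Real.rpow_le_rpow (by positivity) a2 (by positivity)).trans (le_of_eq ?_)
    rw [Real.mul_rpow (by positivity) (by positivity), ← Real.rpow_natCast,
      ← Real.rpow_mul (by linarith)]
    norm_num
  have a4 : X * (M + Δ) ≤ (2 + c₂) * (X * M + (M * Rr ρ) ^ 2) := by
    have b1 : X ≤ X * M := le_mul_of_one_le_right hX0.le hM
    have b2 : 0 ≤ c₂ * (X * M) := by positivity
    have b3 : 0 ≤ (M * Rr ρ) ^ 2 := sq_nonneg _
    rw [mul_add, hXΔ]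
    linarith
  have a5 : Z ^ ε1 * Z ^ (5 * (3 * ε1)) ≤ Z ^ ε := by
    rw [← Real.rpow_add (by linarith)]
    exact Real.rpow_le_rpow_of_exponent_le hZ he2
  have a6 : 0 ≤ X * M + (M * Rr ρ) ^ 2 := by positivity
  calc _ = (J.card : ℝ) ^ 2 * (nm (Q : E) * (Cc * (C1 * W) ^ 2 * (Z * Δ) ^ (3 * ε1))) *
        (X * (M + Δ)) := by rw [hKe]; ring
    _ ≤ (C1 ^ 2 * C5 * Z ^ ε1) * (nm (Q : E) * (Cc * (C1 * W) ^ 2 *
        ((1 + c₂) ^ (3 * ε1) * Z ^ (5 * (3 * ε1))))) * ((2 + c₂) * (X * M + (M * Rr ρ) ^ 2)) := by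
        gcongr
    _ = C1 ^ 2 * C5 * (nm (Q : E) * (Cc * (C1 * (Ck * Cw)) ^ 2 * (1 + c₂) ^ (3 * ε1))) * (2 + c₂) *
        (Z ^ ε1 * Z ^ (5 * (3 * ε1))) * (1 + |τ|) ^ (2 * n) * (X * M + (M * Rr ρ) ^ 2) := by
        rw [hWe]; ring
    _ ≤ _ := by gcongr

end QRH
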