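import Vale.Agent.P026.Dual
import Vale.Agent.P026.Rearr

noncomputable section
namespace QRH
open Complex MeasureTheory Filter
open scoped ComplexConjugate Classical ContDiff Topology

theorem vt_VL_sum {ι : Type} (J : Finset ι) (e : ι → ℂ) (F : ι → E → ℂ) (w : ℂ → ℂ) (Y : ℝ) :
    VL (fun c => ∑ j ∈ J, e j * F j c) w Y = ∑ j ∈ J, e j * VL (F j) w Y := by
  simp only [VL, Finset.sum_mul, Finset.mul_sum, mul_assoc]
  exact Finset.sum_comm

theorem vt_ind {q : E} (hq : q ≠ 0) (c a0 : E) : (if q ∣ c - a0 then (1 : ℂ) else 0) =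
    ∑ u ∈ reps q, (nm q : ℂ)⁻¹ * psf (-(a0 * u)) q * psf (c * u) q := by
  have h := rsum_psf hq (c - a0)
  have hn : (nm q : ℂ) ≠ 0 := Nat.cast_ne_zero.2 fun h => hq (nm_eq_zero.1 h)
  have e : ∀ u, (nm q : ℂ)⁻¹ * psf (-(a0 * u)) q * psf (c * u) q =
      (nm q : ℂ)⁻¹ * psf (u * (c - a0)) q := fun u => by
    rw [mul_assoc, ← psf_add]
    congr 2
    ring
  simp only [e, ← Finset.mul_sum]
  rw [rsum] at h
  rw [h]
  split_ifs
  · rw [inv_mul_cancel₀ hn]
  · rw [mul_zero]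

theorem vt_dual (a : ℕ) {t r1 : Finset P} (hd : Disjoint t r1) (ht2 : ∀ p ∈ t, ¬ p.1 ∣ 2)
    (f : P → E → ℂ) (hf : ∀ p ∈ r1, Mc p (f p)) {q1 : E} (hq1 : ¬ lam ∣ q1)
    (hc : IsCoprime q1 (pr (t ∪ r1))) {f1 : E → ℂ} (g1 : Good q1 f1) :
    Good (pr t * (pr r1 * q1))
      (fun c => (∏ p ∈ t, conj (c6 p c)) * (∏ p ∈ r1, (f p c - mv p (f p))) * f1 c) ∧
    ∃ e : ℂ, ‖e‖ ≤ 1 ∧ ∀ δ δ1, q1 ∣ (pr t * pr r1) ^ 2 * δ1 - δ →
      Dq a (pr t * (pr r1 * q1))
        (fun c => (∏ p ∈ t, conj (c6 p c)) * (∏ p ∈ r1, (f p c - mv p (f p))) * f1 c) δ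
      = e * (xs c2 t δ * (∏ p ∈ r1, Dq a p.1 (fun c => f p c - mv p (f p)) δ) * Dq a q1 f1 δ1) := by
  let F : P → E → ℂ := fun p => if p ∈ t then fun c => conj (c6 p c) else f p
  have F1 : ∀ p ∈ t, F p = fun c => conj (c6 p c) := fun p hp => if_pos hp
  have F2 : ∀ p ∈ r1, F p = f p := fun p hp => if_neg (Finset.disjoint_right.1 hd hp)
  have hF : ∀ p ∈ t ∪ r1, Mc p (F p) := fun p hp => by
    rcases Finset.mem_union.1 hp with h | h
    · rw [F1 p h]
      exact (c6_mc p).conj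
    · rw [F2 p h]
      exact hf p h
  obtain ⟨h1, e, he, h2⟩ := Dq_prod a (t ∪ r1) F hF hq1 hc g1
  have e1 : (fun c => (∏ p ∈ t ∪ r1, (F p c - mv p (F p))) * f1 c) =
      fun c => (∏ p ∈ t, conj (c6 p c)) * (∏ p ∈ r1, (f p c - mv p (f p))) * f1 c := by
    funext c
    rw [Finset.prod_union hd]
    congr 2
    · exact Finset.prod_congr rfl fun p hp => by rw [F1 p hp, mv_c6, sub_zero]
    · exact Finset.prod_congr rfl fun p hp => by rw [F2 p hp]
  rw [e1, pr_union hd, mul_assoc] at h1 h2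
  refine ⟨h1, e * ∏ p ∈ t, Dq a p.1 (fun c => conj (c6 p c) - mv p fun c => conj (c6 p c)) 1, ?_,
    fun δ δ1 h => ?_⟩
  · rw [norm_mul, norm_prod]
    refine mul_le_one₀ he (by positivity) (Finset.prod_le_one (fun _ _ => norm_nonneg _)
      fun p _ => ?_)
    have := norm_Dq_prime a (c6_mc p).conj 1
    rwa [if_neg (p.not_dvd_unit isUnit_one)] at this
  · rw [h2 δ δ1 h, Finset.prod_union hd,
      Finset.prod_congr rfl (g := fun p => c2 p δ *
        Dq a p.1 (fun c => conj (c6 p c) - mv p fun c => conj (c6 p c)) 1)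
        fun p hp => by rw [F1 p hp, Dq_c6 a (ht2 p hp)],
      Finset.prod_congr rfl (s₂ := r1) (g := fun p => Dq a p.1 (fun c => f p c - mv p (f p)) δ)
        fun p hp => by rw [F2 p hp], Finset.prod_mul_distrib, xs]
    ring

theorem vt_norm_prod (a : ℕ) {r1 s : Finset P} (hs : r1 ⊆ s) (f : P → E → ℂ)
    (hf : ∀ p ∈ r1, Mc p (f p)) {δ : E} (hδ : δ ≠ 0) :
    ‖∏ p ∈ r1, Dq a p.1 (fun c => f p c - mv p (f p)) δ‖ ≤ √(Ns (fac δ ∩ s)) := by
  rw [norm_prod]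
  refine (Finset.prod_le_prod (fun _ _ => norm_nonneg _)
    fun p hp => norm_Dq_prime a (hf p hp) δ).trans ?_
  rw [← Finset.prod_filter, ← Real.sqrt_prod _ fun _ _ => Nat.cast_nonneg _, ← Ns_eq_prod]
  refine Real.sqrt_le_sqrt (Ns_mono fun p hp => ?_)
  rw [Finset.mem_filter] at hp
  exact Finset.mem_inter.2 ⟨(mem_fac hδ).2 hp.2, hs hp.1⟩

/-- The representative of a class. -/
def vt_rp (Q x : E) : E := Quotient.out (Ideal.Quotient.mk (Ideal.span {Q}) x)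

theorem vt_rp_dvd (Q x : E) : Q ∣ x - vt_rp Q x := by
  rw [← Ideal.mem_span_singleton, ← Ideal.Quotient.eq]
  exact (Ideal.Quotient.mk_out _).symm

theorem vt_rp_congr {Q x y : E} (h : Q ∣ x - y) : vt_rp Q x = vt_rp Q y := by
  rw [vt_rp, vt_rp, Ideal.Quotient.eq.2 (Ideal.mem_span_singleton.2 h)]

theorem vt_inv {q x y : E} (hx : IsCoprime x q) (h : q ∣ x - y) (δ : E) :
    q ∣ x ^ 2 * (inv q (y ^ 2) * δ) - δ := by
  obtain ⟨k, hk⟩ := h
  have hy : IsCoprime y q := by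
    have : y = x + q * (-k) := by linear_combination -hk
    rw [this]
    exact hx.add_mul_left_left _
  obtain ⟨m, hm⟩ := inv_spec (hy.pow_left (m := 2))
  exact ⟨(k * (x + y) * inv q (y ^ 2) + m) * δ, by
    linear_combination ((x + y) * inv q (y ^ 2) * δ) * hk + δ * hm⟩

theorem vt_split (h2 : X6R) {Q : ℕ} (hQ : Q ≠ 0) (h72 : 72 ∣ Q) {a0 ρ : E} (ha : IsCoprime a0 Q)
    (h3 : (3 : E) ∣ a0 - 1) (hρ : ρ ≠ 0) {t : Finset P} (ht : Disjoint t (fac (Q * ρ))) :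
    ∃ κ : ℂ, ‖κ‖ = 1 ∧ ∀ c : E, (Q : E) ∣ c - a0 → conj (xv c6 c (pr t * ρ)) =
      κ * ((∏ p ∈ t, conj (c6 p c)) * ∏ p ∈ fac ρ \ fac Q, conj (c6 p c) ^ vp p.1 ρ) := by
  have hQ' : (Q : E) ≠ 0 := Nat.cast_ne_zero.2 hQ
  rw [fac_mul hQ' hρ, Finset.disjoint_union_right] at ht
  obtain ⟨κ, hκ, h⟩ := h2 Q a0 (pr t * ρ) hQ h72 ha h3 (mul_ne_zero (pr_ne_zero t) hρ)
  refine ⟨conj κ, by rw [RCLike.norm_conj, hκ], fun c hc => ?_⟩
  rw [h c hc, fac_mul (pr_ne_zero t) hρ, fac_pr, Finset.union_sdiff_distrib,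
    Finset.sdiff_eq_self_of_disjoint ht.1,
    Finset.prod_union (ht.2.mono_right Finset.sdiff_subset), map_mul, map_mul, map_prod, map_prod]
  congr 2
  · refine Finset.prod_congr rfl fun p hp => ?_
    rw [vp_mul p.2.1 (pr_ne_zero t) hρ, vp_pr, if_pos hp, vp_of_not_dvd, add_zero, pow_one]
    exact fun hd => Finset.disjoint_left.1 ht.2 hp ((mem_fac hρ).2 hd)
  · refine Finset.prod_congr rfl fun p hp => ?_
    rw [vp_mul p.2.1 (pr_ne_zero t) hρ, vp_pr, if_neg, zero_add, map_pow]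
    exact Finset.disjoint_right.1 ht.2 (Finset.mem_sdiff.1 hp).1

theorem vorT (h1 : Vor2) (h2 : X6R) : VorT := by
  intro Q a hQ
  have hQ0 := hQ.ne_zero
  have hQ' : (Q : E) ≠ 0 := Nat.cast_ne_zero.2 hQ0
  obtain ⟨ha, Q1, hQQ, hc3, -⟩ := id hQ
  have hL : (Q : E) = Lam a * Q1 := by
    rw [hQQ, Lam]
    push_cast
    rfl
  have hQ1 : (Q1 : E) ≠ 0 := fun h => hQ' (by rw [hL, h, mul_zero])
  have hl1 : ¬ lam ∣ (Q1 : E) := isCoprime_three.1 (by exact_mod_cast hc3.cast (R := E))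
  have hdQ : (Q1 : E) ∣ Q := ⟨Lam a, by rw [hL, mul_comm]⟩
  have hLQ : Lam a ∣ (Q : E) := ⟨Q1, hL⟩
  have hn1 : (1 : ℝ) ≤ nm (Q1 : E) := one_le_nmR hQ1
  obtain ⟨C, hC, hV⟩ := h1 a ha
  refine ⟨C + nm (Q1 : E), by positivity, fun a0 ρ ha0 h3 hρ => ?_⟩
  have hb' : ∀ q0 : E, ∃ b : E → ℂ, b 0 = 0 ∧
      (∀ δ, δ ≠ 0 → ‖b δ‖ ≤ C * ‖Tg δ‖ / nm (up lam δ)) ∧ (¬ lam ∣ q0 →
      ∀ (q : E) (f : E → ℂ) (w : ℂ → ℂ) (Y : ℝ), Lam a ∣ q - q0 → Good q f → Adm w → 0 < Y →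
        VL (fun c => if Lam a ∣ c - a0 then f c else 0) w Y
          = ∑' δ : E, b δ * Dq a q f δ * Ka w (zd a q Y δ)) := fun q0 => by
    by_cases h : lam ∣ q0
    · exact ⟨fun _ => 0, rfl, fun δ _ => by rw [norm_zero]; positivity, fun h' => (h' h).elim⟩
    · obtain ⟨b, b1, b2, b3⟩ := hV a0 q0 h3 h
      exact ⟨b, b1, b2, fun _ => b3⟩
  choose b b1 b2 b3 using hb'
  choose q1 u1 k1 k2 k3 using exists_reduced hQ1
  have q0 : ∀ u, q1 u ≠ 0 := fun u => ne_zero_of_dvd_ne_zero hQ1 (k1 u)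
  let f : P → E → ℂ := fun p c => conj (c6 p c) ^ vp p.1 ρ
  have hf : ∀ p ∈ fac ρ, Mc p (f p) := fun p hp =>
    (c6_mc p).conj.pow ((dvd_iff_vp p.2.1 hρ).1 ((mem_fac hρ).1 hp))
  have hr : ∀ j ∈ (fac ρ \ fac Q).powerset ×ˢ reps (Q1 : E), j.1 ⊆ fac ρ \ fac Q := fun j hj =>
    Finset.mem_powerset.1 (Finset.mem_product.1 hj).1
  refine ⟨(fac ρ \ fac Q).powerset ×ˢ reps (Q1 : E), fun j => pr j.1 * q1 j.2,
    fun j x δ => b (vt_rp Q x * (pr j.1 * q1 j.2)) δ *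
      (∏ p ∈ j.1, Dq a p.1 (fun c => f p c - mv p (f p)) δ) *
      Dq a (q1 j.2) (fun c => psf (c * u1 j.2) (q1 j.2))
        (inv (q1 j.2) ((vt_rp Q x * pr j.1) ^ 2) * δ), ?_, fun j hj => ?_, fun t ht => ?_⟩
  · rw [Finset.card_product, Finset.card_powerset, card_reps hQ1, mul_comm]
    push_cast
    exact mul_le_mul (by linarith) (pow_le_pow_right₀ one_le_two
      (Finset.card_le_card Finset.sdiff_subset)) (by positivity) (by positivity)
  · have hj1 : j.1 ⊆ fac ρ := (hr j hj).trans Finset.sdiff_subset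
    refine ⟨mul_ne_zero (pr_ne_zero _) (q0 _), ?_, fun δ x y h => by
      simp only [vt_rp_congr h], fun x => by simp only [b1, zero_mul], fun x δ hδ => ?_⟩
    · rw [nm_mul, mul_comm]
      push_cast
      have : (nm (q1 j.2) : ℝ) ≤ nm (Q1 : E) := by exact_mod_cast nm_le_of_dvd (k1 _) hQ1
      exact mul_le_mul (by linarith) (Ns_mono hj1) (by positivity) (by positivity)
    · rw [norm_mul, norm_mul]
      refine (mul_le_of_le_one_right (by positivity) (norm_Dq_psf a (q0 _) _ _)).trans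
        (mul_le_mul ((b2 _ δ hδ).trans ?_) (vt_norm_prod a hj1 f (fun p hp => hf p (hj1 hp)) hδ)
          (norm_nonneg _) (by positivity))
      gcongr
      linarith
  · obtain ⟨κ, hκ, hx⟩ := vt_split h2 hQ0 hQ.dvd72 ha0 h3 hρ ht
    rw [fac_mul hQ' hρ, Finset.disjoint_union_right] at ht
    have tQ : ∀ p ∈ t, ¬ p.1 ∣ (Q : E) := fun p hp h =>
      Finset.disjoint_left.1 ht.1 hp ((mem_fac hQ').2 h)
    have key : ∀ j : Finset P × E, ∃ e : ℂ, ‖e‖ ≤ 1 ∧
        (j ∈ (fac ρ \ fac Q).powerset ×ˢ reps (Q1 : E) → ∀ (w : ℂ → ℂ) (Y : ℝ), Adm w → 0 < Y →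
          VL (fun c => if Lam a ∣ c - a0 then (∏ p ∈ t, conj (c6 p c)) *
            (∏ p ∈ j.1, (f p c - mv p (f p))) * psf (c * u1 j.2) (q1 j.2) else 0) w Y =
          e * ∑' δ : E, b (vt_rp Q (pr t) * (pr j.1 * q1 j.2)) δ *
            (∏ p ∈ j.1, Dq a p.1 (fun c => f p c - mv p (f p)) δ) *
            Dq a (q1 j.2) (fun c => psf (c * u1 j.2) (q1 j.2))
              (inv (q1 j.2) ((vt_rp Q (pr t) * pr j.1) ^ 2) * δ) * xs c2 t δ *
            Ka w (zd a (pr t * (pr j.1 * q1 j.2)) Y δ)) := fun j => by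
      by_cases hj : j ∈ (fac ρ \ fac Q).powerset ×ˢ reps (Q1 : E)
      swap
      · exact ⟨0, by simp, fun h => (hj h).elim⟩
      have hj1 : j.1 ⊆ fac ρ := (hr j hj).trans Finset.sdiff_subset
      have hd : Disjoint t j.1 := ht.2.mono_right hj1
      have hlq : ¬ lam ∣ q1 j.2 := fun h => hl1 (h.trans (k1 _))
      have hc : IsCoprime (q1 j.2) (pr (t ∪ j.1)) := coprime_pr_iff.2 fun p hp h => by
        have h' := h.trans ((k1 _).trans hdQ)
        rcases Finset.mem_union.1 hp with g | g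
        · exact tQ p g h'
        · exact (Finset.mem_sdiff.1 (hr j hj g)).2 ((mem_fac hQ').2 h')
      obtain ⟨g1, e, he, g2⟩ := vt_dual a hd
        (fun p hp h => tQ p hp (h.trans ((Dvd.intro 2 (by norm_num)).trans hQ.four_dvd))) f
        (fun p hp => hf p (hj1 hp)) hlq hc (good_psf (q0 _) (k2 _))
      have hrp := vt_rp_dvd Q (pr t)
      refine ⟨e, he, fun _ w Y hw hY => ?_⟩
      rw [b3 (vt_rp Q (pr t) * (pr j.1 * q1 j.2)) ?_ _ _ w Y ?_ g1 hw hY, ← tsum_mul_left]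
      · refine tsum_congr fun δ => ?_
        rw [g2 δ _ (vt_inv (y := vt_rp Q (pr t) * pr j.1) (by rw [← pr_union hd]; exact hc.symm)
          (by rw [← sub_mul]; exact (((k1 _).trans hdQ).trans hrp).mul_right _) δ)]
        ring
      · intro h
        rcases lam_prime.dvd_or_dvd h with h | h
        · have := dvd_add ((lam_dvd_three.trans hQ.three_dvd).trans hrp) h
          rw [sub_add_cancel] at this
          exact not_lam_dvd_of_primary (pr_primary t) this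
        · rcases lam_prime.dvd_or_dvd h with h | h
          · exact not_lam_dvd_of_primary (pr_primary _) h
          · exact hlq h
      · rw [← sub_mul]
        exact (hLQ.trans hrp).mul_right _
    choose e he key using key
    refine ⟨fun j => κ * (∏ p ∈ (fac ρ \ fac Q) \ j.1, mv p (f p)) *
      ((nm (Q1 : E) : ℂ)⁻¹ * psf (-(a0 * j.2)) Q1) * e j, fun j => ?_, fun w Y hw hY => ?_⟩
    · rw [norm_mul, norm_mul, norm_mul, norm_mul, hκ, norm_psf, one_mul, mul_one, norm_prod,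
        norm_inv, Complex.norm_natCast]
      refine mul_le_one₀ (mul_le_one₀ (Finset.prod_le_one (fun _ _ => norm_nonneg _)
        fun p hp => norm_mv_le (hf p ?_)) (by positivity) (inv_le_one_of_one_le₀ hn1))
        (norm_nonneg _) (he j)
      exact (Finset.mem_sdiff.1 (Finset.mem_sdiff.1 hp).1).1
    · rw [Finset.sum_congr rfl fun j hj => by rw [mul_assoc _ (e j), ← key j hj w Y hw hY],
        ← vt_VL_sum]
      congr 1
      funext c
      by_cases hLc : Lam a ∣ c - a0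
      swap
      · rw [if_neg fun h => hLc (hLQ.trans h)]
        simp only [if_neg hLc, mul_zero, Finset.sum_const_zero]
      have e1 : (if (Q : E) ∣ c - a0 then conj (xv c6 c (pr t * ρ)) else 0) =
          κ * ((∏ p ∈ t, conj (c6 p c)) * ∏ p ∈ fac ρ \ fac Q, (f p c - mv p (f p) + mv p (f p))) *
            if (Q1 : E) ∣ c - a0 then 1 else 0 := by
        simp only [sub_add_cancel]
        by_cases h : (Q1 : E) ∣ c - a0
        · have h' : (Q : E) ∣ c - a0 := by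
            rw [hL]
            exact (coprime_Lam hl1 a).symm.mul_dvd hLc h
          rw [if_pos h, if_pos h', mul_one, hx c h']
        · rw [if_neg h, if_neg fun h' => h (hdQ.trans h'), mul_zero]
      rw [e1, vt_ind hQ1, Finset.prod_add, Finset.sum_product]
      simp only [if_pos hLc, Finset.mul_sum, Finset.sum_mul, ← k3]
      rw [Finset.sum_comm]
      exact Finset.sum_congr rfl fun r1 _ => Finset.sum_congr rfl fun u _ => by ring

end QRH
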