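import Vale.Agent.P026.Recip
import Vale.Agent.P026.QG
import Vale.Agent.P026.Quad
import Vale.Agent.P026.G6
import Vale.Agent.P026.Card
import Vale.Agent.P026.SPh
import Vale.Agent.P026.LocS
import Vale.Agent.P026.Phi2
import Vale.Agent.P026.Pois
import Vale.Agent.P026.PoisG
import Vale.Agent.P026.Riem
import Vale.Agent.P026.IBd
import Vale.Agent.P026.Sep
import Vale.Agent.P026.VorA
import Vale.Agent.P026.VorB
import Vale.Agent.P026.VorC
import Vale.Agent.P026.VorD
import Vale.Agent.P026.VorE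
import Vale.Agent.P026.VorT
import Vale.Agent.P026.VB0
import Vale.Agent.P026.VB
import Vale.Agent.P026.QL1
import Vale.Agent.P026.QL0
import Vale.Agent.P026.Del
import Vale.Agent.P026.QPair
import Vale.Agent.P026.QE1
import Vale.Agent.P026.QE2
import Vale.Agent.P026.QStep
import Vale.Agent.P026.PLa
import Vale.Agent.P026.PLb
import Vale.Agent.P026.StarA
import Vale.Agent.P026.StarB
import Vale.Agent.P026.StepA
import Vale.Agent.P026.StepB
import Vale.Agent.P026.StepH
import Vale.Agent.P026.MoB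
import Vale.Agent.P026.Euler
import Vale.Agent.P026.Fin

noncomputable section
namespace QRH
open Complex MeasureTheory Filter
open scoped ComplexConjugate Classical ContDiff Topology

theorem qgauss : QGauss := qGauss pS1 (pSG pS1)
theorem gls : GlS := glS (locS card1 sPh)
theorem vort : VorT :=
  vorT (vor2 (vor0 (vorA riemL gls) (vorB pS2 gls asw (hOne cubRec))
    (vorC pS2 gls eqv (hOne cubRec) iBd) (vorD riemL gls asw (hCongr cubRec) iBd) (vorE asw iBd))
    (hCongr cubRec) (kFacts iBd)) (x6R cubRec (qPer qgauss) (qRec qgauss))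
theorem qls : QLS := by
  refine qLS (qRec qgauss) fun ξ hξ => qS_all (qS_two (pSG pS1)) (fun ξ h1 h2 h => ?_) hξ
  have hD := qD (qRec qgauss) (by linarith) h
  have h3 : 1 / ξ ≤ 1 := by rw [div_le_one (by linarith)]; exact h1
  have h4 : 0 < 1 / ξ := by positivity
  exact qS_of_QSd (by linarith) (by linarith)
    (qStep (delB pS1) (qPair (pSG pS1) (qGam qgauss) (rec_c2 qgauss)) h1 h2 hD
      (qE1 (delB pS1) sepB h1 h2 hD) (qE2 (delB pS1) h1 h2 hD))
theorem mob (Q k : ℕ) (hQ : GoodQ Q k) (θ : ℝ) (hθ : 11 / 12 < θ) : MoB Q θ := by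
  have r6 : Rec c6 := rec_c6 cubRec (rec_c2 qgauss)
  have R6 : Rec6 := rec6 cubRec (qRec qgauss)
  have p1 : PL c6 := pL sepB (pLa (pSG pS1) ch_c6 r6)
  have p2 : PL (cj c6) := pL sepB (pLa (pSG pS1) ch_c6.cj r6.cj)
  have hV : VB Q := vB hQ (vB0 vort qls sepQ (kFacts iBd) hQ)
  refine moB hQ (fun η hη => hAs resc hQ hη.le (hA_all (hA_one p1 hQ) (fun η h0 h1 h => ?_) hη)) hθ
  have hB : HBs Q η :=
    hBs resc hQ h0.le (stepB p2 R6 (neg6 (qPer qgauss)) hQ h0 (hAs resc hQ h0.le h))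
  exact stepA p1 R6 hQ h0 h1 hB
    (hHs resc hQ h0.le (stepH (muGam cubRec g3Cube (qGam qgauss)) hQ h0 hV hB))
theorem quasi_rh (q : ℕ) [NeZero q] (χ : DirichletCharacter ℂ q) (s : ℂ) (hs : 11 / 12 < s.re)
    (h1 : s ≠ 1) : χ.LFunction s ≠ 0 := zero_free euler mob q χ s hs h1

end QRH
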