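import Mathlib

/-! Definitions for P026: arithmetic of the Eisenstein integers. -/

noncomputable section
namespace QRH
open Complex MeasureTheory
open scoped ComplexConjugate Classical

/-- Eisenstein integers `a + b w`, `w^2 = -1 - w`. -/
abbrev E := QuadraticAlgebra ℤ (-1) (-1)

/-- The cube root of unity `w`. -/
def om : E := ⟨0, 1⟩
/-- `lam = 1 + 2 w`, `lam^2 = -3`. -/
def lam : E := ⟨1, 2⟩
/-- The complex number `exp (2 pi i / 3)`. -/
def omC : ℂ := ⟨-1 / 2, √3 / 2⟩

theorem omC_sq : omC * omC = -1 - omC := by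
  have h : √3 * √3 = (3 : ℝ) := Real.mul_self_sqrt (by norm_num)
  apply Complex.ext <;> simp [omC] <;> nlinarith

/-- The embedding into the complex numbers. -/
def toC : E →+* ℂ where
  toFun x := (x.re : ℂ) + (x.im : ℂ) * omC
  map_one' := by simp [QuadraticAlgebra.re_one, QuadraticAlgebra.im_one]
  map_mul' x y := by
    simp only [QuadraticAlgebra.re_mul, QuadraticAlgebra.im_mul]
    push_cast
    linear_combination (-(x.im : ℂ) * y.im) * omC_sq
  map_zero' := by simp
  map_add' x y := by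
    simp only [QuadraticAlgebra.re_add, QuadraticAlgebra.im_add]
    push_cast
    ring

/-- The norm as a natural number. -/
def nm (x : E) : ℕ := (QuadraticAlgebra.norm x).natAbs

/-- The additive character of the complex numbers that is trivial on `E`. -/
def psi (z : ℂ) : ℂ := Complex.exp (2 * Real.pi * I * ((2 * z.im / √3 : ℝ) : ℂ))

/-- `psi (A / B)`. -/
def psf (A B : E) : ℂ := psi (toC A / toC B)

/-- Primary primes (congruent to 1 mod 3); includes `-2`. -/
abbrev P := {p : E // Prime p ∧ (3 : E) ∣ p - 1}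

/-- Exact quotient `x / y` (junk `0` if `y` does not divide `x`). -/
def dv (x y : E) : E := if h : y ∣ x then h.choose else 0
/-- An inverse of `x` modulo `m` (junk `0` if there is none). -/
def inv (m x : E) : E := if h : ∃ y, m ∣ x * y - 1 then h.choose else 0
/-- The `p`-adic valuation (junk for `x = 0`). -/
def vp (p x : E) : ℕ := multiplicity p x
/-- The part of `x` prime to `p`. -/
def up (p x : E) : E := dv x (p ^ vp p x)
/-- The primary primes dividing `c` (empty for `c = 0`). -/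
def fac (c : E) : Finset P :=
  if h : {p : P | p.1 ∣ c}.Finite then h.toFinset else ∅
/-- The squarefree primary element attached to a finite set of primary primes. -/
def pr (s : Finset P) : E := ∏ p ∈ s, p.1
/-- Its norm, as a real number. -/
def Ns (s : Finset P) : ℝ := nm (pr s)
/-- Nonzero elements of norm at most `R`. -/
def ball (R : ℝ) : Finset E :=
  if h : {x : E | x ≠ 0 ∧ (nm x : ℝ) ≤ R}.Finite then h.toFinset else ∅
/-- Squarefree primary elements of norm at most `R`. -/
def sqf (R : ℝ) : Finset (Finset P) :=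
  if h : {s : Finset P | Ns s ≤ R}.Finite then h.toFinset else ∅
/-- No prime of `s` divides 2. -/
def Odd' (s : Finset P) : Prop := ∀ p ∈ s, ¬ p.1 ∣ 2

/-- `f` is periodic modulo `c`. -/
def Per (c : E) (f : E → ℂ) : Prop := ∀ x y, c ∣ x - y → f x = f y
/-- `F` is periodic modulo `c` in both variables. -/
def Per2 (c : E) (F : E → E → ℂ) : Prop :=
  ∀ x x' y y', c ∣ x - x' → c ∣ y - y' → F x y = F x' y'
/-- A system of representatives modulo `c`. -/
def reps (c : E) : Finset E :=
  if h : (Set.range fun x : E ⧸ Ideal.span {c} => Quotient.out x).Finite then h.toFinset else ∅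
/-- Sum over the residues modulo `c`. -/
def rsum (c : E) (f : E → ℂ) : ℂ := ∑ x ∈ reps c, f x
/-- Double sum over the residues modulo `c`. -/
def rsum2 (c : E) (F : E → E → ℂ) : ℂ := rsum c fun x => rsum c fun y => F x y

/-- Cubic residue symbol. -/
def c3 (p : P) (x : E) : ℂ :=
  if p.1 ∣ x then 0
  else if p.1 ∣ x ^ ((nm p.1 - 1) / 3) - 1 then 1
  else if p.1 ∣ x ^ ((nm p.1 - 1) / 3) - om then omC else omC ^ 2
/-- Quadratic residue symbol. -/
def c2 (p : P) (x : E) : ℂ :=
  if p.1 ∣ x then 0 else if ∃ y, p.1 ∣ x - y ^ 2 then 1 else -1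
/-- Sextic residue symbol (`c6^2 = c3`, `c6^3 = c2`). -/
def c6 (p : P) (x : E) : ℂ := c3 p x ^ 2 * c2 p x
/-- Complex conjugate family. -/
def cj (χ : P → E → ℂ) (p : P) (x : E) : ℂ := conj (χ p x)

/-- `f` is a multiplicative character modulo the prime `p` (possibly the trivial one). -/
structure Mc (p : P) (f : E → ℂ) : Prop where
  mul : ∀ x y, f (x * y) = f x * f y
  per : Per p.1 f
  zero : ∀ x, p.1 ∣ x → f x = 0
  norm : ∀ x, ¬ p.1 ∣ x → ‖f x‖ = 1
/-- `f` is nontrivial modulo `p`. -/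
def Nt (p : P) (f : E → ℂ) : Prop := ∃ x, ¬ p.1 ∣ x ∧ f x ≠ 1
/-- A family of characters, nontrivial at the odd primes. -/
structure Ch (χ : P → E → ℂ) : Prop where
  mc : ∀ p, Mc p (χ p)
  nt : ∀ p : P, ¬ p.1 ∣ 2 → Nt p (χ p)

/-- Jacobi type symbol with squarefree denominator. -/
def xs (χ : P → E → ℂ) (s : Finset P) (n : E) : ℂ := ∏ p ∈ s, χ p n
/-- Jacobi type symbol with arbitrary denominator (the `lam` part of `c` is ignored). -/
def xv (χ : P → E → ℂ) (c n : E) : ℂ := ∏ p ∈ fac c, χ p n ^ vp p.1 c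
/-- Gauss sum. -/
def gs (χ : P → E → ℂ) (s : Finset P) : ℂ := rsum (pr s) fun y => xs χ s y * psf y (pr s)
/-- Normalised Gauss sum. -/
def gam (χ : P → E → ℂ) (s : Finset P) : ℂ := gs χ s / (‖toC (pr s)‖ : ℝ)
/-- Reciprocity in the form used after Poisson summation. -/
def Rec (χ : P → E → ℂ) : Prop :=
  ∀ c c' : Finset P, Disjoint c c' → Odd' c → Odd' c' → (4 : E) ∣ pr c - pr c' →
    xs χ c (pr c') * conj (xs χ c' (pr c)) * xs χ c' (-1) = 1
/-- Moebius function. -/
def mu (s : Finset P) : ℂ := (-1) ^ s.card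

/-- The `q`-component of `psi (A / B)`, `q` a prime. -/
def psq (q A B : E) : ℂ := psf (A * inv (q ^ vp q B) (up q B)) (q ^ vp q B)
/-- The component of `psi (A / B)` away from `lam`. -/
def psg (A B : E) : ℂ := ∏ p ∈ fac B, psq p.1 A B
/-- Tame cubic Hilbert symbol. -/
def hs (p : P) (a b : E) : ℂ :=
  c3 p (up p.1 b) ^ vp p.1 a * conj (c3 p (up p.1 a)) ^ vp p.1 b
/-- Product of the tame symbols. -/
def H (a b : E) : ℂ := ∏ p ∈ fac (a * b), hs p a b
/-- The conjugate cubic Gauss sum at a prime. -/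
def G3 (p : P) : ℂ := rsum p.1 fun y => conj (c3 p y) * psf y p.1
/-- Local theta coefficient. -/
def Tp (p : P) (c x : E) : ℂ :=
  if vp p.1 c % 3 = 2 ∨ ¬ p.1 ^ (2 * (vp p.1 c / 3) + vp p.1 c % 3) ∣ x then 0
  else (nm p.1 : ℂ) ^ (2 * (vp p.1 c / 3)) *
    (if vp p.1 c % 3 = 0 then 1 else conj (c3 p (up p.1 c)) * G3 p)
/-- Local theta section. -/
def phip (p : P) (c d x : E) : ℂ :=
  if d = 0 ∨ vp p.1 c ≤ vp p.1 d then Tp p c x
  else hs p c d * psq p.1 (x ^ 3) (c * d) * Tp p d x
/-- Global theta section. -/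
def phig (c d x : E) : ℂ := ∏ p ∈ fac c, phip p c d x
/-- Theta coefficient. -/
def Tg (c : E) : ℂ := phig c 0 0

/-- Fourier transform on the complex plane, self-dual for the lattice `E`. -/
def ft (f : ℂ → ℂ) (ξ : ℂ) : ℂ := ((2 / √3 : ℝ) : ℂ) * ∫ z : ℂ, f z * psi (-(z * ξ))
/-- Fourier transform in two complex variables. -/
def ft2 (F : ℂ × ℂ → ℂ) (ξ η : ℂ) : ℂ :=
  ((4 / 3 : ℝ) : ℂ) * ∫ z : ℂ × ℂ, F z * psi (-(z.1 * ξ + z.2 * η))
/-- The self-dual Gaussian as a function of the norm. -/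
def Vg (y : ℝ) : ℝ := Real.exp (-(2 * Real.pi / √3) * y)

end QRH
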