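import Vale.Agent.P026.Stm1

/-! Definitions for P026: weights, the Voronoi transform, the mean values. -/

noncomputable section
namespace QRH
open Complex MeasureTheory
open scoped ComplexConjugate Classical ContDiff

/-- Bump supported in `(0, log 4)`. -/
def betaB : ContDiffBump (Real.log 2) :=
  ⟨Real.log 2 / 2, Real.log 2, half_pos (Real.log_pos one_lt_two),
    half_lt_self (Real.log_pos one_lt_two)⟩
/-- Bump supported in `(1, 4)`. -/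
def w0B : ContDiffBump (5 / 2 : ℝ) := ⟨1 / 2, 3 / 2, by norm_num, by norm_num⟩
/-- Bump supported in `(-1/16, 1/16)`. -/
def b1B : ContDiffBump (0 : ℝ) := ⟨1 / 32, 1 / 16, by norm_num, by norm_num⟩
def beta (v : ℝ) : ℝ := betaB v
def w0 (y : ℝ) : ℝ := w0B y
/-- Radial bump on `1 < |d| < 2`. -/
def a0 (d : ℂ) : ℂ := (w0 (‖d‖ ^ 2) : ℝ)
/-- Radial bump on `|x| < 1/4`. -/
def b0 (x : ℂ) : ℂ := (b1B (‖x‖ ^ 2) : ℝ)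
def kk (c : ℂ) : ℂ :=
  ((4 / 3 : ℝ) : ℂ) * ∫ z : ℂ × ℂ, a0 z.1 * b0 z.2 * psi (-(z.2 ^ 3 / (c * z.1)))
def V1 (y : ℝ) : ℂ := (w0 y : ℝ) * kk (√y : ℝ)
/-- The smooth weight, supported in `(1, 16)`. -/
def V0 (y : ℝ) : ℂ := ∫ v : ℝ, (beta v : ℝ) * V1 (y * Real.exp (-v))
def wt (y : ℝ) (z : ℂ) : ℂ := V0 y * (y : ℂ) ^ z
/-- Smooth sum over squarefree primary elements. -/
def S (β : Finset P → ℂ) (X : ℝ) (z : ℂ) : ℂ := ∑ s ∈ sqf (16 * X), β s * wt (Ns s / X) z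
/-- Logarithmic smoothing. -/
def sm (s : ℂ) (G : ℝ → ℂ) (l : ℝ) : ℂ := ∫ v : ℝ, (beta v : ℝ) * Complex.exp (s * v) * G (v + l)

/-- Admissible angular weights. -/
structure Adm (w : ℂ → ℂ) : Prop where
  smooth : ContDiff ℝ ∞ w
  supp : ∀ z, w z ≠ 0 → 1 ≤ ‖z‖ ∧ ‖z‖ ≤ 2
  rot : ∀ u z : ℂ, ‖u‖ = 1 → w (u * z) = u * w z
/-- Bound for the derivatives up to order `n`. -/
def DB (n : ℕ) (w : ℂ → ℂ) (W : ℝ) : Prop := ∀ i ≤ n, ∀ z, ‖iteratedFDeriv ℝ i w z‖ ≤ W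
def wtau (τ : ℝ) (z : ℂ) : ℂ := z * a0 z * ((‖z‖ ^ 2 : ℝ) : ℂ) ^ (τ * I)
def Fint (w : ℂ → ℂ) (c : ℂ) (z : ℂ × ℂ) : ℂ :=
  ((‖z.1‖ ^ 2 : ℝ) : ℂ)⁻¹ * a0 z.1 * ft w (-(c / z.1)) * ft b0 (z.2 / z.1)
    * psi (z.2 ^ 3 / (27 * z.1 * c))
def Ia (w : ℂ → ℂ) (c z ζ : ℂ) : ℂ := ft2 (Fint w c) (-(z / c)) (ζ / c)
/-- The Voronoi transform. -/
def Ka (w : ℂ → ℂ) (z : ℂ) : ℂ :=
  ((4 / 3 : ℝ) : ℂ) * ∫ y : ℂ × ℂ,
    ((‖y.1‖ ^ 2 : ℝ) : ℂ)⁻¹ * psi (y.2 ^ 3 / (y.1 * z)) * Ia w y.1 z y.2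

/-- `Lam a = 27 ^ a`. -/
def Lam (a : ℕ) : E := 27 ^ a
/-- Standing hypotheses of the Voronoi formula. -/
structure VP (a : ℕ) (ρ : E → ℂ) (q u η β : E) (w : ℂ → ℂ) (Y : ℝ) : Prop where
  ha : 1 ≤ a
  per : Per (Lam a) ρ
  supp : ∀ c, lam ∣ c → ρ c = 0
  mean : rsum (Lam a) ρ = 0
  bd : ∀ c, ‖ρ c‖ ≤ 1
  hq : ¬ lam ∣ q
  hη : q ∣ Lam a ^ 2 * u * η - 1
  hβ : Lam a ∣ β * q + 1
  adm : Adm w
  hY : 0 < Y
def rh (a : ℕ) (ρ : E → ℂ) (δ : E) : ℂ := rsum (Lam a) fun c => ρ c * psf (c * δ) (Lam a)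
/-- The sum on the left of the Voronoi formula. -/
def VL (f : E → ℂ) (w : ℂ → ℂ) (Y : ℝ) : ℂ :=
  ∑ c ∈ ball (4 * Y ^ 2), f c * (w (toC c / Y) * kk (toC c / Y) * Tg c / (nm c : ℂ))
def Sig (a : ℕ) (ρ : E → ℂ) (q u : E) (w : ℂ → ℂ) (Y X : ℝ) : ℂ :=
  ∑ c ∈ ball (4 * Y ^ 2), ρ c * psf (c * u) q * w (toC c / Y) *
    ∑' x : E × E, (if Lam a ∣ x.1 - 1 then phig c x.1 x.2 else 0) *
      (a0 (toC x.1 / ((X ^ 3 / Y : ℝ) : ℂ)) * b0 (toC x.2 / X)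
        * psi (-(toC x.2 ^ 3 / (toC c * toC x.1))))
def G1 (a : ℕ) (ρ : E → ℂ) (q u : E) (w : ℂ → ℂ) (Y X : ℝ) (d δ ξ : E) : ℂ :=
  if Lam a ∣ d - 1 then
    (nm d : ℂ)⁻¹ * a0 (toC d / ((X ^ 3 / Y : ℝ) : ℂ)) * rh a ρ (-δ) * phig d δ (3 ^ (a - 1) * ξ)
      * ft w (-(Y * toC (Lam a * u * d + q * δ) / toC (Lam a * d * q)))
      * ft b0 (X * toC ξ / toC d)
  else 0
def Lt (a : ℕ) (q C δ ζ : E) : ℂ :=
  rsum2 (Lam a * lam ^ vp lam C) (fun d ξ =>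
    (if Lam a ∣ q * d + 1 then conj (psq lam ((3 ^ (a - 1) * ξ) ^ 3 * q) C) else 0)
      * psq lam (d * δ + ξ * ζ) (Lam a * C)) / (nm (Lam a * lam ^ vp lam C) : ℂ) ^ 2
/-- The dual variable. -/
def zd (a : ℕ) (q : E) (Y : ℝ) (δ : E) : ℂ := toC δ * Y / toC (Lam a ^ 2 * q ^ 2)
def G2 (a : ℕ) (ρ : E → ℂ) (q β : E) (w : ℂ → ℂ) (Y X : ℝ) (δ C ζ : E) : ℂ :=
  if Lam a ∣ C then 0 else
    H C q * rh a ρ (β * C) * Lt a q C δ ζ * phig C (Lam a ^ 3 * δ) ζ / (nm (up lam C) : ℂ)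
      * Ia w (toC C / (toC (Lam a * q) * ((X ^ 3 / Y ^ 2 : ℝ) : ℂ))) (zd a q Y δ)
          (toC ζ / (toC (Lam a ^ 2 * q) * ((X / Y : ℝ) : ℂ)))
def Al (a : ℕ) (ρ : E → ℂ) (q β δ C ζ : E) : ℂ :=
  if Lam a ∣ C then 0 else
    3 ^ vp lam C * H C q * rh a ρ (β * C) * Lt a q C δ ζ * H C (Lam a ^ 3 * δ)
      * conj (psq lam (ζ ^ 3) (C * (Lam a ^ 3 * δ)))
def bb (a : ℕ) (ρ : E → ℂ) (q β δ : E) : ℂ :=
  rsum2 (lam ^ (30 * a + 4 + vp lam δ)) (Al a ρ q β δ)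
    / (nm (lam ^ (30 * a + 4 + vp lam δ)) : ℂ) ^ 2 * Tg δ / (nm (up lam δ) : ℂ)
/-- Normalised finite Fourier transform. -/
def fh (q : E) (f : E → ℂ) (u : E) : ℂ :=
  (nm q : ℂ)⁻¹ * rsum q fun y => f y * psf (-(y * u)) q
/-- `f` is periodic with Fourier transform supported on the units. -/
def Good (q : E) (f : E → ℂ) : Prop := Per q f ∧ ∀ u, ¬ IsCoprime u q → fh q f u = 0
/-- The finite dual of `f`. -/
def Dq (a : ℕ) (q : E) (f : E → ℂ) (δ : E) : ℂ :=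
  rsum q fun u => fh q f u * xv c3 q u * psf (-(inv q (Lam a ^ 2 * u) * δ)) q

/-- Admissible moduli. -/
def GoodQ (Q a : ℕ) : Prop := 1 ≤ a ∧ ∃ Q1 : ℕ, Q = 27 ^ a * Q1 ∧ Q1.Coprime 3 ∧ 8 ∣ Q1
def cl (Q : ℕ) (a : E) (s : Finset P) : ℂ := if (Q : E) ∣ pr s - a then 1 else 0
/-- Norm of the radical away from `lam`. -/
def Rr (ρ : E) : ℝ := Ns (fac ρ)
def cA (Q : ℕ) (a ρ n : E) (s : Finset P) : ℂ :=
  cl Q a s * mu s * xs c6 s n * conj (xs c6 s ρ)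
def cAK (Q : ℕ) (a ρ : E) (K : Finset P) (n : E) (s : Finset P) : ℂ :=
  if Disjoint s K then cA Q a ρ n s else 0
def cH (Q : ℕ) (a ρ m : E) (s : Finset P) : ℂ :=
  cl Q a s * mu s * gam c6 s * conj (xs c6 s m) * conj (xs c6 s ρ)
def cB (Q : ℕ) (a ρ : E) (K : Finset P) (t m : E) (s : Finset P) : ℂ :=
  if Disjoint s K then cH Q a ρ m s * xs c6 s t else 0
/-- Twisted sums of theta coefficients. -/
def Th (Q : ℕ) (a n : E) (X : ℝ) (z : ℂ) : ℂ :=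
  ∑ c ∈ ball (16 * X),
    (if (Q : E) ∣ c - a then Tg c * toC c / (nm c : ℂ) * conj (xv c6 c n) else 0) * wt (nm c / X) z
/-- Coefficients after Poisson summation. -/
def dual (χ : P → E → ℂ) (β : Finset P → ℂ) (d f e : Finset P) (m : E) (c : Finset P) : ℂ :=
  if Disjoint c (d ∪ e) then
    β (d ∪ e ∪ c) * xs χ c (pr f) * gam χ c * xs χ e (pr c) * xs χ c (pr e) * conj (xs χ c m)
  else 0
/-- Dual length. -/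
def M0 (X N : ℝ) (d f : Finset P) : ℝ := (X / Ns d) ^ 2 * Ns f / N
def bil (χ : P → E → ℂ) (β : Finset P → ℂ) (d f e : Finset P) (m : E) (X N : ℝ) (z : ℂ) : ℂ :=
  ∑ c ∈ sqf (16 * (X / (Ns d * Ns e))), ∑ c' ∈ sqf (16 * (X / (Ns d * Ns e))),
    dual χ β d f e m c * wt (Ns c / (X / (Ns d * Ns e))) (z - 1 / 2)
      * conj (dual χ β d f e m c' * wt (Ns c' / (X / (Ns d * Ns e))) (z - 1 / 2))
      * sm 1 (fun v => (Vg (Real.exp v) : ℝ)) (Real.log (nm m / M0 X N d f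
          / (Ns c / (X / (Ns d * Ns e)) * (Ns c' / (X / (Ns d * Ns e))))))
/-- The sum over the Poisson parameters, with its weight. -/
def PSum (X N : ℝ) (F : Finset P → Finset P → Finset P → ℝ) : ℝ :=
  ∑ d ∈ sqf (16 * X), ∑ f ∈ d.powerset, ∑ e ∈ sqf (16 * X) with Disjoint d e,
    N * Ns d / (X * Ns f) * F d f e

/-- Odd squarefree primary elements. -/
def sqo (R : ℝ) : Finset (Finset P) := (sqf R).filter Odd'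
/-- Representatives of the nonzero elements modulo squares. -/
def IsA (a : E) : Prop := ∃ s, a = pr s ∨ a = -pr s ∨ a = lam * pr s ∨ a = -(lam * pr s)
def calA (A : ℝ) : Finset E := (ball A).filter IsA
def cDel : ℝ := 2 / √3 * ∫ z : ℂ, Vg (‖z‖ ^ 4)
def Del (u : ℝ) : ℝ :=
  (∑' b : E, if b = 0 then 0 else Vg (u * (nm b : ℝ) ^ 2)) - cDel * u ^ (-(1 / 2) : ℝ)
/-- Indicator of coprimality. -/
def cop (d : Finset P) (n : E) : ℂ := if ∀ p ∈ d, ¬ p.1 ∣ n then 1 else 0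
def T1 (t : ℝ) (d c c' : Finset P) : ℂ :=
  ∑' m : E, if m = 0 then 0 else (Vg (nm m / t) : ℝ) * (cop d m * xs c2 c m * xs c2 c' m)
def T2 (A t : ℝ) (d c c' : Finset P) : ℂ :=
  ∑ a ∈ calA A, ∑' b : E, if b = 0 then 0 else (Vg (nm (a * b ^ 2) / t) : ℝ)
    * (cop d (a * b ^ 2) * xs c2 c (a * b ^ 2) * xs c2 c' (a * b ^ 2))
def E1 (A t : ℝ) (d c c' : Finset P) : ℂ :=
  ∑ f ∈ d.powerset, mu f * ((t / (Ns f * √(Ns c * Ns c')) : ℝ) : ℂ) *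
    ∑ a ∈ calA A, xs c2 c a * xs c2 c' a * ∑ e1 ∈ c.powerset, ∑ e2 ∈ c'.powerset, mu e1 * mu e2 *
      (Del (nm a * Ns (f \ fac a) ^ 2 * (Ns e1 * Ns e2) ^ 2 * t / (Ns f ^ 2 * (Ns c * Ns c'))) : ℝ)
def E2 (A t : ℝ) (d c c' : Finset P) : ℂ :=
  ∑ a ∈ calA A, cop d a * xs c2 c a * xs c2 c' a *
    ∑ e0 ∈ d.powerset, ∑ e1 ∈ c.powerset, ∑ e2 ∈ c'.powerset, mu e0 * mu e1 * mu e2 *
      (Del (nm a * (Ns e0 * Ns e1 * Ns e2) ^ 2 / t) : ℝ)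

end QRH
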