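import Vale.Agent.P026.Rsum

noncomputable section
namespace QRH
open Complex MeasureTheory
open scoped ComplexConjugate Classical

/-- The residue field. -/
abbrev Fp (p : P) := E ⧸ Ideal.span {p.1}
instance (p : P) : (Ideal.span {p.1}).IsMaximal :=
  PrincipalIdealRing.isMaximal_of_irreducible p.2.1.irreducible
instance (p : P) : Field (Fp p) := Ideal.Quotient.field _
instance (p : P) : Finite (Fp p) := finite_quot p.ne_zero
instance (p : P) : Fintype (Fp p) := Fintype.ofFinite _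
/-- Reduction modulo `p`. -/
def rd (p : P) : E →+* Fp p := Ideal.Quotient.mk _

theorem rd_surj (p : P) : Function.Surjective (rd p) := Ideal.Quotient.mk_surjective
theorem rd_eq_zero {p : P} {x : E} : rd p x = 0 ↔ p.1 ∣ x :=
  Ideal.Quotient.eq_zero_iff_mem.trans Ideal.mem_span_singleton
theorem rd_eq_iff {p : P} {x y : E} : rd p x = rd p y ↔ p.1 ∣ x - y :=
  Ideal.Quotient.eq.trans Ideal.mem_span_singleton
theorem fld_rd_out (p : P) (y : Fp p) : rd p (Quotient.out y) = y := Ideal.Quotient.mk_out y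
theorem rsum_rd (p : P) (F : Fp p → ℂ) : rsum p.1 (fun x => F (rd p x)) = ∑ y, F y := by
  rw [rsum_eq_sum p.ne_zero (fun x y h => by rw [rd_eq_iff.2 h]) (Finset.univ : Finset (Fp p)) Quotient.out
    (fun i _ j _ h => by rw [← fld_rd_out p i, ← fld_rd_out p j]; exact rd_eq_iff.2 h)
    fun x => ⟨rd p x, Finset.mem_univ _, rd_eq_iff.1 (fld_rd_out p _).symm⟩]
  simp only [fld_rd_out]
theorem card_Fp (p : P) : Fintype.card (Fp p) = nm p.1 := by
  have h := rsum_rd p fun _ => 1
  rw [rsum_const p.ne_zero] at h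
  simp only [mul_one, Finset.sum_const, Finset.card_univ, nsmul_eq_mul] at h
  exact_mod_cast h.symm
theorem rd_three (p : P) : (3 : Fp p) ≠ 0 := fun h =>
  p.not_dvd_three (rd_eq_zero.1 ((map_ofNat (rd p) 3).trans h))
theorem rd_om_prim (p : P) : IsPrimitiveRoot (rd p om) 3 := by
  have : Fact (Nat.Prime 3) := ⟨Nat.prime_three⟩
  have h := orderOf_eq_prime (x := rd p om) (p := 3) (by rw [← map_pow, om_cube, map_one])
    fun h => rd_three p (by
      have h1 := congrArg (rd p) om_rel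
      rw [map_add, map_add, map_pow, h, map_one, map_zero] at h1
      linear_combination h1)
  exact h ▸ IsPrimitiveRoot.orderOf _
theorem ringChar_ne_two {p : P} (h : ¬ p.1 ∣ 2) : ringChar (Fp p) ≠ 2 := fun e =>
  h (rd_eq_zero.1 ((map_ofNat (rd p) 2).trans (by
    have := (ringChar.spec (Fp p) 2).2 (e ▸ dvd_rfl)
    exact_mod_cast this)))
theorem fermat {p : P} {x : E} (h : ¬ p.1 ∣ x) : p.1 ∣ x ^ (nm p.1 - 1) - 1 := by
  rw [← rd_eq_iff, map_pow, map_one, ← card_Fp]
  exact FiniteField.pow_card_sub_one_eq_one _ fun e => h (rd_eq_zero.1 e)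

theorem Mc.one {p : P} {f : E → ℂ} (h : Mc p f) : f 1 = 1 := by
  have h1 := h.mul 1 1
  have h2 : f 1 ≠ 0 := fun e => by simpa [e] using h.norm 1 (p.not_dvd_unit isUnit_one)
  rw [one_mul] at h1
  exact (mul_eq_left₀ h2).1 h1.symm
theorem Mc.exists_mulChar {p : P} {f : E → ℂ} (h : Mc p f) :
    ∃ χ : MulChar (Fp p) ℂ, (∀ x, χ (rd p x) = f x) ∧ (χ ≠ 1 ↔ Nt p f) := by
  have key : ∀ x, f (Quotient.out (rd p x)) = f x := fun x =>
    h.per _ _ (rd_eq_iff.1 (fld_rd_out p _))
  let χ : MulChar (Fp p) ℂ :=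
    { toFun := fun y => f (Quotient.out y)
      map_one' := (key 1).trans h.one
      map_mul' := fun a b => by
        obtain ⟨a, rfl⟩ := rd_surj p a
        obtain ⟨b, rfl⟩ := rd_surj p b
        rw [← map_mul, key, key, key, h.mul]
      map_nonunit' := fun a ha => h.zero _ (rd_eq_zero.1 (by
        rw [fld_rd_out]
        simpa using ha)) }
  have hχ : ∀ x, χ (rd p x) = f x := key
  refine ⟨χ, hχ, fun hne => ?_, ?_⟩
  · obtain ⟨a, ha⟩ := MulChar.ne_one_iff.1 hne
    obtain ⟨x, hx⟩ := rd_surj p a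
    exact ⟨x, fun e => a.ne_zero (hx ▸ rd_eq_zero.2 e), by rwa [← hχ, hx]⟩
  · rintro ⟨x, hx, hf⟩ e
    apply hf
    rw [← hχ, e]
    exact MulChar.one_apply (Ne.isUnit fun e => hx (rd_eq_zero.1 e))
theorem exists_addChar (p : P) {t : E} (ht : ¬ p.1 ∣ t) :
    ∃ e : AddChar (Fp p) ℂ, e.IsPrimitive ∧ ∀ x, e (rd p x) = psf (x * t) p.1 := by
  have key : ∀ x, psf (Quotient.out (rd p x) * t) p.1 = psf (x * t) p.1 := fun x =>
    per_psf t p.1 _ _ (rd_eq_iff.1 (fld_rd_out p _))
  let e : AddChar (Fp p) ℂ :=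
    { toFun := fun y => psf (Quotient.out y * t) p.1
      map_zero_eq_one' := (key 0).trans (by rw [zero_mul, psf_zero])
      map_add_eq_mul' := fun a b => by
        obtain ⟨a, rfl⟩ := rd_surj p a
        obtain ⟨b, rfl⟩ := rd_surj p b
        rw [← map_add, key, key, key, add_mul, psf_add] }
  have he : ∀ x, e (rd p x) = psf (x * t) p.1 := key
  refine ⟨e, AddChar.IsPrimitive.of_ne_one fun h => ht (dvd_of_psf p.ne_zero fun x => ?_), he⟩
  rw [← he, h, AddChar.one_apply]

theorem Mc.map_pow {p : P} {f : E → ℂ} (h : Mc p f) (x : E) (k : ℕ) : f (x ^ k) = f x ^ k := by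
  induction k with
  | zero => simpa using h.one
  | succ k ih => rw [pow_succ, pow_succ, h.mul, ih]
theorem Mc.map_prod {ι : Type*} {p : P} {f : E → ℂ} (h : Mc p f) (s : Finset ι) (g : ι → E) :
    f (∏ i ∈ s, g i) = ∏ i ∈ s, f (g i) := by
  induction s using Finset.induction_on with
  | empty => simpa using h.one
  | insert a s ha ih => rw [Finset.prod_insert ha, Finset.prod_insert ha, h.mul, ih]
theorem Mc.norm_le {p : P} {f : E → ℂ} (h : Mc p f) (x : E) : ‖f x‖ ≤ 1 := by
  by_cases hx : p.1 ∣ x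
  · simp [h.zero x hx]
  · exact (h.norm x hx).le
theorem Mc.eq_zero_iff {p : P} {f : E → ℂ} (h : Mc p f) {x : E} : f x = 0 ↔ p.1 ∣ x :=
  ⟨fun e => by_contra fun hx => by simpa [e] using h.norm x hx, h.zero x⟩
theorem Mc.mul_conj {p : P} {f : E → ℂ} (h : Mc p f) {x : E} (hx : ¬ p.1 ∣ x) :
    f x * conj (f x) = 1 := by
  rw [Complex.mul_conj', h.norm x hx]
  simp
theorem Mc.neg_one_sq {p : P} {f : E → ℂ} (h : Mc p f) : f (-1) * f (-1) = 1 := by
  rw [← h.mul]
  simpa using h.one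
theorem Mc.conj_neg_one {p : P} {f : E → ℂ} (h : Mc p f) : conj (f (-1)) = f (-1) := by
  rcases mul_self_eq_one_iff.1 h.neg_one_sq with e | e <;> simp [e]
theorem Mc.conj {p : P} {f : E → ℂ} (h : Mc p f) : Mc p fun x => conj (f x) :=
  ⟨fun x y => by rw [h.mul, map_mul], fun x y e => by rw [h.per x y e],
    fun x e => by rw [h.zero x e, map_zero], fun x e => by rw [Complex.norm_conj, h.norm x e]⟩
theorem Mc.pow {p : P} {f : E → ℂ} (h : Mc p f) {k : ℕ} (hk : k ≠ 0) :
    Mc p fun x => f x ^ k :=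
  ⟨fun x y => by rw [h.mul, mul_pow], fun x y e => by rw [h.per x y e],
    fun x e => by rw [h.zero x e, zero_pow hk], fun x e => by rw [norm_pow, h.norm x e, one_pow]⟩
theorem Mc.mul' {p : P} {f g : E → ℂ} (hf : Mc p f) (hg : Mc p g) :
    Mc p fun x => f x * g x :=
  ⟨fun x y => by rw [hf.mul, hg.mul]; ring, hf.per.mul hg.per,
    fun x e => by rw [hf.zero x e, zero_mul],
    fun x e => by rw [norm_mul, hf.norm x e, hg.norm x e, one_mul]⟩
theorem Nt.conj {p : P} {f : E → ℂ} (h : Nt p f) : Nt p fun x => conj (f x) := by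
  obtain ⟨x, hx, hf⟩ := h
  exact ⟨x, hx, fun e => hf (by simpa using congrArg (starRingEnd ℂ) e)⟩
theorem Mc.rsum_eq_zero {p : P} {f : E → ℂ} (h : Mc p f) (hn : Nt p f) : rsum p.1 f = 0 := by
  obtain ⟨x, hx, hf⟩ := hn
  have h1 := rsum_mul_unit p.ne_zero h.per ((isCoprime_prime p.2.1).2 hx)
  simp only [h.mul] at h1
  rw [rsum_mul_left] at h1
  exact (mul_eq_zero.1 (show (f x - 1) * rsum p.1 f = 0 by linear_combination h1)).resolve_left
    (sub_ne_zero.2 hf)
theorem fld_per {p : P} {f : E → ℂ} (h : Mc p f) : Per p.1 fun y => f y * psf y p.1 :=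
  h.per.mul fun _ _ e => psf_congr e
/-- Twisted Gauss sum at a prime. -/
theorem Mc.gauss_twist {p : P} {f : E → ℂ} (h : Mc p f) (hn : Nt p f) (t : E) :
    rsum p.1 (fun y => f y * psf (y * t) p.1)
      = conj (f t) * rsum p.1 fun y => f y * psf y p.1 := by
  by_cases ht : p.1 ∣ t
  · simp only [psf_of_dvd (ht.mul_left _), mul_one, h.zero t ht, map_zero, zero_mul]
    exact h.rsum_eq_zero hn
  · rw [← rsum_mul_unit p.ne_zero (fld_per h) ((isCoprime_prime p.2.1).2 ht), ← rsum_mul_left]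
    congr 1
    funext y
    rw [h.mul, mul_comm t y]
    linear_combination (-(f y * psf (y * t) p.1)) * h.mul_conj ht
theorem Mc.gauss_norm {p : P} {f : E → ℂ} (h : Mc p f) (hn : Nt p f) :
    ‖rsum p.1 fun y => f y * psf y p.1‖ ^ 2 = nm p.1 := by
  have h1 := parseval p.ne_zero f
  simp only [h.gauss_twist hn, norm_mul, Complex.norm_conj, mul_pow] at h1
  rw [← Finset.sum_mul, mul_comm] at h1
  obtain ⟨r, hr, e⟩ := exists_rep p.ne_zero 1
  refine mul_right_cancel₀ (Finset.sum_pos' (fun _ _ => by positivity) ⟨r, hr, ?_⟩).ne' h1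
  rw [← h.per 1 r e, h.one]
  simp
theorem Mc.gauss_conj {p : P} {f : E → ℂ} (h : Mc p f) :
    rsum p.1 (fun y => conj (f y) * psf y p.1)
      = f (-1) * conj (rsum p.1 fun y => f y * psf y p.1) := by
  rw [← rsum_mul_unit p.ne_zero (fld_per h.conj) (isCoprime_one_left.neg_left), conj_rsum,
    ← rsum_mul_left]
  congr 1
  funext y
  rw [h.mul, map_mul, h.conj_neg_one, neg_one_mul, psf_neg, map_mul, mul_assoc]

end QRH
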