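import Vale.Agent.P026.Sym

noncomputable section
namespace QRH
open Complex MeasureTheory
open scoped ComplexConjugate Classical

theorem hs_aux_eq (p : P) (a b : E) :
    hs p a b = c3 p (up p.1 b) ^ vp p.1 a * c3 p (up p.1 a) ^ (2 * vp p.1 b) := by
  rw [hs, conj_c3, ← pow_mul]
theorem hs_aux_cube (p : P) {a : E} (ha : a ≠ 0) (k : ℕ) : c3 p (up p.1 a) ^ (3 * k) = 1 := by
  rw [pow_mul, c3_cube (not_dvd_up p.2.1 ha), one_pow]
theorem hs_aux_congr (p : P) {a a' : E} (ha : a ≠ 0) (h : p.1 ^ (vp p.1 a + 1) ∣ a' - a) :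
    vp p.1 a' = vp p.1 a ∧ c3 p (up p.1 a') = c3 p (up p.1 a) := by
  obtain ⟨-, h1, h2⟩ := vp_up_congr p.2.1 ha 0 (by simpa using h)
  exact ⟨h1, (c3_mc p).per _ _ (by simpa using h2)⟩

theorem norm_hs (p : P) {a b : E} (ha : a ≠ 0) (hb : b ≠ 0) : ‖hs p a b‖ = 1 := by
  rw [hs_aux_eq, norm_mul, norm_pow, norm_pow, (c3_mc p).norm _ (not_dvd_up p.2.1 ha),
    (c3_mc p).norm _ (not_dvd_up p.2.1 hb), one_pow, one_pow, one_mul]
theorem hs_cube (p : P) {a b : E} (ha : a ≠ 0) (hb : b ≠ 0) : hs p a b ^ 3 = 1 := by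
  rw [hs_aux_eq, mul_pow, ← pow_mul, ← pow_mul, mul_comm _ 3, mul_comm _ 3, hs_aux_cube p ha,
    hs_aux_cube p hb, one_mul]
theorem hs_swap (p : P) (a b : E) : hs p b a = conj (hs p a b) := by
  simp only [hs, map_mul, map_pow, conj_conj]
  ring
theorem hs_mul_swap (p : P) {a b : E} (ha : a ≠ 0) (hb : b ≠ 0) : hs p a b * hs p b a = 1 := by
  rw [hs_swap p a b, Complex.mul_conj, Complex.normSq_eq_norm_sq, norm_hs p ha hb]
  simp
theorem hs_mul_left (p : P) {a a' b : E} (ha : a ≠ 0) (ha' : a' ≠ 0) (hb : b ≠ 0) :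
    hs p (a * a') b = hs p a b * hs p a' b := by
  have _ := hb
  simp only [hs_aux_eq, vp_mul p.2.1 ha ha', up_mul p.2.1 ha ha', (c3_mc p).mul]
  ring
theorem hs_mul_right (p : P) {a b b' : E} (ha : a ≠ 0) (hb : b ≠ 0) (hb' : b' ≠ 0) :
    hs p a (b * b') = hs p a b * hs p a b' := by
  have _ := ha
  simp only [hs_aux_eq, vp_mul p.2.1 hb hb', up_mul p.2.1 hb hb', (c3_mc p).mul]
  ring
theorem hs_self (p : P) {a : E} (ha : a ≠ 0) : hs p a a = 1 := by
  rw [hs_aux_eq, ← pow_add, ← hs_aux_cube p ha (vp p.1 a)]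
  ring
theorem hs_neg_left (p : P) {a b : E} (ha : a ≠ 0) : hs p (-a) b = hs p a b := by
  rw [hs, hs, vp_neg p.2.1 ha, up_neg p.2.1 ha, c3_neg]
theorem hs_neg_right (p : P) {a b : E} (hb : b ≠ 0) : hs p a (-b) = hs p a b := by
  rw [hs, hs, vp_neg p.2.1 hb, up_neg p.2.1 hb, c3_neg]
theorem hs_of_not_dvd {p : P} {a b : E} (ha : ¬ p.1 ∣ a) (hb : ¬ p.1 ∣ b) : hs p a b = 1 := by
  rw [hs, vp_of_not_dvd ha, vp_of_not_dvd hb, pow_zero, pow_zero, one_mul]
theorem hs_unit_left {p : P} {a : E} (ha : ¬ p.1 ∣ a) (b : E) :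
    hs p a b = conj (c3 p a) ^ vp p.1 b := by
  rw [hs, vp_of_not_dvd ha, up_of_not_dvd ha, pow_zero, one_mul]
theorem hs_unit_right {p : P} {b : E} (hb : ¬ p.1 ∣ b) (a : E) :
    hs p a b = c3 p b ^ vp p.1 a := by
  rw [hs, vp_of_not_dvd hb, up_of_not_dvd hb, pow_zero, mul_one]
theorem hs_cube_left (p : P) {a b t : E} (ha : a ≠ 0) (hb : b ≠ 0) (ht : t ≠ 0) :
    hs p (t ^ 3 * a) b = hs p a b := by
  have h2 : t * t ≠ 0 := mul_ne_zero ht ht
  rw [hs_mul_left p (pow_ne_zero 3 ht) ha hb, show t ^ 3 = t * t * t by ring,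
    hs_mul_left p h2 ht hb, hs_mul_left p ht ht hb]
  linear_combination (hs p a b) * hs_cube p ht hb
theorem hs_cube_right (p : P) {a b t : E} (ha : a ≠ 0) (hb : b ≠ 0) (ht : t ≠ 0) :
    hs p a (t ^ 3 * b) = hs p a b := by
  rw [hs_swap p (t ^ 3 * b) a, hs_cube_left p hb ha ht, ← hs_swap]
theorem hs_congr_left (p : P) {a a' : E} (ha : a ≠ 0) (h : p.1 ^ (vp p.1 a + 1) ∣ a' - a) (b : E) :
    hs p a' b = hs p a b := by
  obtain ⟨h1, h2⟩ := hs_aux_congr p ha h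
  rw [hs, hs, h1, h2]
theorem hs_congr_right (p : P) {b b' : E} (hb : b ≠ 0) (h : p.1 ^ (vp p.1 b + 1) ∣ b' - b)
    (a : E) : hs p a b' = hs p a b := by
  obtain ⟨h1, h2⟩ := hs_aux_congr p hb h
  rw [hs, hs, h1, h2]
theorem hs_stein (p : P) {a b c : E} (ha : a ≠ 0) (hb : b ≠ 0) (hc : c ≠ 0) (h : a + b = c) :
    hs p a b * hs p b c * hs p c a = 1 := by
  have hA := hs_aux_cube p ha
  have hB := hs_aux_cube p hb
  have hC := hs_aux_cube p hc
  simp only [hs_aux_eq]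
  rcases lt_trichotomy (vp p.1 a) (vp p.1 b) with h1 | h1 | h1
  · obtain ⟨e1, e2⟩ := hs_aux_congr p (a' := c) ha (by
      rw [← h, add_sub_cancel_left, pow_dvd_iff p.2.1 hb]; omega)
    rw [e1, e2]
    have := congrArg₂ (· * ·) (hA (vp p.1 a + vp p.1 b)) (hB (vp p.1 a))
    simp only [one_mul] at this
    rw [← this]
    ring
  · have h2 : vp p.1 a ≤ vp p.1 c := by
      rw [← pow_dvd_iff p.2.1 hc, ← h]
      exact dvd_add ((pow_dvd_iff p.2.1 ha _).2 le_rfl) ((pow_dvd_iff p.2.1 hb _).2 h1.le)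
    rcases h2.eq_or_lt with h2 | h2
    · rw [← h1, ← h2]
      have := congrArg₂ (· * ·) (congrArg₂ (· * ·) (hA (vp p.1 a)) (hB (vp p.1 a))) (hC (vp p.1 a))
      simp only [one_mul] at this
      rw [← this]
      ring
    · obtain ⟨-, e2⟩ := hs_aux_congr p (a' := b) (neg_ne_zero.2 ha) (by
        rw [sub_neg_eq_add, add_comm b a, h, pow_dvd_iff p.2.1 hc, vp_neg p.2.1 ha]; omega)
      rw [up_neg p.2.1 ha, c3_neg] at e2
      rw [← h1, e2]
      have := congrArg₂ (· * ·) (hA (vp p.1 a + vp p.1 c)) (hC (vp p.1 a))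
      simp only [one_mul] at this
      rw [← this]
      ring
  · obtain ⟨e1, e2⟩ := hs_aux_congr p (a' := c) hb (by
      rw [← h, add_sub_cancel_right, pow_dvd_iff p.2.1 ha]; omega)
    rw [e1, e2]
    have := congrArg₂ (· * ·) (hB (vp p.1 a + vp p.1 b)) (hA (vp p.1 b))
    simp only [one_mul] at this
    rw [← this]
    ring

theorem H_eq_prod {a b : E} (ha : a ≠ 0) (hb : b ≠ 0) {S : Finset P} (hS : fac (a * b) ⊆ S) :
    H a b = ∏ p ∈ S, hs p a b := by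
  refine Finset.prod_subset hS fun p _ hp => ?_
  rw [mem_fac (mul_ne_zero ha hb)] at hp
  exact hs_of_not_dvd (fun h => hp (h.mul_right _)) (fun h => hp (h.mul_left _))
theorem norm_H {a b : E} (ha : a ≠ 0) (hb : b ≠ 0) : ‖H a b‖ = 1 := by
  rw [H, norm_prod]
  exact Finset.prod_eq_one fun p _ => norm_hs p ha hb
theorem H_cube {a b : E} (ha : a ≠ 0) (hb : b ≠ 0) : H a b ^ 3 = 1 := by
  rw [H, ← Finset.prod_pow]
  exact Finset.prod_eq_one fun p _ => hs_cube p ha hb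
theorem H_swap (a b : E) : H b a = conj (H a b) := by
  rw [H, H, map_prod, mul_comm b a]
  exact Finset.prod_congr rfl fun p _ => hs_swap p a b
theorem H_mul_left {a a' b : E} (ha : a ≠ 0) (ha' : a' ≠ 0) (hb : b ≠ 0) :
    H (a * a') b = H a b * H a' b := by
  have h0 : a * a' * b ≠ 0 := mul_ne_zero (mul_ne_zero ha ha') hb
  rw [H_eq_prod ha hb (fac_mono h0 ⟨a', by ring⟩), H_eq_prod ha' hb (fac_mono h0 ⟨a, by ring⟩),
    H, ← Finset.prod_mul_distrib]
  exact Finset.prod_congr rfl fun p _ => hs_mul_left p ha ha' hb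
theorem H_mul_right {a b b' : E} (ha : a ≠ 0) (hb : b ≠ 0) (hb' : b' ≠ 0) :
    H a (b * b') = H a b * H a b' := by
  rw [H_swap (b * b') a, H_mul_left hb hb' ha, map_mul, ← H_swap, ← H_swap]
theorem hs_aux_one_right {a : E} : H a 1 = 1 := by
  refine Finset.prod_eq_one fun p _ => ?_
  rw [hs_unit_right (p.not_dvd_unit isUnit_one), (c3_mc p).one, one_pow]
theorem H_pow_right {a b : E} (ha : a ≠ 0) (hb : b ≠ 0) (k : ℕ) : H a (b ^ k) = H a b ^ k := by
  induction k with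
  | zero => rw [pow_zero, pow_zero, hs_aux_one_right]
  | succ k ih => rw [pow_succ, H_mul_right ha (pow_ne_zero k hb) hb, ih, pow_succ]
theorem H_self {a : E} (ha : a ≠ 0) : H a a = 1 :=
  Finset.prod_eq_one fun p _ => hs_self p ha
theorem H_one_left {b : E} (hb : b ≠ 0) : H 1 b = 1 := by
  have _ := hb
  rw [H_swap b 1, hs_aux_one_right, map_one]
theorem H_one_right {a : E} (ha : a ≠ 0) : H a 1 = 1 := by
  have _ := ha
  exact hs_aux_one_right
theorem H_neg_left {a b : E} (ha : a ≠ 0) (hb : b ≠ 0) : H (-a) b = H a b := by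
  rw [H_eq_prod ha hb (S := fac (-a * b))
    (fac_mono (mul_ne_zero (neg_ne_zero.2 ha) hb) ⟨-1, by ring⟩), H]
  exact Finset.prod_congr rfl fun p _ => hs_neg_left p ha
theorem H_neg_right {a b : E} (ha : a ≠ 0) (hb : b ≠ 0) : H a (-b) = H a b := by
  rw [H_swap (-b) a, H_neg_left hb ha, ← H_swap]
theorem H_stein {a b c : E} (ha : a ≠ 0) (hb : b ≠ 0) (hc : c ≠ 0) (h : a + b = c) :
    H a b * H b c * H c a = 1 := by
  have h0 : a * b * c ≠ 0 := mul_ne_zero (mul_ne_zero ha hb) hc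
  rw [H_eq_prod ha hb (fac_mono h0 ⟨c, by ring⟩), H_eq_prod hb hc (fac_mono h0 ⟨a, by ring⟩),
    H_eq_prod hc ha (fac_mono h0 ⟨b, by ring⟩), ← Finset.prod_mul_distrib,
    ← Finset.prod_mul_distrib]
  exact Finset.prod_eq_one fun p _ => hs_stein p ha hb hc h
theorem H_coprime {a b : E} (ha : a ≠ 0) (hb : b ≠ 0) (h : ∀ p : P, ¬ (p.1 ∣ a ∧ p.1 ∣ b)) :
    H a b = xv c3 a b * conj (xv c3 b a) := by
  have h0 : a * b ≠ 0 := mul_ne_zero ha hb
  rw [xv_eq_prod ha (fac_mono h0 (dvd_mul_right a b)),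
    xv_eq_prod hb (fac_mono h0 (dvd_mul_left b a)), map_prod, ← Finset.prod_mul_distrib, H]
  refine Finset.prod_congr rfl fun p _ => ?_
  by_cases hp : p.1 ∣ a
  · have hp' : ¬ p.1 ∣ b := fun h' => h p ⟨hp, h'⟩
    rw [hs_unit_right hp', vp_of_not_dvd hp', pow_zero, map_one, mul_one]
  · rw [hs_unit_left hp, vp_of_not_dvd hp, pow_zero, one_mul, map_pow]

end QRH
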