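import Vale.Agent.P026.DualC
import Vale.Agent.P026.Wt

noncomputable section
namespace QRH
open Complex MeasureTheory Filter
open scoped ComplexConjugate Classical ContDiff Topology

theorem HA.mono {Q : ℕ} {η η1 : ℝ} (h : HA Q η) (hη : η ≤ η1) : HA Q η1 := by
  intro ε hε
  obtain ⟨B, C, hC, h⟩ := h ε hε
  refine ⟨B, C, hC, fun Z X N τ a ρ hX hXZ hN hNZ ha hρ hR =>
    (h Z X N τ a ρ hX hXZ hN hNZ ha hρ hR).trans ?_⟩
  have h1 : X ^ (1 + η) ≤ X ^ (1 + η1) := Real.rpow_le_rpow_of_exponent_le hX (by linarith)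
  have h2 := one_le_Rr ρ
  have hZ : 0 < Z := by linarith
  gcongr

theorem hA_all {Q : ℕ} (h1 : HA Q 1)
    (h : ∀ η : ℝ, 0 < η → η ≤ 1 → HA Q η → HA Q (2 * η / (2 + η))) {η : ℝ} (hη : 0 < η) :
    HA Q η := by
  have h2 : ∀ k : ℕ, HA Q (2 / (k + 2)) := by
    intro k
    induction k with
    | zero => simpa using h1
    | succ k ih =>
      have h3 := h _ (by positivity) ((div_le_one (by positivity)).2
        (by linarith [Nat.cast_nonneg (α := ℝ) k])) ih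
      have e : 2 * (2 / ((k : ℝ) + 2)) / (2 + 2 / ((k : ℝ) + 2)) = 2 / (((k + 1 : ℕ) : ℝ) + 2) := by
        push_cast; field_simp; ring
      rwa [e] at h3
  obtain ⟨k, hk⟩ := exists_nat_gt (2 / η)
  refine (h2 k).mono ?_
  rw [div_lt_iff₀ hη] at hk
  rw [div_le_iff₀ (by positivity)]
  nlinarith

theorem mo_split {Q : ℕ} {a : E} (ha : IsCoprime a Q) {k : E} (hk : k ≠ 0) (X : ℝ) (z : ℂ) :
    S (fun s => cl Q a s * mu s) X z = ∑ d ∈ (fac k).powerset, if IsCoprime (pr d) Q then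
      mu d * S (cAK Q (a * inv Q (pr d)) 1 ∅ (k ^ 6)) (X / Ns d) z else 0 := by
  rw [S, sum_sqf_split _ (fac k)]
  refine Finset.sum_congr rfl fun d hd => ?_
  rw [Finset.mem_powerset] at hd
  split_ifs with h
  · rw [cAK_empty, S, Finset.mul_sum, Finset.sum_filter, mul_div_assoc]
    refine Finset.sum_congr rfl fun c _ => ?_
    have e : (∀ p ∈ c, ¬ p.1 ∣ k) ↔ Disjoint c (fac k) := by
      simp only [Finset.disjoint_left, mem_fac hk]
    rw [cA, xs_six, xs_one ch_c6, map_one, mul_one]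
    by_cases hc : Disjoint c (fac k)
    · have h1 : Disjoint d c := (hc.mono_right hd).symm
      rw [if_pos hc, if_pos (e.2 hc), cl_union h h1, mu_union h1, Ns_union h1, div_div_eq_mul_div,
        mul_comm (Ns c)]
      ring
    · rw [if_neg hc, if_neg (mt e.1 hc)]
      simp
  · exact Finset.sum_eq_zero fun c _ => by rw [cl_union_zero ha h, zero_mul, zero_mul]

theorem mo_fibre (T : Finset E) (n0 : E) : ((T.filter fun k => k ^ 6 = n0).card : ℝ) ≤ 6 := by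
  have h1 : (T.filter fun k => k ^ 6 = n0) ⊆ (Polynomial.nthRoots 6 n0).toFinset := fun k hk =>
    Multiset.mem_toFinset.2 ((Polynomial.mem_nthRoots (by norm_num)).2 (Finset.mem_filter.1 hk).2)
  exact_mod_cast (Finset.card_le_card h1).trans
    ((Multiset.toFinset_card_le _).trans (Polynomial.card_nthRoots 6 n0))

theorem mo_Rr : Rr 1 = 1 := by rw [Rr, fac_unit isUnit_one, Ns_empty]

theorem moB {Q k : ℕ} (hQ : GoodQ Q k) (h : ∀ η : ℝ, 0 < η → HAs Q η) {θ : ℝ}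
    (hθ : 11 / 12 < θ) : MoB Q θ := by
  intro a τ ha
  obtain ⟨η, hη, hη1, hηθ⟩ : ∃ η : ℝ, 0 < η ∧ η ≤ 1 ∧ 2 * η ≤ θ - 11 / 12 :=
    ⟨min 1 ((θ - 11 / 12) / 2), lt_min one_pos (by linarith), min_le_left _ _, by
      have := min_le_right 1 ((θ - 11 / 12) / 2); linarith⟩
  obtain ⟨B, C, hC, h⟩ := h η hη η hη
  obtain ⟨C1, hC1, h1⟩ := pow_card_le (A := 2) (by norm_num) hη
  obtain ⟨C2, hC2, h2⟩ := sum_sqf_inv hη
  obtain ⟨D, hD⟩ : ∃ D : ℝ, D = C * 6 * (1 + ‖τ * I‖) ^ B * 2 := ⟨_, rfl⟩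
  have hD0 : 0 ≤ D := by rw [hD]; positivity
  refine ⟨√(4 * C1 * D * C2), fun X hX => ?_⟩
  have hX0 : 0 < X := by linarith
  obtain ⟨U, hU⟩ : ∃ U : ℝ, U = X ^ ((1 + η) / 6) := ⟨_, rfl⟩
  have hU1 : 1 ≤ U := hU ▸ Real.one_le_rpow hX (by positivity)
  have hU0 : 0 < U := by linarith
  have hU6 : U ^ 6 = X ^ (1 + η) := by
    rw [hU, ← Real.rpow_natCast, ← Real.rpow_mul hX0.le]
    congr 1; push_cast; ring
  have hXU : X ≤ U ^ 6 := hU6 ▸ Real.self_le_rpow_of_one_le hX (by linarith)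
  obtain ⟨T, hT⟩ : ∃ T : Finset P → E → ℂ, T = fun d k => if IsCoprime (pr d) Q then
    mu d * S (cAK Q (a * inv Q (pr d)) 1 ∅ (k ^ 6)) (X / Ns d) (τ * I) else 0 := ⟨_, rfl⟩
  have h3 : ∀ d, ∑ k ∈ ball U, ‖T d k‖ ^ 2 ≤ D * (U ^ 6) ^ η * (X * U ^ 6) * (Ns d)⁻¹ := by
    intro d
    have hd := one_le_Ns d
    by_cases hc : IsCoprime (pr d) Q
    · simp only [hT, hc, if_true, norm_mul, norm_mu, one_mul]
      have h4 : X / Ns d ≤ X := div_le_self hX0.le hd
      refine (h E (ball U) (fun k => k ^ 6) (fun _ => a * inv Q (pr d)) (fun _ => X / Ns d) 6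
        (U ^ 6) (X / Ns d) (U ^ 6) (τ * I) 1 ∅ (by positivity) (h4.trans hXU) (hX.trans hXU) le_rfl
        (by simp) one_ne_zero (mo_Rr ▸ hX.trans hXU) (Ns_empty ▸ hX.trans hXU) (fun k hk => ?_)
        (mo_fibre _)).trans ?_
      · rw [mem_ball] at hk
        refine ⟨mem_ball.2 ⟨pow_ne_zero _ hk.1, ?_⟩, coprime_mul_inv ha hc, le_rfl,
          le_mul_of_one_le_left (by positivity) one_le_two⟩
        rw [nm_pow]; push_cast
        exact pow_le_pow_left₀ (by positivity) hk.2 6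
      · have h5 : (X / Ns d) ^ (1 + η) ≤ U ^ 6 :=
          hU6 ▸ Real.rpow_le_rpow (by positivity) h4 (by linarith)
        rw [mo_Rr, mul_one, hD]
        calc _ ≤ C * 6 * (U ^ 6) ^ η * (1 + ‖τ * I‖) ^ B * (X / Ns d * (U ^ 6 + U ^ 6)) := by gcongr
          _ = _ := by ring
    · simp only [hT, hc, if_false, norm_zero, zero_pow two_ne_zero, Finset.sum_const_zero]
      positivity
  have h4 : ∀ k ∈ ball U, ‖S (fun s => cl Q a s * mu s) X (τ * I)‖ ^ 2 ≤
      C1 * U ^ η * ∑ d ∈ sqf U, ‖T d k‖ ^ 2 := by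
    intro k hk
    rw [mem_ball] at hk
    have h5 : Ns (fac k) ≤ U := (Ns_fac_le hk.1).trans hk.2
    rw [mo_split ha hk.1]
    refine (norm_sum_sq_le _ _).trans (mul_le_mul ?_ ?_ (by positivity) (by positivity))
    · rw [Finset.card_powerset]
      push_cast
      exact (h1 _).trans (mul_le_mul_of_nonneg_left
        (Real.rpow_le_rpow (Ns_pos _).le h5 hη.le) hC1.le)
    · rw [hT]
      exact Finset.sum_le_sum_of_subset_of_nonneg (fun d hd =>
        mem_sqf.2 ((Ns_mono (Finset.mem_powerset.1 hd)).trans h5)) fun _ _ _ => by positivity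
  have h5 := Finset.sum_le_sum h4
  rw [Finset.sum_const, nsmul_eq_mul, ← Finset.mul_sum, Finset.sum_comm] at h5
  have h6 : ∑ d ∈ sqf U, ∑ k ∈ ball U, ‖T d k‖ ^ 2 ≤
      D * (U ^ 6) ^ η * (X * U ^ 6) * (C2 * U ^ η) := by
    refine (Finset.sum_le_sum fun d _ => h3 d).trans ?_
    rw [← Finset.mul_sum]
    exact mul_le_mul_of_nonneg_left (h2 U hU0.le) (by positivity)
  have h7 := ((mul_le_mul_of_nonneg_right (card_ball_ge hU1) (sq_nonneg _)).trans h5).trans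
    (mul_le_mul_of_nonneg_left h6 (by positivity))
  have h8 : X * U ^ 5 * (U ^ η) ^ 8 ≤ (X ^ θ) ^ 2 := by
    rw [hU, ← Real.rpow_mul hX0.le, ← Real.rpow_natCast, ← Real.rpow_natCast, ← Real.rpow_natCast,
      ← Real.rpow_mul hX0.le, ← Real.rpow_mul hX0.le, ← Real.rpow_mul hX0.le, mul_assoc,
      ← Real.rpow_add hX0, ← Real.rpow_one_add' hX0.le (by positivity)]
    refine Real.rpow_le_rpow_of_exponent_le hX ?_
    push_cast
    nlinarith
  have h9 : (U ^ 6) ^ η = (U ^ η) ^ 6 := by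
    rw [← Real.rpow_natCast, ← Real.rpow_natCast, ← Real.rpow_mul hU0.le, ← Real.rpow_mul hU0.le,
      mul_comm]
  refine (pow_le_pow_iff_left₀ (norm_nonneg _) (by positivity) two_ne_zero).1 ?_
  rw [mul_pow, Real.sq_sqrt (by positivity)]
  refine le_trans (le_of_mul_le_mul_left (h7.trans_eq ?_) (by positivity : 0 < U / 4))
    (mul_le_mul_of_nonneg_left h8 (by positivity))
  rw [h9]; ring

end QRH
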